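import Vale.Agent.P150.PA.Defs
import Vale.Agent.P150.Fast.OpNorm

/-! Part A: the translation bound for Gaussian integrals (a one-sided change of variables) and the change
of the log-likelihood of a path under a change of couplings and field. -/

open MeasureTheory ProbabilityTheory Matrix

namespace Vale.Agent.P150.PA

open Fast.OpNorm Ising

variable {ι : Type*} [Fintype ι]

/-! ### determinant bound -/

section Det
variable [DecidableEq ι]

lemma hasDerivAt_det_one_add (C : Matrix ι ι ℝ) :
    HasDerivAt (fun h : ℝ => det (1 + h • C)) (trace C) 0 := by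
  rw [show (fun h : ℝ => det (1 + h • C)) = _ from funext fun h => det_one_add_smul h C]
  exact ((((hasDerivAt_id (0:ℝ)).const_mul (trace C)).const_add (1:ℝ)).add
    (((det (1 + (Polynomial.X : Polynomial ℝ) • C.map Polynomial.C)).divX.divX.hasDerivAt 0).mul
      (hasDerivAt_pow 2 (0:ℝ)))).congr_deriv (by simp)

lemma coercive_one_add {A : Matrix ι ι ℝ} (hA : ∀ w, nsq (A *ᵥ w) ≤ 1 / 4 * nsq w) {s : ℝ}
    (h0 : 0 ≤ s) (h1 : s ≤ 1) (w : ι → ℝ) : 1 / 4 * nsq w ≤ nsq ((1 + s • A) *ᵥ w) := by
  have hs : nsq (s • A *ᵥ w) ≤ 1 / 4 * nsq w := by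
    rw [nsq_smul]
    exact (mul_le_of_le_one_left (nsq_nonneg _) (pow_le_one₀ h0 h1)).trans (hA w)
  have h : 1 / 2 * nsq w - nsq (s • A *ᵥ w) ≤ nsq (w + s • A *ᵥ w) := by
    simp only [nsq, Finset.mul_sum, ← Finset.sum_sub_distrib]
    refine Finset.sum_le_sum fun i _ => ?_
    simp only [Pi.add_apply]
    nlinarith [sq_nonneg (w i + 2 * (s • A *ᵥ w) i)]
  rw [add_mulVec, one_mulVec, Matrix.smul_mulVec]
  linarith

lemma isUnit_one_add {A : Matrix ι ι ℝ} (hA : ∀ w, nsq (A *ᵥ w) ≤ 1 / 4 * nsq w) {s : ℝ}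
    (h0 : 0 ≤ s) (h1 : s ≤ 1) : IsUnit (1 + s • A).det := by
  rw [← Matrix.isUnit_iff_isUnit_det, ← Matrix.mulVec_injective_iff_isUnit]
  intro v w hvw
  have h := coercive_one_add hA h0 h1 (v - w)
  rw [Matrix.mulVec_sub, hvw, sub_self] at h
  refine sub_eq_zero.1 (eq_zero_of_nsq ?_)
  simp [nsq] at h ⊢
  linarith

lemma opLe_inv_one_add {A : Matrix ι ι ℝ} (hA : ∀ w, nsq (A *ᵥ w) ≤ 1 / 4 * nsq w) {s : ℝ}
    (h0 : 0 ≤ s) (h1 : s ≤ 1) : OpLe (1 + s • A)⁻¹ 2 := by
  refine ⟨zero_le_two, fun w => ?_⟩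
  have h := coercive_one_add hA h0 h1 ((1 + s • A)⁻¹ *ᵥ w)
  rw [mulVec_mulVec, mul_nonsing_inv _ (isUnit_one_add hA h0 h1), one_mulVec] at h
  linarith

omit [DecidableEq ι] in
lemma trace_mul_le (X A : Matrix ι ι ℝ) : trace (X * A) ≤ fsq X / 4 + fsq A := by
  rw [← fsq_transpose A]
  simp only [fsq, trace, diag_apply, mul_apply, transpose_apply, Finset.sum_div, ← Finset.sum_add_distrib]
  exact Finset.sum_le_sum fun i _ => Finset.sum_le_sum fun j _ => by
    nlinarith [sq_nonneg (X i j / 2 - A j i)]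

/-- `log |det (1 + A)| ≥ tr A - ‖A‖_F²` when the operator norm of `A` is at most `1/2` -/
theorem log_det_one_add_ge {A : Matrix ι ι ℝ} (hA : ∀ w, nsq (A *ᵥ w) ≤ 1 / 4 * nsq w) :
    trace A - fsq A ≤ Real.log (det (1 + A)) := by
  set g := fun s : ℝ => Real.log (det (1 + s • A)) - s * trace A + s ^ 2 * fsq A
  have hd : ∀ s ∈ Set.Icc (0:ℝ) 1,
      HasDerivAt g (trace ((1 + s • A)⁻¹ * A) - trace A + 2 * s * fsq A) s := by
    rintro s ⟨h0, h1⟩
    have hu := isUnit_one_add hA h0 h1
    set B := (1 + s • A)⁻¹ with hB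
    have e : (fun u : ℝ => det (1 + u • A)) =
        fun u => det (1 + s • A) * det (1 + (u - s) • (B * A)) := by
      funext u
      rw [← det_mul, mul_add, mul_one, Matrix.mul_smul, ← Matrix.mul_assoc, hB, mul_nonsing_inv _ hu,
        Matrix.one_mul, sub_smul]
      congr 1; abel
    have h2 : HasDerivAt (fun u : ℝ => det (1 + u • A)) (det (1 + s • A) * trace (B * A)) s := by
      rw [e]
      have h3 := HasDerivAt.comp_sub_const s s
        (show HasDerivAt (fun h : ℝ => det (1 + h • (B * A))) (trace (B * A)) (s - s) by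
          rw [sub_self]; exact hasDerivAt_det_one_add _)
      exact h3.const_mul _
    refine (((h2.log hu.ne_zero).sub ((hasDerivAt_id s).mul_const (trace A))).add
      ((hasDerivAt_pow 2 s).mul_const (fsq A))).congr_deriv ?_
    rw [mul_div_cancel_left₀ _ hu.ne_zero]
    simp
  have hm : MonotoneOn g (Set.Icc 0 1) := by
    refine monotoneOn_of_hasDerivWithinAt_nonneg (convex_Icc _ _)
      (fun s hs => (hd s hs).continuousAt.continuousWithinAt)
      (fun s hs => (hd s (interior_subset hs)).hasDerivWithinAt) fun s hs => ?_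
    obtain ⟨h0, h1⟩ := interior_subset hs
    set B := (1 + s • A)⁻¹ with hB
    have e : B + s • (B * A) = 1 := by
      rw [← Matrix.mul_smul, ← mul_one B, mul_assoc, one_mul, ← mul_add, hB,
        nonsing_inv_mul _ (isUnit_one_add hA h0 h1)]
    have e2 : trace (B * A) + s * trace (B * A * A) = trace A := by
      have h5 := congrArg (fun M => trace (M * A)) e
      simpa [Matrix.add_mul, trace_add, trace_smul] using h5
    have h3 := trace_mul_le (B * A) A
    have h4 := (opLe_inv_one_add hA h0 h1).fsq_mul_le (Z := A)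
    nlinarith [mul_nonneg h0 (show 0 ≤ 2 * fsq A - trace (B * A * A) by linarith)]
  have := hm (Set.left_mem_Icc.2 zero_le_one) (Set.right_mem_Icc.2 zero_le_one) zero_le_one
  simp [g] at this
  linarith

end Det

/-! ### the translation bound -/

lemma gauss_eq_withDensity :
    gauss ι = (volume : Measure (ι → ℝ)).withDensity
      fun z => ENNReal.ofReal (∏ i, gaussianPDFReal 0 1 (z i)) := by
  classical
  refine Measure.pi_eq fun s hs => ?_
  set f := fun i => (s i).indicator (gaussianPDFReal 0 1)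
  have hi : ∀ i, Integrable (f i) := fun i => (integrable_gaussianPDFReal 0 1).indicator (hs i)
  have hf : ∀ i t, 0 ≤ f i t := fun i t =>
    Set.indicator_nonneg (fun t _ => gaussianPDFReal_nonneg 0 1 t) t
  have e : (Set.univ.pi s).indicator (fun z => ENNReal.ofReal (∏ i, gaussianPDFReal 0 1 (z i))) =
      fun z : ι → ℝ => ENNReal.ofReal (∏ i, f i (z i)) := by
    funext z
    by_cases h : z ∈ Set.univ.pi s
    · rw [Set.indicator_of_mem h]
      exact congrArg _ (Finset.prod_congr rfl fun i _ =>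
        (Set.indicator_of_mem (h i (Set.mem_univ i)) (gaussianPDFReal 0 1)).symm)
    · obtain ⟨i, hni⟩ : ∃ i, z i ∉ s i := by simpa using h
      have h0 : ∏ j, f j (z j) = 0 :=
        Finset.prod_eq_zero (Finset.mem_univ i) (Set.indicator_of_notMem hni _)
      rw [Set.indicator_of_notMem h, h0, ENNReal.ofReal_zero]
  have hP : Integrable (fun z : ι → ℝ => ∏ i, f i (z i)) := Integrable.fintype_prod hi
  rw [withDensity_apply _ (MeasurableSet.univ_pi hs), ← lintegral_indicator (MeasurableSet.univ_pi hs), e,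
    ← ofReal_integral_eq_lintegral_ofReal hP
      (Filter.Eventually.of_forall fun z => Finset.prod_nonneg fun i _ => hf i _),
    integral_fintype_prod_volume_eq_prod f,
    ENNReal.ofReal_prod_of_nonneg fun i _ => integral_nonneg (hf i)]
  refine Finset.prod_congr rfl fun i _ => ?_
  rw [integral_indicator (hs i), gaussianReal_apply_eq_integral 0 one_ne_zero]

/-- the weight of the translation `z ↦ z + V z` with Jacobian `1 + A` -/
noncomputable def tw (V : (ι → ℝ) → ι → ℝ) (A : (ι → ℝ) → Matrix ι ι ℝ) (z : ι → ℝ) : ℝ :=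
  Real.exp (-dot z (V z) - nsq (V z) / 2 + trace (A z) - fsq (A z))

section Translate
variable [DecidableEq ι] {V : (ι → ℝ) → ι → ℝ} {A : (ι → ℝ) → Matrix ι ι ℝ}

lemma translate_injective (hV : ∀ z, HasFDerivAt V (LinearMap.toContinuousLinearMap (toLin' (A z))) z)
    (hA : ∀ z w, nsq (A z *ᵥ w) ≤ 1 / 4 * nsq w) : Function.Injective fun z => z + V z := by
  intro z w h
  set u := z - w
  set g := fun t : ℝ => ∑ i, u i * V (w + t • u) i with hg
  have hp : ∀ t : ℝ, HasDerivAt (fun t : ℝ => w + t • u) u t := fun t =>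
    ((hasDerivAt_id t).smul_const u).const_add w |>.congr_deriv (one_smul ℝ u)
  have hd : ∀ t, HasDerivAt g (u ⬝ᵥ (A (w + t • u) *ᵥ u)) t := fun t => by
    have h1 := (hV (w + t • u)).comp_hasDerivAt t (hp t)
    exact HasDerivAt.fun_sum fun i _ => (hasDerivAt_pi.1 h1 i).const_mul (u i)
  obtain ⟨t, -, ht⟩ := exists_hasDerivAt_eq_slope g _ zero_lt_one
    (fun t _ => (hd t).continuousAt.continuousWithinAt) fun t _ => hd t
  have e : g 1 - g 0 = -nsq u := by
    have h' : ∀ i, z i + V z i = w i + V w i := congrFun h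
    simp only [hg, one_smul, zero_smul, add_zero, u, add_sub_cancel, nsq, ← Finset.sum_sub_distrib,
      ← Finset.sum_neg_distrib, Pi.sub_apply]
    exact Finset.sum_congr rfl fun i _ => by linear_combination (z i - w i) * h' i
  have hb : -(1 / 2 * nsq u) ≤ u ⬝ᵥ (A (w + t • u) *ᵥ u) :=
    (abs_le.1 ((OpLe.quad ⟨by norm_num, fun v => (hA _ v).trans_eq (by ring)⟩) u)).1
  rw [sub_zero, div_one, e] at ht
  rw [ht] at hb
  exact sub_eq_zero.1 (eq_zero_of_nsq (by linarith : nsq u ≤ 0))

/-- one-sided change of variables for the standard Gaussian measure -/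
theorem translate_lintegral (hV : ∀ z, HasFDerivAt V (LinearMap.toContinuousLinearMap (toLin' (A z))) z)
    (hA : ∀ z w, nsq (A z *ᵥ w) ≤ 1 / 4 * nsq w) (G : (ι → ℝ) → ENNReal) :
    ∫⁻ z, ENNReal.ofReal (tw V A z) * G (z + V z) ∂gauss ι ≤ ∫⁻ z, G z ∂gauss ι := by
  set p := fun z : ι → ℝ => ENNReal.ofReal (∏ i, gaussianPDFReal 0 1 (z i))
  set φ' := fun z => ContinuousLinearMap.id ℝ (ι → ℝ) + LinearMap.toContinuousLinearMap (toLin' (A z))
  have hp : Measurable p := by fun_prop
  have hlt : ∀ᵐ z : ι → ℝ, p z < ⊤ := Filter.Eventually.of_forall fun z => ENNReal.ofReal_lt_top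
  have hφ : ∀ z ∈ Set.univ, HasFDerivWithinAt (fun z => z + V z) (φ' z) Set.univ z := fun z _ =>
    ((hasFDerivAt_id z).add (hV z)).hasFDerivWithinAt
  have key := lintegral_image_eq_lintegral_abs_det_fderiv_mul volume MeasurableSet.univ hφ
    (translate_injective hV hA).injOn (fun y => p y * G y)
  rw [gauss_eq_withDensity, lintegral_withDensity_eq_lintegral_mul_non_measurable volume hp hlt,
    lintegral_withDensity_eq_lintegral_mul_non_measurable volume hp hlt]
  calc ∫⁻ z, (p * fun z => ENNReal.ofReal (tw V A z) * G (z + V z)) z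
      ≤ ∫⁻ z, ENNReal.ofReal |(φ' z).det| * (p (z + V z) * G (z + V z)) := lintegral_mono fun z => ?_
    _ = ∫⁻ z in (fun z => z + V z) '' Set.univ, p z * G z := by rw [key, Measure.restrict_univ]
    _ ≤ ∫⁻ z, (p * G) z := setLIntegral_le_lintegral _ _
  simp only [Pi.mul_apply, ← mul_assoc]
  refine mul_le_mul_left ?_ _
  simp only [p]
  rw [← ENNReal.ofReal_mul (Finset.prod_nonneg fun i _ => gaussianPDFReal_nonneg 0 1 _),
    ← ENNReal.ofReal_mul (abs_nonneg _)]
  refine ENNReal.ofReal_le_ofReal ?_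
  have hdet : (φ' z).det = det (1 + A z) := by
    show LinearMap.det (φ' z : (ι → ℝ) →ₗ[ℝ] ι → ℝ) = _
    rw [← LinearMap.det_toLin']
    congr 1
    ext x : 1
    simp [φ']
  have hu : IsUnit (1 + A z).det := by simpa using isUnit_one_add (hA z) zero_le_one le_rfl
  have he : ∏ i, gaussianPDFReal 0 1 (z i + V z i) =
      (∏ i, gaussianPDFReal 0 1 (z i)) * Real.exp (-dot z (V z) - nsq (V z) / 2) := by
    simp only [dot, nsq, Finset.sum_div, ← Finset.sum_neg_distrib, ← Finset.sum_sub_distrib,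
      Real.exp_sum, ← Finset.prod_mul_distrib]
    refine Finset.prod_congr rfl fun i _ => ?_
    simp only [gaussianPDFReal, NNReal.coe_one, sub_zero, mul_one]
    rw [mul_assoc, ← Real.exp_add]
    congr 2; ring
  have hl : Real.exp (trace (A z) - fsq (A z)) ≤ |det (1 + A z)| := by
    rw [← Real.exp_log_eq_abs hu.ne_zero]
    exact Real.exp_le_exp.2 (log_det_one_add_ge (hA z))
  show _ ≤ |(φ' z).det| * ∏ i, gaussianPDFReal 0 1 ((z + V z) i)
  simp only [Pi.add_apply]
  rw [hdet, he, tw, add_sub_assoc, Real.exp_add, ← mul_assoc, mul_comm |det (1 + A z)|]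
  exact mul_le_mul_of_nonneg_left hl (mul_nonneg
    (Finset.prod_nonneg fun i _ => gaussianPDFReal_nonneg 0 1 _) (Real.exp_pos _).le)

/-- `∫ F(z + V z) tw(z) ≤ ∫ F` for nonnegative `F` -/
theorem translate_le (hV : ∀ z, HasFDerivAt V (LinearMap.toContinuousLinearMap (toLin' (A z))) z)
    (hA : ∀ z w, nsq (A z *ᵥ w) ≤ 1 / 4 * nsq w) {F : (ι → ℝ) → ℝ} (hF : ∀ z, 0 ≤ F z)
    (hi : Integrable F (gauss ι)) :
    ∫ z, F (z + V z) * tw V A z ∂gauss ι ≤ ∫ z, F z ∂gauss ι := by
  by_cases h : Integrable (fun z => F (z + V z) * tw V A z) (gauss ι)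
  · rw [← ENNReal.ofReal_le_ofReal_iff (integral_nonneg hF), ofReal_integral_eq_lintegral_ofReal h
      (Filter.Eventually.of_forall fun z => mul_nonneg (hF _) (Real.exp_pos _).le),
      ofReal_integral_eq_lintegral_ofReal hi (Filter.Eventually.of_forall hF)]
    refine le_trans (le_of_eq (lintegral_congr fun z => ?_))
      (translate_lintegral hV hA fun z => ENNReal.ofReal (F z))
    rw [mul_comm, ENNReal.ofReal_mul (show 0 ≤ tw V A z from (Real.exp_pos _).le)]
  · rw [integral_undef h]; exact integral_nonneg hF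

end Translate

/-! ### change of couplings along a path -/

lemma log_cosh_add_le (h d : ℝ) :
    Real.log (Real.cosh (h + d)) ≤ Real.log (Real.cosh h) + Real.tanh h * d + d ^ 2 / 2 := by
  set g := fun t : ℝ =>
    Real.log (Real.cosh h) + Real.tanh h * t + t ^ 2 / 2 - Real.log (Real.cosh (h + t)) with hg
  have h1 : ∀ t, HasDerivAt g (Real.tanh h + t - Real.tanh (h + t)) t := fun t => by
    refine ((((hasDerivAt_id t).const_mul (Real.tanh h)).const_add (Real.log (Real.cosh h))).add
      ((hasDerivAt_pow 2 t).div_const 2) |>.sub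
      ((((Real.hasDerivAt_cosh (h + t)).comp t ((hasDerivAt_id t).const_add h))).log
        (Real.cosh_pos _).ne')).congr_deriv ?_
    simp [Real.tanh_eq_sinh_div_cosh]
  have h2 : Monotone fun t : ℝ => Real.tanh h + t - Real.tanh (h + t) :=
    monotone_of_hasDerivAt_nonneg
      (fun t => (((hasDerivAt_id t).const_add (Real.tanh h)).sub
        ((hasDerivAt_tanh' (h + t)).comp t ((hasDerivAt_id t).const_add h))))
      fun t => by simp; nlinarith [sq_nonneg (Real.tanh (h + t))]
  have hcv : ConvexOn ℝ Set.univ g := by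
    refine MonotoneOn.convexOn_of_deriv convex_univ
      (fun t _ => (h1 t).continuousAt.continuousWithinAt)
      (fun t _ => (h1 t).differentiableAt.differentiableWithinAt) ?_
    simp only [interior_univ]
    rw [show deriv g = _ from funext fun t => (h1 t).deriv]
    exact h2.monotoneOn _
  have h3 : 0 ≤ g d := by
    rcases lt_trichotomy d 0 with hd | rfl | hd
    · have := hcv.slope_le_of_hasDerivAt (Set.mem_univ d) (Set.mem_univ 0) hd (h1 0)
      simp [slope_def_field, hg] at this ⊢
      have h4 : (0:ℝ) < -d := neg_pos.2 hd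
      rw [div_le_iff₀ h4] at this
      linarith
    · simp [hg]
    · have := hcv.le_slope_of_hasDerivAt (Set.mem_univ 0) (Set.mem_univ d) hd (h1 0)
      simp [slope_def_field, hg] at this ⊢
      rw [le_div_iff₀ hd] at this
      linarith
  simp only [hg] at h3
  linarith

variable {n : ℕ} (J J' : Fin n → Fin n → ℝ) (b b' : Fin n → ℝ)

lemma sp_eq (x : Cfg n) (i : Fin n) (c : Bool) :
    sp J b x i c = Real.exp (spin c * fld J b i x - Real.log (Real.cosh (fld J b i x))) / 2 := by
  rw [Real.exp_sub, Real.exp_log (Real.cosh_pos _), sp, mag, mul_comm (spin c), exp_spin,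
    mul_div_cancel_left₀ _ (Real.cosh_pos _).ne']

lemma sp_pos (x : Cfg n) (i : Fin n) (c : Bool) : 0 < sp J b x i c := by
  rw [sp_eq]; positivity

lemma log_sp (x : Cfg n) (i : Fin n) (c : Bool) :
    Real.log (sp J b x i c) = spin c * fld J b i x - Real.log (Real.cosh (fld J b i x)) - Real.log 2 := by
  rw [sp_eq, Real.log_div (Real.exp_pos _).ne' two_ne_zero, Real.log_exp]

/-- one attempt: change of the log-likelihood under a change of couplings and field -/
theorem logsp_shift (x : Cfg n) (i : Fin n) (c : Bool) :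
    Real.log (sp J b x i c) + (spin c - mag J b i x) * (fld J' b' i x - fld J b i x)
        - (fld J' b' i x - fld J b i x) ^ 2 / 2 ≤ Real.log (sp J' b' x i c) := by
  rw [log_sp, log_sp]
  have h := log_cosh_add_le (fld J b i x) (fld J' b' i x - fld J b i x)
  rw [add_sub_cancel] at h
  simp only [mag]
  linarith

/-- the shift of the field seen by the `k`th attempt of a path -/
noncomputable def dfld {N : ℕ} (x : Cfg n) (ω : Path n N) (k : Fin N) : ℝ :=
  fld J' b' (ω k).1 (st x ω k) - fld J b (ω k).1 (st x ω k)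

/-- lower bound for the change of the log-likelihood of a path -/
noncomputable def shiftExp {N : ℕ} (x : Cfg n) (ω : Path n N) : ℝ :=
  ∑ k : Fin N, ((spin (ω k).2 - mag J b (ω k).1 (st x ω k)) * dfld J J' b b' x ω k
    - dfld J J' b b' x ω k ^ 2 / 2)

/-- the change of the log-likelihood of a path -/
theorem logpw_shift {N : ℕ} (x : Cfg n) (ω : Path n N) :
    Real.log (pw J b x ω) + shiftExp J J' b b' x ω ≤ Real.log (pw J' b' x ω) := by
  have hn : ∀ k : Fin N, (n:ℝ) ≠ 0 := fun k => Nat.cast_ne_zero.2 (ω k).1.pos.ne'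
  simp only [pw]
  rw [Real.log_prod fun k _ => div_ne_zero (sp_pos J b _ _ _).ne' (hn k),
    Real.log_prod fun k _ => div_ne_zero (sp_pos J' b' _ _ _).ne' (hn k), shiftExp,
    ← Finset.sum_add_distrib]
  refine Finset.sum_le_sum fun k _ => ?_
  rw [Real.log_div (sp_pos J b _ _ _).ne' (hn k), Real.log_div (sp_pos J' b' _ _ _).ne' (hn k)]
  have := logsp_shift J J' b b' (st x ω k) (ω k).1 (ω k).2
  simp only [dfld]
  linarith

lemma pw_pos {N : ℕ} (x : Cfg n) (ω : Path n N) : 0 < pw J b x ω :=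
  Finset.prod_pos fun k _ => div_pos (sp_pos J b _ _ _) (Nat.cast_pos.2 (ω k).1.pos)

/-- `pw' ≥ pw * exp (shift)` -/
theorem pw_shift {N : ℕ} (x : Cfg n) (ω : Path n N) :
    pw J b x ω * Real.exp (shiftExp J J' b b' x ω) ≤ pw J' b' x ω := by
  have h := Real.exp_le_exp.2 (logpw_shift J J' b b' x ω)
  rwa [Real.exp_add, Real.exp_log (pw_pos J b x ω), Real.exp_log (pw_pos J' b' x ω)] at h

end Vale.Agent.P150.PA
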