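import Vale.Agent.P150.GaussCalc
import Vale.Agent.P150.Ising

/-! Scalar functions of Part A: the channel overlap `F s = E tanh (s + √s z)`, the fixed point of
`q ↦ F (t + β² q)`, and the identity `(1/2) ∫ (1 - q⋆) = log 2 - β²/4` as a bound on Riemann sums. -/

open MeasureTheory ProbabilityTheory Real Finset

namespace Vale.Agent.P150.PA

/-- `E g (s + √s z)` -/
noncomputable def chanAvg (g : ℝ → ℝ) (s : ℝ) : ℝ := ∫ z, g (s + √s * z) ∂gaussianReal 0 1

/-- `E tanh (s + √s z)` -/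
noncomputable def Fq (s : ℝ) : ℝ := chanAvg tanh s

/-- `E log cosh (s + √s z)` -/
noncomputable def phiq (s : ℝ) : ℝ := chanAvg (fun u => log (cosh u)) s

lemma continuous_tanh' : Continuous tanh :=
  continuous_iff_continuousAt.2 fun u => (Ising.hasDerivAt_tanh' u).continuousAt

lemma abs_tanh_le_one' (u : ℝ) : |tanh u| ≤ 1 := (abs_tanh_lt_one u).le

lemma tanh_sq_le_one (u : ℝ) : tanh u ^ 2 ≤ 1 := by
  rw [← sq_abs]; exact pow_le_one₀ (abs_nonneg _) (abs_tanh_le_one' u)

lemma integrable_lin {g : ℝ → ℝ} (hg : Continuous g) {C : ℝ} (hb : ∀ u, |g u| ≤ C * (1 + |u|)) (a c : ℝ) :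
    Integrable (fun z => g (a + c * z)) (gaussianReal 0 1) := by
  have hC : 0 ≤ C := by
    have h := (abs_nonneg _).trans (hb 0)
    simpa using h
  refine (((memLp_id_gaussianReal 1).integrable le_rfl).abs.const_mul (C * |c|) |>.add
    (integrable_const (C * (1 + |a|)))).mono' (by fun_prop) (Filter.Eventually.of_forall fun z => ?_)
  simp only [norm_eq_abs, Pi.add_apply, id]
  refine (hb _).trans ?_
  have := (abs_add_le a (c * z)).trans_eq (by rw [abs_mul])
  nlinarith

lemma integrable_chan {g : ℝ → ℝ} (hg : Continuous g) {C : ℝ} (hb : ∀ u, |g u| ≤ C) (s : ℝ) :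
    Integrable (fun z => g (s + √s * z)) (gaussianReal 0 1) :=
  Integrable.of_bound (by fun_prop) C (Filter.Eventually.of_forall fun z => hb _)

lemma chanAvg_sub {g h : ℝ → ℝ} (hg : Continuous g) (hh : Continuous h) {C D : ℝ}
    (bg : ∀ u, |g u| ≤ C) (bh : ∀ u, |h u| ≤ D) (s : ℝ) :
    chanAvg (fun u => g u - h u) s = chanAvg g s - chanAvg h s :=
  integral_sub (integrable_chan hg bg s) (integrable_chan hh bh s)

lemma chanAvg_const_mul (c : ℝ) (g : ℝ → ℝ) (s : ℝ) : chanAvg (fun u => c * g u) s = c * chanAvg g s :=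
  integral_const_mul c _

lemma chanAvg_one (s : ℝ) : chanAvg (fun _ => 1) s = 1 := by simp [chanAvg]

lemma chanAvg_mem {g : ℝ → ℝ} (hg : Continuous g) (h : ∀ u, 0 ≤ g u ∧ g u ≤ 1) (s : ℝ) :
    0 ≤ chanAvg g s ∧ chanAvg g s ≤ 1 := by
  refine ⟨integral_nonneg fun z => (h _).1, ?_⟩
  rw [← chanAvg_one s]
  refine integral_mono (integrable_chan hg (C := 1) (fun u => ?_) s) (integrable_const _) fun z => (h _).2
  rw [abs_of_nonneg (h u).1]; exact (h u).2

lemma continuousOn_chanAvg {g : ℝ → ℝ} (hg : Continuous g) {C : ℝ} (hb : ∀ u, |g u| ≤ C * (1 + |u|))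
    (S : ℝ) : ContinuousOn (chanAvg g) (Set.Icc 0 S) := by
  have hC : 0 ≤ C := by
    have h := (abs_nonneg _).trans (hb 0)
    simpa using h
  refine continuousOn_of_dominated (bound := fun z => C * (1 + S) + C * √S * |z|)
    (fun s _ => (Continuous.aestronglyMeasurable (by fun_prop)))
    (fun s hs => Filter.Eventually.of_forall fun z => ?_) ?_
    (Filter.Eventually.of_forall fun z => (Continuous.continuousOn (by fun_prop)))
  · rw [norm_eq_abs]
    refine (hb _).trans ?_
    have h1 := (abs_add_le s (√s * z)).trans_eq (by rw [abs_mul, abs_of_nonneg hs.1, abs_of_nonneg (sqrt_nonneg s)])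
    have h2 := mul_le_mul_of_nonneg_right (sqrt_le_sqrt hs.2) (abs_nonneg z)
    have := mul_le_mul_of_nonneg_left (show 1 + |s + √s * z| ≤ 1 + S + √S * |z| by linarith [hs.2]) hC
    linarith
  · exact (integrable_const _).add (((memLp_id_gaussianReal 1).integrable le_rfl).abs.const_mul _)

/-- The heat equation along the channel. -/
lemma hasDerivAt_chanAvg {g g' g'' : ℝ → ℝ} (hg : ∀ u, HasDerivAt g (g' u) u)
    (hg' : ∀ u, HasDerivAt g' (g'' u) u) (hc : Continuous g'') {C : ℝ}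
    (b0 : ∀ u, |g u| ≤ C * (1 + |u|)) (b1 : ∀ u, |g' u| ≤ C) (b2 : ∀ u, |g'' u| ≤ C) {s : ℝ} (hs : 0 < s) :
    HasDerivAt (chanAvg g) (chanAvg g' s + chanAvg g'' s / 2) s := by
  have hgc : Continuous g := continuous_iff_continuousAt.2 fun u => (hg u).continuousAt
  have hgc' : Continuous g' := continuous_iff_continuousAt.2 fun u => (hg' u).continuousAt
  have hC : 0 ≤ C := (abs_nonneg _).trans (b1 0)
  have hz : Integrable (fun z : ℝ => |z|) (gaussianReal 0 1) :=
    ((memLp_id_gaussianReal 1).integrable le_rfl).abs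
  have h := (hasDerivAt_integral_of_dominated_loc_of_deriv_le (μ := gaussianReal 0 1)
    (F := fun σ z => g (σ + √σ * z)) (F' := fun σ z => g' (σ + √σ * z) * (1 + 1 / (2 * √σ) * z))
    (bound := fun z => C * (1 + 1 / (2 * √(s / 2)) * |z|))
    (Metric.ball_mem_nhds s (half_pos hs))
    (Filter.Eventually.of_forall fun σ => (Continuous.aestronglyMeasurable (by fun_prop)))
    (integrable_lin hgc b0 s √s) (Continuous.aestronglyMeasurable (by fun_prop))
    (Filter.Eventually.of_forall fun z σ hσ => ?_)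
    (((integrable_const 1).add (hz.const_mul _)).const_mul C)
    (Filter.Eventually.of_forall fun z σ hσ => ?_)).2
  · refine h.congr_deriv ?_
    have hst : ∫ z, z * g' (s + √s * z) ∂gaussianReal 0 1 = √s * chanAvg g'' s := by
      rw [chanAvg, ← integral_const_mul]
      refine stein_one (C := C + √s * C) (M := 0) (fun t => ?_) (by fun_prop) (fun t => ?_) (fun t => ?_)
      · exact ((hg' _).comp t (((hasDerivAt_id t).const_mul (√s)).const_add s)).congr_deriv
          (by simp only [mul_one, id]; ring)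
      · rw [zero_mul, exp_zero, mul_one]
        exact (b1 _).trans (le_add_of_nonneg_right (by positivity))
      · rw [zero_mul, exp_zero, mul_one, abs_mul, abs_of_nonneg (sqrt_nonneg s)]
        exact le_add_of_nonneg_of_le hC (mul_le_mul_of_nonneg_left (b2 _) (sqrt_nonneg s))
    have i1 : Integrable (fun z => g' (s + √s * z)) (gaussianReal 0 1) := integrable_chan hgc' b1 s
    have i2 : Integrable (fun z => z * g' (s + √s * z)) (gaussianReal 0 1) :=
      (hz.const_mul C).mono' (by fun_prop) (Filter.Eventually.of_forall fun z => by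
        rw [norm_eq_abs, abs_mul, mul_comm C]; exact mul_le_mul_of_nonneg_left (b1 _) (abs_nonneg z))
    rw [show (fun z => g' (s + √s * z) * (1 + 1 / (2 * √s) * z))
      = fun z => g' (s + √s * z) + 1 / (2 * √s) * (z * g' (s + √s * z)) by funext z; ring,
      integral_add i1 (i2.const_mul _), integral_const_mul, hst]
    have : √s ≠ 0 := (sqrt_pos.2 hs).ne'
    unfold chanAvg
    field_simp
  · rw [Metric.mem_ball, dist_eq, abs_lt] at hσ
    rw [norm_eq_abs, abs_mul]
    refine mul_le_mul (b1 _) ?_ (abs_nonneg _) hC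
    refine (abs_add_le _ _).trans ?_
    rw [abs_one, abs_mul, abs_of_nonneg (show (0:ℝ) ≤ 1 / (2 * √σ) by positivity)]
    have h2 : √(s / 2) ≤ √σ := sqrt_le_sqrt (by linarith)
    have h3 : 0 < √(s / 2) := sqrt_pos.2 (by linarith)
    gcongr
  · rw [Metric.mem_ball, dist_eq, abs_lt] at hσ
    exact (hg _).comp σ ((hasDerivAt_id σ).add ((hasDerivAt_sqrt (by linarith)).mul_const z))

/-- The Nishimori identity: odd observables are tilted by `tanh`. -/
lemma nishimori {g : ℝ → ℝ} (hg : Continuous g) (hodd : ∀ u, g (-u) = -g u) {C : ℝ}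
    (hb : ∀ u, |g u| ≤ C) {s : ℝ} (hs : 0 ≤ s) :
    chanAvg (fun u => g u * tanh u) s = chanAvg g s := by
  have hcs : Continuous fun u => g u * tanh u := hg.mul continuous_tanh'
  have hbs : ∀ u, |g u * tanh u| ≤ C := fun u => by
    rw [abs_mul]; exact (mul_le_of_le_one_right (abs_nonneg _) (abs_tanh_le_one' u)).trans (hb u)
  have hzero : chanAvg (fun u => g u - g u * tanh u) s = 0 := by
    unfold chanAvg
    rw [integral_gaussianReal_eq_integral_smul one_ne_zero]
    set r := √s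
    have hrr : r * r = s := mul_self_sqrt hs
    set k : ℝ → ℝ := fun w => (√(2 * π))⁻¹ * exp (-s / 2) * (exp (-w ^ 2 / 2) * (g (r * w) / cosh (r * w)))
    have hk : ∀ z, gaussianPDFReal 0 1 z • (g (s + r * z) - g (s + r * z) * tanh (s + r * z)) = k (z + r) := by
      intro z
      have e : s + r * z = r * (z + r) := by rw [mul_add, hrr]; ring
      have h1 : ∀ u, g u - g u * tanh u = exp (-u) * (g u / cosh u) := fun u => by
        rw [tanh_eq_sinh_div_cosh, ← cosh_sub_sinh]
        field_simp [(cosh_pos u).ne']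
      have he : exp (-z ^ 2 / 2) * exp (-(r * (z + r))) = exp (-s / 2) * exp (-(z + r) ^ 2 / 2) := by
        rw [← exp_add, ← exp_add]; congr 1; linear_combination (-(1:ℝ) / 2) * hrr
      simp only [smul_eq_mul, e, h1, k, gaussianPDFReal_def, NNReal.coe_one, mul_one, sub_zero]
      linear_combination ((√(2 * π))⁻¹ * (g (r * (z + r)) / cosh (r * (z + r)))) * he
    simp only [hk]
    rw [integral_add_right_eq_self k r]
    have h2 : ∀ w, k (-w) = -k w := fun w => by
      simp only [k, mul_neg, hodd, cosh_neg, neg_sq, neg_div]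
    have h3 := integral_neg_eq_self k volume
    simp only [h2, integral_neg] at h3
    linarith
  rw [chanAvg_sub hg hcs hb hbs] at hzero
  linarith

lemma tanh_sq_eq {s : ℝ} (hs : 0 ≤ s) : chanAvg (fun u => tanh u ^ 2) s = Fq s := by
  simp only [sq]
  exact nishimori continuous_tanh' tanh_neg abs_tanh_le_one' hs

theorem Fq_mem {s : ℝ} (hs : 0 ≤ s) : 0 ≤ Fq s ∧ Fq s ≤ 1 := by
  rw [← tanh_sq_eq hs]
  exact chanAvg_mem (continuous_tanh'.pow 2) (fun u => ⟨sq_nonneg _, tanh_sq_le_one u⟩) s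

theorem Fq_zero : Fq 0 = 0 := by simp [Fq, chanAvg]

/-- `F' = E (1 - tanh²)²`. -/
theorem hasDerivAt_Fq {s : ℝ} (hs : 0 < s) :
    HasDerivAt Fq (chanAvg (fun u => (1 - tanh u ^ 2) ^ 2) s) s := by
  have hc := continuous_tanh'
  have h1 : ∀ u, |1 - tanh u ^ 2| ≤ 1 := fun u => by
    rw [abs_le]; constructor <;> nlinarith [tanh_sq_le_one u]
  have h2 : ∀ u, HasDerivAt (fun u => 1 - tanh u ^ 2) (-2 * (tanh u * (1 - tanh u ^ 2))) u := fun u =>
    (((Ising.hasDerivAt_tanh' u).pow 2).const_sub 1).congr_deriv (by push_cast; ring)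
  have hb : ∀ u, |tanh u * (1 - tanh u ^ 2)| ≤ 1 := fun u => by
    rw [abs_mul]; exact mul_le_one₀ (abs_tanh_le_one' u) (abs_nonneg _) (h1 u)
  refine (hasDerivAt_chanAvg (g := tanh) Ising.hasDerivAt_tanh' h2 (by fun_prop) (C := 2)
    (fun u => by linarith [abs_tanh_le_one' u, abs_nonneg u]) (fun u => (h1 u).trans one_le_two)
    (fun u => by rw [abs_mul]; norm_num; have h := hb u; rw [abs_mul] at h; linarith) hs).congr_deriv ?_
  have hN := nishimori (g := fun u => tanh u * (1 - tanh u ^ 2)) (by fun_prop)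
    (fun u => by rw [tanh_neg]; ring) hb hs.le
  rw [chanAvg_const_mul, ← hN,
    show (fun u => (1 - tanh u ^ 2) ^ 2)
      = fun u => (1 - tanh u ^ 2) - tanh u * (1 - tanh u ^ 2) * tanh u by funext u; ring,
    chanAvg_sub (by fun_prop) (by fun_prop) h1 (D := 1) fun u => ?_]
  · ring
  · rw [abs_mul]; exact mul_le_one₀ (hb u) (abs_nonneg _) (abs_tanh_le_one' u)

lemma Fq_deriv_mem (s : ℝ) :
    0 ≤ chanAvg (fun u => (1 - tanh u ^ 2) ^ 2) s ∧ chanAvg (fun u => (1 - tanh u ^ 2) ^ 2) s ≤ 1 := by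
  have hc := continuous_tanh'
  refine chanAvg_mem (by fun_prop) (fun u => ⟨sq_nonneg _, ?_⟩) s
  exact pow_le_one₀ (by linarith [tanh_sq_le_one u]) (by linarith [sq_nonneg (tanh u)])

theorem continuousOn_Fq (S : ℝ) : ContinuousOn Fq (Set.Icc 0 S) :=
  continuousOn_chanAvg continuous_tanh' (C := 1)
    (fun u => by linarith [abs_tanh_le_one' u, abs_nonneg u]) S

/-- `F` is monotone and 1-Lipschitz. -/
theorem Fq_sub_mem {a b : ℝ} (ha : 0 ≤ a) (hab : a ≤ b) : 0 ≤ Fq b - Fq a ∧ Fq b - Fq a ≤ b - a := by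
  have hc := continuousOn_Fq b
  have hd : ∀ x ∈ interior (Set.Icc 0 b),
      HasDerivWithinAt Fq (chanAvg (fun u => (1 - tanh u ^ 2) ^ 2) x) (interior (Set.Icc 0 b)) x := by
    intro x hx
    rw [interior_Icc] at hx ⊢
    exact (hasDerivAt_Fq hx.1).hasDerivWithinAt
  have hm := monotoneOn_of_hasDerivWithinAt_nonneg (convex_Icc 0 b) hc hd fun x _ => (Fq_deriv_mem x).1
  have hm' := monotoneOn_of_hasDerivWithinAt_nonneg (f := fun x => x - Fq x) (convex_Icc 0 b)
    (continuousOn_id.sub hc) (fun x hx => (hasDerivWithinAt_id x _).sub (hd x hx))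
    fun x _ => by linarith [(Fq_deriv_mem x).2]
  have h1 := hm ⟨ha, hab⟩ ⟨ha.trans hab, le_rfl⟩ hab
  have h2 := hm' ⟨ha, hab⟩ ⟨ha.trans hab, le_rfl⟩ hab
  simp only at h2
  constructor <;> linarith

theorem abs_Fq_sub_le {a b : ℝ} (ha : 0 ≤ a) (hb : 0 ≤ b) : |Fq a - Fq b| ≤ |a - b| := by
  rcases le_total a b with h | h
  · obtain ⟨h1, h2⟩ := Fq_sub_mem ha h
    rw [abs_sub_comm, abs_of_nonneg h1, abs_sub_comm, abs_of_nonneg (by linarith)]; exact h2
  · obtain ⟨h1, h2⟩ := Fq_sub_mem hb h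
    rw [abs_of_nonneg h1, abs_of_nonneg (by linarith)]; exact h2

lemma log_cosh_le (u : ℝ) : log (cosh u) ≤ u - log 2 + 2 * exp (-u) := by
  have h : cosh u = exp u / 2 * (1 + exp (-u) ^ 2) := by
    rw [cosh_eq, sq, ← exp_add]
    have : exp u * exp (-u + -u) = exp (-u) := by rw [← exp_add]; congr 1; ring
    linear_combination (-(1:ℝ) / 2) * this
  rw [h, log_mul (by positivity) (by positivity), log_div (exp_pos u).ne' two_ne_zero, log_exp]
  have h1 : log (1 + exp (-u) ^ 2) ≤ log ((1 + exp (-u)) ^ 2) := by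
    refine log_le_log (by positivity) ?_
    nlinarith [exp_pos (-u)]
  rw [log_pow] at h1
  have h2 := log_le_sub_one_of_pos (show 0 < 1 + exp (-u) by positivity)
  push_cast at h1
  linarith

lemma abs_log_cosh_le (u : ℝ) : |log (cosh u)| ≤ 1 * (1 + |u|) := by
  rw [abs_of_nonneg (log_nonneg (one_le_cosh u)), one_mul]
  have h : cosh u ≤ exp |u| := by
    rw [← cosh_abs, cosh_eq]
    linarith [exp_le_exp.2 (show -|u| ≤ |u| by linarith [abs_nonneg u])]
  have := log_le_log (cosh_pos u) h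
  rw [log_exp] at this
  linarith

lemma continuous_log_cosh : Continuous fun u => log (cosh u) :=
  continuous_cosh.log fun u => (cosh_pos u).ne'

/-- `φ' = (1 + F) / 2`. -/
theorem hasDerivAt_phiq {s : ℝ} (hs : 0 < s) : HasDerivAt phiq ((1 + Fq s) / 2) s := by
  have hc := continuous_tanh'
  refine (hasDerivAt_chanAvg (g := fun u => log (cosh u)) (g' := tanh) (g'' := fun u => 1 - tanh u ^ 2)
    (C := 1) (fun u => ?_) Ising.hasDerivAt_tanh' (by fun_prop) abs_log_cosh_le abs_tanh_le_one'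
    (fun u => ?_) hs).congr_deriv ?_
  · exact ((hasDerivAt_cosh u).log (cosh_pos u).ne').congr_deriv (tanh_eq_sinh_div_cosh u).symm
  · rw [abs_le]; constructor <;> nlinarith [tanh_sq_le_one u]
  · rw [chanAvg_sub (g := fun _ => (1:ℝ)) (h := fun u => tanh u ^ 2) (C := 1) (D := 1) continuous_const
        (by fun_prop) (fun u => by simp) (fun u => by rw [abs_pow]; exact pow_le_one₀ (abs_nonneg _) (abs_tanh_le_one' u)),
      chanAvg_one, tanh_sq_eq hs.le]
    unfold Fq
    ring

lemma exp_neg_chan {s : ℝ} (hs : 0 ≤ s) :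
    Integrable (fun z => exp (-(s + √s * z))) (gaussianReal 0 1) ∧
      ∫ z, exp (-(s + √s * z)) ∂gaussianReal 0 1 = exp (-s / 2) := by
  have e : (fun z => exp (-(s + √s * z))) = fun z => exp (-s) * exp (-√s * z) := by
    funext z; rw [← exp_add]; ring_nf
  rw [e]
  refine ⟨(integrable_exp_mul_gaussianReal _).const_mul _, ?_⟩
  rw [integral_const_mul]
  have := congrFun (mgf_id_gaussianReal (μ := 0) (v := 1)) (-√s)
  simp only [mgf, id, zero_mul, zero_add, NNReal.coe_one, one_mul, neg_sq, sq_sqrt hs] at this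
  rw [this, ← exp_add]; ring_nf

/-- `φ s ≤ s - log 2 + 2 exp (-s/2)`. -/
theorem phiq_le {s : ℝ} (hs : 0 ≤ s) : phiq s ≤ s - log 2 + 2 * exp (-s / 2) := by
  obtain ⟨he, hv⟩ := exp_neg_chan hs
  have hz : Integrable (fun z : ℝ => z) (gaussianReal 0 1) := (memLp_id_gaussianReal 1).integrable le_rfl
  have hi : Integrable (fun z => (s + √s * z) - log 2) (gaussianReal 0 1) :=
    ((integrable_const s).add (hz.const_mul _)).sub (integrable_const _)
  refine (integral_mono (integrable_lin continuous_log_cosh abs_log_cosh_le s √s)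
    (hi.add (he.const_mul 2)) fun z => log_cosh_le (s + √s * z)).trans (le_of_eq ?_)
  simp only [Pi.add_apply]
  rw [integral_add hi (he.const_mul 2), integral_sub ((integrable_const s).fun_add (hz.const_mul _))
    (integrable_const _), integral_add (integrable_const s) (hz.const_mul _), integral_const_mul,
    integral_const_mul, hv, integral_id_gaussianReal]
  simp

variable {β : ℝ}

/-- The potential whose derivative in `s` is `(1 - F)(1 - β² F') / 2`. -/
noncomputable def potq (β s : ℝ) : ℝ := s - phiq s - β ^ 2 / 2 * (Fq s - Fq s ^ 2 / 2)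

lemma potq_zero : potq β 0 = 0 := by
  simp [potq, Fq_zero, phiq, chanAvg]

lemma potq_ge {s : ℝ} (hs : 0 ≤ s) : log 2 - β ^ 2 / 4 - 2 * exp (-s / 2) ≤ potq β s := by
  have h1 := phiq_le hs
  have h2 : Fq s - Fq s ^ 2 / 2 ≤ 1 / 2 := by nlinarith [sq_nonneg (Fq s - 1)]
  have h3 := mul_le_mul_of_nonneg_left h2 (show 0 ≤ β ^ 2 / 2 by positivity)
  unfold potq
  linarith

/-- One step of the Riemann sum. -/
lemma potq_step (hβ : β ^ 2 ≤ 1) {a b : ℝ} (ha : 0 ≤ a) (hab : a ≤ b) :
    potq β b - potq β a ≤ (1 - Fq a) / 2 * ((b - β ^ 2 * Fq b) - (a - β ^ 2 * Fq a)) := by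
  have hc : ContinuousOn Fq (Set.Icc a b) := (continuousOn_Fq b).mono (Set.Icc_subset_Icc_left ha)
  have hp : ContinuousOn phiq (Set.Icc a b) :=
    (continuousOn_chanAvg continuous_log_cosh abs_log_cosh_le b).mono (Set.Icc_subset_Icc_left ha)
  have hm := monotoneOn_of_hasDerivWithinAt_nonneg
    (f := fun x => (1 - Fq a) / 2 * (x - β ^ 2 * Fq x) - potq β x) (convex_Icc a b)
    (by unfold potq; fun_prop)
    (f' := fun x => (1 - β ^ 2 * chanAvg (fun u => (1 - tanh u ^ 2) ^ 2) x) * (Fq x - Fq a) / 2)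
    (fun x hx => ?_) fun x hx => ?_
  · have := hm ⟨le_rfl, hab⟩ ⟨hab, le_rfl⟩ hab
    simp only at this
    linarith
  · rw [interior_Icc] at hx
    have hx0 : 0 < x := ha.trans_lt hx.1
    have dF := hasDerivAt_Fq hx0
    have dP : HasDerivAt (potq β) ((1 - Fq x) / 2
        * (1 - β ^ 2 * chanAvg (fun u => (1 - tanh u ^ 2) ^ 2) x)) x :=
      (((hasDerivAt_id x).sub (hasDerivAt_phiq hx0)).sub
        ((dF.sub ((dF.pow 2).div_const 2)).const_mul (β ^ 2 / 2))).congr_deriv (by push_cast; ring)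
    exact (((((hasDerivAt_id x).sub (dF.const_mul (β ^ 2))).const_mul ((1 - Fq a) / 2)).sub dP).congr_deriv
      (by ring)).hasDerivWithinAt
  · rw [interior_Icc] at hx
    have h1 := (Fq_sub_mem ha hx.1.le).1
    have h2 := mul_le_one₀ hβ (Fq_deriv_mem x).1 (Fq_deriv_mem x).2
    exact div_nonneg (mul_nonneg (by linarith) h1) (by norm_num)

open Classical in
/-- The fixed point of `q ↦ F (t + β² q)` in `[0, 1]`. -/
noncomputable def qstar (β t : ℝ) : ℝ :=
  if h : ∃ q, 0 ≤ q ∧ q ≤ 1 ∧ q = Fq (t + β ^ 2 * q) then Classical.choose h else 0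

theorem qstar_spec {t : ℝ} (ht : 0 ≤ t) :
    0 ≤ qstar β t ∧ qstar β t ≤ 1 ∧ qstar β t = Fq (t + β ^ 2 * qstar β t) := by
  have hex : ∃ q, 0 ≤ q ∧ q ≤ 1 ∧ q = Fq (t + β ^ 2 * q) := by
    have hc : ContinuousOn (fun q => q - Fq (t + β ^ 2 * q)) (Set.Icc 0 1) := by
      refine continuousOn_id.sub ((continuousOn_Fq (t + β ^ 2)).comp (by fun_prop) fun q hq => ?_)
      exact ⟨add_nonneg ht (mul_nonneg (sq_nonneg β) hq.1),
        by linarith [mul_le_mul_of_nonneg_left hq.2 (sq_nonneg β)]⟩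
    have h0 : (0:ℝ) - Fq (t + β ^ 2 * 0) ≤ 0 := by simpa using (Fq_mem ht).1
    have h1 : (0:ℝ) ≤ 1 - Fq (t + β ^ 2 * 1) := by
      linarith [(Fq_mem (show 0 ≤ t + β ^ 2 * 1 by positivity)).2]
    obtain ⟨q, hq, he⟩ := intermediate_value_Icc zero_le_one hc (show (0:ℝ) ∈ Set.Icc _ _ from ⟨h0, h1⟩)
    exact ⟨q, hq.1, hq.2, by simp only at he; linarith⟩
  unfold qstar
  rw [dif_pos hex]
  exact Classical.choose_spec hex

/-- Approximate fixed points are close to `q⋆`. -/
theorem abs_sub_qstar_le (hβ : β ^ 2 < 1) {t q ε : ℝ} (ht : 0 ≤ t) (hq : 0 ≤ q)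
    (h : |q - Fq (t + β ^ 2 * q)| ≤ ε) : |q - qstar β t| ≤ ε / (1 - β ^ 2) := by
  obtain ⟨h0, -, he⟩ := qstar_spec (β := β) ht
  set p := qstar β t
  have hL := abs_Fq_sub_le (show 0 ≤ t + β ^ 2 * q by positivity) (show 0 ≤ t + β ^ 2 * p by positivity)
  rw [← he, show t + β ^ 2 * q - (t + β ^ 2 * p) = β ^ 2 * (q - p) by ring, abs_mul,
    abs_of_nonneg (sq_nonneg β)] at hL
  rw [le_div_iff₀ (by linarith)]
  have := abs_sub_le q (Fq (t + β ^ 2 * q)) p
  linarith

theorem qstar_zero (hβ : β ^ 2 < 1) : qstar β 0 = 0 := by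
  have h := abs_sub_qstar_le hβ (t := 0) (q := 0) (ε := 0) le_rfl le_rfl (by simp [Fq_zero])
  simpa using h

theorem qstar_mono (hβ : β ^ 2 < 1) {t t' : ℝ} (ht : 0 ≤ t) (h : t ≤ t') :
    qstar β t ≤ qstar β t' := by
  obtain ⟨h0, -, he⟩ := qstar_spec (β := β) ht
  obtain ⟨h0', -, he'⟩ := qstar_spec (β := β) (ht.trans h)
  by_contra hlt
  push Not at hlt
  have hm := (Fq_sub_mem (show 0 ≤ t + β ^ 2 * qstar β t' by positivity)
    (show t + β ^ 2 * qstar β t' ≤ t + β ^ 2 * qstar β t by nlinarith [sq_nonneg β])).2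
  have hn := (Fq_sub_mem (show 0 ≤ t + β ^ 2 * qstar β t' by positivity)
    (show t + β ^ 2 * qstar β t' ≤ t' + β ^ 2 * qstar β t' by linarith)).1
  rw [← he] at hm
  rw [← he'] at hn
  nlinarith [mul_pos (sub_pos.2 hβ) (sub_pos.2 hlt)]

/-- The Riemann sums of `(1 - q⋆) / 2`, with explicit errors. -/
theorem riemann_qstar (hβ : β ^ 2 < 1) {K : ℕ} {t : ℕ → ℝ} {δ : ℝ} (h0 : t 0 = 0) (hδ : 0 ≤ δ)
    (hstep : ∀ k < K, 0 ≤ t (k + 1) - t k ∧ t (k + 1) - t k ≤ δ) :
    log 2 - β ^ 2 / 4 - 2 * exp (-t K / 2) - δ / 2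
      ≤ 1 / 2 * ∑ k ∈ range K, (t (k + 1) - t k) * (1 - qstar β (t (k + 1))) := by
  have ht : ∀ k, k ≤ K → 0 ≤ t k := by
    intro k
    induction k with
    | zero => intro _; rw [h0]
    | succ k ih => intro hk; linarith [ih (by omega), (hstep k (by omega)).1]
  set s := fun k => t k + β ^ 2 * qstar β (t k)
  have key : ∀ k, k ≤ K → potq β (s k) - δ / 2 * qstar β (t k)
      ≤ 1 / 2 * ∑ i ∈ range k, (t (i + 1) - t i) * (1 - qstar β (t (i + 1))) := by
    intro k
    induction k with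
    | zero => intro _; simp [s, h0, qstar_zero hβ, potq_zero]
    | succ k ih =>
      intro hk
      have h := ih (by omega)
      have hk0 := ht k (by omega)
      obtain ⟨hd0, hd⟩ := hstep k (by omega)
      obtain ⟨hq0, -, he⟩ := qstar_spec (β := β) hk0
      obtain ⟨-, -, he'⟩ := qstar_spec (β := β) (ht (k + 1) hk)
      have hmon := qstar_mono hβ hk0 (by linarith : t k ≤ t (k + 1))
      have hs := potq_step hβ.le (a := s k) (b := s (k + 1))
        (add_nonneg hk0 (mul_nonneg (sq_nonneg β) hq0))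
        (add_le_add (by linarith) (mul_le_mul_of_nonneg_left hmon (sq_nonneg β)))
      simp only [s, ← he, ← he', add_sub_cancel_right] at hs h ⊢
      rw [sum_range_succ]
      nlinarith [mul_le_mul_of_nonneg_right hd (sub_nonneg.2 hmon)]
  have h := key K le_rfl
  obtain ⟨hq0, hq1, -⟩ := qstar_spec (β := β) (ht K le_rfl)
  have hge := potq_ge (β := β) (show 0 ≤ s K from add_nonneg (ht K le_rfl) (mul_nonneg (sq_nonneg β) hq0))
  have hexp : exp (-s K / 2) ≤ exp (-t K / 2) :=
    exp_le_exp.2 (by simp only [s]; linarith [mul_nonneg (sq_nonneg β) hq0])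
  linarith [mul_le_mul_of_nonneg_left hq1 (show 0 ≤ δ / 2 by linarith)]

/-- For every `ε` all fine enough grids of a long enough interval give `log 2 - β²/4 - ε`. -/
theorem entropy_riemann (hβ : β ^ 2 < 1) {ε : ℝ} (hε : 0 < ε) :
    ∃ T0 δ : ℝ, 0 < T0 ∧ 0 < δ ∧ ∀ (K : ℕ) (t : ℕ → ℝ), t 0 = 0 → T0 ≤ t K →
      (∀ k < K, 0 ≤ t (k + 1) - t k ∧ t (k + 1) - t k ≤ δ) →
      log 2 - β ^ 2 / 4 - ε
        ≤ 1 / 2 * ∑ k ∈ range K, (t (k + 1) - t k) * (1 - qstar β (t (k + 1))) := by
  refine ⟨2 * max 1 (log (4 / ε)), ε, by positivity, hε, fun K t h0 hT hstep => ?_⟩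
  have h := riemann_qstar hβ h0 hε.le hstep
  have h1 : exp (-t K / 2) ≤ ε / 4 := by
    refine (exp_le_exp.2 (show -t K / 2 ≤ -log (4 / ε) by
      linarith [le_max_right 1 (log (4 / ε))])).trans (le_of_eq ?_)
    rw [exp_neg, exp_log (by positivity), inv_div]
  linarith

end Vale.Agent.P150.PA
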