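import Vale.Agent.P150.PA.Grad
import Vale.Agent.P150.Fast.Channel

/-! The chain in the field of a Gaussian channel observation `y = t x + √t z`: the averaged Dirichlet
form of the tilted laws is smaller, and the averaged tilted chain is gradient bounded in its start. -/

open MeasureTheory ProbabilityTheory

namespace Vale.Agent.P150.PA

open Ising

variable {n : ℕ}

/-- observation of `x` in the Gaussian channel at time `t` with noise `z` -/
noncomputable def yob (t : ℝ) (x : Cfg n) (z : Fin n → ℝ) : Fin n → ℝ :=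
  fun j => t * spin (x j) + Real.sqrt t * z j

namespace FieldAux

lemma shift (i : Fin n) (κ : ℝ) (F : (Fin n → ℝ) → ℝ) :
    ∫ z, F (z + Pi.single i κ) ∂gauss (Fin n) =
      ∫ z, Real.exp (κ * z i - κ ^ 2 / 2) * F z ∂gauss (Fin n) := by
  rw [Channel.translate]
  simp [dot, Channel.nsq, Pi.single_apply, ite_pow]

lemma mgf_coord (i : Fin n) (a : ℝ) :
    ∫ z, Real.exp (a * z i) ∂gauss (Fin n) = Real.exp (a ^ 2 / 2) := by
  simpa [dot, Pi.single_apply, ite_pow] using mgf_dot (ι := Fin n) (Pi.single i a)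

lemma integrable_exp (i : Fin n) (a c : ℝ) {f : (Fin n → ℝ) → ℝ} (hf : Continuous f) {B : ℝ}
    (hb : ∀ z, |f z| ≤ B) : Integrable (fun z => Real.exp (a * z i + c) * f z) (gauss (Fin n)) := by
  refine integrable_of_bound (C := Real.exp c * B) (M := |a|) (by fun_prop) fun z => ?_
  rw [abs_mul, Real.abs_exp]
  refine (mul_le_mul (Real.exp_le_exp.2 (add_le_add_left ((le_abs_self (a * z i)).trans
    ((abs_mul a (z i)).trans_le (mul_le_mul_of_nonneg_left (abs_le_l1 z i) (abs_nonneg a)))) c))
    (hb z) (abs_nonneg _) (Real.exp_pos _).le).trans_eq ?_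
  rw [Real.exp_add]; ring

lemma integrable_bdd {f : (Fin n → ℝ) → ℝ} (hf : Continuous f) {B : ℝ} (hb : ∀ z, |f z| ≤ B) :
    Integrable f (gauss (Fin n)) :=
  integrable_of_bound (M := 0) hf fun z => by simpa using hb z

/-- Cauchy's inequality against a likelihood ratio -/
lemma cauchy_shift (i : Fin n) (κ : ℝ) {f : (Fin n → ℝ) → ℝ} (hf : Continuous f) {B : ℝ}
    (hb : ∀ z, |f z| ≤ B) :
    (∫ z, Real.exp (κ * z i - κ ^ 2 / 2) * f z ∂gauss (Fin n)) ^ 2 ≤
      Real.exp (κ ^ 2) * ∫ z, f z ^ 2 ∂gauss (Fin n) := by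
  set L := fun z : Fin n → ℝ => Real.exp (κ * z i - κ ^ 2 / 2)
  set I := ∫ z, L z * f z ∂gauss (Fin n) with hI
  set E := Real.exp (κ ^ 2)
  have hL : ∀ z, L z ^ 2 = Real.exp (-κ ^ 2) * Real.exp (2 * κ * z i) := fun z => by
    simp only [L, ← Real.exp_nat_mul, ← Real.exp_add]; congr 1; push_cast; ring
  have h2 : ∫ z, L z ^ 2 ∂gauss (Fin n) = E := by
    simp only [hL]
    rw [integral_const_mul, mgf_coord, ← Real.exp_add]
    simp only [E]; congr 1; ring
  have iL : Integrable (fun z => L z ^ 2) (gauss (Fin n)) := by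
    have := integrable_exp i (2 * κ) (-κ ^ 2) (f := fun _ => (1 : ℝ)) continuous_const (B := 1) (by simp)
    refine this.congr (Filter.Eventually.of_forall fun z => ?_)
    simp only [hL, mul_one, Real.exp_add]; ring
  have iLf : Integrable (fun z => L z * f z) (gauss (Fin n)) := by
    simpa only [L, sub_eq_add_neg] using integrable_exp i κ (-(κ ^ 2 / 2)) hf hb
  have if2 : Integrable (fun z => f z ^ 2) (gauss (Fin n)) :=
    integrable_bdd (hf.pow 2) (B := B ^ 2) fun z => by
      rw [abs_pow]; exact pow_le_pow_left₀ (abs_nonneg _) (hb z) 2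
  have h0 : 0 ≤ ∫ z, (f z - I / E * L z) ^ 2 ∂gauss (Fin n) := integral_nonneg fun z => sq_nonneg _
  have e : ∀ z, (f z - I / E * L z) ^ 2 = f z ^ 2 - 2 * (I / E) * (L z * f z) + (I / E) ^ 2 * L z ^ 2 :=
    fun z => by ring
  simp only [e] at h0
  rw [integral_add (show Integrable (fun z => f z ^ 2 - 2 * (I / E) * (L z * f z)) (gauss (Fin n)) from
      if2.sub (iLf.const_mul _)) (iL.const_mul _),
    integral_sub if2 (iLf.const_mul _), integral_const_mul, integral_const_mul, h2, ← hI] at h0
  have hE : 0 < E := Real.exp_pos _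
  have e2 : E * (∫ z, f z ^ 2 ∂gauss (Fin n)) - I ^ 2 =
      E * ((∫ z, f z ^ 2 ∂gauss (Fin n)) - 2 * (I / E) * I + (I / E) ^ 2 * E) := by field_simp; ring
  exact sub_nonneg.1 (e2.ge.trans' (mul_nonneg hE.le h0))

lemma continuous_mag (J : Fin n → Fin n → ℝ) (i : Fin n) (x : Cfg n) :
    Continuous fun b => mag J b i x :=
  (continuous_iff_continuousAt.2 fun a => (hasDerivAt_tanh' a).continuousAt).comp
    (by unfold fld; fun_prop : Continuous fun b => fld J b i x)

/-- the posterior mean of a spin averages to the prior mean -/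
lemma mean_post (i : Fin n) {t : ℝ} (ht : 0 ≤ t) (h : ℝ) :
    (1 + Real.tanh h) * (∫ z, Real.tanh (h + (t + Real.sqrt t * z i)) ∂gauss (Fin n)) +
      (1 - Real.tanh h) * (∫ z, Real.tanh (h + (-t + Real.sqrt t * z i)) ∂gauss (Fin n)) =
      2 * Real.tanh h := by
  set s := Real.sqrt t
  have hs : s ^ 2 = t := Real.sq_sqrt ht
  have hTc : Continuous fun z : Fin n → ℝ => Real.tanh (h + s * z i) :=
    (continuous_iff_continuousAt.2 fun a => (hasDerivAt_tanh' a).continuousAt).comp (by fun_prop)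
  have hsh : ∀ κ, ∫ z, Real.tanh (h + (s * κ + s * z i)) ∂gauss (Fin n) =
      ∫ z, Real.exp (κ * z i - κ ^ 2 / 2) * Real.tanh (h + s * z i) ∂gauss (Fin n) := fun κ => by
    rw [← shift i κ fun z => Real.tanh (h + s * z i)]
    simp [mul_add, add_comm]
  have hi : ∀ κ, Integrable (fun z => Real.exp (κ * z i - κ ^ 2 / 2) * Real.tanh (h + s * z i))
      (gauss (Fin n)) := fun κ => by
    simpa only [sub_eq_add_neg] using
      integrable_exp i κ (-(κ ^ 2 / 2)) hTc (B := 1) fun z => (tanh_abs_lt _).le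
  have key : ∀ u, ((1 + Real.tanh h) * Real.exp u + (1 - Real.tanh h) * Real.exp (-u)) * Real.tanh (h + u) =
      (1 + Real.tanh h) * Real.exp u - (1 - Real.tanh h) * Real.exp (-u) := fun u => by
    obtain ⟨p, q⟩ := tanh_eq h
    obtain ⟨p', q'⟩ := tanh_eq (h + u)
    refine mul_left_cancel₀ (Real.cosh_pos h).ne' ?_
    rw [← mul_assoc, mul_add, mul_sub, ← mul_assoc, ← mul_assoc, p, q, ← Real.exp_add, ← Real.exp_add,
      ← neg_add, ← p', ← q']
    ring
  have h1 := hsh s
  have h2 := hsh (-s)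
  rw [show s * s = t by rw [← hs]; ring] at h1
  rw [show s * -s = -t by rw [← hs]; ring] at h2
  rw [h1, h2, ← integral_const_mul, ← integral_const_mul,
    ← integral_add ((hi s).const_mul _) ((hi (-s)).const_mul _)]
  have e : ∀ z : Fin n → ℝ,
      (1 + Real.tanh h) * (Real.exp (s * z i - s ^ 2 / 2) * Real.tanh (h + s * z i)) +
        (1 - Real.tanh h) * (Real.exp (-s * z i - (-s) ^ 2 / 2) * Real.tanh (h + s * z i)) =
      Real.exp (-(s ^ 2 / 2)) * (1 + Real.tanh h) * Real.exp (s * z i) -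
        Real.exp (-(s ^ 2 / 2)) * (1 - Real.tanh h) * Real.exp (-s * z i) := fun z => by
    have := key (s * z i)
    rw [← neg_mul] at this
    simp only [neg_sq, sub_eq_add_neg (a := s * z i), sub_eq_add_neg (a := -s * z i), Real.exp_add]
    linear_combination Real.exp (-(s ^ 2 / 2)) * this
  simp only [e]
  have iE : ∀ a, Integrable (fun z : Fin n → ℝ => Real.exp (a * z i)) (gauss (Fin n)) := fun a => by
    simpa using integrable_exp i a 0 (f := fun _ => (1 : ℝ)) continuous_const (B := 1) (by simp)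
  rw [integral_sub ((iE s).const_mul _) ((iE (-s)).const_mul _), integral_const_mul, integral_const_mul,
    mgf_coord, mgf_coord, neg_sq, Real.exp_neg]
  field_simp
  ring

end FieldAux

open FieldAux

variable {J : Fin n → Fin n → ℝ} {b : Fin n → ℝ}

/-- the law of the observation and the posterior: `x ~ wt J b` observed through the channel is `z` with
law `mix · gauss` and then `x ~ wt J (b + √t z)` -/
theorem mix_mul_wt (J : Fin n → Fin n → ℝ) (b : Fin n → ℝ) (θ : ℝ) (z : Fin n → ℝ) (x : Cfg n) :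
    mix (wt J b) (fun (y : Cfg n) i => spin (y i)) θ z * wt J (b + θ • z) x =
      wt J b x * ker (fun (y : Cfg n) i => spin (y i)) θ z x := by
  have hq : ∀ y, Real.exp (qE J (b + θ • z) y) =
      Real.exp (qE J b y) * ker (fun (y : Cfg n) i => spin (y i)) θ z y * Real.exp (θ ^ 2 / 2 * n) := fun y => by
    rw [ker, ← Real.exp_add, ← Real.exp_add]
    congr 1
    simp only [qE, dot, Pi.add_apply, Pi.smul_apply, smul_eq_mul, sq (spin _), spin_mul_self,
      Finset.sum_const, Finset.card_univ, Fintype.card_fin, nsmul_eq_mul, mul_one, Finset.mul_sum,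
      add_mul, Finset.sum_add_distrib]
    rw [Finset.sum_congr rfl fun k (_ : k ∈ Finset.univ) =>
      (show θ * z k * spin (y k) = θ * (spin (y k) * z k) by ring)]
    ring
  have hZ : (0 : ℝ) < ∑ y : Cfg n, Real.exp (qE J b y) :=
    Finset.sum_pos (fun _ _ => Real.exp_pos _) Finset.univ_nonempty
  have hS : (0 : ℝ) < ∑ y : Cfg n, Real.exp (qE J b y) * ker (fun (y : Cfg n) i => spin (y i)) θ z y :=
    Finset.sum_pos (fun _ _ => mul_pos (Real.exp_pos _) (ker_pos _ _ _ _)) Finset.univ_nonempty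
  simp only [mix, wt, hq, ← Finset.sum_mul, div_mul_eq_mul_div, ← Finset.sum_div]
  have := Real.exp_pos (θ ^ 2 / 2 * n)
  field_simp

/-- Bayes: averaging over `x ~ wt J b` and its observation, either order -/
theorem bayes {t : ℝ} (ht : 0 ≤ t) (Φ : Cfg n → (Fin n → ℝ) → ℝ) (hc : ∀ x, Continuous (Φ x)) {B : ℝ}
    (hb : ∀ x y, |Φ x y| ≤ B) :
    ∫ z, ∑ x, wt J b x * Φ x (yob t x z) ∂gauss (Fin n) =
      ∫ z, mix (wt J b) (fun (y : Cfg n) i => spin (y i)) (Real.sqrt t) z *
        ∑ x, wt J (b + Real.sqrt t • z) x * Φ x (Real.sqrt t • z) ∂gauss (Fin n) := by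
  set s := Real.sqrt t
  have hyc : ∀ x : Cfg n, Continuous (yob t x) := fun x => by unfold yob; fun_prop
  have hi1 : ∀ x, Integrable (fun z => wt J b x * Φ x (yob t x z)) (gauss (Fin n)) := fun x =>
    (integrable_bdd ((hc x).comp (hyc x)) fun z => hb x _).const_mul _
  have hsh : ∀ x, ∫ z, Φ x (yob t x z) ∂gauss (Fin n) =
      ∫ z, ker (fun (y : Cfg n) i => spin (y i)) s z x * Φ x (s • z) ∂gauss (Fin n) := fun x => by
    have e := Channel.translate (fun k => s * spin (x k)) fun z => Φ x (s • z)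
    have e1 : ∀ z : Fin n → ℝ, (s • (z + fun k => s * spin (x k))) = yob t x z := fun z => funext fun k => by
      simp only [yob, Pi.smul_apply, Pi.add_apply, smul_eq_mul, s]
      linear_combination spin (x k) * Real.mul_self_sqrt ht
    simp only [e1] at e
    rw [e]
    refine integral_congr_ae (Filter.Eventually.of_forall fun z => ?_)
    simp only [ker, dot, Channel.nsq, Finset.mul_sum, mul_pow, Finset.sum_div]
    congr 2
    exact congrArg₂ _ (Finset.sum_congr rfl fun k _ => by ring) (Finset.sum_congr rfl fun k _ => by ring)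
  have hi2 : ∀ x, Integrable (fun z => wt J b x *
      (ker (fun (y : Cfg n) i => spin (y i)) s z x * Φ x (s • z))) (gauss (Fin n)) := fun x => by
    refine (integrable_of_bound (C := Real.exp 0 * B) (M := |s|) ?_ fun z => ?_).const_mul _
    · have := (hc x).comp (continuous_const_smul s)
      unfold ker dot
      fun_prop
    · rw [abs_mul, abs_of_pos (ker_pos _ _ _ _), Real.exp_zero, one_mul, mul_comm B]
      refine mul_le_mul (Real.exp_le_exp.2 ?_) (hb x _) (abs_nonneg _) (Real.exp_pos _).le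
      have h1 : s * dot (fun k => spin (x k)) z ≤ |s| * (1 * l1 z) := (le_abs_self _).trans (by
        rw [abs_mul]
        exact mul_le_mul_of_nonneg_left (abs_dot_le (fun k => by cases x k <;> simp [spin]) z) (abs_nonneg _))
      have h2 : (0 : ℝ) ≤ s ^ 2 / 2 * ∑ k, spin (x k) ^ 2 := by positivity
      linarith
  rw [integral_finsetSum _ fun x _ => hi1 x]
  simp only [integral_const_mul, hsh]
  simp only [← integral_const_mul]
  rw [← integral_finsetSum _ fun x _ => hi2 x]
  refine integral_congr_ae (Filter.Eventually.of_forall fun z => ?_)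
  simp only [Finset.mul_sum]
  exact Finset.sum_congr rfl fun x _ => by rw [← mul_assoc, ← mul_assoc, ← mix_mul_wt J b s z x]

/-- conditional variances average to at most the variance -/
theorem tilt_dir (hs : ∀ i j, J i j = J j i) (hd : ∀ i, J i i = 0) {t : ℝ} (ht : 0 ≤ t) (g : Cfg n → ℝ) :
    ∫ z, ∑ x, wt J b x * ∑ i, (1 - mag J (b + yob t x z) i x ^ 2) * dd i g x ^ 2 ∂gauss (Fin n) ≤
      dir J b g := by
  have hT : ∀ (i : Fin n) (x : Cfg n) z, mag J (b + yob t x z) i x =
      Real.tanh (fld J b i x + (t * spin (x i) + Real.sqrt t * z i)) := fun i x z => by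
    simp only [mag, fld, yob, Pi.add_apply]; ring_nf
  have hcy : ∀ i (x : Cfg n), Continuous fun z => mag J (b + yob t x z) i x := fun i x =>
    (continuous_mag J i x).comp (by unfold yob; fun_prop)
  have hbd : ∀ (c : Fin n → ℝ) i x, |mag J c i x| ≤ 1 := fun c i x => (tanh_abs_lt _).le
  have hit : ∀ i x, Integrable (fun z => mag J (b + yob t x z) i x) (gauss (Fin n)) := fun i x =>
    integrable_bdd (hcy i x) fun z => hbd _ i x
  have hi : ∀ i x, Integrable (fun z => wt J b x * ((1 - mag J (b + yob t x z) i x ^ 2) * dd i g x ^ 2))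
      (gauss (Fin n)) := fun i x =>
    (((integrable_bdd (show Continuous fun z => 1 - mag J (b + yob t x z) i x ^ 2 from
      continuous_const.sub ((hcy i x).pow 2)) (B := 1) fun z => abs_le.2
      ⟨by linarith [(mag_sq J (b + yob t x z) i x).1], (mag_sq J (b + yob t x z) i x).2⟩).mul_const _).const_mul _)
  simp only [Finset.mul_sum]
  rw [integral_finsetSum _ fun x _ => integrable_finsetSum _ fun i _ => hi i x,
    Finset.sum_congr rfl fun x (_ : x ∈ Finset.univ) => integral_finsetSum _ fun i _ => hi i x,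
    Finset.sum_comm]
  refine Finset.sum_le_sum fun i _ => ?_
  set T := fun x => ∫ z, mag J (b + yob t x z) i x ∂gauss (Fin n) with hTd
  have h1 : ∀ x, ∫ z, wt J b x * ((1 - mag J (b + yob t x z) i x ^ 2) * dd i g x ^ 2) ∂gauss (Fin n) ≤
      wt J b x * ((1 - mag J b i x ^ 2) * dd i g x ^ 2) +
        2 * (wt J b x * (dd i g x ^ 2 * mag J b i x * (mag J b i x - T x))) := fun x => by
    have hw := wt_pos J b x
    set m := mag J b i x
    set D := dd i g x ^ 2
    have hD : 0 ≤ D := sq_nonneg _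
    refine (integral_mono (hi i x) (((((hit i x).const_mul (-2 * m)).fun_add
      (integrable_const (1 + m ^ 2))).mul_const D).const_mul (wt J b x)) fun z => ?_).trans_eq ?_
    · refine mul_le_mul_of_nonneg_left (mul_le_mul_of_nonneg_right ?_ hD) hw.le
      nlinarith [sq_nonneg (mag J (b + yob t x z) i x - m)]
    · rw [integral_const_mul, integral_mul_const, integral_add ((hit i x).const_mul _) (integrable_const _),
        integral_const_mul, integral_const]
      simp [hTd]; ring
  refine (Finset.sum_le_sum fun x _ => h1 x).trans (le_of_eq ?_)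
  rw [Finset.sum_add_distrib, ← Finset.mul_sum]
  have h2 : ∑ x, wt J b x * (dd i g x ^ 2 * mag J b i x * (mag J b i x - T x)) = 0 := by
    rw [sum_half i]
    refine div_eq_zero_iff.2 (Or.inl (Finset.sum_eq_zero fun x _ => ?_))
    have hm := mean_post i ht (fld J b i x)
    simp only [hTd, hT, wt_update b hs hd, dd_update, mag_update b hd, fld_update_self b hd,
      Function.update_self]
    simp only [show spin true = 1 from rfl, show spin false = -1 from rfl, mul_one, mul_neg]
    simp only [mag] at hm ⊢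
    linear_combination (-(wt J b x * Real.exp (-(fld J b i x * spin (x i))) * Real.cosh (fld J b i x)) *
      dd i g x ^ 2 * Real.tanh (fld J b i x)) * hm
  rw [h2, mul_zero, add_zero]

/-- the Dirichlet forms of the posteriors average to at most the Dirichlet form -/
theorem tilt_dir_post (hs : ∀ i j, J i j = J j i) (hd : ∀ i, J i i = 0) {t : ℝ} (ht : 0 ≤ t)
    (g : Cfg n → ℝ) :
    ∫ z, mix (wt J b) (fun (y : Cfg n) i => spin (y i)) (Real.sqrt t) z *
        dir J (b + Real.sqrt t • z) g ∂gauss (Fin n) ≤ dir J b g := by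
  refine le_of_eq_of_le ?_ (tilt_dir (b := b) hs hd ht g)
  rw [bayes ht (fun x y => ∑ i, (1 - mag J (b + y) i x ^ 2) * dd i g x ^ 2)
    (fun x => continuous_finsetSum _ fun i _ => (continuous_const.sub
      (((continuous_mag J i x).comp (by fun_prop : Continuous fun y : Fin n → ℝ => b + y)).pow 2)).mul_const _)
    (B := ∑ y : Cfg n, ∑ i, dd i g y ^ 2) fun x y => ?_]
  · refine integral_congr_ae (Filter.Eventually.of_forall fun z => ?_)
    simp only [dir, Finset.mul_sum]
    rw [Finset.sum_comm]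
  · rw [abs_of_nonneg (Finset.sum_nonneg fun i _ => mul_nonneg (mag_sq J _ i x).1 (sq_nonneg _))]
    exact (Finset.sum_le_sum fun i _ => mul_le_of_le_one_left (sq_nonneg _) (mag_sq J _ i x).2).trans
      (Finset.single_le_sum (f := fun y : Cfg n => ∑ i, dd i g y ^ 2)
        (fun y _ => Finset.sum_nonneg fun i _ => sq_nonneg _) (Finset.mem_univ x))

/-! ### derivative of the chain in the field -/

/-- derivative of `Kpow J b R h x` in the field at site `i` -/
noncomputable def dKpow (J : Fin n → Fin n → ℝ) (b : Fin n → ℝ) (i : Fin n) (h : Cfg n → ℝ) :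
    ℕ → Cfg n → ℝ
  | 0 => fun _ => 0
  | R + 1 => fun x =>
      K J b (dKpow J b i h R) x + (1 - mag J b i x ^ 2) * dd i (Kpow J b R h) x / n

theorem hasDerivAt_Kpow (J : Fin n → Fin n → ℝ) (b : Fin n → ℝ) (i : Fin n) (h : Cfg n → ℝ) (R : ℕ)
    (θ : ℝ) (x : Cfg n) :
    HasDerivAt (fun s => Kpow J (b + Pi.single i s) R h x) (dKpow J (b + Pi.single i θ) i h R x) θ := by
  induction R generalizing x with
  | zero => exact hasDerivAt_const θ (h x)
  | succ R ih =>
    set c := b + Pi.single i θ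
    have hm : ∀ k, HasDerivAt (fun s => mag J (b + Pi.single i s) k x)
        ((1 - mag J c k x ^ 2) * (if k = i then 1 else 0)) θ := fun k => by
      have hf : HasDerivAt (fun s => fld J (b + Pi.single i s) k x) (if k = i then 1 else 0) θ := by
        simp only [fld, Pi.add_apply, Pi.single_apply]
        by_cases hk : k = i
        · simp only [hk, if_true]
          exact ((hasDerivAt_id θ).const_add (b i)).const_add _
        · simp only [hk, if_false]
          exact hasDerivAt_const _ _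
      simp only [mag]
      exact (hasDerivAt_tanh' (fld J c k x)).comp θ hf
    have hq : ∀ k, HasDerivAt (fun s => qb (b + Pi.single i s) J k (Kpow J (b + Pi.single i s) R h) x)
        (qb c J k (dKpow J c i h R) x +
          if k = i then (1 - mag J c k x ^ 2) * dd k (Kpow J c R h) x else 0) θ := fun k => by
      simp only [qb_eq]
      refine (((((hm k).const_add 1).mul (ih (Function.update x k true))).fun_add
        (((hm k).const_sub 1).mul (ih (Function.update x k false)))).div_const 2).congr_deriv ?_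
      split_ifs <;> simp only [dd, c] <;> ring
    simp only [Grad.Kpow_succ, K]
    refine ((HasDerivAt.fun_sum fun k (_ : k ∈ Finset.univ) => hq k).div_const (n : ℝ)).congr_deriv ?_
    simp [dKpow, K, c, Finset.sum_add_distrib, add_div]

lemma FieldAux.sq_K_le (J : Fin n → Fin n → ℝ) (b : Fin n → ℝ) (f : Cfg n → ℝ) (x : Cfg n) :
    K J b f x ^ 2 ≤ K J b (fun y => f y ^ 2) x := by
  rcases Nat.eq_zero_or_pos n with rfl | hn
  · simp [K]
  have hn' : (0 : ℝ) < n := Nat.cast_pos.2 hn
  rw [K, K, div_pow, div_le_div_iff₀ (by positivity) hn', pow_two (n : ℝ), ← mul_assoc]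
  refine mul_le_mul_of_nonneg_right ?_ hn'.le
  refine (sq_sum_le_card_mul_sum_sq (s := (Finset.univ : Finset (Fin n)))
    (f := fun i => qb b J i f x)).trans ?_
  rw [Finset.card_univ, Fintype.card_fin, mul_comm]
  refine mul_le_mul_of_nonneg_right (Finset.sum_le_sum fun i _ => ?_) hn'.le
  rw [qb_eq, qb_eq]
  linarith [mul_nonneg (mag_sq J b i x).1
    (sq_nonneg (f (Function.update x i true) - f (Function.update x i false)))]

/-- the field gradient of the chain is bounded -/
theorem sum_dKpow_sq_le {L A : ℝ} (hJ : Tame J L) {h : Cfg n → ℝ} (hA : ∀ y, gam h y ≤ A) (R : ℕ)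
    (x : Cfg n) :
    ∑ i, dKpow J b i h R x ^ 2 ≤ ((R : ℝ) / n) ^ 2 * ((1 + gradC L / n) ^ R * A) := by
  induction R generalizing x with
  | zero => simp [dKpow]
  | succ R ih =>
    set r := 1 + gradC L / (n : ℝ)
    have hr1 : 1 ≤ r := le_add_of_nonneg_right (div_nonneg (gradC_nonneg L) (Nat.cast_nonneg n))
    have hA0 : 0 ≤ A := (gam_nonneg h x).trans (hA x)
    set p := fun i => K J b (dKpow J b i h R) x
    set q := fun i => (1 - mag J b i x ^ 2) * dd i (Kpow J b R h) x / (n : ℝ)
    have hp : ∑ i, p i ^ 2 ≤ ((R : ℝ) / n) ^ 2 * (r ^ R * A) := by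
      refine (Finset.sum_le_sum fun i _ => sq_K_le J b (dKpow J b i h R) x).trans ?_
      refine le_of_eq_of_le ?_ ((K_mono (J := J) b ih x).trans (K_const_le (J := J) b (by positivity) x))
      simp only [K, qb_eq, Finset.mul_sum, ← Finset.sum_add_distrib, ← Finset.sum_div]
      rw [Finset.sum_comm]
    have hq : ∑ i, q i ^ 2 ≤ (1 / (n : ℝ)) ^ 2 * (r ^ R * A) := by
      refine le_trans ?_ (mul_le_mul_of_nonneg_left (gam_Kpow_le b hJ hA R x) (sq_nonneg _))
      rw [gam, Finset.mul_sum]
      refine Finset.sum_le_sum fun i _ => ?_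
      obtain ⟨m0, m1⟩ := mag_sq J b i x
      simp only [q, mul_div_assoc, mul_pow, div_pow, one_pow, one_div_mul_eq_div]
      exact mul_le_of_le_one_left (by positivity) (pow_le_one₀ m0 m1)
    have hρ : r ^ R * A ≤ r ^ (R + 1) * A :=
      mul_le_mul_of_nonneg_right (pow_le_pow_right₀ hr1 R.le_succ) hA0
    have hsum : ∑ i, (p i + q i) ^ 2 ≤ (((R + 1 : ℕ) : ℝ) / n) ^ 2 * (r ^ R * A) := by
      rcases Nat.eq_zero_or_pos R with hR | hR
      · have hp0 : ∀ i, p i = 0 := fun i => by simp [p, hR, dKpow, K, qb_eq]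
        simpa [hp0, hR] using hq
      have hR' : (0 : ℝ) < R := Nat.cast_pos.2 hR
      have h2 : ∀ i, (p i + q i) ^ 2 ≤ (R + 1) / R * p i ^ 2 + (R + 1) * q i ^ 2 := fun i => by
        rw [← sub_nonneg]
        refine le_of_le_of_eq (div_nonneg (sq_nonneg (p i - R * q i)) hR'.le) ?_
        field_simp; ring
      refine (Finset.sum_le_sum fun i _ => h2 i).trans ?_
      rw [Finset.sum_add_distrib, ← Finset.mul_sum, ← Finset.mul_sum]
      refine (add_le_add (mul_le_mul_of_nonneg_left hp (by positivity))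
        (mul_le_mul_of_nonneg_left hq (by positivity))).trans_eq ?_
      push_cast
      field_simp
    exact hsum.trans (mul_le_mul_of_nonneg_left hρ (sq_nonneg _))

namespace FieldAux

lemma continuous_Kpow (J : Fin n → Fin n → ℝ) (h : Cfg n → ℝ) (R : ℕ) (x : Cfg n) :
    Continuous fun b => Kpow J b R h x := by
  induction R generalizing x with
  | zero => exact continuous_const
  | succ R ih =>
    simp only [Grad.Kpow_succ, K, qb_eq]
    refine (continuous_finsetSum _ fun k _ => ?_).div_const _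
    exact ((((continuous_const.add (continuous_mag J k x)).mul (ih _))).add
      (((continuous_const.sub (continuous_mag J k x)).mul (ih _)))).div_const _

lemma continuous_dd_Kpow (J : Fin n → Fin n → ℝ) (i : Fin n) (h : Cfg n → ℝ) (R : ℕ) (x : Cfg n) :
    Continuous fun b => dd i (Kpow J b R h) x :=
  ((continuous_Kpow J h R _).sub (continuous_Kpow J h R _)).div_const _

lemma continuous_dKpow (J : Fin n → Fin n → ℝ) (i : Fin n) (h : Cfg n → ℝ) (R : ℕ) (x : Cfg n) :
    Continuous fun b => dKpow J b i h R x := by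
  induction R generalizing x with
  | zero => exact continuous_const
  | succ R ih =>
    simp only [dKpow, K, qb_eq]
    refine ((continuous_finsetSum _ fun k _ => ?_).div_const _).add
      (((continuous_const.sub ((continuous_mag J i x).pow 2)).mul (continuous_dd_Kpow J i h R x)).div_const _)
    exact ((((continuous_const.add (continuous_mag J k x)).mul (ih _))).add
      (((continuous_const.sub (continuous_mag J k x)).mul (ih _)))).div_const _

lemma abs_Kpow_le (J : Fin n → Fin n → ℝ) (b : Fin n → ℝ) (h : Cfg n → ℝ) (R : ℕ) (x : Cfg n) :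
    |Kpow J b R h x| ≤ ∑ y, |h y| := by
  set B := ∑ y, |h y|
  induction R generalizing x with
  | zero => exact Finset.single_le_sum (f := fun y => |h y|) (fun _ _ => abs_nonneg _) (Finset.mem_univ x)
  | succ R ih =>
    rw [Grad.Kpow_succ]
    have hB : 0 ≤ B := Finset.sum_nonneg fun _ _ => abs_nonneg _
    have up := (K_mono b (J := J) (g := fun _ => B) (fun y => (abs_le.1 (ih y)).2) x).trans (K_const_le b hB x)
    have e : ∀ f : Cfg n → ℝ, K J b (fun y => -f y) x = -K J b f x := fun f => by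
      simp only [K, qb_eq, ← neg_div, ← Finset.sum_neg_distrib]
      congr 1
      exact Finset.sum_congr rfl fun i _ => by ring
    have lo := (K_mono b (J := J) (f := fun y => -Kpow J b R h y) (g := fun _ => B)
      (fun y => neg_le.1 (abs_le.1 (ih y)).1) x).trans (K_const_le b hB x)
    rw [e] at lo
    exact abs_le.2 ⟨neg_le.1 lo, up⟩

lemma dd_flip (i : Fin n) (f : Cfg n → ℝ) (x : Cfg n) :
    (f x - f (flip i x)) ^ 2 = 4 * dd i f x ^ 2 := by
  cases hx : x i
  · have e : Function.update x i false = x := by rw [← hx, Function.update_eq_self]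
    simp only [dd, flip, hx, e, Bool.not_false]; ring
  · have e : Function.update x i true = x := by rw [← hx, Function.update_eq_self]
    simp only [dd, flip, hx, e, Bool.not_true]; ring

lemma yob_add_single (b : Fin n → ℝ) (t : ℝ) (x : Cfg n) (i : Fin n) (z : Fin n → ℝ) (s : ℝ) :
    b + yob t x (z + Pi.single i s) = b + yob t x z + Pi.single i (Real.sqrt t * s) := funext fun k => by
  simp only [yob, Pi.add_apply, Pi.single_apply]
  split_ifs <;> ring

lemma yob_flip (b : Fin n → ℝ) {t : ℝ} (ht : 0 ≤ t) (x : Cfg n) (i : Fin n) (z : Fin n → ℝ) :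
    b + yob t (flip i x) z = b + yob t x (z + Pi.single i (-2 * Real.sqrt t * spin (x i))) := funext fun k => by
  rw [yob_add_single]
  simp only [flip, yob, Pi.add_apply, Pi.single_apply]
  by_cases hk : k = i
  · subst hk
    rw [Function.update_self, spin_not, if_pos rfl]
    linear_combination 2 * spin (x k) * Real.mul_self_sqrt ht
  · rw [Function.update_of_ne hk, if_neg hk, add_zero]

/-- moving the noise at one site changes a Gaussian average by at most its derivative -/
lemma noise_move (i : Fin n) {Φ Φ' : (Fin n → ℝ) → ℝ} (hc : Continuous Φ) (hc' : Continuous Φ')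
    {B₀ B : ℝ} (hb₀ : ∀ z, |Φ z| ≤ B₀) (hb : ∀ z, |Φ' z| ≤ B)
    (hd : ∀ (z : Fin n → ℝ) (s : ℝ),
      HasDerivAt (fun u => Φ (z + Pi.single i u)) (Φ' (z + Pi.single i s)) s) (κ : ℝ) :
    ((∫ z, Φ z ∂gauss (Fin n)) - ∫ z, Φ (z + Pi.single i κ) ∂gauss (Fin n)) ^ 2 ≤
      κ ^ 2 * (Real.exp (κ ^ 2) * ∫ z, Φ' z ^ 2 ∂gauss (Fin n)) := by
  have hψ : ∀ s, HasDerivAt (fun u => ∫ z, Φ (z + Pi.single i u) ∂gauss (Fin n))
      (∫ z, Φ' (z + Pi.single i s) ∂gauss (Fin n)) s := fun s =>
    hasDerivAt_gauss_integral (F := fun u z => Φ (z + Pi.single i u)) (F' := fun u z => Φ' (z + Pi.single i u))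
      (C := B) (M := 0) (C₀ := B₀) (M₀ := 0) (θ₀ := s) (fun u => hc.comp' (by fun_prop))
      (fun u => hc'.comp' (by fun_prop)) (fun z => by simpa using hb₀ _) (fun u _ z => by simpa using hb _)
      fun u z => hd z u
  have hD : 0 ≤ ∫ z, Φ' z ^ 2 ∂gauss (Fin n) := integral_nonneg fun z => sq_nonneg _
  have hbd : ∀ s ∈ Set.uIcc 0 κ, ‖∫ z, Φ' (z + Pi.single i s) ∂gauss (Fin n)‖ ≤
      Real.sqrt (Real.exp (κ ^ 2) * ∫ z, Φ' z ^ 2 ∂gauss (Fin n)) := fun s hsm => by
    rw [Real.norm_eq_abs]
    refine Real.abs_le_sqrt ?_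
    rw [shift i s Φ']
    refine (cauchy_shift i s hc' hb).trans (mul_le_mul_of_nonneg_right (Real.exp_le_exp.2 ?_) hD)
    have := Set.abs_sub_left_of_mem_uIcc hsm
    simpa [sq_le_sq] using this
  have hmv := (convex_uIcc (0 : ℝ) κ).norm_image_sub_le_of_norm_hasDerivWithin_le
    (fun s _ => (hψ s).hasDerivWithinAt) hbd Set.left_mem_uIcc Set.right_mem_uIcc
  rw [Real.norm_eq_abs, Real.norm_eq_abs, sub_zero] at hmv
  have h2 := pow_le_pow_left₀ (abs_nonneg _) hmv 2
  rw [mul_pow, sq_abs, sq_abs, Real.sq_sqrt (by positivity)] at h2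
  simp only [Pi.single_zero, add_zero] at h2
  rw [sub_sq_comm]
  linarith

lemma scale_deriv {f : ℝ → ℝ} {f' a s : ℝ} (hf : HasDerivAt f f' (a * s)) :
    HasDerivAt (fun u => f (a * u)) (a * f') s :=
  (hf.comp s ((hasDerivAt_id' s).const_mul a)).congr_deriv (by ring)

lemma hasDerivAt_Kpow_scale (J : Fin n → Fin n → ℝ) (c : Fin n → ℝ) (i : Fin n) (h : Cfg n → ℝ) (R : ℕ)
    (x : Cfg n) (a s : ℝ) :
    HasDerivAt (fun u => Kpow J (c + Pi.single i (a * u)) R h x)
      (a * dKpow J (c + Pi.single i (a * s)) i h R x) s :=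
  scale_deriv (hasDerivAt_Kpow J c i h R (a * s) x)

/-- `noise_move` for the averaged chain -/
lemma shift_move (J : Fin n → Fin n → ℝ) (b : Fin n → ℝ) {t : ℝ} (ht : 0 ≤ t) (i : Fin n)
    (h : Cfg n → ℝ) (R : ℕ) (x : Cfg n) {B : ℝ} (hB : ∀ b', |dKpow J b' i h R x| ≤ B) (κ : ℝ) :
    ((∫ z, Kpow J (b + yob t x z) R h x ∂gauss (Fin n)) -
        ∫ z, Kpow J (b + yob t x (z + Pi.single i κ)) R h x ∂gauss (Fin n)) ^ 2 ≤
      κ ^ 2 * (t * (Real.exp (κ ^ 2) * ∫ z, dKpow J (b + yob t x z) i h R x ^ 2 ∂gauss (Fin n))) := by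
  have hyc : Continuous fun z => b + yob t x z := by unfold yob; fun_prop
  refine (noise_move i (Φ := fun z => Kpow J (b + yob t x z) R h x)
    (Φ' := fun z => Real.sqrt t * dKpow J (b + yob t x z) i h R x)
    ((continuous_Kpow J h R x).comp' hyc)
    (continuous_const.mul ((continuous_dKpow J i h R x).comp' hyc))
    (B := |Real.sqrt t| * B) (fun z => abs_Kpow_le J _ h R x)
    (fun z => by rw [abs_mul]; exact mul_le_mul_of_nonneg_left (hB _) (abs_nonneg _))
    (fun z s => ?_) κ).trans_eq ?_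
  · simp only [yob_add_single]
    exact hasDerivAt_Kpow_scale J _ i h R x _ s
  · simp only [mul_pow, Real.sq_sqrt ht, integral_const_mul]
    ring

end FieldAux

/-- the tilted chain averaged over the noise has bounded gradient in its start -/
theorem field_shift {L A : ℝ} (hJ : Tame J L) {t : ℝ} (ht : 0 ≤ t) {h : Cfg n → ℝ}
    (hA : ∀ y, gam h y ≤ A) (R : ℕ) (x : Cfg n) :
    gam (fun w => ∫ z, Kpow J (b + yob t w z) R h w ∂gauss (Fin n)) x ≤
      2 * Real.exp (4 * t) * (1 + (t * R / n) ^ 2) * (1 + gradC L / n) ^ R * A := by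
  set ρ := (1 + gradC L / (n : ℝ)) ^ R * A
  set s₀ := Real.sqrt t with hs₀
  set c := fun z => b + yob t x z with hc
  have hcc : Continuous c := by simp only [hc]; unfold yob; fun_prop
  set P := fun (w : Cfg n) z => Kpow J (c z) R h w
  set d := fun i z => dKpow J (c z) i h R x
  have hPc : ∀ w, Continuous (P w) := fun w => (continuous_Kpow J h R w).comp hcc
  have hdc : ∀ i, Continuous (d i) := fun i => (continuous_dKpow J i h R x).comp hcc
  set B := ∑ y, |h y|
  have hP : ∀ w z, |P w z| ≤ B := fun w z => abs_Kpow_le J _ h R w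
  set D₀ := ((R : ℝ) / n) ^ 2 * ρ + 1
  have hd1 : ∀ i b', |dKpow J b' i h R x| ≤ D₀ := fun i b' => by
    have h1 := (Finset.single_le_sum (f := fun k => dKpow J b' k h R x ^ 2) (fun _ _ => sq_nonneg _)
      (Finset.mem_univ i)).trans (sum_dKpow_sq_le hJ hA R x)
    have h2 := sq_nonneg (|dKpow J b' i h R x| - 1)
    rw [sub_sq, sq_abs] at h2
    simp only [D₀, ρ] at h1 ⊢
    linarith [abs_nonneg (dKpow J b' i h R x)]
  have site : ∀ i, dd i (fun w => ∫ z, Kpow J (b + yob t w z) R h w ∂gauss (Fin n)) x ^ 2 ≤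
      2 * Real.exp (4 * t) * ((∫ z, dd i (Kpow J (c z) R h) x ^ 2 ∂gauss (Fin n)) +
        t ^ 2 * ∫ z, d i z ^ 2 ∂gauss (Fin n)) := by
    intro i
    set x' := flip i x with hx'
    set κ := -2 * s₀ * spin (x i) with hκd
    have hκ2 : κ ^ 2 = 4 * t := by
      rw [hκd, mul_pow, mul_pow, hs₀, Real.sq_sqrt ht, sq (spin _), spin_mul_self]; ring
    have hflip : ∀ z, b + yob t x' z = c (z + Pi.single i κ) := fun z => yob_flip b ht x i z
    set D := ∫ z, d i z ^ 2 ∂gauss (Fin n)
    set ψ := fun s => ∫ z, Kpow J (c (z + Pi.single i s)) R h x ∂gauss (Fin n) with hψd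
    have h1 : (ψ 0 - ψ κ) ^ 2 ≤ 4 * t ^ 2 * Real.exp (4 * t) * D := by
      have := shift_move J b ht i h R x (hd1 i) κ
      rw [hκ2] at this
      simp only [hψd, hc, D, d, Pi.single_zero, add_zero]
      linarith
    set w₀ := fun z : Fin n → ℝ => Real.exp (κ * z i - κ ^ 2 / 2) with hw₀
    have hiw : ∀ w, Integrable (fun z => w₀ z * P w z) (gauss (Fin n)) := fun w => by
      simpa only [hw₀, sub_eq_add_neg] using integrable_exp i κ (-(κ ^ 2 / 2)) (hPc w) (hP w)
    have h2 : (∫ z, w₀ z * (P x z - P x' z) ∂gauss (Fin n)) ^ 2 ≤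
        4 * Real.exp (4 * t) * ∫ z, dd i (Kpow J (c z) R h) x ^ 2 ∂gauss (Fin n) := by
      refine (cauchy_shift i κ ((hPc x).sub (hPc x')) (B := B + B) fun z =>
        (abs_sub _ _).trans (add_le_add (hP x z) (hP x' z))).trans_eq ?_
      simp only [hκ2, Pi.sub_apply, P, hx', dd_flip, integral_const_mul]
      ring
    have eF : (fun w => ∫ z, Kpow J (b + yob t w z) R h w ∂gauss (Fin n)) x -
        (fun w => ∫ z, Kpow J (b + yob t w z) R h w ∂gauss (Fin n)) (flip i x) =
        (ψ 0 - ψ κ) + ∫ z, w₀ z * (P x z - P x' z) ∂gauss (Fin n) := by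
      simp only [mul_sub]
      rw [integral_sub (hiw x) (hiw x')]
      simp only [← hx', hflip, hψd, hw₀, Pi.single_zero, add_zero, P, hc,
        ← shift i κ fun z => Kpow J (b + yob t x z) R h _]
      ring
    have h3 := dd_flip i (fun w => ∫ z, Kpow J (b + yob t w z) R h w ∂gauss (Fin n)) x
    rw [eF] at h3
    linarith [sq_nonneg ((ψ 0 - ψ κ) - ∫ z, w₀ z * (P x z - P x' z) ∂gauss (Fin n)),
      add_sq (ψ 0 - ψ κ) (∫ z, w₀ z * (P x z - P x' z) ∂gauss (Fin n)),
      sub_sq (ψ 0 - ψ κ) (∫ z, w₀ z * (P x z - P x' z) ∂gauss (Fin n))]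
  have hdd : ∀ i, Integrable (fun z => dd i (Kpow J (c z) R h) x ^ 2) (gauss (Fin n)) := fun i =>
    integrable_bdd (((continuous_dd_Kpow J i h R x).comp hcc).pow 2) (B := ρ) fun z => by
      rw [abs_of_nonneg (sq_nonneg _)]
      exact (Finset.single_le_sum (f := fun k => dd k (Kpow J (c z) R h) x ^ 2) (fun _ _ => sq_nonneg _)
        (Finset.mem_univ i)).trans (gam_Kpow_le (c z) hJ hA R x)
  have hd2 : ∀ i, Integrable (fun z => d i z ^ 2) (gauss (Fin n)) := fun i =>
    integrable_bdd ((hdc i).pow 2) (B := D₀ ^ 2) fun z => by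
      rw [abs_pow]; exact pow_le_pow_left₀ (abs_nonneg _) (hd1 i _) 2
  have s1 : ∑ i, ∫ z, dd i (Kpow J (c z) R h) x ^ 2 ∂gauss (Fin n) ≤ ρ := by
    rw [← integral_finsetSum _ fun i _ => hdd i]
    refine (integral_mono (integrable_finsetSum _ fun i _ => hdd i) (integrable_const ρ)
      fun z => gam_Kpow_le (c z) hJ hA R x).trans_eq ?_
    simp
  have s2 : ∑ i, ∫ z, d i z ^ 2 ∂gauss (Fin n) ≤ ((R : ℝ) / n) ^ 2 * ρ := by
    rw [← integral_finsetSum _ fun i _ => hd2 i]
    refine (integral_mono (integrable_finsetSum _ fun i _ => hd2 i) (integrable_const _)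
      fun z => sum_dKpow_sq_le (b := c z) hJ hA R x).trans_eq ?_
    simp [ρ]
  rw [gam]
  refine (Finset.sum_le_sum fun i _ => site i).trans ?_
  rw [← Finset.mul_sum, Finset.sum_add_distrib, ← Finset.mul_sum]
  refine (mul_le_mul_of_nonneg_left (add_le_add s1 (mul_le_mul_of_nonneg_left s2 (sq_nonneg t)))
    (by positivity)).trans_eq ?_
  simp only [ρ]; ring

lemma gam_linear (v : Fin n → ℝ) (x : Cfg n) :
    gam (fun w => ∑ i, v i * spin (w i)) x = ∑ i, v i ^ 2 := by
  refine Finset.sum_congr rfl fun i _ => ?_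
  have e : dd i (fun w => ∑ k, v k * spin (w k)) x = v i := by
    simp only [dd, spin_update, ← Finset.sum_sub_distrib, ← mul_sub, Finset.sum_div]
    rw [Finset.sum_eq_single i (fun k _ hk => by simp [hk]) (by simp)]
    simp [spin]; ring
  rw [e]

/-- `field_shift` for linear functions of the final state -/
theorem field_shift_spin {L : ℝ} (hJ : Tame J L) {t : ℝ} (ht : 0 ≤ t) (v : Fin n → ℝ) (R : ℕ)
    (x : Cfg n) :
    gam (fun w => ∫ z, Kpow J (b + yob t w z) R (fun u => ∑ i, v i * spin (u i)) w ∂gauss (Fin n)) x ≤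
      2 * Real.exp (4 * t) * (1 + (t * R / n) ^ 2) * (1 + gradC L / n) ^ R * ∑ i, v i ^ 2 :=
  field_shift hJ ht (fun y => (gam_linear v y).le) R x

end Vale.Agent.P150.PA
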