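import Vale.Agent.P150.PA.BlockDrop
import Vale.Agent.P150.PA.Field

/-! The stationarity error along the chain from a configuration, averaged over a block of times and
over the noise of an observation, and the algebra of block averages. -/

open MeasureTheory

namespace Vale.Agent.P150.PA

open Ising

variable {n : ℕ}

/-- root of the Dirichlet form of the root of the law at attempt `v` from `x`, per root of `n` -/
noncomputable def eAt (J : Fin n → Fin n → ℝ) (b : Fin n → ℝ) (v : ℕ) (x : Cfg n) : ℝ :=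
  Real.sqrt (dir J b fun y => Real.sqrt (Kpow J b v (Pi.single x (wt J b x)⁻¹) y)) / Real.sqrt n

namespace BlockAvg

variable {W : ℕ} {f g : ℕ → ℝ}

lemma mono (h : ∀ v ∈ Finset.Ico W (2 * W), f v ≤ g v) : blockAvg W f ≤ blockAvg W g :=
  div_le_div_of_nonneg_right (Finset.sum_le_sum h) (Nat.cast_nonneg W)

lemma nonneg (h : ∀ v ∈ Finset.Ico W (2 * W), 0 ≤ f v) : 0 ≤ blockAvg W f :=
  div_nonneg (Finset.sum_nonneg h) (Nat.cast_nonneg W)

lemma ext (h : ∀ v ∈ Finset.Ico W (2 * W), f v = g v) : blockAvg W f = blockAvg W g :=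
  congrArg (· / (W : ℝ)) (Finset.sum_congr rfl h)

lemma add : blockAvg W (fun v => f v + g v) = blockAvg W f + blockAvg W g := by
  simp only [blockAvg, Finset.sum_add_distrib, add_div]

lemma sub : blockAvg W (fun v => f v - g v) = blockAvg W f - blockAvg W g := by
  simp only [blockAvg, Finset.sum_sub_distrib, sub_div]

lemma smul (c : ℝ) : blockAvg W (fun v => c * f v) = c * blockAvg W f := by
  simp only [blockAvg, ← Finset.mul_sum, mul_div_assoc]

lemma sum {ι : Type*} (s : Finset ι) (F : ι → ℕ → ℝ) :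
    blockAvg W (fun v => ∑ a ∈ s, F a v) = ∑ a ∈ s, blockAvg W (F a) := by
  simp only [blockAvg, ← Finset.sum_div]
  rw [Finset.sum_comm]

lemma comm (T : ℕ) (F : ℕ → ℕ → ℝ) :
    blockAvg W (fun v => blockAvg T (F v)) = blockAvg T fun d => blockAvg W fun v => F v d := by
  simp only [blockAvg, ← Finset.sum_div]
  rw [Finset.sum_comm, div_right_comm]

lemma const (hW : 0 < W) (c : ℝ) : blockAvg W (fun _ => c) = c := by
  have : (W : ℝ) ≠ 0 := Nat.cast_ne_zero.2 hW.ne'
  rw [blockAvg, Finset.sum_const, Nat.card_Ico, show 2 * W - W = W by omega, nsmul_eq_mul]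
  field_simp

lemma le_const {c : ℝ} (hc : 0 ≤ c) (h : ∀ v ∈ Finset.Ico W (2 * W), f v ≤ c) : blockAvg W f ≤ c := by
  refine (mono (g := fun _ => c) h).trans ?_
  rcases Nat.eq_zero_or_pos W with rfl | hW
  · simpa [blockAvg] using hc
  · exact (const hW c).le

lemma abs_avg_le : |blockAvg W f| ≤ blockAvg W fun v => |f v| := by
  rw [blockAvg, abs_div, Nat.abs_cast]
  exact div_le_div_of_nonneg_right (Finset.abs_sum_le_sum_abs _ _) (Nat.cast_nonneg W)

/-- Jensen for the square root -/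
lemma sqrt_le (h : ∀ v ∈ Finset.Ico W (2 * W), 0 ≤ f v) :
    blockAvg W (fun v => Real.sqrt (f v)) ≤ Real.sqrt (blockAvg W f) := by
  refine Real.le_sqrt_of_sq_le ?_
  have hc := sq_sum_le_card_mul_sum_sq (s := Finset.Ico W (2 * W)) (f := fun v => Real.sqrt (f v))
  rw [Nat.card_Ico, show 2 * W - W = W by omega,
    Finset.sum_congr rfl fun v hv => Real.sq_sqrt (h v hv)] at hc
  rcases Nat.eq_zero_or_pos W with rfl | hW
  · simp [blockAvg]
  have hW' : (0 : ℝ) < W := Nat.cast_pos.2 hW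
  rw [blockAvg, blockAvg, div_pow, div_le_div_iff₀ (by positivity) hW']
  linarith [mul_le_mul_of_nonneg_right hc hW'.le]

/-- shifting the block by `d` moves the average of a bounded sequence by at most `2 d A / W` -/
lemma shift_le {A : ℝ} (hA : ∀ v, |f v| ≤ A) (d : ℕ) :
    |blockAvg W (fun v => f (v + d)) - blockAvg W f| ≤ 2 * d * A / W := by
  rw [blockAvg, blockAvg, ← sub_div, abs_div, Nat.abs_cast]
  refine div_le_div_of_nonneg_right ?_ (Nat.cast_nonneg W)
  induction d with
  | zero => simp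
  | succ d ih =>
    have h : (∑ v ∈ Finset.Ico W (2 * W), f (v + (d + 1))) - ∑ v ∈ Finset.Ico W (2 * W), f (v + d) =
        f (2 * W + d) - f (W + d) := by
      rw [← Finset.sum_sub_distrib]
      have := Finset.sum_Ico_sub (fun v => f (v + d)) (show W ≤ 2 * W by omega)
      simpa only [Nat.add_assoc, Nat.add_comm 1 d] using this
    have h1 := abs_sub_le (∑ v ∈ Finset.Ico W (2 * W), f (v + (d + 1)))
      (∑ v ∈ Finset.Ico W (2 * W), f (v + d)) (∑ v ∈ Finset.Ico W (2 * W), f v)
    rw [h] at h1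
    have h2 := (abs_sub _ _).trans (add_le_add (hA (2 * W + d)) (hA (W + d)))
    push_cast
    linarith

/-- the shift backwards -/
lemma unshift_le {A : ℝ} (hA : ∀ v, |f v| ≤ A) (d : ℕ) :
    |blockAvg W (fun v => f (v - d)) - blockAvg W f| ≤ 2 * d * A / W := by
  have h := shift_le (f := fun v => f (v - d)) (W := W) (fun v => hA _) d
  simp only [Nat.add_sub_cancel] at h
  rwa [abs_sub_comm]

end BlockAvg

namespace AvgDir

variable {J : Fin n → Fin n → ℝ} {b : Fin n → ℝ} {L : ℝ}

lemma dir_nonneg (f : Cfg n → ℝ) : 0 ≤ dir J b f :=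
  Finset.sum_nonneg fun i _ => Finset.sum_nonneg fun x _ =>
    mul_nonneg (wt_pos J b x).le (mul_nonneg (mag_sq J b i x).1 (sq_nonneg _))

lemma eAt_nonneg (v : ℕ) (x : Cfg n) : 0 ≤ eAt J b v x :=
  div_nonneg (Real.sqrt_nonneg _) (Real.sqrt_nonneg _)

lemma single_nonneg (x y : Cfg n) : 0 ≤ (Pi.single x (wt J b x)⁻¹ : Cfg n → ℝ) y := by
  rcases eq_or_ne y x with rfl | h
  · rw [Pi.single_eq_same]; exact inv_nonneg.2 (wt_pos J b y).le
  · simp [h]

lemma op_nonneg (hop : ∀ v : Fin n → ℝ, |∑ i, ∑ j, J i j * (v i * v j)| ≤ L * ∑ i, v i ^ 2) (hn : 0 < n) :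
    0 ≤ L := by
  have h := (abs_nonneg _).trans (hop fun _ => 1)
  simp only [one_pow, Finset.sum_const, Finset.card_univ, Fintype.card_fin, nsmul_eq_mul, mul_one] at h
  exact nonneg_of_mul_nonneg_left h (Nat.cast_pos.2 hn)

/-- the squares of the errors are summable along the chain -/
theorem sum_sq (hs : ∀ i j, J i j = J j i) (hd : ∀ i, J i i = 0)
    (hop : ∀ v : Fin n → ℝ, |∑ i, ∑ j, J i j * (v i * v j)| ≤ L * ∑ i, v i ^ 2) (hn : 0 < n) (x : Cfg n)
    (s : Finset ℕ) :
    ∑ v ∈ s, eAt J b v x ^ 2 ≤ n * Real.log 2 + L * n + 2 * ∑ i, |b i| := by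
  obtain ⟨N, hN⟩ := Finset.exists_nat_subset_range s
  refine (Finset.sum_le_sum_of_subset_of_nonneg hN fun v _ _ => sq_nonneg _).trans ?_
  have hn' : (0 : ℝ) < n := Nat.cast_pos.2 hn
  simp only [eAt, div_pow, Real.sq_sqrt (dir_nonneg _), Real.sq_sqrt hn'.le, ← Finset.sum_div]
  rw [div_le_iff₀ hn', mul_comm _ (n : ℝ)]
  exact (sum_dir_sqrt hs hd hn (single_nonneg x) N).trans
    (mul_le_mul_of_nonneg_left (ent_point hop x) hn'.le)

/-- the sum of the errors over any set of times -/
theorem sum_le (hs : ∀ i j, J i j = J j i) (hd : ∀ i, J i i = 0)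
    (hop : ∀ v : Fin n → ℝ, |∑ i, ∑ j, J i j * (v i * v j)| ≤ L * ∑ i, v i ^ 2) (hn : 0 < n) (x : Cfg n)
    (s : Finset ℕ) :
    ∑ v ∈ s, eAt J b v x ≤ Real.sqrt (s.card * (n * Real.log 2 + L * n + 2 * ∑ i, |b i|)) :=
  Real.le_sqrt_of_sq_le ((sq_sum_le_card_mul_sum_sq).trans
    (mul_le_mul_of_nonneg_left (sum_sq hs hd hop hn x s) (Nat.cast_nonneg _)))

/-- the average error on any injectively reindexed block of times -/
theorem avg_comp (hs : ∀ i j, J i j = J j i) (hd : ∀ i, J i i = 0)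
    (hop : ∀ v : Fin n → ℝ, |∑ i, ∑ j, J i j * (v i * v j)| ≤ L * ∑ i, v i ^ 2) (hn : 0 < n) (x : Cfg n)
    {W : ℕ} {φ : ℕ → ℕ} (hφ : Set.InjOn φ (Finset.Ico W (2 * W))) :
    blockAvg W (fun v => eAt J b (φ v) x) ≤
      Real.sqrt ((Real.log 2 + L + 2 * (∑ i, |b i|) / n) * n / W) := by
  rcases Nat.eq_zero_or_pos W with rfl | hW
  · simp [blockAvg]
  have hW' : (0 : ℝ) < W := Nat.cast_pos.2 hW
  have hn' : (n : ℝ) ≠ 0 := Nat.cast_ne_zero.2 hn.ne'
  have h := sum_le hs hd hop hn x ((Finset.Ico W (2 * W)).image φ) (b := b)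
  rw [Finset.sum_image hφ, Finset.card_image_of_injOn hφ, Nat.card_Ico, show 2 * W - W = W by omega] at h
  rw [blockAvg, div_le_iff₀ hW']
  refine h.trans (le_of_eq ?_)
  rw [show (W : ℝ) * (n * Real.log 2 + L * n + 2 * ∑ i, |b i|) =
    ((Real.log 2 + L + 2 * (∑ i, |b i|) / n) * n / W) * (W : ℝ) ^ 2 by field_simp,
    Real.sqrt_mul' _ (sq_nonneg _), Real.sqrt_sq hW'.le]

/-- the average error on a block of times -/
theorem avg_eAt (hs : ∀ i j, J i j = J j i) (hd : ∀ i, J i i = 0)
    (hop : ∀ v : Fin n → ℝ, |∑ i, ∑ j, J i j * (v i * v j)| ≤ L * ∑ i, v i ^ 2) (hn : 0 < n) (x : Cfg n) (W : ℕ) :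
    blockAvg W (fun v => eAt J b v x) ≤ Real.sqrt ((Real.log 2 + L + 2 * (∑ i, |b i|) / n) * n / W) :=
  avg_comp hs hd hop hn x (φ := fun v => v) fun _ _ _ _ h => h

/-- the average over a block of the errors summed over a window around each time -/
theorem avg_window (hs : ∀ i j, J i j = J j i) (hd : ∀ i, J i i = 0)
    (hop : ∀ v : Fin n → ℝ, |∑ i, ∑ j, J i j * (v i * v j)| ≤ L * ∑ i, v i ^ 2) (hn : 0 < n) (x : Cfg n)
    {W d : ℕ} (hdW : d ≤ W) (s : Finset ℕ) :
    blockAvg W (fun v => ∑ a ∈ s, eAt J b (v - d + a) x) ≤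
      s.card * Real.sqrt ((Real.log 2 + L + 2 * (∑ i, |b i|) / n) * n / W) := by
  rw [BlockAvg.sum, ← nsmul_eq_mul]
  refine Finset.sum_le_card_nsmul _ _ _ fun a _ => avg_comp hs hd hop hn x fun u hu v hv h => ?_
  simp only [Finset.coe_Ico, Set.mem_Ico] at hu hv
  omega

lemma continuous_Kpow (φ : (Fin n → ℝ) → Cfg n → ℝ) (hφ : ∀ y, Continuous fun b => φ b y) (k : ℕ)
    (y : Cfg n) : Continuous fun b => Kpow J b k (φ b) y := by
  induction k generalizing y with
  | zero => exact hφ y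
  | succ k ih =>
    have := fun i => FieldAux.continuous_mag J i y
    simp only [Pair.Kpow_succ, K, qb_eq]
    fun_prop

lemma continuous_wt (y : Cfg n) : Continuous fun b => wt J b y := by
  have h : ∀ z : Cfg n, Continuous fun b => qE J b z := fun z => by unfold qE; fun_prop
  exact ((h y).rexp).div (continuous_finsetSum _ fun z _ => (h z).rexp) fun b =>
    (Finset.sum_pos (fun z _ => Real.exp_pos _) Finset.univ_nonempty).ne'

lemma continuous_eAt (v : ℕ) (x : Cfg n) : Continuous fun b => eAt J b v x := by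
  have hw := fun y => continuous_wt (J := J) y
  have hm := fun i y => FieldAux.continuous_mag J i y
  have hK := fun y => continuous_Kpow (J := J) (fun b => Pi.single x (wt J b x)⁻¹) (fun z => by
    rcases eq_or_ne z x with rfl | h
    · simp only [Pi.single_eq_same]; exact (hw z).inv₀ fun b => (wt_pos J b z).ne'
    · simp only [Pi.single_eq_of_ne h]; exact continuous_const) v y
  unfold eAt dir dd
  fun_prop

lemma continuous_obs (t : ℝ) (x : Cfg n) : Continuous fun u => obsField t x u := by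
  unfold obsField; fun_prop

lemma sum_abs_obs (t : ℝ) (x : Cfg n) (u : Fin n → ℝ) :
    ∑ i, |obsField t x u i| ≤ n * |t| + Real.sqrt t * l1 u := by
  refine (Finset.sum_le_sum (g := fun i => |t| + Real.sqrt t * |u i|) fun i _ => ?_).trans_eq ?_
  · refine (abs_add_le (t * spin (x i)) (Real.sqrt t * u i)).trans_eq ?_
    rw [abs_mul, abs_mul, abs_of_nonneg (Real.sqrt_nonneg t)]
    cases x i <;> simp [spin]
  · rw [Finset.sum_add_distrib, ← Finset.mul_sum, l1]; simp

lemma integrable_l1 : Integrable (fun u : Fin n → ℝ => l1 u) (gauss (Fin n)) :=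
  integrable_of_bound (C := 1) (M := 1) (by unfold l1; fun_prop) fun u => by
    rw [abs_of_nonneg (l1_nonneg u), one_mul, one_mul]; linarith [Real.add_one_le_exp (l1 u)]

lemma integral_l1_le : ∫ u, l1 u ∂gauss (Fin n) ≤ n := by
  have h1 : ∀ i : Fin n, Integrable (fun u : Fin n → ℝ => u i ^ 2) (gauss (Fin n)) := fun i =>
    integrable_of_bound (C := 2) (M := 1) (by fun_prop) fun u => by
      rw [abs_pow, sq_abs, one_mul]
      have := Real.pow_div_factorial_le_exp (l1 u) (l1_nonneg u) 2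
      have h' := pow_le_pow_left₀ (abs_nonneg (u i)) (abs_le_l1 u i) 2
      rw [sq_abs] at h'
      norm_num at this
      linarith
  have hi : Integrable (fun u : Fin n → ℝ => ∑ i, (u i ^ 2 + 1) / 2) (gauss (Fin n)) :=
    integrable_finsetSum _ fun i _ => ((h1 i).add (integrable_const _)).div_const 2
  refine (integral_mono integrable_l1 hi fun u => Finset.sum_le_sum fun i _ => ?_).trans (le_of_eq ?_)
  · nlinarith [sq_nonneg (|u i| - 1), sq_abs (u i)]
  have h2 : ∀ i : Fin n, ∫ u : Fin n → ℝ, (u i ^ 2 + 1) / 2 ∂gauss (Fin n) = 1 := fun i => by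
    rw [integral_div, integral_add (h1 i) (integrable_const _)]
    have e : ∫ u : Fin n → ℝ, u i ^ 2 ∂gauss (Fin n) = 1 := by
      rw [gauss, integral_comp_eval (μ := fun _ : Fin n => ProbabilityTheory.gaussianReal 0 1) (i := i)
        (f := fun t : ℝ => t ^ 2) (by fun_prop)]
      have := ProbabilityTheory.variance_id_gaussianReal (μ := 0) (v := 1)
      rw [ProbabilityTheory.variance_of_integral_eq_zero measurable_id.aemeasurable
        ProbabilityTheory.integral_id_gaussianReal] at this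
      simpa using this
    rw [e]; simp
  rw [integral_finsetSum _ fun i _ => show Integrable (fun u : Fin n → ℝ => (u i ^ 2 + 1) / 2) (gauss (Fin n))
    from ((h1 i).add (integrable_const _)).div_const 2]
  simp [h2]

/-- errors in the field of an observation are integrable in the noise -/
theorem integrable_eAt (hs : ∀ i j, J i j = J j i) (hd : ∀ i, J i i = 0)
    (hop : ∀ v : Fin n → ℝ, |∑ i, ∑ j, J i j * (v i * v j)| ≤ L * ∑ i, v i ^ 2) (hn : 0 < n) (t : ℝ)
    (x₀ x : Cfg n) (v : ℕ) : Integrable (fun u => eAt J (obsField t x₀ u) v x) (gauss (Fin n)) := by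
  refine Integrable.mono' ((integrable_l1.const_mul (2 * Real.sqrt t)).add (integrable_const
    ((n : ℝ) * Real.log 2 + L * n + 2 * (n * |t|) + 1)))
    ((continuous_eAt v x).comp (continuous_obs t x₀)).aestronglyMeasurable
    (Filter.Eventually.of_forall fun u => ?_)
  rw [Real.norm_eq_abs, abs_of_nonneg (eAt_nonneg v x)]
  have h := sum_sq hs hd hop hn x {v} (b := obsField t x₀ u)
  rw [Finset.sum_singleton] at h
  simp only [Pi.add_apply]
  nlinarith [sum_abs_obs t x₀ u, sq_nonneg (eAt J (obsField t x₀ u) v x - 1)]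

lemma integrable_blockAvg (hs : ∀ i j, J i j = J j i) (hd : ∀ i, J i i = 0)
    (hop : ∀ v : Fin n → ℝ, |∑ i, ∑ j, J i j * (v i * v j)| ≤ L * ∑ i, v i ^ 2) (hn : 0 < n) (t : ℝ)
    (x₀ x : Cfg n) (W : ℕ) (φ : ℕ → ℕ) :
    Integrable (fun u => blockAvg W fun v => eAt J (obsField t x₀ u) (φ v) x) (gauss (Fin n)) :=
  (integrable_finsetSum _ fun v _ => integrable_eAt hs hd hop hn t x₀ x (φ v)).div_const _

/-- the average error on a block, averaged over the noise of an observation -/
theorem avg_obs (hs : ∀ i j, J i j = J j i) (hd : ∀ i, J i i = 0)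
    (hop : ∀ v : Fin n → ℝ, |∑ i, ∑ j, J i j * (v i * v j)| ≤ L * ∑ i, v i ^ 2) (hn : 0 < n) (t : ℝ)
    (x₀ x : Cfg n) {W : ℕ} {φ : ℕ → ℕ} (hφ : Set.InjOn φ (Finset.Ico W (2 * W))) :
    ∫ u, blockAvg W (fun v => eAt J (obsField t x₀ u) (φ v) x) ∂gauss (Fin n) ≤
      Real.sqrt ((Real.log 2 + L + 2 * |t| + 2 * Real.sqrt t) * n / W) := by
  rcases Nat.eq_zero_or_pos W with rfl | hW
  · simp [blockAvg]
  have hn' : (0 : ℝ) < n := Nat.cast_pos.2 hn
  have hW' : (0 : ℝ) < W := Nat.cast_pos.2 hW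
  have hL := op_nonneg hop hn
  have hl2 := Real.log_pos (show (1 : ℝ) < 2 by norm_num)
  set c := Real.sqrt ((Real.log 2 + L + 2 * |t| + 2 * Real.sqrt t) * n / W) with hc
  have hc0 : 0 < c := Real.sqrt_pos.2 (by positivity)
  set F := fun u : Fin n → ℝ => (Real.log 2 + L + 2 * |t|) * n / W + 2 * Real.sqrt t / W * l1 u with hF
  have i1 : Integrable F (gauss (Fin n)) := (integrable_const _).add (integrable_l1.const_mul _)
  refine (integral_mono (g := fun u => F u / (2 * c) + c / 2) (integrable_blockAvg hs hd hop hn t x₀ x W φ)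
    ((i1.div_const _).add (integrable_const _)) fun u => ?_).trans ?_
  · refine (avg_comp hs hd hop hn x hφ).trans ?_
    set A := (Real.log 2 + L + 2 * (∑ i, |obsField t x₀ u i|) / n) * n / W with hA
    have hA0 : 0 ≤ A := by rw [hA]; positivity
    have hAle : A ≤ F u := by
      rw [hA, hF, show (Real.log 2 + L + 2 * (∑ i, |obsField t x₀ u i|) / n) * n =
        (Real.log 2 + L) * n + 2 * ∑ i, |obsField t x₀ u i| by field_simp]
      simp only
      rw [show (Real.log 2 + L + 2 * |t|) * n / W + 2 * Real.sqrt t / W * l1 u =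
        ((Real.log 2 + L) * n + 2 * (n * |t| + Real.sqrt t * l1 u)) / W by ring]
      exact div_le_div_of_nonneg_right (by linarith [sum_abs_obs t x₀ u]) hW'.le
    have h2 : Real.sqrt A ≤ A / (2 * c) + c / 2 := by
      have := sq_nonneg (Real.sqrt A - c)
      rw [sub_sq, Real.sq_sqrt hA0] at this
      rw [show A / (2 * c) + c / 2 = (A + c ^ 2) / (2 * c) by field_simp, le_div_iff₀ (by linarith)]
      linarith
    exact h2.trans (add_le_add (div_le_div_of_nonneg_right hAle (by positivity)) le_rfl)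
  rw [integral_add (i1.div_const _) (integrable_const _), integral_div]
  simp only [hF]
  rw [integral_add (integrable_const _) (integrable_l1.const_mul _), integral_const_mul]
  simp only [integral_const, probReal_univ, one_smul]
  have h3 : (Real.log 2 + L + 2 * |t|) * n / W + 2 * Real.sqrt t / W * ∫ u, l1 u ∂gauss (Fin n) ≤ c ^ 2 := by
    rw [hc, Real.sq_sqrt (by positivity)]
    refine (add_le_add le_rfl (mul_le_mul_of_nonneg_left integral_l1_le (by positivity))).trans_eq ?_
    ring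
  refine (add_le_add (div_le_div_of_nonneg_right h3 (by positivity)) le_rfl).trans_eq ?_
  field_simp
  ring

/-- the same for errors summed over a window around each time -/
theorem avg_obs_window (hs : ∀ i j, J i j = J j i) (hd : ∀ i, J i i = 0)
    (hop : ∀ v : Fin n → ℝ, |∑ i, ∑ j, J i j * (v i * v j)| ≤ L * ∑ i, v i ^ 2) (hn : 0 < n) (t : ℝ)
    (x₀ x : Cfg n) {W d : ℕ} (hdW : d ≤ W) (s : Finset ℕ) :
    ∫ u, blockAvg W (fun v => ∑ a ∈ s, eAt J (obsField t x₀ u) (v - d + a) x) ∂gauss (Fin n) ≤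
      s.card * Real.sqrt ((Real.log 2 + L + 2 * |t| + 2 * Real.sqrt t) * n / W) := by
  simp only [BlockAvg.sum]
  rw [integral_finsetSum _ fun a _ => integrable_blockAvg hs hd hop hn t x₀ x W fun v => v - d + a, ← nsmul_eq_mul]
  refine Finset.sum_le_card_nsmul _ _ _ fun a _ => avg_obs hs hd hop hn t x₀ x fun u hu v hv h => ?_
  simp only [Finset.coe_Ico, Set.mem_Ico] at hu hv
  omega

end AvgDir

end Vale.Agent.P150.PA
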