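import Mathlib

/-! The summation by parts behind the evaluation of one period of the block experiment: two
correlation sequences move like their responses, and are close to monotone sequences that are flat
on the scale of interest. -/

namespace Vale.Agent.P150.PA.BlockCore

open Finset

/-- summation by parts with sup bounds -/
lemma parts_le {D : ℕ} (w f : ℕ → ℝ) {W B : ℝ} (hw : ∀ k ≤ D, |w k| ≤ W) (hf : ∀ k ≤ D, |f k| ≤ B) :
    |∑ k ∈ range D, w k * (f (k + 1) - f k)| ≤ 2 * W * B + B * ∑ k ∈ range D, |w (k + 1) - w k| := by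
  have e : ∑ k ∈ range D, w k * (f (k + 1) - f k) =
      (w D * f D - w 0 * f 0) - ∑ k ∈ range D, f (k + 1) * (w (k + 1) - w k) := by
    rw [← Finset.sum_range_sub (fun k => w k * f k) D, ← Finset.sum_sub_distrib]
    exact Finset.sum_congr rfl fun k _ => by ring
  have hWB : ∀ k ≤ D, |w k * f k| ≤ W * B := fun k hk => by
    rw [abs_mul]
    exact mul_le_mul (hw k hk) (hf k hk) (abs_nonneg _) ((abs_nonneg _).trans (hw k hk))
  rw [e]
  refine (abs_sub _ _).trans (add_le_add ?_ ?_)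
  · refine (abs_sub _ _).trans ?_
    linarith [hWB D le_rfl, hWB 0 (Nat.zero_le _)]
  · rw [Finset.mul_sum]
    refine (Finset.abs_sum_le_sum_abs _ _).trans (Finset.sum_le_sum fun k hk => ?_)
    rw [abs_mul]
    exact mul_le_mul_of_nonneg_right (hf _ (Finset.mem_range.1 hk)) (abs_nonneg _)

/-- against an antitone weight only the sup counts -/
lemma antitone_le {D : ℕ} (w f : ℕ → ℝ) {W B : ℝ} (hw : ∀ k ≤ D, 0 ≤ w k ∧ w k ≤ W)
    (hm : ∀ k < D, w (k + 1) ≤ w k) (hf : ∀ k ≤ D, |f k| ≤ B) :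
    |∑ k ∈ range D, w k * (f (k + 1) - f k)| ≤ 3 * W * B := by
  have hB : 0 ≤ B := (abs_nonneg _).trans (hf 0 (Nat.zero_le D))
  refine (parts_le w f (fun k hk => (abs_of_nonneg (hw k hk).1).trans_le (hw k hk).2) hf).trans ?_
  rw [Finset.sum_congr rfl (g := fun k => w k - w (k + 1)) fun k hk => by
    rw [abs_of_nonpos (sub_nonpos.2 (hm k (Finset.mem_range.1 hk)))]; ring]
  rw [Finset.sum_range_sub' w D]
  linarith [mul_le_mul_of_nonneg_left
    (show w 0 - w D ≤ W by linarith [(hw D le_rfl).1, (hw 0 (Nat.zero_le D)).2]) hB]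

/-- The value of the response sum of one period. -/
theorem core {D G : ℕ} (hGD : 2 * G ≤ D) {A a C c u U : ℕ → ℝ} {M δ ε η q p s : ℝ}
    (hδ : 0 ≤ δ) (hε : 0 ≤ ε) (hη : 0 ≤ η) (hs : 0 ≤ s) (hq : 0 ≤ q)
    (hA : ∀ k ≤ D, |A k| ≤ M) (ha : ∀ k ≤ D, |a k| ≤ M) (hp : |p| ≤ M) (hCD : C D = 1)
    (hdA : ∀ k < D, |A (k + 1) - A k| ≤ M * s) (hda : ∀ k < D, |a (k + 1) - a k| ≤ M * s)
    (hdC : ∀ k < D, |C (k + 1) - C k| ≤ s)
    (hcu : ∀ k ≤ D, |c k - u k| ≤ ε) (hCU : ∀ k ≤ D, |C k - U k| ≤ ε)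
    (hu : ∀ k < D, u (k + 1) ≤ u k) (hU : ∀ k < D, U k ≤ U (k + 1))
    (hu' : ∀ k ≤ D, q ≤ u k ∧ u k ≤ q + δ) (hU' : ∀ k ≤ 2 * G, q ≤ U k ∧ U k ≤ q + δ) (hUD : U D ≤ 1)
    (hap : ∀ k ≤ D, G ≤ k → |a k - p| ≤ η) :
    |(∑ k ∈ range D, ((A (k + 1) - A k) * (C k - c k) + (C (k + 1) - C k) * (A k - a k)))
        - (1 - q) * (A D - p)| ≤ M * (7 * δ + 6 * ε) + η + 2 * (D * s) * (M * ε) + D * s * (M * s) := by
  have hM : 0 ≤ M := (abs_nonneg _).trans hp
  -- product rule
  have t1 : |(∑ k ∈ range D, ((A (k + 1) - A k) * C k + (C (k + 1) - C k) * A k)) - (A D * C D - A 0 * C 0)|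
      ≤ D * s * (M * s) := by
    rw [← Finset.sum_range_sub (fun k => A k * C k) D, ← Finset.sum_sub_distrib]
    refine (Finset.abs_sum_le_sum_abs _ _).trans ?_
    refine (Finset.sum_le_card_nsmul _ _ (s * (M * s)) fun k hk => ?_).trans_eq (by simp; ring)
    rw [show (A (k + 1) - A k) * C k + (C (k + 1) - C k) * A k - (A (k + 1) * C (k + 1) - A k * C k) =
      -((C (k + 1) - C k) * (A (k + 1) - A k)) by ring, abs_neg, abs_mul]
    exact mul_le_mul (hdC k (Finset.mem_range.1 hk)) (hdA k (Finset.mem_range.1 hk)) (abs_nonneg _) hs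
  -- the flat weight
  have t2 : |(∑ k ∈ range D, (A (k + 1) - A k) * c k) - q * (A D - A 0)| ≤ 3 * δ * M + D * s * (M * ε) := by
    have h1 : |∑ k ∈ range D, (u k - q) * (A (k + 1) - A k)| ≤ 3 * δ * M :=
      antitone_le _ A (fun k hk => ⟨sub_nonneg.2 (hu' k hk).1, by linarith [(hu' k hk).2]⟩)
        (fun k hk => by linarith [hu k hk]) hA
    have h2 : |∑ k ∈ range D, (c k - u k) * (A (k + 1) - A k)| ≤ D * s * (M * ε) := by
      refine (Finset.abs_sum_le_sum_abs _ _).trans ?_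
      refine (Finset.sum_le_card_nsmul _ _ (ε * (M * s)) fun k hk => ?_).trans_eq (by simp; ring)
      rw [abs_mul]
      exact mul_le_mul (hcu k (Finset.mem_range.1 hk).le) (hdA k (Finset.mem_range.1 hk)) (abs_nonneg _) hε
    rw [← Finset.sum_range_sub A D, Finset.mul_sum, ← Finset.sum_sub_distrib,
      Finset.sum_congr rfl (g := fun k => (c k - u k) * (A (k + 1) - A k) + (u k - q) * (A (k + 1) - A k))
        fun k _ => by ring, Finset.sum_add_distrib]
    exact (abs_add_le _ _).trans (by linarith)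
  -- the flat value
  have t3 : |(∑ k ∈ range D, (C (k + 1) - C k) * a k) - p * (C D - C 0)|
      ≤ 2 * δ * M + η + 4 * M * ε + D * s * (M * ε) := by
    have hw : ∀ k ≤ D, |a k - p| ≤ 2 * M := fun k hk => (abs_sub _ _).trans (by linarith [ha k hk])
    have h2 : |∑ k ∈ range D, (a k - p) * ((C (k + 1) - U (k + 1)) - (C k - U k))|
        ≤ 4 * M * ε + D * s * (M * ε) := by
      refine (parts_le _ (fun k => C k - U k) hw hCU).trans (add_le_add (by linarith) ?_)
      refine (mul_le_mul_of_nonneg_left (Finset.sum_le_card_nsmul _ _ (M * s) fun k hk => ?_) hε).trans_eq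
        (by simp; ring)
      rw [show a (k + 1) - p - (a k - p) = a (k + 1) - a k by ring]
      exact hda k (Finset.mem_range.1 hk)
    have h1 : |∑ k ∈ range D, (a k - p) * (U (k + 1) - U k)| ≤ 2 * δ * M + η := by
      rw [← Finset.sum_range_add_sum_Ico _ hGD]
      refine (abs_add_le _ _).trans (add_le_add ?_ ?_)
      · refine (Finset.abs_sum_le_sum_abs _ _).trans ((Finset.sum_le_sum
          (g := fun k => 2 * M * (U (k + 1) - U k)) fun k hk => ?_).trans ?_)
        · have hk' : k < D := lt_of_lt_of_le (Finset.mem_range.1 hk) hGD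
          rw [abs_mul, abs_of_nonneg (sub_nonneg.2 (hU k hk'))]
          exact mul_le_mul_of_nonneg_right (hw k hk'.le) (sub_nonneg.2 (hU k hk'))
        · rw [← Finset.mul_sum, Finset.sum_range_sub]
          linarith [mul_le_mul_of_nonneg_left (show U (2 * G) - U 0 ≤ δ by
            linarith [(hU' 0 (Nat.zero_le _)).1, (hU' _ le_rfl).2]) (by linarith : (0 : ℝ) ≤ 2 * M)]
      · refine (Finset.abs_sum_le_sum_abs _ _).trans ((Finset.sum_le_sum
          (g := fun k => η * (U (k + 1) - U k)) fun k hk => ?_).trans ?_)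
        · obtain ⟨h1, h2⟩ := Finset.mem_Ico.1 hk
          rw [abs_mul, abs_of_nonneg (sub_nonneg.2 (hU k h2))]
          exact mul_le_mul_of_nonneg_right (hap k h2.le (by omega)) (sub_nonneg.2 (hU k h2))
        · rw [← Finset.mul_sum, Finset.sum_Ico_sub U hGD]
          exact mul_le_of_le_one_right hη (by linarith [(hU' _ le_rfl).1])
    rw [← Finset.sum_range_sub C D, Finset.mul_sum, ← Finset.sum_sub_distrib,
      Finset.sum_congr rfl (g := fun k => (a k - p) * (U (k + 1) - U k)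
          + (a k - p) * ((C (k + 1) - U (k + 1)) - (C k - U k))) fun k _ => by ring, Finset.sum_add_distrib]
    exact (abs_add_le _ _).trans (by linarith)
  -- the corner
  have t4 : |(q - C 0) * (A 0 - p)| ≤ (δ + ε) * (2 * M) := by
    rw [abs_mul]
    refine mul_le_mul ?_ ((abs_sub _ _).trans (by linarith [hA 0 (Nat.zero_le D)])) (abs_nonneg _) (by linarith)
    have h := abs_le.1 (hCU 0 (Nat.zero_le D))
    have h' := hU' 0 (Nat.zero_le _)
    rw [abs_le]; constructor <;> linarith [h.1, h.2, h'.1, h'.2]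
  have e : (∑ k ∈ range D, ((A (k + 1) - A k) * (C k - c k) + (C (k + 1) - C k) * (A k - a k)))
      = (∑ k ∈ range D, ((A (k + 1) - A k) * C k + (C (k + 1) - C k) * A k))
        - (∑ k ∈ range D, (A (k + 1) - A k) * c k) - (∑ k ∈ range D, (C (k + 1) - C k) * a k) := by
    rw [← Finset.sum_sub_distrib, ← Finset.sum_sub_distrib]
    exact Finset.sum_congr rfl fun k _ => by ring
  rw [e]
  rw [hCD] at t1 t3
  rw [abs_le] at t1 t2 t3 t4 ⊢
  constructor <;> linarith [t1.1, t1.2, t2.1, t2.2, t3.1, t3.2, t4.1, t4.2]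

end Vale.Agent.P150.PA.BlockCore
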