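import Vale.Agent.P150.PA.BlockSeq
import Vale.Agent.P150.PA.BlockCore
import Vale.Agent.P150.PA.AvgDir

/-! The flatness evaluation of the block experiment: the value of a period with global means is minus
twice the defect of the field identity, up to the root of the flatness defect and the Dirichlet form. -/

namespace Vale.Agent.P150.PA

open Ising LegVar

variable {n : ℕ} {J : Fin n → Fin n → ℝ} {b : Fin n → ℝ} {L τ M : ℝ}

/-- average over times of the root of the Dirichlet form of the root density, per root of `n` -/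
noncomputable def avgDir (J : Fin n → Fin n → ℝ) (b : Fin n → ℝ) (W : ℕ) (x : Cfg n) : ℝ :=
  (∑ u ∈ Finset.range (2 * W), Real.sqrt (dir J b fun y => Real.sqrt (Kpow J b u (Pi.single x (wt J b x)⁻¹) y)))
    / Real.sqrt n / W

namespace BlockEval

variable {x : Cfg n} {u h : ℕ}

lemma qmean_nonneg (v : ℕ) (y : Cfg n) : 0 ≤ qmean J b v y :=
  div_nonneg (Finset.sum_nonneg fun _ _ => sq_nonneg _) (Nat.cast_nonneg n)

lemma qlag_zero (hn : 0 < n) (v : ℕ) (y : Cfg n) : qlag J b v 0 y = 1 := by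
  have e : qmean J b 0 = fun _ => 1 := funext fun z => by
    rw [qmean, show (∑ i, mean J b 0 z i ^ 2) = (n : ℝ) by simp [mean, Kpow, sq, spin_mul_self],
      div_self (Nat.cast_ne_zero.2 hn.ne')]
  rw [qlag, e, Kpow_const hn]

lemma lag_bounds {v G a : ℕ} (h1 : G ≤ a) (h2 : a ≤ v) (y : Cfg n) :
    qmean J b v y ≤ qlag J b v a y ∧
      qlag J b v a y ≤ qmean J b v y + (qlag J b v G y - qmean J b v y) := by
  refine ⟨(qlag_self (J := J) (b := b) v y).symm.le.trans (qlag_anti h2 le_rfl y), ?_⟩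
  linarith [qlag_anti (J := J) (b := b) h1 h2 y]

/-- inner product with a slowly moving family, after subtracting a fixed vector -/
lemma cross (hn : 0 < n) (g : Fin n → Cfg n → ℝ) {U Z : ℝ} {D : ℕ}
    (hg : ∀ y, ∑ i, g i y ^ 2 ≤ U) (d : Cfg n → Fin n → ℝ) (c : Fin n → ℝ)
    (hd : Kpow J b u (fun F => ∑ i, (d F i - c i) ^ 2) x ≤ Z) :
    |Kpow J b u (fun F => ∑ i, Kpow J b D (g i) F * d F i) x
        - ∑ i, c i * Kpow J b (u + D) (g i) x| ≤ Real.sqrt U * Real.sqrt Z := by
  have e : (fun F => ∑ i, Kpow J b D (g i) F * d F i) =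
      fun F => (∑ i, Kpow J b D (g i) F * (d F i - c i)) + ∑ i, c i * Kpow J b D (g i) F := by
    funext F
    rw [← Finset.sum_add_distrib]
    exact Finset.sum_congr rfl fun i _ => by ring
  rw [e, Kpow_add_fun, Kpow_wsum, Finset.sum_congr rfl fun i (_ : i ∈ Finset.univ) =>
    congrArg (c i * ·) (Kpow_add' u D (g i) x).symm, add_sub_cancel_right]
  exact Kpow_dot hn (u := fun F i => Kpow J b D (g i) F) (fun y => Corr.sum_sq_Kpow_le hg D y) u x hd

/-- the mean at a flat time is close to the mean at the later time -/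
lemma close_mean (hJ : Tame J L) (hn : 0 < n) {G k : ℕ} (hh : (h : ℝ) ≤ τ * n) (hk : G ≤ k) (hkh : k ≤ h) :
    Kpow J b u (fun F => ∑ i, (mean J b k F i - mean J b (u + h) x i) ^ 2) x ≤
      n * ((qlag J b (u + h) G x - qmean J b (u + h) x)
        + ((corC L τ + 2 * mvC L τ 1) * estat J b u x + 2 / n)) := by
  have hn' : (0 : ℝ) < n := Nat.cast_pos.2 hn
  set v := u + h
  set m := mean J b v x
  have hq : ∑ i, m i ^ 2 = n * qmean J b v x := by
    rw [qmean, mul_div_cancel₀ _ hn'.ne']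
  have h1 := abs_le.1 (corr_lag (J := J) (b := b) (u := u) (x := x) hJ hn hh hkh hkh)
  rw [show (k + k) / 2 = k by omega] at h1
  have h2 := (lag_bounds (J := J) (b := b) hk (by omega : k ≤ v) x).2
  have hgam : ∀ y, gam (fun z => ∑ i, m i * spin (z i)) y ≤ 1 * n := fun y => by
    refine (vb_spin.gam_le m y).trans (le_of_le_of_eq ?_ rfl)
    rw [one_mul, one_mul]
    exact Corr.sum_sq_mean_le v x
  have h3 := abs_le.1 (move (b := b) hJ hn hgam u hkh hh x)
  rw [Kpow_wsum, Kpow_wsum] at h3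
  have e : Kpow J b u (fun F => ∑ i, (mean J b k F i - m i) ^ 2) x =
      Kpow J b u (fun F => ∑ i, mean J b k F i * mean J b k F i) x
        - 2 * ∑ i, m i * Kpow J b (u + k) (fun z => spin (z i)) x + n * qmean J b v x := by
    rw [show (fun F => ∑ i, (mean J b k F i - m i) ^ 2) = fun F =>
        ((∑ i, mean J b k F i * mean J b k F i) - 2 * ∑ i, m i * mean J b k F i) + ∑ i, m i ^ 2 from
      funext fun F => by
        rw [Finset.mul_sum, ← Finset.sum_sub_distrib, ← Finset.sum_add_distrib]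
        exact Finset.sum_congr rfl fun i _ => by ring, Kpow_add_fun, Kpow_sub_fun, Kpow_smul, Kpow_wsum,
      Kpow_const hn, hq]
    congr 3
    exact Finset.sum_congr rfl fun i _ => congrArg (m i * ·) (Kpow_add' u k _ x).symm
  have e' : ∑ i, m i * Kpow J b (u + h) (fun z => spin (z i)) x = n * qmean J b v x := by
    rw [← hq]
    exact Finset.sum_congr rfl fun i _ => (sq (m i)).symm
  rw [e'] at h3
  have h1' := mul_le_mul_of_nonneg_left h1.2 hn'.le
  rw [mul_sub, mul_div_cancel₀ _ hn'.ne'] at h1'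
  have h2' := mul_le_mul_of_nonneg_left h2 hn'.le
  rw [e]
  linarith [h3.1, h3.2, h1', h2']

/-- the derivative of the kernel moves in time, through a difference quotient -/
lemma move_dksi (hJ : Tame J L) (hn : 0 < n) (Ψ : Kern) (θ : Fin n → Fin 3 → ℝ) (hM : Ψ.M ≤ M) {η : ℝ}
    (hη : 0 < η) (s : ℕ) {k l : ℕ} (hkl : k ≤ l) (hl : (l : ℝ) ≤ τ * n) :
    |Kpow J b (s + k) (fun y => ∑ i, dksi J Ψ θ i y) x - Kpow J b (s + l) (fun y => ∑ i, dksi J Ψ θ i y) x|
      ≤ n * (2 * facB M * η) + mvC L τ (4 * facA M L) * (n * estat J b s x) / η := by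
  set φ := fun y => (∑ i, ksi J (shiftKern Ψ η) θ i y) - ∑ i, ksi J Ψ θ i y with hφ
  have hg : ∀ y, gam φ y ≤ 4 * facA M L * n := fun y => by
    refine (gam_sub_le _ _ y).trans ?_
    have h1 := (vb_ksi hJ (shiftKern Ψ η) θ (show (shiftKern Ψ η).M ≤ M from hM)).gam_le (fun _ => 1) y
    have h2 := (vb_ksi hJ Ψ θ hM).gam_le (fun _ => 1) y
    simp only [one_mul, one_pow, Finset.sum_const, Finset.card_univ, Fintype.card_fin, nsmul_eq_mul, mul_one] at h1 h2
    linarith
  have hap : ∀ y, |(∑ i, dksi J Ψ θ i y) - 1 / η * φ y| ≤ n * (facB M * η) := fun y => by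
    simp only [hφ]
    rw [← Finset.sum_sub_distrib, Finset.mul_sum, ← Finset.sum_sub_distrib]
    refine abs_sum_fin_le fun i => ?_
    have ht := test_taylor (x := fld J 0 i y + η) (y := fld J 0 i y) (h := fld J 0 i y) (D := η)
      (kern_bdd Ψ θ hM) i 0 true (by simp [abs_of_pos hη]) (by simp [hη.le])
    simp only [kernTest, add_sub_cancel_left, abs_of_pos hη] at ht
    simp only [ksi, dksi, shiftKern]
    rw [abs_sub_comm] at ht
    rw [show Ψ.dfn (θ i) (fld J 0 i y) - 1 / η * (Ψ.fn (θ i) (fld J 0 i y + η) - Ψ.fn (θ i) (fld J 0 i y)) =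
      1 / η * (Ψ.dfn (θ i) (fld J 0 i y) * η - (Ψ.fn (θ i) (fld J 0 i y + η) - Ψ.fn (θ i) (fld J 0 i y))) by
        field_simp, abs_mul, abs_of_pos (by positivity : 0 < 1 / η), one_div_mul_eq_div, div_le_iff₀ hη]
    exact ht.trans (mul_le_mul_of_nonneg_right (mul_le_mul_of_nonneg_right (le_max_left _ _) hη.le) hη.le)
  have c1 := abs_le.1 (Kpow_close b hn hap (s + k) x (J := J))
  have c2 := abs_le.1 (Kpow_close b hn hap (s + l) x (J := J))
  rw [Kpow_smul] at c1 c2
  have h := move (b := b) hJ hn hg s hkl hl x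
  have h' : |1 / η * Kpow J b (s + k) φ x - 1 / η * Kpow J b (s + l) φ x|
      ≤ mvC L τ (4 * facA M L) * (n * estat J b s x) / η := by
    rw [← mul_sub, abs_mul, abs_of_pos (by positivity : 0 < 1 / η), one_div_mul_eq_div]
    exact div_le_div_of_nonneg_right h hη.le
  rw [abs_le] at h' ⊢
  constructor <;> linarith [c1.1, c1.2, c2.1, c2.2, h'.1, h'.2]

/-- constant in front of the root of the defect -/
noncomputable def kcC (β L M : ℝ) : ℝ := facB M * max L 1 + 9 * β ^ 2 * facB M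

/-- constant in front of the small terms -/
noncomputable def errC (β L M τ : ℝ) : ℝ :=
  let B := facB M
  let A := facA M L
  let L' := max L 1
  let cZ := Real.sqrt (corC L τ + 2 * mvC L τ 1) + 2
  let m1 := mvC L τ (3 * (L' ^ 2 * B ^ 2 + A * L' ^ 2 + 4 * (L' ^ 2 * A)))
  m1 + B * L' * cZ + mvC L τ (A * L' ^ 2)
    + β ^ 2 * (B * (corC L τ + 2) + (2 * B + mvC L τ (4 * A)))
    + β ^ 2 * (16 * B + B * cZ + mvC L τ A + (6 * B + 6 * τ * B) * (corC L τ + mvC L τ (ovA L τ) + 2) + 9 * τ * B)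
    + β ^ 2 * (mvC L τ (3 * (A + B ^ 2 + 4 * A)) + 4 * B)

lemma errC_nonneg (β L M : ℝ) (hτ : 0 ≤ τ) : 0 ≤ errC β L M τ := by
  have : 0 ≤ facB M := zero_le_one.trans one_le_facB
  have : 0 ≤ max L 1 := zero_le_one.trans (le_max_right _ _)
  have := corC_nonneg (L := L) hτ
  have := fun a => mvC_nonneg (L := L) hτ a
  have hA : 0 ≤ facA M L := facA_nonneg
  simp only [errC]
  repeat' first | assumption | exact this _ | positivity | apply add_nonneg | apply mul_nonneg

/-- the small terms of one period -/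
noncomputable def small (J : Fin n → Fin n → ℝ) (b : Fin n → ℝ) (D u h : ℕ) (x : Cfg n) : ℝ :=
  Real.sqrt (estat J b u x) + estat J b u x + 1 / Real.sqrt n + estat J b (u + h) x
    + (∑ k ∈ Finset.range D, estat J b (u + k) x) / n

/-- the parts of the small terms -/
lemma small_bounds (hn : 0 < n) (D u h : ℕ) (x : Cfg n) :
    estat J b u x ≤ small J b D u h x ∧ Real.sqrt (estat J b u x) + 1 / Real.sqrt n ≤ small J b D u h x ∧
      estat J b u x + 1 / (n : ℝ) ≤ small J b D u h x ∧ estat J b (u + h) x ≤ small J b D u h x ∧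
      (∑ k ∈ Finset.range D, estat J b (u + k) x) / n ≤ small J b D u h x := by
  have hn' : (0 : ℝ) < n := Nat.cast_pos.2 hn
  have he : 0 ≤ estat J b u x := estat_nonneg u x
  have he' : 0 ≤ estat J b (u + h) x := estat_nonneg _ x
  have hS : 0 ≤ (∑ k ∈ Finset.range D, estat J b (u + k) x) / n :=
    div_nonneg (Finset.sum_nonneg fun k _ => estat_nonneg _ _) hn'.le
  have hr : (0 : ℝ) ≤ 1 / Real.sqrt n := by positivity
  have s_n : 1 / (n : ℝ) ≤ 1 / Real.sqrt n := by
    refine one_div_le_one_div_of_le (Real.sqrt_pos.2 hn') ?_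
    exact Real.sqrt_le_iff.2 ⟨hn'.le, le_self_pow₀ (by exact_mod_cast hn) two_ne_zero⟩
  have := Real.sqrt_nonneg (estat J b u x)
  refine ⟨?_, ?_, ?_, ?_, ?_⟩ <;> · simp only [small]; linarith

/-- the flatness defect is between zero and one -/
lemma delta_facts (hn : 0 < n) {G v : ℕ} (hG : G ≤ v) (x : Cfg n) :
    0 ≤ qlag J b v G x - qmean J b v x ∧ 0 ≤ 1 - qmean J b v x ∧ 1 - qmean J b v x ≤ 1 ∧
      qlag J b v G x - qmean J b v x ≤ Real.sqrt (qlag J b v G x - qmean J b v x) := by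
  have h1 := (lag_bounds (J := J) (b := b) le_rfl hG x).1
  have h2 := qlag_anti (J := J) (b := b) (Nat.zero_le G) hG x
  have h3 := qlag_zero (J := J) (b := b) hn v x
  have h4 := qmean_nonneg (J := J) (b := b) v x
  refine ⟨by linarith, by linarith, by linarith, Real.le_sqrt_of_sq_le ?_⟩
  rw [sq]
  exact mul_le_of_le_one_right (by linarith) (by linarith)

/-- constant in the distance of the flat means -/
noncomputable def zC (L τ : ℝ) : ℝ := Real.sqrt (corC L τ + 2 * mvC L τ 1) + 2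

/-- squared distance of the flat means, per site -/
noncomputable def flatZ (J : Fin n → Fin n → ℝ) (b : Fin n → ℝ) (L τ : ℝ) (G u h : ℕ) (x : Cfg n) : ℝ :=
  (qlag J b (u + h) G x - qmean J b (u + h) x) + ((corC L τ + 2 * mvC L τ 1) * estat J b u x + 2 / n)

lemma sqrt_flatZ_le (hn : 0 < n) (hτ : 0 ≤ τ) {G : ℕ} (D : ℕ) (hG : G ≤ u + h) (x : Cfg n) :
    Real.sqrt (flatZ J b L τ G u h x) ≤
      Real.sqrt (qlag J b (u + h) G x - qmean J b (u + h) x) + zC L τ * small J b D u h x := by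
  have hn' : (0 : ℝ) < n := Nat.cast_pos.2 hn
  have hδ0 := (delta_facts (J := J) (b := b) hn hG x).1
  have s_r := (small_bounds (J := J) (b := b) hn D u h x).2.1
  set δ := qlag J b (u + h) G x - qmean J b (u + h) x
  set e := estat J b u x
  have he : 0 ≤ e := estat_nonneg u x
  have hc0 : 0 ≤ corC L τ + 2 * mvC L τ 1 := by
    linarith [corC_nonneg (L := L) hτ, mvC_nonneg (L := L) hτ 1]
  have hcZ0 : 0 ≤ zC L τ := by unfold zC; positivity
  refine (Real.sqrt_le_iff.2 ⟨by positivity, ?_⟩).trans (add_le_add le_rfl (mul_le_mul_of_nonneg_left s_r hcZ0))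
  have e1 := Real.sq_sqrt hδ0
  have e2 := Real.sq_sqrt he
  have e3 : (1 / Real.sqrt n) ^ 2 = 1 / n := by rw [div_pow, one_pow, Real.sq_sqrt hn'.le]
  have p1 : 0 ≤ Real.sqrt δ * (zC L τ * (Real.sqrt e + 1 / Real.sqrt n)) := by positivity
  have p2 : (corC L τ + 2 * mvC L τ 1) + 4 ≤ zC L τ ^ 2 := by
    rw [zC, add_sq, Real.sq_sqrt hc0]
    linarith [Real.sqrt_nonneg (corC L τ + 2 * mvC L τ 1)]
  have p3 : 0 ≤ Real.sqrt e * (1 / Real.sqrt n) := by positivity
  have p4 := mul_le_mul_of_nonneg_right p2 (by positivity : (0 : ℝ) ≤ e + 1 / n)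
  have p5 := mul_nonneg (sq_nonneg (zC L τ)) p3
  have p6 : (2 : ℝ) / n ≤ (corC L τ + 2 * mvC L τ 1 + 4) * (1 / n) := by
    rw [← mul_div_assoc, mul_one]
    exact div_le_div_of_nonneg_right (by linarith) hn'.le
  simp only [flatZ, add_sq, mul_pow, e1, e2, e3]
  linarith [mul_nonneg (show (0 : ℝ) ≤ 4 by norm_num) he]

/-- the energy term against the defect of the field identity -/
lemma energy_bound (hJ : Tame J L) (hn : 0 < n) (Ψ : Kern) (θ : Fin n → Fin 3 → ℝ) (hM : Ψ.M ≤ M)
    {G : ℕ} (hDh : 4 * G ≤ h) (hh : (h : ℝ) ≤ τ * n) :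
    |(Kpow J b (u + h) (fun y => ∑ i, ksi J Ψ θ i y * fld J 0 i y) x
        - Kpow J b (u + 4 * G) (fun y => ∑ i, ksi J Ψ θ i y * fld J 0 i y) x)
      + (Kpow J b u (fun F => ∑ i, Kpow J b (4 * G) (ksi J Ψ θ i) F * Kpow J b (4 * G) (fld J 0 i) F) x
        - ∑ i, (∑ j, J i j * mean J b (u + h) x j) * Kpow J b (u + h) (ksi J Ψ θ i) x)| ≤
      n * (facB M * max L 1 * Real.sqrt (qlag J b (u + h) G x - qmean J b (u + h) x)
        + (mvC L τ (3 * (max L 1 ^ 2 * facB M ^ 2 + facA M L * max L 1 ^ 2 + 4 * (max L 1 ^ 2 * facA M L)))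
          + facB M * max L 1 * zC L τ + mvC L τ (facA M L * max L 1 ^ 2)) * small J b (4 * G) u h x) := by
  have hn' : (0 : ℝ) < n := Nat.cast_pos.2 hn
  have hτ : 0 ≤ τ := nonneg_of_mul_nonneg_left ((Nat.cast_nonneg h).trans hh) hn'
  obtain ⟨s_e, s_r, s_en, s_v, s_S⟩ := small_bounds (J := J) (b := b) hn (4 * G) u h x
  obtain ⟨hδ0, hq01, hq11, hsd⟩ := delta_facts (J := J) (b := b) (v := u + h) hn (by omega : G ≤ u + h) x
  have hZ := sqrt_flatZ_le (J := J) (b := b) (L := L) (u := u) (h := h) hn hτ (G := G) (4 * G) (by omega) x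
  have hcor := corC_nonneg (L := L) hτ
  have hmv := fun a => mvC_nonneg (L := L) hτ a
  have hksi := abs_ksi (J := J) Ψ θ hM
  set v := u + h
  set D := 4 * G with hD
  set e := estat J b u x with hedef
  set sm := small J b D u h x
  set B := facB M
  set A := facA M L
  set L' := max L 1
  set m := mean J b v x
  have hB : 0 ≤ B := zero_le_one.trans one_le_facB
  have hL' : 0 ≤ L' := zero_le_one.trans (le_max_right _ _)
  have hA : 0 ≤ A := facA_nonneg
  have he : 0 ≤ e := estat_nonneg u x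
  have hcl : ∀ k, G ≤ k → k ≤ h →
      Kpow J b u (fun F => ∑ i, (mean J b k F i - m i) ^ 2) x ≤ n * flatZ J b L τ G u h x :=
    fun k h1 h2 => close_mean hJ hn hh h1 h2
  set Z := flatZ J b L τ G u h x with hZdef
  set cZ := zC L τ
  set sd := Real.sqrt (qlag J b v G x - qmean J b v x)
  have hsum2 : ∀ y, ∑ i, ksi J Ψ θ i y ^ 2 ≤ n * B ^ 2 := fun y => sum_sq_le_of_abs fun i => hksi i y
  set Jm : Fin n → ℝ := fun i => ∑ j, J i j * m j with hJm
  have hJm2 : ∑ i, Jm i ^ 2 ≤ L' ^ 2 * n :=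
    (mulJ_sq hJ m).trans (mul_le_mul_of_nonneg_left (Corr.sum_sq_mean_le v x) (sq_nonneg _))
  set P1 := Kpow J b (u + D) (fun y => ∑ i, ksi J Ψ θ i y * fld J 0 i y) x with hP1
  set P1v := Kpow J b v (fun y => ∑ i, ksi J Ψ θ i y * fld J 0 i y) x
  set Q1 := Kpow J b u (fun F => ∑ i, Kpow J b D (ksi J Ψ θ i) F * Kpow J b D (fld J 0 i) F) x
  set JE := ∑ i, Jm i * Kpow J b v (ksi J Ψ θ i) x with hJE
  have E1 : |P1 - P1v| ≤ n * (mvC L τ (3 * (L' ^ 2 * B ^ 2 + A * L' ^ 2 + 4 * (L' ^ 2 * A))) * sm) := by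
    refine (move (b := b) hJ hn (fun y => ((vb_ksi hJ Ψ θ hM).gam_dot (vb_fld hJ) y).trans (le_of_eq ?_))
      u (k := D) hDh hh x (a := 3 * (L' ^ 2 * B ^ 2 + A * L' ^ 2 + 4 * (L' ^ 2 * A)))).trans ?_
    · simp only [A, B, L']; ring
    · rw [← hedef, mul_comm (n : ℝ) e, ← mul_assoc, mul_comm (n : ℝ)]
      exact mul_le_mul_of_nonneg_right (mul_le_mul_of_nonneg_left s_e (hmv _)) hn'.le
  have E2 : |Q1 - JE| ≤ n * (B * L' * sd + (B * L' * cZ + mvC L τ (A * L' ^ 2)) * sm) := by
    have h1 : |Q1 - ∑ i, Jm i * Kpow J b (u + D) (ksi J Ψ θ i) x| ≤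
        Real.sqrt (n * B ^ 2) * Real.sqrt (L' ^ 2 * (n * Z)) := by
      refine cross hn _ hsum2 (fun F i => Kpow J b D (fld J 0 i) F) Jm ?_
      refine (Block.Kpow_mono (ψ := fun F => L' ^ 2 * ∑ i, (mean J b D F i - m i) ^ 2) (fun F => ?_) u x).trans ?_
      · refine le_of_eq_of_le (Finset.sum_congr rfl fun i _ => ?_) (mulJ_sq hJ fun j => mean J b D F j - m j)
        rw [show fld J 0 i = fun z => ∑ j, J i j * spin (z j) from funext fun z => by simp [fld], Kpow_wsum]
        simp only [hJm, mul_sub, Finset.sum_sub_distrib]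
        rfl
      · rw [Kpow_smul]
        exact mul_le_mul_of_nonneg_left (hcl D (by omega) hDh) (sq_nonneg _)
    have h2 : |(∑ i, Jm i * Kpow J b (u + D) (ksi J Ψ θ i) x) - JE| ≤ mvC L τ (A * L' ^ 2) * (n * e) := by
      rw [hJE, ← Kpow_wsum, ← Kpow_wsum]
      refine move (b := b) hJ hn (fun y => ((vb_ksi hJ Ψ θ hM).gam_le Jm y).trans ?_) u hDh hh x
      rw [mul_assoc]
      exact mul_le_mul_of_nonneg_left hJm2 hA
    have h3 : Real.sqrt (n * B ^ 2) * Real.sqrt (L' ^ 2 * (n * Z)) = n * (B * L' * Real.sqrt Z) := by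
      rw [Real.sqrt_mul hn'.le, Real.sqrt_mul (sq_nonneg _), Real.sqrt_mul hn'.le, Real.sqrt_sq hB, Real.sqrt_sq hL']
      linear_combination (B * L' * Real.sqrt Z) * Real.mul_self_sqrt hn'.le
    refine ((abs_sub_le _ _ _).trans (add_le_add h1 h2)).trans ?_
    rw [h3]
    have := mul_le_mul_of_nonneg_left hZ (by positivity : 0 ≤ (n : ℝ) * (B * L'))
    have := mul_le_mul_of_nonneg_left s_e (mul_nonneg hn'.le (hmv (A * L' ^ 2)))
    linarith
  rw [abs_sub_comm] at E1
  exact ((abs_add_le _ _).trans (add_le_add E1 E2)).trans (le_of_eq (by ring))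

/-- the trace term -/
lemma trace_bound (β : ℝ) (hJ : Tame J L) (hn : 0 < n) (Ψ : Kern) (θ : Fin n → Fin 3 → ℝ) (hM : Ψ.M ≤ M)
    {G : ℕ} (hDh : 4 * G ≤ h) (hh : (h : ℝ) ≤ τ * n) :
    |β ^ 2 / n * Kpow J b (u + 4 * G) (fun y => ∑ i, dksi J Ψ θ i y) x
          * Kpow J b u (ccov J b (4 * G) (4 * G) (fun i y => spin (y i))) x
        - β ^ 2 * (1 - qmean J b (u + h) x) * Kpow J b (u + h) (fun y => ∑ i, dksi J Ψ θ i y) x| ≤
      n * (β ^ 2 * facB M * Real.sqrt (qlag J b (u + h) G x - qmean J b (u + h) x)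
        + β ^ 2 * (facB M * (corC L τ + 2) + (2 * facB M + mvC L τ (4 * facA M L))) * small J b (4 * G) u h x) := by
  have hn' : (0 : ℝ) < n := Nat.cast_pos.2 hn
  have hτ : 0 ≤ τ := nonneg_of_mul_nonneg_left ((Nat.cast_nonneg h).trans hh) hn'
  obtain ⟨s_e, s_r, s_en, s_v, s_S⟩ := small_bounds (J := J) (b := b) hn (4 * G) u h x
  obtain ⟨hδ0, hq01, hq11, hsd⟩ := delta_facts (J := J) (b := b) (v := u + h) hn (by omega : G ≤ u + h) x
  have hZ := sqrt_flatZ_le (J := J) (b := b) (L := L) (u := u) (h := h) hn hτ (G := G) (4 * G) (by omega) x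
  have hcor := corC_nonneg (L := L) hτ
  have hmv := fun a => mvC_nonneg (L := L) hτ a
  have hksi := abs_ksi (J := J) Ψ θ hM
  set v := u + h
  set D := 4 * G with hD
  set e := estat J b u x with hedef
  set sm := small J b D u h x
  set B := facB M
  set A := facA M L
  set L' := max L 1
  set m := mean J b v x
  have hB : 0 ≤ B := zero_le_one.trans one_le_facB
  have hL' : 0 ≤ L' := zero_le_one.trans (le_max_right _ _)
  have hA : 0 ≤ A := facA_nonneg
  have he : 0 ≤ e := estat_nonneg u x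
  have lag := fun a (h1 : G ≤ a) (h2 : a ≤ v) => lag_bounds (J := J) (b := b) h1 h2 x
  set q := qmean J b v x with hqdef
  set δ := qlag J b v G x - q with hδdef
  set sd := Real.sqrt δ
  set X := Kpow J b (u + D) (fun y => ∑ i, dksi J Ψ θ i y) x with hX
  set Xv := Kpow J b v (fun y => ∑ i, dksi J Ψ θ i y) x
  set Y := Kpow J b u (ccov J b D D (fun i y => spin (y i))) x with hYdef
  set η := Real.sqrt e + 1 / Real.sqrt n with hη
  have hη0 : 0 < η := by
    have : (0 : ℝ) < 1 / Real.sqrt n := by positivity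
    linarith [Real.sqrt_nonneg e]
  have E3 : |β ^ 2 / n * X * Y - β ^ 2 * (1 - q) * Xv| ≤
      n * (β ^ 2 * B * sd + β ^ 2 * (B * (corC L τ + 2) + (2 * B + mvC L τ (4 * A))) * sm) := by
    have hXv : |X - Xv| ≤ n * ((2 * B + mvC L τ (4 * A)) * sm) := by
      refine (move_dksi hJ hn Ψ θ hM hη0 u hDh hh).trans ?_
      have h1 : e / η ≤ η := by
        rw [div_le_iff₀ hη0]
        calc e = Real.sqrt e * Real.sqrt e := (Real.mul_self_sqrt he).symm
          _ ≤ η * η := mul_self_le_mul_self (Real.sqrt_nonneg e)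
              (le_add_of_nonneg_right (by positivity))
      have h2 := mul_le_mul_of_nonneg_left (h1.trans s_r) (mul_nonneg hn'.le (hmv (4 * A)))
      have h3 := mul_le_mul_of_nonneg_left s_r (by positivity : 0 ≤ (n : ℝ) * (2 * B))
      have h4 : mvC L τ (4 * A) * (n * e) / η = n * mvC L τ (4 * A) * (e / η) := by ring
      rw [← hedef, h4]
      linarith
    have hXb : |X| ≤ n * B :=
      abs_Kpow_le b hn (fun y => abs_sum_fin_le fun i => abs_dksi Ψ θ hM i y) _ x
    have hY : |Y / n - (1 - q)| ≤ δ + (corC L τ * e + 2 / n) := by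
      rw [hYdef, Kpow_ccov hn, mul_div_cancel_left₀ _ hn'.ne']
      have hA1 : seqA J b D u (fun i y => spin (y i)) x D = 1 := by
        rw [seqA, Nat.sub_self, show (fun z : Cfg n => ∑ i, spin (z i) *
          Kpow J b 0 (fun y => spin (y i)) z) = fun _ => (n : ℝ) from funext fun z => by simp [Kpow, spin_mul_self],
          Kpow_const hn, div_self hn'.ne']
      have hc : |seqa J b D u (fun i y => spin (y i)) x D - qlag J b v ((D + D) / 2) x| ≤ corC L τ * e + 2 / n :=
        corr_lag hJ hn hh hDh hDh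
      have hl := lag ((D + D) / 2) (by omega) (by omega)
      rw [hA1]
      rw [abs_le] at hc ⊢
      constructor <;> linarith [hc.1, hc.2, hl.1, hl.2]
    rw [show β ^ 2 / n * X * Y - β ^ 2 * (1 - q) * Xv =
      β ^ 2 * (X * (Y / n - (1 - q)) + (1 - q) * (X - Xv)) by ring, abs_mul, abs_of_nonneg (sq_nonneg β)]
    refine (mul_le_mul_of_nonneg_left ((abs_add_le _ _).trans (add_le_add ?_ ?_)) (sq_nonneg β)).trans (le_of_eq ?_)
      (b := β ^ 2 * (n * (B * (sd + (corC L τ + 2) * sm)) + n * ((2 * B + mvC L τ (4 * A)) * sm)))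
    · rw [abs_mul, ← mul_assoc]
      refine mul_le_mul hXb (hY.trans ?_) (abs_nonneg _) (by positivity)
      have := mul_le_mul_of_nonneg_left s_en (by linarith : 0 ≤ corC L τ + 2)
      have : 0 ≤ corC L τ * (1 / n) + 2 * e := by positivity
      rw [show (2 : ℝ) / n = 2 * (1 / n) by ring]
      linarith
    · rw [abs_mul, abs_of_nonneg (by linarith : 0 ≤ 1 - q)]
      exact (mul_le_of_le_one_left (abs_nonneg _) (by linarith)).trans hXv
    · ring
  exact E3

/-- the response term against the flat values of the correlation sequences -/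
lemma response_bound (β : ℝ) (hJ : Tame J L) (hn : 0 < n) (Ψ : Kern) (θ : Fin n → Fin 3 → ℝ) (hM : Ψ.M ≤ M)
    {G : ℕ} (hDh : 4 * G ≤ h) (hh : (h : ℝ) ≤ τ * n) :
    |β ^ 2 / n * (∑ k ∈ Finset.range (4 * G),
        (Kpow J b u (cresp J b (4 * G) k (ksi J Ψ θ)) x * Kpow J b u (ccov J b (4 * G) k (fun i y => spin (y i))) x
          + Kpow J b u (cresp J b (4 * G) k (fun i y => spin (y i))) x * Kpow J b u (ccov J b (4 * G) k (ksi J Ψ θ)) x))
        - β ^ 2 * n * ((1 - qmean J b (u + h) x) * (seqA J b (4 * G) u (ksi J Ψ θ) x (4 * G)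
          - (∑ i, mean J b (u + h) x i * Kpow J b (u + h) (ksi J Ψ θ i) x) / n))| ≤
      n * (8 * β ^ 2 * facB M * Real.sqrt (qlag J b (u + h) G x - qmean J b (u + h) x)
        + β ^ 2 * (16 * facB M + facB M * zC L τ + mvC L τ (facA M L)
          + (6 * facB M + 6 * τ * facB M) * (corC L τ + mvC L τ (ovA L τ) + 2) + 9 * τ * facB M)
          * small J b (4 * G) u h x) := by
  have hn' : (0 : ℝ) < n := Nat.cast_pos.2 hn
  have hτ : 0 ≤ τ := nonneg_of_mul_nonneg_left ((Nat.cast_nonneg h).trans hh) hn'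
  obtain ⟨s_e, s_r, s_en, s_v, s_S⟩ := small_bounds (J := J) (b := b) hn (4 * G) u h x
  obtain ⟨hδ0, hq01, hq11, hsd⟩ := delta_facts (J := J) (b := b) (v := u + h) hn (by omega : G ≤ u + h) x
  have hZ := sqrt_flatZ_le (J := J) (b := b) (L := L) (u := u) (h := h) hn hτ (G := G) (4 * G) (by omega) x
  have hcor := corC_nonneg (L := L) hτ
  have hmv := fun a => mvC_nonneg (L := L) hτ a
  have hksi := abs_ksi (J := J) Ψ θ hM
  set v := u + h
  set D := 4 * G with hD
  set e := estat J b u x with hedef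
  set sm := small J b D u h x
  set B := facB M
  set A := facA M L
  set L' := max L 1
  set m := mean J b v x
  have hB : 0 ≤ B := zero_le_one.trans one_le_facB
  have hL' : 0 ≤ L' := zero_le_one.trans (le_max_right _ _)
  have hA : 0 ≤ A := facA_nonneg
  have he : 0 ≤ e := estat_nonneg u x
  have hcl : ∀ k, G ≤ k → k ≤ h →
      Kpow J b u (fun F => ∑ i, (mean J b k F i - m i) ^ 2) x ≤ n * flatZ J b L τ G u h x :=
    fun k h1 h2 => close_mean hJ hn hh h1 h2
  set Z := flatZ J b L τ G u h x with hZdef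
  set cZ := zC L τ
  set sd := Real.sqrt (qlag J b v G x - qmean J b v x)
  have hsum2 : ∀ y, ∑ i, ksi J Ψ θ i y ^ 2 ≤ n * B ^ 2 := fun y => sum_sq_le_of_abs fun i => hksi i y
  have lag := fun a (h1 : G ≤ a) (h2 : a ≤ v) => lag_bounds (J := J) (b := b) h1 h2 x
  have hq0 : 0 ≤ qmean J b v x := qmean_nonneg v x
  have hDτ : (D : ℝ) ≤ τ * n := (Nat.cast_le.2 hDh).trans hh
  set q := qmean J b v x with hqdef
  set δ := qlag J b v G x - q with hδdef
  set sp : Fin n → Cfg n → ℝ := fun i y => spin (y i) with hsp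
  have habs : ∀ i z, |sp i z| ≤ 1 := fun i z => abs_spin_le (z i)
  set T3 := β ^ 2 / n * ∑ k ∈ Finset.range D,
      (Kpow J b u (cresp J b D k (ksi J Ψ θ)) x * Kpow J b u (ccov J b D k sp) x
        + Kpow J b u (cresp J b D k sp) x * Kpow J b u (ccov J b D k (ksi J Ψ θ)) x)
  set Aq := seqA J b D u (ksi J Ψ θ) x
  set aq := seqa J b D u (ksi J Ψ θ) x
  set Cq := seqA J b D u sp x
  set cq := seqa J b D u sp x
  set p := (∑ i, m i * Kpow J b v (ksi J Ψ θ i) x) / n with hp
  have E4 : |T3 - β ^ 2 * n * ((1 - q) * (Aq D - p))| ≤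
      n * (8 * β ^ 2 * B * sd + β ^ 2 * (16 * B + B * cZ + mvC L τ A
        + (6 * B + 6 * τ * B) * (corC L τ + mvC L τ (ovA L τ) + 2) + 9 * τ * B) * sm) := by
    set ε := (corC L τ + mvC L τ (ovA L τ)) * e + 2 / n with hε
    set ηa := B * Real.sqrt Z + mvC L τ A * e
    have hε0 : 0 ≤ ε := add_nonneg (mul_nonneg (add_nonneg hcor (hmv _)) he) (by positivity)
    have hηa0 : 0 ≤ ηa := add_nonneg (mul_nonneg hB (Real.sqrt_nonneg _)) (mul_nonneg (hmv _) he)
    have hcu : ∀ k ≤ D, |cq k - qlag J b v ((D + k) / 2) x| ≤ ε := fun k hk => by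
      have h1 : |cq k - qlag J b v ((k + D) / 2) x| ≤ corC L τ * e + 2 / n :=
        corr_lag hJ hn hh (hk.trans hDh) hDh
      rw [Nat.add_comm k D] at h1
      exact h1.trans (by linarith [mul_nonneg (hmv (ovA L τ)) he])
    have hCU : ∀ k ≤ D, |Cq k - qlag J b v ((D - k) / 2) x| ≤ ε := fun k hk => by
      have h1 := corr_lag (J := J) (b := b) (u := u) (x := x) hJ hn hh (Nat.zero_le h)
        (show D - k ≤ h by omega)
      rw [Nat.zero_add] at h1
      have h2 := move (b := b) hJ hn (fun y => gam_means (b := b) (a := 0) (c := D - k) hJ hn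
        (by simpa using mul_nonneg hτ hn'.le) ((Nat.cast_le.2 (Nat.sub_le D k)).trans hDτ) y)
        u (k := 0) (Nat.zero_le k) ((Nat.cast_le.2 hk).trans hDτ) x
      rw [Nat.add_zero, abs_sub_comm] at h2
      have h3 : |Cq k - Kpow J b u (fun F => ∑ i, mean J b 0 F i * mean J b (D - k) F i) x / n| ≤
          mvC L τ (ovA L τ) * e := by
        show |seqA J b D u sp x k - _| ≤ _
        rw [seqA, ← sub_div, abs_div, Nat.abs_cast, div_le_iff₀ hn']
        exact le_of_le_of_eq h2 (by rw [hedef]; ring)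
      rw [abs_le] at h1 h3 ⊢
      constructor <;> linarith [h1.1, h1.2, h3.1, h3.2]
    have hap : ∀ k ≤ D, G ≤ k → |aq k - p| ≤ ηa := fun k hk hGk => by
      have h1 : |Kpow J b u (fun F => ∑ i, Kpow J b D (ksi J Ψ θ i) F * mean J b k F i) x
          - ∑ i, m i * Kpow J b (u + D) (ksi J Ψ θ i) x| ≤ Real.sqrt (n * B ^ 2) * Real.sqrt (n * Z) :=
        cross hn _ hsum2 (fun F i => mean J b k F i) m (hcl k hGk (hk.trans hDh))
      rw [show Real.sqrt (n * B ^ 2) * Real.sqrt (n * Z) = n * (B * Real.sqrt Z) by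
        rw [Real.sqrt_mul hn'.le, Real.sqrt_mul hn'.le, Real.sqrt_sq hB]
        linear_combination (B * Real.sqrt Z) * Real.mul_self_sqrt hn'.le] at h1
      have h2 : |(∑ i, m i * Kpow J b (u + D) (ksi J Ψ θ i) x) - ∑ i, m i * Kpow J b v (ksi J Ψ θ i) x|
          ≤ mvC L τ A * (n * e) := by
        rw [← Kpow_wsum, ← Kpow_wsum]
        refine move (b := b) hJ hn (fun y => ((vb_ksi hJ Ψ θ hM).gam_le m y).trans ?_) u hDh hh x
        exact mul_le_mul_of_nonneg_left (Corr.sum_sq_mean_le v x) hA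
      show |seqa J b D u (ksi J Ψ θ) x k - p| ≤ _
      rw [seqa, hp, ← sub_div, abs_div, Nat.abs_cast, div_le_iff₀ hn']
      refine le_trans ?_ ((add_le_add h1 h2).trans (le_of_eq (by simp only [ηa]; ring)))
      refine le_trans (le_of_eq ?_) (abs_sub_le _ _ _)
      rw [show (fun F => ∑ i, mean J b k F i * Kpow J b D (ksi J Ψ θ i) F) =
        fun F => ∑ i, Kpow J b D (ksi J Ψ θ i) F * mean J b k F i from
          funext fun F => Finset.sum_congr rfl fun i _ => mul_comm _ _]
    have hp' : |p| ≤ B := by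
      rw [hp, abs_div, Nat.abs_cast, div_le_iff₀ hn', mul_comm B]
      refine abs_sum_fin_le fun i => ?_
      rw [abs_mul]
      exact (mul_le_of_le_one_left (abs_nonneg _) (abs_mean_le hn v x i)).trans (abs_Kpow_le b hn (hksi i) v x)
    have hCD : Cq D = 1 := by
      show seqA J b D u sp x D = 1
      rw [seqA, Nat.sub_self, show (fun z : Cfg n => ∑ i, spin (z i) * Kpow J b 0 (sp i) z) = fun _ => (n : ℝ) from
        funext fun z => by simp [sp, Kpow, spin_mul_self], Kpow_const hn, div_self hn'.ne']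
    have hcore := BlockCore.core (D := D) (G := G) (A := Aq) (a := aq) (C := Cq) (c := cq)
      (u := fun k => qlag J b v ((D + k) / 2) x) (U := fun k => qlag J b v ((D - k) / 2) x)
      (M := B) (δ := δ) (ε := ε) (η := ηa) (q := q) (p := p) (s := 3 / n) (by omega) hδ0
      hε0 hηa0 (by positivity) hq0
      (fun k _ => abs_seqA_le hn hksi k) (fun k _ => abs_seqa_le hn hksi k) hp' hCD
      (fun k hk => (abs_seqA_step hn hksi hk).trans_eq (by ring))
      (fun k _ => (abs_seqa_step hn hksi k).trans (by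
        rw [mul_div_assoc', mul_comm B 3]
        exact div_le_div_of_nonneg_right (by linarith) hn'.le))
      (fun k hk => (abs_seqA_step hn habs hk).trans_eq (by ring))
      hcu hCU (fun k hk => qlag_anti (by omega) (by omega) x) (fun k hk => qlag_anti (by omega) (by omega) x)
      (fun k hk => lag _ (by omega) (by omega)) (fun k hk => lag _ (by omega) (by omega))
      (by simp [qlag_zero hn]) hap
    have hswap : |T3 - β ^ 2 * n * (∑ k ∈ Finset.range D,
        ((Aq (k + 1) - Aq k) * (Cq k - cq k) + (Cq (k + 1) - Cq k) * (Aq k - aq k)))| ≤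
          β ^ 2 * n * (16 * B * ((∑ k ∈ Finset.range D, estat J b (u + k) x) / n)) := by
      have e : T3 = β ^ 2 * n * ∑ k ∈ Finset.range D,
          ((Kpow J b u (cresp J b D k (ksi J Ψ θ)) x / n) * (Cq k - cq k)
            + (Kpow J b u (cresp J b D k sp) x / n) * (Aq k - aq k)) := by
        simp only [T3, Kpow_ccov hn, Finset.mul_sum, Aq, aq, Cq, cq]
        exact Finset.sum_congr rfl fun k _ => by field_simp
      rw [e, ← mul_sub, abs_mul, abs_of_nonneg (by positivity : 0 ≤ β ^ 2 * (n : ℝ))]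
      refine mul_le_mul_of_nonneg_left ?_ (by positivity)
      rw [← Finset.sum_sub_distrib, Finset.sum_div, Finset.mul_sum]
      refine (Finset.abs_sum_le_sum_abs _ _).trans (Finset.sum_le_sum fun k hk => ?_)
      have hk' := Finset.mem_range.1 hk
      have r1 : |Kpow J b u (cresp J b D k (ksi J Ψ θ)) x / n - (Aq (k + 1) - Aq k)| ≤
          4 * B * estat J b (u + k) x / n := by
        rw [abs_sub_comm]; exact step_resp hJ hn hksi hk'
      have r2 : |Kpow J b u (cresp J b D k sp) x / n - (Cq (k + 1) - Cq k)| ≤ 4 * 1 * estat J b (u + k) x / n := by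
        rw [abs_sub_comm]; exact step_resp hJ hn habs hk'
      have c1 : |Cq k - cq k| ≤ 2 :=
        (abs_sub _ _).trans (add_le_add (abs_seqA_le hn habs k) (abs_seqa_le hn habs k) |>.trans (by norm_num))
      have c2 : |Aq k - aq k| ≤ 2 * B :=
        (abs_sub _ _).trans (add_le_add (abs_seqA_le hn hksi k) (abs_seqa_le hn hksi k) |>.trans_eq (two_mul B).symm)
      have hek := estat_nonneg (J := J) (b := b) (u + k) x
      refine le_of_eq_of_le ?_ ((abs_add_le _ _).trans ((add_le_add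
        ((abs_mul _ _).trans_le (mul_le_mul r1 c1 (abs_nonneg _) (by positivity)))
        ((abs_mul _ _).trans_le (mul_le_mul r2 c2 (abs_nonneg _) (by positivity)))).trans (le_of_eq (by ring))))
      congr 1; ring
    have hS2 : |β ^ 2 * n * (∑ k ∈ Finset.range D,
        ((Aq (k + 1) - Aq k) * (Cq k - cq k) + (Cq (k + 1) - Cq k) * (Aq k - aq k)))
          - β ^ 2 * n * ((1 - q) * (Aq D - p))| ≤
        β ^ 2 * n * (B * (7 * δ + 6 * ε) + ηa + 2 * (D * (3 / n)) * (B * ε) + D * (3 / n) * (B * (3 / n))) := by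
      rw [← mul_sub, abs_mul, abs_of_nonneg (by positivity : 0 ≤ β ^ 2 * (n : ℝ))]
      exact mul_le_mul_of_nonneg_left hcore (by positivity)
    refine ((abs_sub_le _ _ _).trans (add_le_add hswap hS2)).trans ?_
    have d1 : (D : ℝ) * (3 / n) ≤ 3 * τ := by
      rw [← mul_div_assoc, div_le_iff₀ hn']; linarith
    have s1 : ε ≤ (corC L τ + mvC L τ (ovA L τ) + 2) * sm := by
      have h1 := mul_le_mul_of_nonneg_left s_en (by linarith [hmv (ovA L τ)] : 0 ≤ corC L τ + mvC L τ (ovA L τ) + 2)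
      have h2 : 0 ≤ (corC L τ + mvC L τ (ovA L τ)) * (1 / n) + 2 * e := by
        have := hmv (ovA L τ); positivity
      rw [hε, show (2 : ℝ) / n = 2 * (1 / n) by ring]
      linarith
    have s2 : ηa ≤ B * sd + (B * cZ + mvC L τ A) * sm := by
      have h1 := mul_le_mul_of_nonneg_left hZ hB
      have h2 := mul_le_mul_of_nonneg_left s_e (hmv A)
      simp only [ηa]; linarith
    have s3 : 2 * (D * (3 / n)) * (B * ε) ≤ 2 * (3 * τ) * (B * ε) :=
      mul_le_mul_of_nonneg_right (mul_le_mul_of_nonneg_left d1 zero_le_two) (mul_nonneg hB hε0)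
    have s4 : (D : ℝ) * (3 / n) * (B * (3 / n)) ≤ 3 * τ * (B * (3 * sm)) := by
      refine mul_le_mul d1 (mul_le_mul_of_nonneg_left ?_ hB) (by positivity) (by positivity)
      rw [show (3 : ℝ) / n = 3 * (1 / n) by ring]
      linarith
    have s5 := mul_le_mul_of_nonneg_left s1 (by positivity : 0 ≤ 6 * B + 6 * τ * B)
    have s6 := mul_le_mul_of_nonneg_left hsd (by linarith : 0 ≤ 7 * B)
    have s7 : 16 * B * ((∑ k ∈ Finset.range D, estat J b (u + k) x) / n) ≤ 16 * B * sm :=
      mul_le_mul_of_nonneg_left (by linarith [Real.sqrt_nonneg e]) (by linarith)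
    rw [← mul_add]
    refine le_trans (mul_le_mul_of_nonneg_left (show _ ≤ 8 * B * sd + (16 * B + B * cZ + mvC L τ A
      + (6 * B + 6 * τ * B) * (corC L τ + mvC L τ (ovA L τ) + 2) + 9 * τ * B) * sm by linarith) (by positivity))
      (le_of_eq (by ring))
  exact E4

/-- the spin against its conditional mean -/
lemma cond_bound (β : ℝ) (hJ : Tame J L) (hn : 0 < n) (Ψ : Kern) (θ : Fin n → Fin 3 → ℝ) (hM : Ψ.M ≤ M)
    {G : ℕ} (hDh : 4 * G ≤ h) (hh : (h : ℝ) ≤ τ * n) :
    |β ^ 2 * (1 - qmean J b (u + h) x) * (n * seqA J b (4 * G) u (ksi J Ψ θ) x (4 * G)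
        - Kpow J b (u + h) (fun y => ∑ i, mag J b i y * ksi J Ψ θ i y) x)| ≤
      n * (β ^ 2 * (mvC L τ (3 * (facA M L + facB M ^ 2 + 4 * facA M L)) + 4 * facB M) * small J b (4 * G) u h x) := by
  have hn' : (0 : ℝ) < n := Nat.cast_pos.2 hn
  have hτ : 0 ≤ τ := nonneg_of_mul_nonneg_left ((Nat.cast_nonneg h).trans hh) hn'
  obtain ⟨s_e, s_r, s_en, s_v, s_S⟩ := small_bounds (J := J) (b := b) hn (4 * G) u h x
  obtain ⟨hδ0, hq01, hq11, hsd⟩ := delta_facts (J := J) (b := b) (v := u + h) hn (by omega : G ≤ u + h) x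
  have hZ := sqrt_flatZ_le (J := J) (b := b) (L := L) (u := u) (h := h) hn hτ (G := G) (4 * G) (by omega) x
  have hcor := corC_nonneg (L := L) hτ
  have hmv := fun a => mvC_nonneg (L := L) hτ a
  have hksi := abs_ksi (J := J) Ψ θ hM
  set v := u + h
  set D := 4 * G with hD
  set e := estat J b u x with hedef
  set sm := small J b D u h x
  set B := facB M
  set A := facA M L
  set L' := max L 1
  set m := mean J b v x
  have hB : 0 ≤ B := zero_le_one.trans one_le_facB
  have hL' : 0 ≤ L' := zero_le_one.trans (le_max_right _ _)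
  have hA : 0 ≤ A := facA_nonneg
  have he : 0 ≤ e := estat_nonneg u x
  set q := qmean J b v x with hqdef
  set Aq := seqA J b D u (ksi J Ψ θ) x
  set Mag := Kpow J b v (fun y => ∑ i, mag J b i y * ksi J Ψ θ i y) x
  have E5 : |β ^ 2 * (1 - q) * (n * Aq D - Mag)| ≤
      n * (β ^ 2 * (mvC L τ (3 * (A + B ^ 2 + 4 * A)) + 4 * B) * sm) := by
    have hAD : n * Aq D = Kpow J b (u + D) (fun y => ∑ i, spin (y i) * ksi J Ψ θ i y) x := by
      show (n : ℝ) * seqA J b D u _ x D = _
      rw [seqA, Nat.sub_self, mul_div_cancel₀ _ hn'.ne']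
      rfl
    have h1 := move (b := b) hJ hn (a := 3 * (A + B ^ 2 + 4 * A)) (fun y =>
      (vb_spin.gam_dot (vb_ksi hJ Ψ θ hM) y).trans (le_of_eq (by simp only [A, B]; ring))) u hDh hh x
    have h2 := pair_spin (b := b) hJ hn (Gf := ksi J Ψ θ)
      (fun i y c => by simp only [ksi, fld_update_self (0 : Fin n → ℝ) hJ.diag i y c]) hksi v x
    rw [show (fun y => ∑ i, (spin (y i) - mag J b i y) * ksi J Ψ θ i y) = fun y =>
      (∑ i, spin (y i) * ksi J Ψ θ i y) - ∑ i, mag J b i y * ksi J Ψ θ i y from funext fun y => by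
        rw [← Finset.sum_sub_distrib]; exact Finset.sum_congr rfl fun i _ => sub_mul _ _ _, Kpow_sub_fun] at h2
    rw [hAD, abs_mul, abs_mul, abs_of_nonneg (sq_nonneg β), abs_of_nonneg (by linarith : 0 ≤ 1 - q)]
    refine (mul_le_mul (mul_le_of_le_one_right (sq_nonneg β) (by linarith))
      ((abs_sub_le _ _ _).trans (add_le_add h1 h2)) (abs_nonneg _) (sq_nonneg β)).trans ?_
    have p1 := mul_le_mul_of_nonneg_left s_e (mul_nonneg (mul_nonneg (sq_nonneg β) (hmv (3 * (A + B ^ 2 + 4 * A)))) hn'.le)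
    have p2 := mul_le_mul_of_nonneg_left (show estat J b v x ≤ sm by linarith [Real.sqrt_nonneg e])
      (by positivity : 0 ≤ β ^ 2 * (4 * B) * n)
    linarith
  exact E5

/-- **One period.** -/
theorem period_eval (β : ℝ) (hJ : Tame J L) (hn : 0 < n) (Ψ : Kern) (θ : Fin n → Fin 3 → ℝ) (hM : Ψ.M ≤ M)
    {G : ℕ} (hDh : 4 * G ≤ h) (hh : (h : ℝ) ≤ τ * n) :
    |blockVal J b Ψ θ β (4 * G) u x / 2 + fieldErr β J b Ψ θ (u + h) x| ≤
      n * (kcC β L M * Real.sqrt (qlag J b (u + h) G x - qmean J b (u + h) x)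
        + errC β L M τ * small J b (4 * G) u h x) := by
  have hn' : (0 : ℝ) < n := Nat.cast_pos.2 hn
  have E12 := energy_bound (b := b) (x := x) (u := u) hJ hn Ψ θ hM hDh hh
  have E3 := trace_bound (b := b) (x := x) (u := u) β hJ hn Ψ θ hM hDh hh
  have E4 := response_bound (b := b) (x := x) (u := u) β hJ hn Ψ θ hM hDh hh
  have E5 := cond_bound (b := b) (x := x) (u := u) β hJ hn Ψ θ hM hDh hh
  set v := u + h
  set D := 4 * G with hD
  set q := qmean J b v x with hqdef
  set m := mean J b v x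
  set sp : Fin n → Cfg n → ℝ := fun i y => spin (y i) with hsp
  set Jm : Fin n → ℝ := fun i => ∑ j, J i j * m j with hJm
  set P1 := Kpow J b (u + D) (fun y => ∑ i, ksi J Ψ θ i y * fld J 0 i y) x with hP1
  set P1v := Kpow J b v (fun y => ∑ i, ksi J Ψ θ i y * fld J 0 i y) x
  set Q1 := Kpow J b u (fun F => ∑ i, Kpow J b D (ksi J Ψ θ i) F * Kpow J b D (fld J 0 i) F) x
  set JE := ∑ i, Jm i * Kpow J b v (ksi J Ψ θ i) x with hJE
  set X := Kpow J b (u + D) (fun y => ∑ i, dksi J Ψ θ i y) x with hX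
  set Xv := Kpow J b v (fun y => ∑ i, dksi J Ψ θ i y) x
  set Y := Kpow J b u (ccov J b D D sp) x with hYdef
  set T3 := β ^ 2 / n * ∑ k ∈ Finset.range D,
      (Kpow J b u (cresp J b D k (ksi J Ψ θ)) x * Kpow J b u (ccov J b D k sp) x
        + Kpow J b u (cresp J b D k sp) x * Kpow J b u (ccov J b D k (ksi J Ψ θ)) x)
  set Aq := seqA J b D u (ksi J Ψ θ) x
  set p := (∑ i, m i * Kpow J b v (ksi J Ψ θ i) x) / n with hp
  set Mag := Kpow J b v (fun y => ∑ i, mag J b i y * ksi J Ψ θ i y) x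
  -- the two sides
  have eB : blockVal J b Ψ θ β D u x / 2 = -(P1 - Q1) + β ^ 2 / n * X * Y + T3 := by
    have e1 : Kpow J b u (fun F => ∑ i, (Kpow J b D (fun y => ksi J Ψ θ i y * fld J 0 i y) F
        - Kpow J b D (ksi J Ψ θ i) F * Kpow J b D (fld J 0 i) F)) x = P1 - Q1 := by
      simp only [Finset.sum_sub_distrib, ← sum_Kpow]
      rw [Kpow_sub_fun, ← Kpow_add']
    have e2 : Kpow J b u (fun F => ∑ i, Kpow J b D (dksi J Ψ θ i) F) x = X := by
      simp only [← sum_Kpow]
      rw [← Kpow_add']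
    rw [blockVal, e1, e2]
    ring
  have eF : fieldErr β J b Ψ θ v x =
      P1v - JE + β ^ 2 * (1 - q) * (n * p) - β ^ 2 * (1 - q) * Mag - β ^ 2 * (1 - q) * Xv := by
    rw [hp, mul_div_cancel₀ _ hn'.ne', fieldErr]
    rw [show (fun y => ∑ i, (Ψ.fn (θ i) (fld J 0 i y) * (fld J 0 i y - cav β J b v x i
        - onsager β J b v x * Real.tanh (fld J b i y)) - onsager β J b v x * Ψ.dfn (θ i) (fld J 0 i y))) =
      fun y => (((∑ i, ksi J Ψ θ i y * fld J 0 i y) - ∑ i, Jm i * ksi J Ψ θ i y)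
        + β ^ 2 * (1 - q) * ∑ i, m i * ksi J Ψ θ i y) - β ^ 2 * (1 - q) * (∑ i, mag J b i y * ksi J Ψ θ i y)
        - β ^ 2 * (1 - q) * ∑ i, dksi J Ψ θ i y from funext fun y => by
        simp only [Finset.mul_sum, ← Finset.sum_sub_distrib, ← Finset.sum_add_distrib]
        exact Finset.sum_congr rfl fun i _ => by
          simp only [ksi, dksi, mag, cav, onsager, hJm, hqdef, m]; ring,
      Kpow_sub_fun, Kpow_sub_fun, Kpow_add_fun, Kpow_sub_fun, Kpow_smul, Kpow_smul, Kpow_smul,
      Kpow_wsum, Kpow_wsum]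
  rw [eB, eF, show -(P1 - Q1) + β ^ 2 / n * X * Y + T3 + (P1v - JE + β ^ 2 * (1 - q) * (n * p)
      - β ^ 2 * (1 - q) * Mag - β ^ 2 * (1 - q) * Xv) =
    ((P1v - P1) + (Q1 - JE)) + ((β ^ 2 / n * X * Y - β ^ 2 * (1 - q) * Xv)
      + ((T3 - β ^ 2 * n * ((1 - q) * (Aq D - p))) + β ^ 2 * (1 - q) * (n * Aq D - Mag))) by ring]
  refine ((abs_add_le _ _).trans (add_le_add E12
    ((abs_add_le _ _).trans (add_le_add E3 ((abs_add_le _ _).trans (add_le_add E4 E5)))))).trans (le_of_eq ?_)
  simp only [kcC, errC, zC]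
  ring

lemma kcC_nonneg (β L M : ℝ) : 0 ≤ kcC β L M := by
  have : 0 ≤ facB M := zero_le_one.trans one_le_facB
  have : 0 ≤ max L 1 := zero_le_one.trans (le_max_right _ _)
  unfold kcC
  positivity

lemma avgDir_nonneg (W : ℕ) (x : Cfg n) : 0 ≤ avgDir J b W x := by unfold avgDir; positivity

/-- a reindexed block of times inside the first `2 W` times -/
lemma avg_shift {W : ℕ} (φ : ℕ → ℕ) (hi : Set.InjOn φ (Finset.Ico W (2 * W)))
    (hm : ∀ v ∈ Finset.Ico W (2 * W), φ v < 2 * W) (x : Cfg n) :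
    blockAvg W (fun v => estat J b (φ v) x) ≤ avgDir J b W x := by
  rw [avgDir, blockAvg, Finset.sum_div _ _ (Real.sqrt n)]
  refine div_le_div_of_nonneg_right ?_ (Nat.cast_nonneg W)
  rw [← Finset.sum_image (f := fun u => estat J b u x) hi]
  refine Finset.sum_le_sum_of_subset_of_nonneg (fun a ha => ?_) (fun u _ _ => estat_nonneg u x)
  obtain ⟨v, hv, rfl⟩ := Finset.mem_image.1 ha
  exact Finset.mem_range.2 (hm v hv)

/-- the small terms on average over a block -/
lemma avg_small (hn : 0 < n) {D h W : ℕ} {τ' : ℝ} (hD : D ≤ h) (hW : h ≤ W) (hτ : (D : ℝ) ≤ τ' * n) (x : Cfg n) :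
    blockAvg W (fun v => small J b D (v - h) h x) ≤
      (2 + τ') * (Real.sqrt (avgDir J b W x) + avgDir J b W x + 1 / Real.sqrt n) := by
  have hn' : (0 : ℝ) < n := Nat.cast_pos.2 hn
  have hτ0 : 0 ≤ τ' := nonneg_of_mul_nonneg_left ((Nat.cast_nonneg D).trans hτ) hn'
  have ha := avgDir_nonneg (J := J) (b := b) W x
  set a := avgDir J b W x
  have inj : ∀ k, Set.InjOn (fun v => v - h + k) (Finset.Ico W (2 * W)) := fun k u hu v hv huv => by
    simp only [Finset.coe_Ico, Set.mem_Ico] at hu hv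
    simp only at huv
    omega
  have h0 : blockAvg W (fun v => estat J b (v - h) x) ≤ a := by
    simpa using avg_shift (fun v => v - h + 0) (inj 0) (fun v hv => by
      have := Finset.mem_Ico.1 hv; omega) x
  have h1 : blockAvg W (fun v => Real.sqrt (estat J b (v - h) x)) ≤ Real.sqrt a :=
    (BlockAvg.sqrt_le fun v _ => estat_nonneg _ _).trans (Real.sqrt_le_sqrt h0)
  have h2 : blockAvg W (fun v => estat J b (v - h + h) x) ≤ a :=
    avg_shift (fun v => v - h + h) (inj h) (fun v hv => by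
      have := Finset.mem_Ico.1 hv; omega) x
  have h3 : blockAvg W (fun v => (∑ k ∈ Finset.range D, estat J b (v - h + k) x) / n) ≤ τ' * a := by
    simp only [div_eq_inv_mul]
    rw [BlockAvg.smul, BlockAvg.sum]
    refine (mul_le_mul_of_nonneg_left (Finset.sum_le_card_nsmul _ _ a fun k hk => ?_) (by positivity)).trans ?_
    · exact avg_shift (fun v => v - h + k) (inj k) (fun v hv => by
        have := Finset.mem_Ico.1 hv; have := Finset.mem_range.1 hk; omega) x
    · rw [Finset.card_range, nsmul_eq_mul, inv_mul_le_iff₀ hn', ← mul_assoc]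
      exact mul_le_mul_of_nonneg_right (hτ.trans_eq (mul_comm _ _)) ha
  have h4 : blockAvg W (fun _ => 1 / Real.sqrt (n : ℝ)) ≤ 1 / Real.sqrt n :=
    BlockAvg.le_const (by positivity) fun _ _ => le_rfl
  simp only [small, BlockAvg.add]
  have := Real.sqrt_nonneg a
  have : 0 ≤ 1 / Real.sqrt (n : ℝ) := by positivity
  have : 0 ≤ τ' * (Real.sqrt a + 1 / Real.sqrt n) := by positivity
  linarith

end BlockEval

/-- **The block experiment against the defect of the field identity.** On average over a block of times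
the value of `P` periods with global means is minus twice `P` times the defect of the field identity, up to
the root of the flatness defect and the Dirichlet form. -/
theorem blockEval (β L M : ℝ) : ∃ Kc, 0 ≤ Kc ∧ ∀ τ : ℝ, ∃ Cst, 0 ≤ Cst ∧
    ∀ (n : ℕ) (_ : 0 < n) (J : Fin n → Fin n → ℝ) (_ : Tame J L) (b : Fin n → ℝ) (Ψ : Kern) (_ : Ψ.M ≤ M)
      (θ : ℕ → Fin n → Fin 3 → ℝ) (x : Cfg n) (P G W : ℕ), 0 < G → P * (4 * G) ≤ W →
      ((P * (4 * G) : ℕ) : ℝ) ≤ τ * n →
      blockAvg W (fun v => |(∑ p ∈ Finset.range P, blockVal J b Ψ (θ v) β (4 * G) (v - (P - p) * (4 * G)) x)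
          + 2 * P * fieldErr β J b Ψ (θ v) v x|) ≤
        2 * P * n * (Kc * Real.sqrt (defect J b G W x)
          + Cst * (Real.sqrt (avgDir J b W x) + avgDir J b W x + 1 / Real.sqrt n)) := by
  refine ⟨BlockEval.kcC β L M, BlockEval.kcC_nonneg β L M, fun τ => ?_⟩
  set τ' := max τ 0
  have hτ0 : 0 ≤ τ' := le_max_right _ _
  have herr := BlockEval.errC_nonneg β L M hτ0
  refine ⟨BlockEval.errC β L M τ' * (2 + τ'), by positivity, ?_⟩
  intro n hn J hJ b Ψ hM θ x P G W hG hW hτ
  have hn' : (0 : ℝ) < n := Nat.cast_pos.2 hn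
  have hh : ∀ p, (((P - p) * (4 * G) : ℕ) : ℝ) ≤ τ' * n := fun p =>
    (Nat.cast_le.2 (Nat.mul_le_mul_right _ (Nat.sub_le P p))).trans
      (hτ.trans (mul_le_mul_of_nonneg_right (le_max_left _ _) hn'.le))
  have hD : ∀ p ∈ Finset.range P, 4 * G ≤ (P - p) * (4 * G) := fun p hp =>
    Nat.le_mul_of_pos_left _ (Nat.sub_pos_of_lt (Finset.mem_range.1 hp))
  have hle : ∀ p, (P - p) * (4 * G) ≤ W := fun p => (Nat.mul_le_mul_right _ (Nat.sub_le P p)).trans hW
  calc blockAvg W (fun v => |(∑ p ∈ Finset.range P, blockVal J b Ψ (θ v) β (4 * G) (v - (P - p) * (4 * G)) x)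
          + 2 * P * fieldErr β J b Ψ (θ v) v x|)
      ≤ blockAvg W (fun v => ∑ p ∈ Finset.range P, 2 * (n * (BlockEval.kcC β L M
            * Real.sqrt (qlag J b v G x - qmean J b v x)
          + BlockEval.errC β L M τ' * BlockEval.small J b (4 * G) (v - (P - p) * (4 * G)) ((P - p) * (4 * G)) x))) := by
        refine BlockAvg.mono fun v hv => ?_
        rw [show (∑ p ∈ Finset.range P, blockVal J b Ψ (θ v) β (4 * G) (v - (P - p) * (4 * G)) x)
            + 2 * P * fieldErr β J b Ψ (θ v) v x = ∑ p ∈ Finset.range P,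
              2 * (blockVal J b Ψ (θ v) β (4 * G) (v - (P - p) * (4 * G)) x / 2 + fieldErr β J b Ψ (θ v) v x) by
          rw [← Finset.mul_sum, Finset.sum_add_distrib, ← Finset.sum_div, Finset.sum_const, Finset.card_range,
            nsmul_eq_mul]
          ring]
        refine (Finset.abs_sum_le_sum_abs _ _).trans (Finset.sum_le_sum fun p hp => ?_)
        rw [abs_mul, abs_two]
        refine mul_le_mul_of_nonneg_left ?_ zero_le_two
        have e : v - (P - p) * (4 * G) + (P - p) * (4 * G) = v :=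
          Nat.sub_add_cancel ((hle p).trans (Finset.mem_Ico.1 hv).1)
        have h := BlockEval.period_eval (b := b) (x := x) (u := v - (P - p) * (4 * G)) β hJ hn Ψ (θ v) hM
          (hD p hp) (hh p)
        rwa [e] at h
    _ ≤ ∑ _p ∈ Finset.range P, 2 * (n * (BlockEval.kcC β L M * Real.sqrt (defect J b G W x)
          + BlockEval.errC β L M τ' * ((2 + τ') * (Real.sqrt (avgDir J b W x) + avgDir J b W x + 1 / Real.sqrt n)))) := by
        rw [BlockAvg.sum]
        refine Finset.sum_le_sum fun p hp => ?_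
        simp only [BlockAvg.smul, BlockAvg.add]
        refine mul_le_mul_of_nonneg_left (mul_le_mul_of_nonneg_left (add_le_add
          (mul_le_mul_of_nonneg_left ?_ (BlockEval.kcC_nonneg β L M))
          (mul_le_mul_of_nonneg_left ?_ herr)) hn'.le) zero_le_two
        · refine BlockAvg.sqrt_le fun v hv => ?_
          have := Finset.mem_Ico.1 hv
          have := (hD p hp).trans (hle p)
          exact (BlockEval.delta_facts hn (by omega) x).1
        · exact BlockEval.avg_small hn (hD p hp) (hle p)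
            ((Nat.cast_le.2 (hD p hp)).trans (hh p)) x
    _ = _ := by
        rw [Finset.sum_const, Finset.card_range, nsmul_eq_mul]
        ring

end Vale.Agent.P150.PA
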