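import Vale.Agent.P150.PA.Defs
import Vale.Agent.P150.Fast

/-! With high probability the couplings are tame. -/

open MeasureTheory Filter
open scoped Topology

namespace Vale.Agent.P150.PA

/-- for `0 ≤ β < 1` the couplings are tame with constant `3`, with high probability -/
theorem tame_whp {β : ℝ} (hβ0 : 0 ≤ β) (hβ : β < 1) :
    Tendsto (fun n : ℕ => (disorder n).real {g | ¬ Tame (cpl β g) 3}) atTop (𝓝 0) := by
  obtain ⟨c₀, hc₀, hop⟩ := opnorm_bound (ε := 1 / 10) (δ := 1 / 40) (by norm_num) (by norm_num)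
    (by norm_num) (by norm_num)
  set c₁ := (1 - Real.log 2) / 2
  have hc₁ : 0 < c₁ := by
    have := Real.log_lt_sub_one_of_pos two_pos (by norm_num)
    simp only [c₁]; linarith
  set c₂ : ℝ := (1 / 64) ^ 2 / 4 with hc₂
  set bad := fun n : ℕ => 2 * Real.exp (-(c₀ * n)) + (n:ℝ) * Real.exp (-(c₁ * n)) +
    Real.exp (Real.log 2 / 2) * ((n:ℝ) ^ 2 * Real.exp (-(c₂ * n)))
  have hbad : Tendsto bad atTop (𝓝 0) := by
    have := (((tendsto_exp_nat hc₀).const_mul 2).add (tendsto_pow_exp_nat 1 hc₁)).add
      ((tendsto_pow_exp_nat 2 (show 0 < c₂ by norm_num [hc₂])).const_mul (Real.exp (Real.log 2 / 2)))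
    simpa [bad] using this
  have key : ∀ n, 1 ≤ n → (disorder n).real {g | ¬ Tame (cpl β g) 3} ≤ bad n := by
    intro n hn
    have hnR : (0:ℝ) < n := by exact_mod_cast hn
    set rn := Real.sqrt (n:ℝ) with hrndef
    have hrn : 0 < rn := Real.sqrt_pos.2 hnR
    have hrn2 : rn * rn = n := Real.mul_self_sqrt hnR.le
    set B1 := {g : Edge n → ℝ | ∃ v : Fin n → ℝ, (2 + 5 * (1 / 10)) / (1 - 2 * (1 / 40)) * Real.sqrt n * ∑ i, v i ^ 2 <
        |∑ i, ∑ j, coupling g i j * (v i * v j)|}
    set B2 := ⋃ i : Fin n, {g : Edge n → ℝ | 2 * (n:ℝ) ≤ ∑ j, coupling g i j ^ 2}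
    set B3 := ⋃ e : Edge n, {g : Edge n → ℝ | 1 / 64 * rn < |g e|}
    have hsub : {g : Edge n → ℝ | ¬ Tame (cpl β g) 3} ⊆ B1 ∪ B2 ∪ B3 := fun g hgE => by
      by_contra hg
      refine hgE ?_
      simp only [B1, B2, B3, Set.mem_union, Set.mem_iUnion, Set.mem_ofPred_eq, not_or, not_exists, not_lt, not_le] at hg
      obtain ⟨⟨h1, h2⟩, h3⟩ := hg
      have hk0 : 0 ≤ β / rn := by positivity
      refine ⟨fun i j => by simp only [cpl, coupling_symm g i j], fun i => by simp [cpl, coupling_self],
        fun v => ?_, fun i => ?_, fun i j => ?_⟩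
      · have hS : 0 ≤ ∑ i, v i ^ 2 := Finset.sum_nonneg fun i _ => sq_nonneg _
        simp only [cpl, mul_assoc, ← Finset.mul_sum, abs_mul, abs_of_nonneg hk0, ← hrndef]
        refine (mul_le_mul_of_nonneg_left (h1 v) hk0).trans ?_
        rw [← hrndef, ← mul_assoc]
        refine mul_le_mul_of_nonneg_right ?_ hS
        rw [show β / rn * ((2 + 5 * (1 / 10)) / (1 - 2 * (1 / 40)) * rn) =
          β * ((2 + 5 * (1 / 10)) / (1 - 2 * (1 / 40))) by field_simp]
        linarith
      · simp only [cpl, mul_pow, ← Finset.mul_sum, div_pow, sq rn, ← hrndef, hrn2]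
        refine (mul_le_mul_of_nonneg_left (h2 i).le (by positivity)).trans ?_
        rw [show β ^ 2 / (n:ℝ) * (2 * n) = 2 * (β * β) by field_simp]
        linarith [mul_le_mul hβ.le hβ.le hβ0 zero_le_one]
      · have hent : |coupling g i j| ≤ 1 / 64 * rn := by
          unfold coupling
          split_ifs
          · exact h3 _
          · exact h3 _
          · simp only [abs_zero]; positivity
        simp only [cpl, ← hrndef]
        rw [abs_mul, abs_of_nonneg hk0]
        refine (mul_le_mul_of_nonneg_left hent hk0).trans ?_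
        rw [show β / rn * (1 / 64 * rn) = β * (1 / 64) by field_simp]
        linarith
    have p1 : (disorder n).real B1 ≤ 2 * Real.exp (-(c₀ * n)) := hop n hn
    have p2 : (disorder n).real B2 ≤ (n:ℝ) * Real.exp (-(c₁ * n)) := by
      refine (measureReal_iUnion_fintype_le _).trans ((Finset.sum_le_sum fun i _ => row_bound i).trans_eq ?_)
      rw [Finset.sum_const, Finset.card_univ, Fintype.card_fin, nsmul_eq_mul]
    have p3 : (disorder n).real B3 ≤ Real.exp (Real.log 2 / 2) * ((n:ℝ) ^ 2 * Real.exp (-(c₂ * n))) := by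
      refine (measureReal_iUnion_fintype_le _).trans ((Finset.sum_le_sum fun e _ => entry_bound e (by positivity)).trans ?_)
      rw [Finset.sum_const, nsmul_eq_mul, Finset.card_univ]
      have hcard : (Fintype.card (Edge n) : ℝ) ≤ (n:ℝ) ^ 2 := by
        have := Fintype.card_subtype_le (fun p : Fin n × Fin n => p.1 < p.2)
        rw [Fintype.card_prod, Fintype.card_fin, ← sq] at this
        exact_mod_cast this
      refine (mul_le_mul_of_nonneg_right hcard (Real.exp_pos _).le).trans (le_of_eq ?_)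
      rw [mul_pow, sq rn, hrn2, sub_eq_add_neg, Real.exp_add, hc₂]
      ring_nf
    have h := (measureReal_mono (μ := disorder n) hsub).trans
      ((measureReal_union_le _ _).trans (add_le_add (measureReal_union_le _ _) le_rfl))
    simp only [bad]
    linarith
  exact squeeze_zero' (Eventually.of_forall fun n => measureReal_nonneg) (eventually_atTop.2 ⟨1, key⟩) hbad

end Vale.Agent.P150.PA
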