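import Vale.Agent.P150.PA.BlockUnion
import Vale.Agent.P150.PA.BlockEval
import Vale.Agent.P150.PA.Whp

/-! The field identity on a block: the annealed inequality of the branching experiment, applied to a
finite family of kernels in the fields of all observations, makes the sum of the period values small,
and the evaluation of the periods turns it into the defect of the field identity. -/

open MeasureTheory Filter
open scoped Topology

namespace Vale.Agent.P150.PA

open Ising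

variable {n : ℕ}

namespace BlockId

/-- an upper bound for the even number of attempts -/
lemma att_bounds {τ : ℝ} (hτ : 0 ≤ τ) (hn : 0 < n) :
    τ * n ≤ (att n τ : ℝ) ∧ (att n τ : ℝ) ≤ (τ + 2) * n := by
  have h1 := Nat.le_ceil (τ * n / 2)
  have h2 := Nat.ceil_lt_add_one (by positivity : 0 ≤ τ * n / 2)
  have hn' : (1 : ℝ) ≤ n := by exact_mod_cast hn
  unfold att
  push_cast
  constructor <;> nlinarith

/-- the disorder part of the bad event -/
lemma count_le (n N : ℕ) :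
    (Fintype.card (Cfg n) : ℝ) * (1 + 2 * 2 ^ n * Fintype.card (Fin n → Fin 3 → Fin (2 * N + 1))) *
      Real.exp (-((2 * Real.log 2 + 3 * Real.log (2 * N + 1) + 1) * n)) ≤ 3 * Real.exp (-(n : ℝ)) := by
  have hk : (1 : ℝ) ≤ ((2 * N + 1 : ℕ) : ℝ) ^ (3 * n) := one_le_pow₀ (by simp)
  have hc : (Fintype.card (Fin n → Fin 3 → Fin (2 * N + 1)) : ℝ) = ((2 * N + 1 : ℕ) : ℝ) ^ (3 * n) := by
    simp [← pow_mul]
  have hC : (Fintype.card (Cfg n) : ℝ) = 2 ^ n := by simp
  have e2 : (2 : ℝ) ^ n = Real.exp (n * Real.log 2) := by rw [Real.exp_nat_mul, Real.exp_log two_pos]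
  have e3 : ((2 * N + 1 : ℕ) : ℝ) ^ (3 * n) = Real.exp ((3 * n : ℕ) * Real.log (2 * N + 1)) := by
    rw [Real.exp_nat_mul, Real.exp_log (by positivity)]; push_cast; rfl
  rw [hc, hC]
  set K : ℝ := ((2 * N + 1 : ℕ) : ℝ) ^ (3 * n)
  have h1 : 1 + 2 * 2 ^ n * K ≤ 3 * 2 ^ n * K := by
    nlinarith [one_le_pow₀ (one_le_two : (1 : ℝ) ≤ 2) (n := n), hk]
  refine (mul_le_mul_of_nonneg_right (mul_le_mul_of_nonneg_left h1 (by positivity)) (Real.exp_pos _).le).trans
    (le_of_eq ?_)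
  rw [show (2 : ℝ) ^ n * (3 * 2 ^ n * K) = 3 * (2 ^ n * 2 ^ n * K) by ring, e2, e3, mul_assoc, ← Real.exp_add,
    ← Real.exp_add, ← Real.exp_add]
  congr 2
  push_cast
  ring

/-- the sum of the period values seen from the start of the block is a mean of `treeVal` -/
lemma sum_periods_le {β : ℝ} {g : Edge n → ℝ} {b : Fin n → ℝ} {Ψ : Kern} {θ : Fin n → Fin 3 → ℝ} {P D v : ℕ}
    (hv : P * D ≤ v) {c : ℝ}
    (h : ∀ y, |treeVal (blockSched P D) β g (kernTest Ψ θ) b y| ≤ c) (x : Cfg n) :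
    |∑ p ∈ Finset.range P, Kpow (cpl β g) b (v - (P - p) * D)
      (periodValue (blockSched P D) (cpl β g) (kernTest Ψ θ) b β) x| ≤ c := by
  refine le_of_eq_of_le (congrArg abs ?_)
    (BlockMeans.abs_Kpow_le (J := cpl β g) (b := b) h (v - P * D) x)
  unfold treeVal
  rw [Block.Kpow_sum, Finset.sum_range]
  refine Finset.sum_congr rfl fun p _ => ?_
  show _ = (K (cpl β g) b)^[v - P * D] ((K (cpl β g) b)^[(p : ℕ) * D] _) x
  rw [← Function.iterate_add_apply]
  unfold Kpow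
  have h1 : (p : ℕ) * D ≤ P * D := Nat.mul_le_mul_right D p.2.le
  rw [Nat.sub_mul, show v - (P * D - (p : ℕ) * D) = v - P * D + (p : ℕ) * D by omega]

/-- the defect of the field identity from the evaluation of the periods and a bound on their sum -/
lemma point_le {J : Fin n → Fin n → ℝ} (hT : Tame J 3) {β : ℝ} (hβ0 : 0 ≤ β) (hβ : β ≤ 1) {b : Fin n → ℝ}
    {Ψ : Kern} {M δ : ℝ} (hM : Ψ.M ≤ M) (hδ : 0 ≤ δ) {θ θ' : ℕ → Fin n → Fin 3 → ℝ}
    (hk : ∀ v i l, |θ v i l - θ' v i l| ≤ δ) {P W : ℕ} (hP : 0 < P) (hW : 0 < W) {s : ℕ → ℝ} {x : Cfg n} {c T : ℝ}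
    (hs : ∀ v ∈ Finset.Ico W (2 * W), |s v| ≤ c)
    (hE : blockAvg W (fun v => |s v + 2 * P * fieldErr β J b Ψ (θ' v) v x|) ≤ T) :
    blockAvg W (fun v => |fieldErr β J b Ψ (θ v) v x|) ≤
      1 / (2 * P) * T + (c / (2 * P) + 3 * M * δ * (9 * n)) := by
  have hP' : (0 : ℝ) < 2 * P := by positivity
  refine (BlockAvg.mono (g := fun v => 1 / (2 * P) * |s v + 2 * P * fieldErr β J b Ψ (θ' v) v x|
    + (c / (2 * P) + 3 * M * δ * (9 * n))) fun v hv => ?_).trans ?_
  · have hl := fieldErr_lip (b := b) hT hβ0 hβ Ψ hM hδ (hk v) v x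
    have h1 := hs v hv
    have h2 := abs_sub_abs_le_abs_sub (2 * (P : ℝ) * fieldErr β J b Ψ (θ' v) v x) (-s v)
    rw [abs_neg, sub_neg_eq_add, add_comm, abs_mul, abs_of_pos hP'] at h2
    have h3 := abs_sub_abs_le_abs_sub (fieldErr β J b Ψ (θ v) v x) (fieldErr β J b Ψ (θ' v) v x)
    have h4 : |fieldErr β J b Ψ (θ' v) v x| ≤
        1 / (2 * P) * |s v + 2 * P * fieldErr β J b Ψ (θ' v) v x| + c / (2 * P) := by
      rw [show 1 / (2 * (P : ℝ)) * |s v + 2 * P * fieldErr β J b Ψ (θ' v) v x| + c / (2 * P) =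
        (|s v + 2 * P * fieldErr β J b Ψ (θ' v) v x| + c) / (2 * P) by ring, le_div_iff₀ hP']
      linarith
    linarith
  · rw [BlockAvg.add, BlockAvg.smul, BlockAvg.const hW]
    exact add_le_add (mul_le_mul_of_nonneg_left hE (by positivity)) le_rfl

/-- the sum of the values with products of means is small along the block -/
lemma periods_le {β : ℝ} {g : Edge n → ℝ} {b : Fin n → ℝ} {Ψ : Kern} {M τ τ' εa Cm : ℝ} (hn : 0 < n)
    (hT : Tame (cpl β g) 3) (hM : Ψ.M ≤ M) (hM1 : 1 ≤ M) (hεa : 0 < εa) {ι : Type*} [Fintype ι]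
    (Θ : ι → Fin n → Fin 3 → ℝ) (k : ι) {P D v : ℕ} (hτ : 0 ≤ τ) (hD : (D : ℝ) ≤ τ * n) 
    (hv : P * D ≤ v) (hv' : (v : ℝ) ≤ τ' * n)
    (hBM : ∀ u : ℕ, (u : ℝ) ≤ τ' * n → ∀ x, |Kpow (cpl β g) b u
      (periodValue (blockSched P D) (cpl β g) (kernTest Ψ (Θ k)) b β) x -
        blockVal (cpl β g) b Ψ (Θ k) β D u x| ≤ Cm) (x : Cfg n) :
    |∑ p ∈ Finset.range P, blockVal (cpl β g) b Ψ (Θ k) β D (v - (P - p) * D) x| ≤
      (famLog (blockSched P D) β M εa (fun k => kernTest Ψ (Θ k)) g b + 1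
        + εa ^ 2 * (treeCq β M * ((n : ℝ) * P + P * (D : ℝ)) + treeRest β M 3 τ P)
        + εa * (treeErr β M 3 τ P * Real.sqrt n)) / εa + P * Cm := by
  set c := (famLog (blockSched P D) β M εa (fun k => kernTest Ψ (Θ k)) g b + 1
        + εa ^ 2 * (treeCq β M * ((n : ℝ) * P + P * (D : ℝ)) + treeRest β M 3 τ P)
        + εa * (treeErr β M 3 τ P * Real.sqrt n)) / εa with hc
  have h1 := sum_periods_le (β := β) (g := g) (b := b) (Ψ := Ψ) (θ := Θ k) (c := c) hv (fun y => by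
    rw [hc, le_div_iff₀ hεa, mul_comm]
    have h := tree_ineq (blockSched P D) (φ := fun k => kernTest Ψ (Θ k)) (fun k => kernTest_bdd Ψ _ hM)
      (fun k i h c => contDiff_const) hM1 hn hεa.le hT (by norm_num : (0 : ℝ) ≤ 3) (τ := τ)
      (by simpa [blockSched] using hD) le_rfl hτ le_rfl b y k
    simpa [blockSched] using h) x
  have h2 : |∑ p ∈ Finset.range P, blockVal (cpl β g) b Ψ (Θ k) β D (v - (P - p) * D) x -
      ∑ p ∈ Finset.range P, Kpow (cpl β g) b (v - (P - p) * D)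
        (periodValue (blockSched P D) (cpl β g) (kernTest Ψ (Θ k)) b β) x| ≤ P * Cm := by
    rw [← Finset.sum_sub_distrib]
    refine (Finset.abs_sum_le_sum_abs _ _).trans ((Finset.sum_le_sum fun p _ => ?_).trans_eq
      (by simp : ∑ _p ∈ Finset.range P, Cm = P * Cm))
    rw [abs_sub_comm]
    exact hBM _ (le_trans (Nat.cast_le.2 (Nat.sub_le _ _)) hv') x
  have := abs_sub_abs_le_abs_sub (∑ p ∈ Finset.range P, blockVal (cpl β g) b Ψ (Θ k) β D (v - (P - p) * D) x)
    (∑ p ∈ Finset.range P, Kpow (cpl β g) b (v - (P - p) * D)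
      (periodValue (blockSched P D) (cpl β g) (kernTest Ψ (Θ k)) b β) x)
  linarith

/-- the integral of the bound at a fixed noise -/
lemma integral_bound {α : Type*} [MeasurableSpace α] {μ : Measure α} [IsProbabilityMeasure μ] {f e g U : α → ℝ}
    (hf : Integrable f μ) (he : Integrable e μ) (hg : Integrable g μ) (hU : Integrable U μ) (a k c d r z : ℝ) :
    Integrable (fun u => a + k * f u + c * (e u + g u) + d + (U u + r) / z) μ ∧
      ∫ u, a + k * f u + c * (e u + g u) + d + (U u + r) / z ∂μ =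
        a + k * ∫ u, f u ∂μ + c * (∫ u, e u ∂μ + ∫ u, g u ∂μ) + d + (∫ u, U u ∂μ + r) / z := by
  have h1 := (integrable_const a).fun_add (hf.const_mul k) (μ := μ)
  have h2 := h1.fun_add ((he.fun_add hg).const_mul c)
  have h3 := h2.fun_add (integrable_const d)
  refine ⟨h3.fun_add ((hU.fun_add (integrable_const r)).div_const z), ?_⟩
  rw [integral_add h3 ((hU.fun_add (integrable_const r)).div_const z), integral_add h2 (integrable_const d),
    integral_add h1 ((he.fun_add hg).const_mul c), integral_add (integrable_const a) (hf.const_mul k),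
    integral_const_mul, integral_const_mul, integral_add he hg, integral_div,
    integral_add hU (integrable_const r)]
  simp

/-- the small terms coming from the stationarity errors -/
lemma hsum_le {ε C η a b : ℝ} (hε : 0 < ε) (hC : 0 ≤ C) (hη : 0 < η) (hη1 : η ≤ 1)
    (hη2 : Real.sqrt η ≤ ε / (10 * (C + 1))) (ha : a ≤ Real.sqrt η) (hb : b ≤ η) : C * (a + b) ≤ ε / 5 := by
  have h1 : η ≤ Real.sqrt η := Real.le_sqrt_of_sq_le (pow_le_of_le_one hη.le hη1 two_ne_zero)
  refine (mul_le_mul_of_nonneg_left (by linarith : a + b ≤ 2 * Real.sqrt η) hC).trans ?_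
  refine (mul_le_mul (by linarith : C ≤ C + 1) (mul_le_mul_of_nonneg_left hη2 zero_le_two) (by positivity)
    (by linarith)).trans (le_of_eq ?_)
  field_simp
  ring

/-- the final summation of the error terms -/
lemma final_le {ε n P D τ A Cq rs er εa Cst Cm2 Kc IU Is If sd : ℝ} (hn : 0 < n) (hsn : 1 ≤ Real.sqrt n)
    (hP : 0 < P) (hεa : 0 < εa) (hKc : 0 ≤ Kc) (hCq : 0 ≤ Cq) (hrs : 0 ≤ rs)
    (hA : A / (2 * P * εa) ≤ ε / 5) (hQ : εa * Cq * (1 + τ) / 2 ≤ ε / 5) (hU : IU ≤ A * n)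
    (hD : D ≤ τ * n) (hS : Cst * Is ≤ ε / 5) (hf : If ≤ sd)
    (hc : (Cst + Cm2 / 2 + (1 + εa ^ 2 * rs + εa * er) / (2 * P * εa)) * Real.sqrt n ≤ ε / 5 * n) :
    ε / 5 * n + n * Kc * If + n * Cst * Is + (n * Cst * (1 / Real.sqrt n) + Cm2 * Real.sqrt n / 2)
      + (IU + (1 + εa ^ 2 * (Cq * (n * P + P * D) + rs) + εa * (er * Real.sqrt n))) / (2 * P * εa) ≤
      (ε + Kc * sd) * n := by
  have h1 : IU / (2 * P * εa) ≤ ε / 5 * n := by
    refine (div_le_div_of_nonneg_right hU (by positivity)).trans ?_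
    rw [mul_div_right_comm]
    exact mul_le_mul_of_nonneg_right hA hn.le
  have h2 : εa ^ 2 * (Cq * (n * P + P * D)) / (2 * P * εa) ≤ ε / 5 * n := by
    rw [show εa ^ 2 * (Cq * (n * P + P * D)) / (2 * P * εa) = εa * Cq / 2 * (n + D) by field_simp]
    refine (mul_le_mul_of_nonneg_left (by linarith : n + D ≤ (1 + τ) * n) (by positivity)).trans ?_
    rw [show εa * Cq / 2 * ((1 + τ) * n) = εa * Cq * (1 + τ) / 2 * n by ring]
    exact mul_le_mul_of_nonneg_right hQ hn.le
  have h3 : (1 + εa ^ 2 * rs + εa * (er * Real.sqrt n)) / (2 * P * εa) ≤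
      (1 + εa ^ 2 * rs + εa * er) / (2 * P * εa) * Real.sqrt n := by
    rw [div_mul_eq_mul_div]
    refine div_le_div_of_nonneg_right ?_ (by positivity)
    linarith [mul_le_mul_of_nonneg_left hsn (by positivity : 0 ≤ 1 + εa ^ 2 * rs)]
  have e : (IU + (1 + εa ^ 2 * (Cq * (n * P + P * D) + rs) + εa * (er * Real.sqrt n))) / (2 * P * εa) =
      IU / (2 * P * εa) + εa ^ 2 * (Cq * (n * P + P * D)) / (2 * P * εa)
        + (1 + εa ^ 2 * rs + εa * (er * Real.sqrt n)) / (2 * P * εa) := by ring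
  have hinv : n * Cst * (1 / Real.sqrt n) = Cst * Real.sqrt n := by
    rw [mul_one_div, mul_comm n Cst, mul_div_assoc, Real.div_sqrt]
  have h4 := mul_le_mul_of_nonneg_left (mul_le_mul_of_nonneg_left hf hKc) hn.le
  have h5 := mul_le_mul_of_nonneg_left hS hn.le
  rw [e, hinv]
  linarith

end BlockId

open BlockId in
/-- **The field identity on a block.** -/
theorem blockIdentity {β : ℝ} (hβ0 : 0 ≤ β) (hβ : β < 1) : BlockIdentity β := by
  intro Ψ t Rm ε ht hε
  have hb1 : β ≤ 1 := hβ.le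
  have hb2 : β ^ 2 ≤ 1 := pow_le_one₀ hβ0 hb1
  set M := max Ψ.M 1
  have hM1 : 1 ≤ M := le_max_right _ _
  have hM0 : 0 < M := zero_lt_one.trans_le hM1
  obtain ⟨Kc, hKc, hBE⟩ := blockEval β 3 M
  set δ := ε / (5 * (27 * M)) with hδdef
  have hδ : 0 < δ := by rw [hδdef]; positivity
  set N := ⌈|Rm| / δ⌉₊ with hNdef
  have hN : |Rm| ≤ N * δ := by rw [← div_le_iff₀ hδ]; exact Nat.le_ceil _
  set A := 2 * Real.log 2 + 3 * Real.log (2 * N + 1) + 1 with hA
  have hA0 : 0 ≤ A := by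
    have h1 : 0 ≤ Real.log (2 * (N : ℝ) + 1) := Real.log_nonneg (by simp)
    have := Real.log_pos (show (1 : ℝ) < 2 by norm_num)
    positivity
  refine ⟨Kc, 1, fun G hG => ?_⟩
  have hG0 : 0 ≤ G := zero_le_one.trans hG
  set τ₀ := 4 * (G + 2) with hτ₀
  have hτ₀0 : 0 ≤ τ₀ := by positivity
  set Cq := treeCq β M
  have hCq : 0 ≤ Cq := treeCq_nonneg β M
  set K := max (45 * M * A / ε) (5 * Cq * (1 + τ₀) / (36 * M * ε)) with hK
  set P := ⌈K ^ 2⌉₊ + 1 with hPdef
  have hP : (0 : ℝ) < P := by rw [hPdef]; positivity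
  set r := Real.sqrt P with hr
  have hr0 : 0 < r := Real.sqrt_pos.2 hP
  have hKr : K ≤ r := by
    refine (le_abs_self K).trans (Real.le_sqrt_of_sq_le ?_)
    rw [sq_abs, hPdef]; push_cast
    linarith [Nat.le_ceil (K ^ 2)]
  set εa := 1 / (18 * M * r) with hεa
  have hεa0 : 0 < εa := by positivity
  have hA5 : A / (2 * P * εa) ≤ ε / 5 := by
    have h := (le_max_left _ _).trans hKr
    rw [div_le_iff₀ hε] at h
    rw [hεa, show (P : ℝ) = r * r from (Real.mul_self_sqrt hP.le).symm]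
    field_simp
    linarith
  have hQ5 : εa * Cq * (1 + τ₀) / 2 ≤ ε / 5 := by
    have h := (le_max_right _ _).trans hKr
    rw [div_le_iff₀ (by positivity)] at h
    rw [hεa]
    field_simp
    linarith
  obtain ⟨Cst, hCst, hBE⟩ := hBE (P * τ₀)
  set η := min 1 ((ε / (10 * (Cst + 1))) ^ 2) with hη
  have hη0 : 0 < η := lt_min one_pos (by positivity)
  have hη2 : Real.sqrt η ≤ ε / (10 * (Cst + 1)) :=
    (Real.sqrt_le_sqrt (min_le_right _ _)).trans_eq (Real.sqrt_sq (by positivity))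
  set ct := 2 * (Real.log 2 + 3 + 2 * |t| + 2 * Real.sqrt t) with hct
  set W := max G (max (4 * P * (G + 2)) (ct / η ^ 2)) with hW
  have hGW : G ≤ W := le_max_left _ _
  have hW0 : 0 < W := lt_of_lt_of_le one_pos (hG.trans hGW)
  refine ⟨W, hGW, ?_⟩
  set τB := max τ₀ (2 * (W + 2))
  obtain ⟨Cm, hCm, hBM⟩ := blockMeans 3 τB M
  set er := treeErr β M 3 τ₀ P
  set rs := treeRest β M 3 τ₀ P
  have her : 0 ≤ er := treeErr_nonneg hM0.le (by norm_num) hτ₀0 P
  have hrs : 0 ≤ rs := treeRest_nonneg hM0.le hτ₀0 P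
  set c₃ := Cst + Cm * β ^ 2 / 2 + (1 + εa ^ 2 * rs + εa * er) / (2 * P * εa) with hc₃
  have hbad : Tendsto (fun n : ℕ => (disorder n).real {g | ¬ Tame (cpl β g) 3} + 3 * Real.exp (-(n : ℝ)))
      atTop (𝓝 0) := by
    simpa using (tame_whp hβ0 hβ).add
      ((Real.tendsto_exp_neg_atTop_nhds_zero.comp tendsto_natCast_atTop_atTop).const_mul (3 : ℝ))
  refine squeeze_zero' (Eventually.of_forall fun n => measureReal_nonneg) ?_ hbad
  filter_upwards [eventually_gt_atTop 0,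
    tendsto_natCast_atTop_atTop.eventually_ge_atTop ((5 * c₃ / ε) ^ 2)] with n hn hbig
  have hn' : (0 : ℝ) < n := Nat.cast_pos.2 hn
  have hsn : 1 ≤ Real.sqrt n := Real.one_le_sqrt.2 (by exact_mod_cast hn)
  have hc₃n : c₃ * Real.sqrt n ≤ ε / 5 * n := by
    have h := Real.le_sqrt_of_sq_le hbig
    rw [div_le_iff₀ hε] at h
    nlinarith [Real.mul_self_sqrt hn'.le]
  set G' := att n G with hG'
  set W' := att n W with hW'
  obtain ⟨hGl, hGu⟩ := att_bounds hG0 hn
  obtain ⟨hWl, hWu⟩ := att_bounds hW0.le hn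
  rw [← hG'] at hGl hGu
  rw [← hW'] at hWl hWu
  have hG'0 : 0 < G' := Nat.cast_pos.1 (lt_of_lt_of_le (by positivity) hGl)
  have hW'0 : 0 < W' := Nat.cast_pos.1 (lt_of_lt_of_le (by positivity) hWl)
  set D := 4 * G' with hD
  have hDn : (D : ℝ) ≤ τ₀ * n := by rw [hD, hτ₀]; push_cast; linarith
  have hPDn : ((P * D : ℕ) : ℝ) ≤ P * τ₀ * n := by
    push_cast; rw [mul_assoc]; exact mul_le_mul_of_nonneg_left hDn hP.le
  have hPDW : P * D ≤ W' := by
    refine (Nat.cast_le (α := ℝ)).1 (hPDn.trans (le_trans ?_ hWl))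
    refine mul_le_mul_of_nonneg_right ?_ hn'.le
    rw [hτ₀]
    calc (P : ℝ) * (4 * (G + 2)) = 4 * P * (G + 2) := by ring
      _ ≤ W := (le_max_left _ _).trans (le_max_right _ _)
  have hGW' : G' ≤ W' :=
    Nat.mul_le_mul_left _ (Nat.ceil_mono (by gcongr))
  set φ : (Fin n → Fin 3 → Fin (2 * N + 1)) → Test n := fun k => kernTest Ψ fun i l => gp δ N (k i l)
  have hφ : ∀ k, (φ k).Bdd M := fun k => kernTest_bdd Ψ _ (le_max_left _ _)
  have hεop : |εa| * β ^ 2 * |M| * 9 * Real.sqrt (blockSched P D).P ≤ 1 / 2 := by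
    show |εa| * β ^ 2 * |M| * 9 * r ≤ 1 / 2
    rw [abs_of_pos hεa0, abs_of_pos hM0, hεa]
    field_simp
    linarith
  set ν : Cfg n → Measure (Fin n → ℝ) := fun o => (gauss (Fin n)).map (obsField t o)
  have hobs : ∀ o : Cfg n, Measurable (obsField t o) := fun o => (AvgDir.continuous_obs t o).measurable
  have : ∀ o, IsProbabilityMeasure (ν o) := fun o => Measure.isProbabilityMeasure_map (hobs o).aemeasurable
  obtain ⟨Good, -, hGood, hgood⟩ := tree_union (blockSched P D) β M εa φ hφ hn hεop ν (A * n)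
  refine le_trans (measureReal_mono (s₂ := {g | ¬ Tame (cpl β g) 3} ∪ Goodᶜ) ?_)
    ((measureReal_union_le _ _).trans (add_le_add le_rfl (hGood.trans ?_)))
  swap
  · exact count_le n N
  rintro g ⟨x, θ, -, hθb, hlt⟩
  by_contra hg
  simp only [Set.mem_union, Set.mem_ofPred_eq, Set.mem_compl_iff, not_or, not_not] at hg
  obtain ⟨hT, hgG⟩ := hg
  obtain ⟨hUi, hUle⟩ := hgood g hgG x
  set J := cpl β g
  set U := fun u => famLog (blockSched P D) β M εa φ g (obsField t x u)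
  have hUi' : Integrable U (gauss (Fin n)) := (integrable_map_measure hUi.aestronglyMeasurable (hobs x).aemeasurable).1 hUi
  have hUle' : ∫ u, U u ∂gauss (Fin n) ≤ A * n := by
    refine le_trans (le_of_eq ?_) hUle
    exact (integral_map (hobs x).aemeasurable hUi.aestronglyMeasurable).symm
  set df := fun u => defect J (obsField t x u) G' W' x
  have hdi : Integrable df (gauss (Fin n)) := integrable_defect t G' W' x
  obtain ⟨hsi, hsd⟩ := integral_sqrt_le hdi fun u => defect_nonneg hGW' x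
  set E := fun u => avgE J (obsField t x u) W' x
  obtain ⟨hEi, hEle⟩ := avgE_obs hT hn t x hW'0
  obtain ⟨hsEi, hsE⟩ := integral_sqrt_le hEi fun u => avgE_nonneg W' x
  have hEη : ∫ u, E u ∂gauss (Fin n) ≤ η := by
    refine hEle.trans (Real.sqrt_le_iff.2 ⟨hη0.le, ?_⟩)
    rw [← hct, div_le_iff₀ (Nat.cast_pos.2 hW'0)]
    have h : ct / η ^ 2 ≤ W := (le_max_right _ _).trans (le_max_right _ _)
    rw [div_le_iff₀ (by positivity)] at h
    linarith [mul_le_mul_of_nonneg_right h hn'.le, mul_le_mul_of_nonneg_left hWl (sq_nonneg η)]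
  have hsEη : ∫ u, Real.sqrt (E u) ∂gauss (Fin n) ≤ Real.sqrt η := hsE.trans (Real.sqrt_le_sqrt hEη)
  -- the bound at a fixed noise
  set rr := 1 + εa ^ 2 * (Cq * ((n : ℝ) * P + P * (D : ℝ)) + rs) + εa * (er * Real.sqrt n) with hrr
  set F := fun u => ε / 5 * n + n * Kc * Real.sqrt (df u) + n * Cst * (Real.sqrt (E u) + E u)
      + (n * Cst * (1 / Real.sqrt n) + Cm * β ^ 2 * Real.sqrt n / 2)
      + (U u + rr) / (2 * P * εa) with hF
  have hτB : ((2 * W' : ℕ) : ℝ) ≤ τB * n := by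
    push_cast
    refine le_trans ?_ (mul_le_mul_of_nonneg_right (le_max_right _ _) hn'.le)
    linarith
  have pt : ∀ u, blockAvg W' (fun v => |fieldErr β J (obsField t x u) Ψ (θ u v) v x|) ≤ F u := fun u => by
    choose k hk using fun (v : ℕ) (i : Fin n) (l : Fin 3) =>
      gp_near hδ (((hθb u v i l).trans (le_abs_self Rm)).trans hN)
    have htree := fun v (hv : v ∈ Finset.Ico W' (2 * W')) =>
      periods_le (b := obsField t x u) (τ' := τB) (Cm := Cm * β ^ 2 * Real.sqrt n) hn hT (le_max_left _ _) hM1 hεa0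
        (fun k i l => gp δ N (k i l)) (k v) (P := P) (D := D) hτ₀0 hDn
        (hPDW.trans (Finset.mem_Ico.1 hv).1)
        (le_trans (Nat.cast_le.2 (Finset.mem_Ico.1 hv).2.le) hτB)
        (fun w hw y => hBM n J _ Ψ _ β P D w y hn hT (le_max_left _ _)
          (hDn.trans (mul_le_mul_of_nonneg_right (le_max_left _ _) hn'.le)) hw) x
    have hT2 := hBE n hn J hT (obsField t x u) Ψ (le_max_left _ _) (fun v i l => gp δ N (k v i l)) x P G' W'
      hG'0 hPDW (by exact_mod_cast hPDn)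
    refine (point_le (M := M) hT hβ0 hb1 (le_max_left _ _) hδ.le hk (Nat.cast_pos.1 hP) hW'0 htree hT2).trans
      (le_of_eq ?_)
    have hav : avgDir J (obsField t x u) W' x = E u := by
      simp only [avgDir, E, avgE, eAt, Finset.sum_div]
    rw [hav, show 3 * M * δ * (9 * (n : ℝ)) = ε / 5 * n by rw [hδdef]; field_simp; ring]
    simp only [hF, hrr, df, U, φ]
    field_simp
    ring
  -- integration
  obtain ⟨hFi, hFval⟩ := integral_bound hsi hsEi hEi hUi' (ε / 5 * n) (n * Kc) (n * Cst)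
    (n * Cst * (1 / Real.sqrt n) + Cm * β ^ 2 * Real.sqrt n / 2) rr (2 * P * εa)
  have hI := (integral_mono_of_nonneg (μ := gauss (Fin n))
    (Eventually.of_forall fun u => BlockAvg.nonneg fun v _ => abs_nonneg _) hFi (Eventually.of_forall pt)).trans_eq
    hFval
  exact absurd (hlt.trans_le (hI.trans (final_le hn' hsn hP hεa0 hKc hCq hrs hA5 hQ5 hUle' hDn
    (hsum_le hε hCst hη0 (min_le_left _ _) hη2 hsEη hEη) hsd hc₃n))) (lt_irrefl _)

end Vale.Agent.P150.PA
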