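import Vale.Agent.P150.PA.TapDefs
import Vale.Agent.P150.Stability

/-! The intermediate targets of Part A: the mean magnetisation dies out, the energy takes its limit,
and the posterior means of the spins are as large as at equilibrium. -/

open MeasureTheory Filter
open scoped Topology

namespace Vale.Agent.P150.PA

open Ising

variable {n : ℕ}

/-- from every start the mean magnetisation dies out, on average over times -/
def QSmall (β : ℝ) : Prop :=
  ∀ ε : ℝ, 0 < ε → ∃ τ T₀ : ℝ, 0 < τ ∧ ∀ T : ℝ, T₀ ≤ T → Tendsto (fun n : ℕ => (disorder n).real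
    {g | ∃ x, ε < blockAvg (att n T) (fun v => qlag (cpl β g) 0 v (att n τ) x)}) atTop (𝓝 0)

/-- from every start the energy takes its limit, on average over times -/
def EnergyLimit (β : ℝ) : Prop :=
  ∀ ε : ℝ, 0 < ε → ∃ T₀ : ℝ, ∀ T : ℝ, T₀ ≤ T → Tendsto (fun n : ℕ => (disorder n).real
    {g | ∃ x, blockAvg (att n T) (fun v => Kpow (cpl β g) 0 v (qE (cpl β g) 0) x) < (β ^ 2 / 2 - ε) * n})
    atTop (𝓝 0)

/-- the law after `v` attempts from `x` -/
noncomputable def lawAt (J : Fin n → Fin n → ℝ) (b : Fin n → ℝ) (v : ℕ) (x y : Cfg n) : ℝ :=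
  Kpow J b v (Pi.single y 1) x

/-- squared posterior mean of the spins in the observation channel at strength `t` under the law `ν` -/
noncomputable def msq (t : ℝ) (ν : Cfg n → ℝ) : ℝ :=
  ∫ z, mix ν (fun (x : Cfg n) i => spin (x i)) (Real.sqrt t) z *
    ∑ i, (∑ x, post ν (fun (x : Cfg n) i => spin (x i)) (Real.sqrt t) z x * spin (x i)) ^ 2 ∂gauss (Fin n)

/-- the mean of `tanh` at signal to noise ratio `s` -/
noncomputable def fq (s : ℝ) : ℝ :=
  ∫ z, Real.tanh (s + Real.sqrt s * z) ∂ProbabilityTheory.gaussianReal 0 1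

/-- the posterior overlap is at most that of equilibrium, on average over times -/
def MmseBound (β : ℝ) : Prop :=
  ∀ t ε : ℝ, 0 < t → 0 < ε → ∃ q T₀ : ℝ, 0 ≤ q ∧ |q - fq (t + β ^ 2 * q)| ≤ ε ∧ ∀ T : ℝ, T₀ ≤ T →
    Tendsto (fun n : ℕ => (disorder n).real
      {g | ∃ x, (q + ε) * n < blockAvg (att n T) (fun v => msq t (lawAt (cpl β g) 0 v x))}) atTop (𝓝 0)

/-- from every start the law is within `ε n` of equilibrium in entropy after boundedly many sweeps -/
def DiscreteBurnIn (β : ℝ) : Prop :=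
  ∀ ε : ℝ, 0 < ε → ∃ T : ℝ, 0 < T ∧ Tendsto (fun n : ℕ => (disorder n).real
    {g | ∃ x : Cfg n, ε * n < ent (wt (cpl β g) 0)
      (Kpow (cpl β g) 0 ⌈T * n⌉₊ (Pi.single x (wt (cpl β g) 0 x)⁻¹))}) atTop (𝓝 0)

end Vale.Agent.P150.PA
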