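import Vale.Agent.P150.PA.Pair
import Vale.Agent.P150.PA.Targets
import Vale.Agent.P150.High.Defs
import Vale.Agent.P150.SKNorm
import Vale.Agent.P150.Fast

/-! From entropy burn-in of the discrete heat-bath chain to burn-in of the continuous-time flow:
the flow is a Poisson mixture of the iterates of the chain, entropy is convex and decreases along the
chain, and the Poisson mass below a quarter of its mean is exponentially small. -/

open MeasureTheory Filter
open scoped Topology

namespace Vale.Agent.P150.PA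

open Ising

variable {n : ℕ}

namespace Bridge

/-- Poisson weights -/
noncomputable def pois (a : ℝ) (k : ℕ) : ℝ := Real.exp (-a) * a ^ k / k.factorial

lemma pois_nonneg {a : ℝ} (ha : 0 ≤ a) (k : ℕ) : 0 ≤ pois a k := by unfold pois; positivity

lemma hasSum_pow_div (a : ℝ) : HasSum (fun k : ℕ => a ^ k / k.factorial) (Real.exp a) := by
  rw [Real.exp_eq_exp_ℝ]
  exact NormedSpace.expSeries_div_hasSum_exp a

lemma hasSum_pois (a : ℝ) : HasSum (pois a) 1 := by
  have h := (hasSum_pow_div a).mul_left (Real.exp (-a))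
  rw [← Real.exp_add, neg_add_cancel, Real.exp_zero] at h
  exact h.congr_fun fun k => mul_div_assoc _ _ _

/-- Poisson lower tail -/
lemma pois_tail {a : ℝ} (ha : 0 ≤ a) (N : ℕ) :
    ∑ k ∈ Finset.range N, pois a k ≤ Real.exp (N - a / 2) := by
  have h2 : (2 : ℝ) ≤ Real.exp 1 := by linarith [Real.add_one_le_exp (1 : ℝ)]
  calc ∑ k ∈ Finset.range N, pois a k
      ≤ ∑ k ∈ Finset.range N, (Real.exp (-a) * 2 ^ N) * ((a / 2) ^ k / k.factorial) := by
        refine Finset.sum_le_sum fun k hk => ?_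
        have e : pois a k = Real.exp (-a) * 2 ^ k * ((a / 2) ^ k / k.factorial) := by
          rw [mul_assoc, ← mul_div_assoc (2 ^ k : ℝ), ← mul_pow, mul_div_cancel₀ _ two_ne_zero, pois, mul_div_assoc]
        rw [e]
        exact mul_le_mul_of_nonneg_right (mul_le_mul_of_nonneg_left
          (pow_le_pow_right₀ one_le_two (Finset.mem_range.1 hk).le) (Real.exp_pos _).le) (by positivity)
    _ ≤ (Real.exp (-a) * 2 ^ N) * Real.exp (a / 2) := by
        rw [← Finset.mul_sum]
        exact mul_le_mul_of_nonneg_left (sum_le_hasSum _ (fun k _ => by positivity) (hasSum_pow_div _)) (by positivity)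
    _ ≤ (Real.exp (-a) * Real.exp 1 ^ N) * Real.exp (a / 2) := by gcongr
    _ = Real.exp (N - a / 2) := by
        rw [← Real.exp_nat_mul, ← Real.exp_add, ← Real.exp_add]
        congr 1
        ring

lemma cpl_symm (β : ℝ) (g : Edge n → ℝ) (i j : Fin n) : cpl β g i j = cpl β g j i := by
  simp only [cpl, coupling_symm g i j]

lemma cpl_self (β : ℝ) (g : Edge n → ℝ) (i : Fin n) : cpl β g i i = 0 := by simp [cpl, coupling_self]

/-- the flow is the Poisson mixture of the iterates of the chain -/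
lemma flow_mixture (β : ℝ) (g : Edge n → ℝ) (hn : 0 < n) (f : Cfg n → ℝ) (t : ℝ) (y : Cfg n) :
    HasSum (fun k : ℕ => pois (t * n) k * Kpow (cpl β g) 0 k f y) (flow β g f t y) := by
  set S : (Cfg n → ℝ) →L[ℝ] (Cfg n → ℝ) := generator β g + (n:ℝ) • 1 with hS
  have hSapp : ∀ h z, S h z = (n:ℝ) * K (cpl β g) 0 h z := fun h z => by
    have hn' : (n:ℝ) ≠ 0 := Nat.cast_ne_zero.2 hn.ne'
    simp only [hS, _root_.add_apply, _root_.smul_apply, Pi.add_apply, Pi.smul_apply, one_apply_eq_self, smul_eq_mul,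
      generator_apply, Finset.sum_sub_distrib, heatBath_qb, K, mul_div_cancel₀ _ hn']
    simp
  have hpow : ∀ k, (S ^ k) f = (n:ℝ) ^ k • Kpow (cpl β g) 0 k f := by
    intro k
    induction k with
    | zero => simp [Kpow]
    | succ k ih =>
      funext z
      rw [pow_succ' S, mul_apply_eq_comp, ih, map_smul, Pi.smul_apply, hSapp, Pair.Kpow_succ, Pi.smul_apply,
        smul_eq_mul, smul_eq_mul, pow_succ]
      ring
  let : NormedAlgebra ℚ ((Cfg n → ℝ) →L[ℝ] (Cfg n → ℝ)) := NormedAlgebra.restrictScalars ℚ ℝ _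
  have hsplit : NormedSpace.exp (t • generator β g) = Real.exp (-(t * n)) • NormedSpace.exp (t • S) := by
    have e : t • generator β g = t • S + algebraMap ℝ ((Cfg n → ℝ) →L[ℝ] (Cfg n → ℝ)) (-(t * n)) := by
      rw [Algebra.algebraMap_eq_smul_one, hS, smul_add, smul_smul, add_assoc, ← add_smul]
      simp
    rw [e, NormedSpace.exp_add_of_commute (Algebra.commute_algebraMap_right _ _), ← NormedSpace.algebraMap_exp_comm,
      ← Algebra.commutes, ← Algebra.smul_def, ← Real.exp_eq_exp_ℝ]
  rw [flow, hsplit, _root_.smul_apply, Pi.smul_apply, smul_eq_mul]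
  refine ((flow_series f t y S).mul_left (Real.exp (-(t * n)))).congr_fun fun k => ?_
  rw [hpow k, Pi.smul_apply, smul_eq_mul, pois, mul_pow]
  ring

/-- tangent line of `u log u` -/
lemma tangent {u v : ℝ} (hu : 0 ≤ u) (hv : 0 < v) :
    v * Real.log v + (Real.log v + 1) * (u - v) ≤ u * Real.log u := by
  rcases hu.eq_or_lt with h | h
  · subst h; simp; linarith
  · have h1 := Real.log_le_sub_one_of_pos (div_pos hv h)
    rw [Real.log_div hv.ne' h.ne'] at h1
    have h2 := mul_le_mul_of_nonneg_left h1 h.le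
    have e : u * (v / u - 1) = v - u := by field_simp
    rw [e] at h2
    linarith

variable {J : Fin n → Fin n → ℝ}

lemma ent_Kpow_anti (hs : ∀ i j, J i j = J j i) (hd : ∀ i, J i i = 0) (hn : 0 < n) {f : Cfg n → ℝ}
    (hf : ∀ x, 0 ≤ f x) : Antitone fun k => ent (wt J 0) (Kpow J 0 k f) := by
  refine antitone_nat_of_succ_le fun k => ?_
  have h := dir_sqrt_le_drop hs hd hn (b := 0) (Pair.Kpow_nonneg (J := J) (b := 0) hf k)
  have h0 : 0 ≤ dir J 0 fun x => Real.sqrt (Kpow J 0 k f x) :=
    Finset.sum_nonneg fun i _ => Finset.sum_nonneg fun x _ =>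
      mul_nonneg (wt_pos J 0 x).le (mul_nonneg (mag_sq J 0 i x).1 (sq_nonneg _))
  have h1 := nonneg_of_mul_nonneg_right (h0.trans h) (Nat.cast_pos.2 hn)
  show ent (wt J 0) (Kpow J 0 (k + 1) f) ≤ ent (wt J 0) (Kpow J 0 k f)
  rw [Pair.Kpow_succ]
  linarith

/-- entropy of the flow against the entropy of the chain -/
theorem ent_flow_le (β : ℝ) (g : Edge n → ℝ) (hn : 0 < n) {f : Cfg n → ℝ} (hf : ∀ x, 0 ≤ f x)
    (hmean : ∑ x, wt (cpl β g) 0 x * f x = 1) {t : ℝ} (ht : 0 ≤ t) (N : ℕ) :
    ent (wt (cpl β g) 0) (flow β g f t) ≤ ent (wt (cpl β g) 0) (Kpow (cpl β g) 0 N f) +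
      ent (wt (cpl β g) 0) f * ∑ k ∈ Finset.range N, pois (t * n) k := by
  set J := cpl β g
  set μ := wt J (0 : Fin n → ℝ) with hμ
  set F := flow β g f t with hF
  set u := fun k => Kpow J 0 k f
  set w := pois (t * n)
  set E := fun k => ent μ (u k)
  have hs : ∀ i j, J i j = J j i := cpl_symm β g
  have hd : ∀ i, J i i = 0 := cpl_self β g
  have hw : ∀ k, 0 ≤ w k := pois_nonneg (by positivity)
  have hu : ∀ k y, 0 ≤ u k y := fun k y => Pair.Kpow_nonneg hf k y
  have hum : ∀ k, ∑ y, μ y * u k y = 1 := fun k => (Pair.avg_Kpow hs hd hn f k).trans hmean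
  have hser : ∀ y, HasSum (fun k => w k * u k y) (F y) := fun y => flow_mixture β g hn f t y
  have hF0 : ∀ y, 0 ≤ F y := fun y => (hser y).nonneg fun k => mul_nonneg (hw k) (hu k y)
  have hFm : ∑ y, μ y * F y = 1 := by
    have h := flow_mean β g f t
    simp only [ip, one_mul, ← wt_cpl] at h
    exact h.trans hmean
  set c := fun y => Real.log (F y) + 1
  have hpt : ∀ k y, w k * (F y * Real.log (F y)) + c y * (w k * u k y - w k * F y) ≤
      w k * (u k y * Real.log (u k y)) := by
    intro k y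
    rcases (hF0 y).eq_or_lt with h | h
    · have h1 := le_hasSum (hser y) k fun j _ => mul_nonneg (hw j) (hu j y)
      have h0 : w k * u k y = 0 := le_antisymm (h1.trans_eq h.symm) (mul_nonneg (hw k) (hu k y))
      rw [← h, ← mul_assoc (w k) (u k y), h0]
      simp
    · have := mul_le_mul_of_nonneg_left (tangent (hu k y) h) (hw k)
      simp only [c]
      linarith
  have hA : HasSum (fun k => ∑ y, μ y * (w k * (F y * Real.log (F y)) + c y * (w k * u k y - w k * F y)))
      (ent μ F) := by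
    have e : ent μ F = ∑ y, μ y * (1 * (F y * Real.log (F y)) + c y * (F y - 1 * F y)) := by
      simp [ent, hFm]
    rw [e]
    exact hasSum_sum fun y _ =>
      (((hasSum_pois _).mul_right _).add (((hser y).sub ((hasSum_pois _).mul_right _)).mul_left _)).mul_left _
  have hanti := ent_Kpow_anti hs hd hn hf
  have hE0 : ∀ k, 0 ≤ E k := fun k => Pair.ent_nonneg (hu k)
  have hB : HasSum (fun k => w k * E N + if k ∈ Finset.range N then w k * E 0 else 0)
      (E N + E 0 * ∑ k ∈ Finset.range N, w k) := by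
    refine HasSum.add (by simpa using (hasSum_pois _).mul_right (E N)) ?_
    have h : HasSum (fun k => if k ∈ Finset.range N then w k * E 0 else 0)
        (∑ k ∈ Finset.range N, if k ∈ Finset.range N then w k * E 0 else 0) :=
      hasSum_sum_of_ne_finset_zero fun k hk => by simp [hk]
    convert h using 1
    rw [Finset.mul_sum]
    exact Finset.sum_congr rfl fun k hk => by rw [if_pos hk, mul_comm]
  refine hasSum_le (fun k => ?_) hA hB
  refine (Finset.sum_le_sum fun y _ => mul_le_mul_of_nonneg_left (hpt k y) (wt_pos J 0 y).le).trans ?_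
  have e : ∑ y, μ y * (w k * (u k y * Real.log (u k y))) = w k * E k := by
    simp only [E, ent, hum, Real.log_one, mul_zero, sub_zero, Finset.mul_sum]
    exact Finset.sum_congr rfl fun y _ => mul_left_comm _ _ _
  rw [e]
  split_ifs with hk
  · exact (mul_le_mul_of_nonneg_left (hanti (Nat.zero_le k)) (hw k)).trans
      (le_add_of_nonneg_left (mul_nonneg (hw k) (hE0 N)))
  · rw [add_zero]
    exact mul_le_mul_of_nonneg_left (hanti (not_lt.1 fun h => hk (Finset.mem_range.2 h))) (hw k)

end Bridge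

open Bridge

/-- burn-in of the discrete chain gives burn-in of the flow -/
theorem burnIn_of_discrete {β : ℝ} (hβ : 0 ≤ β) (h : DiscreteBurnIn β) : High.BurnIn β := by
  intro ε hε
  obtain ⟨T, hT, hlim⟩ := h (ε / 2) (by linarith)
  obtain ⟨c, hc, hop⟩ := opnorm_bound (ε := 1/16) (δ := 1/16) (by norm_num) (by norm_num) (by norm_num) (by norm_num)
  refine ⟨4 * T, by linarith, ?_⟩
  have hsum := hlim.add ((tendsto_exp_nat hc).const_mul 2)
  rw [mul_zero, add_zero] at hsum
  refine squeeze_zero' (Eventually.of_forall fun _ => measureReal_nonneg) ?_ hsum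
  set C := Real.log 2 + 3 * β
  have hsmall : Tendsto (fun n : ℕ => C * Real.exp 1 * Real.exp (-(T * n))) atTop (𝓝 0) := by
    simpa using (tendsto_exp_nat hT).const_mul (C * Real.exp 1)
  filter_upwards [hsmall.eventually_le_const (half_pos hε), eventually_gt_atTop 0] with n hn hn0
  refine le_trans ((measureReal_mono (fun g hg => ?_)).trans (measureReal_union_le _ _))
    (add_le_add le_rfl (hop n hn0))
  by_contra hno
  simp only [Set.mem_union, Set.mem_ofPred_eq, not_or, not_exists, not_lt] at hno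
  obtain ⟨x, hx⟩ := hg
  refine absurd hx (not_lt.2 ?_)
  have hnR : (0:ℝ) < n := Nat.cast_pos.2 hn0
  set J := cpl β g
  set μ := wt J (0 : Fin n → ℝ)
  set f : Cfg n → ℝ := Pi.single x (μ x)⁻¹
  have egibbs : gibbs β g = μ := funext fun y => (wt_cpl β g y).symm
  have hμ : 0 < μ x := wt_pos J 0 x
  have hf : ∀ y, 0 ≤ f y := fun y => by
    by_cases hy : y = x
    · subst hy; simp only [f, Pi.single_eq_same]; exact (inv_pos.2 hμ).le
    · simp [f, hy]
  have hmean : ∑ y, μ y * f y = 1 := by
    rw [Finset.sum_eq_single x (fun y _ hy => by simp [f, hy]) (by simp)]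
    simp [f, hμ.ne']
  have hopJ : ∀ v : Fin n → ℝ, |∑ i, ∑ j, J i j * (v i * v j)| ≤ 3 * β * ∑ i, v i ^ 2 := by
    intro v
    have e : ∑ i, ∑ j, J i j * (v i * v j) = β / Real.sqrt n * ∑ i, ∑ j, coupling g i j * (v i * v j) := by
      simp only [J, cpl, mul_assoc, ← Finset.mul_sum]
    have hs : 0 < Real.sqrt (n:ℝ) := Real.sqrt_pos.2 hnR
    have hsq : 0 ≤ ∑ i, v i ^ 2 := Finset.sum_nonneg fun i _ => sq_nonneg _
    rw [e, abs_mul, abs_of_nonneg (div_nonneg hβ hs.le)]
    refine (mul_le_mul_of_nonneg_left (hno.2 v) (div_nonneg hβ hs.le)).trans ?_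
    have e2 : β / Real.sqrt n * ((2 + 5 * (1 / 16)) / (1 - 2 * (1 / 16)) * Real.sqrt n * ∑ i, v i ^ 2) =
        37 / 14 * (β * ∑ i, v i ^ 2) := by field_simp; ring
    rw [e2]
    linarith [mul_nonneg hβ hsq]
  have hpt : ent μ f ≤ C * n := by
    refine (ent_point hopJ x).trans (le_of_eq ?_)
    simp [C]; ring
  have ht : 0 ≤ 4 * T := by linarith
  rw [High.startDensity, egibbs]
  refine (ent_flow_le β g hn0 hf hmean ht ⌈T * n⌉₊).trans ?_
  have htail : ∑ k ∈ Finset.range ⌈T * n⌉₊, pois (4 * T * n) k ≤ Real.exp 1 * Real.exp (-(T * n)) := by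
    refine (pois_tail (by positivity) _).trans ?_
    rw [← Real.exp_add]
    refine Real.exp_le_exp.2 ?_
    linarith [Nat.ceil_lt_add_one (show 0 ≤ T * n by positivity)]
  have h0 : 0 ≤ ∑ k ∈ Finset.range ⌈T * n⌉₊, pois (4 * T * n) k :=
    Finset.sum_nonneg fun k _ => pois_nonneg (by positivity) k
  have h1 := mul_le_mul hpt htail h0 (le_trans (Pair.ent_nonneg hf) hpt)
  have h2 := mul_le_mul_of_nonneg_left hn hnR.le
  linarith [hno.1 x]

end Vale.Agent.P150.PA
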