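import Vale.Agent.P150.PA.QSmallTools

/-! The mean magnetisation dies out from every start, and the energy takes its limit, both from the block
identity of the local field: the Stein kernel turns the identity into the TAP equation, the supremum of
the TAP functional excludes a positive overlap, and the kernel `tanh` gives the energy. -/

open MeasureTheory Filter
open scoped Topology

namespace Vale.Agent.P150.PA

open Ising QS

variable {n : ℕ}

namespace QS

lemma att_ge (n : ℕ) (τ : ℝ) : τ * n ≤ (att n τ : ℝ) := by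
  unfold att
  push_cast
  linarith [Nat.le_ceil (τ * n / 2)]

lemma att_le (n : ℕ) {τ : ℝ} (hτ : 0 ≤ τ) : (att n τ : ℝ) ≤ τ * n + 2 := by
  unfold att
  push_cast
  linarith [Nat.ceil_lt_add_one (show (0 : ℝ) ≤ τ * n / 2 by positivity)]

lemma att_mono (n : ℕ) {τ τ' : ℝ} (h : τ ≤ τ') : att n τ ≤ att n τ' :=
  Nat.mul_le_mul_left 2 (Nat.ceil_mono
    (div_le_div_of_nonneg_right (mul_le_mul_of_nonneg_right h (Nat.cast_nonneg n)) two_pos.le))

lemma att_pos {τ : ℝ} (hn : 0 < n) (hτ : 0 < τ) : 0 < att n τ :=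
  Nat.mul_pos two_pos (Nat.ceil_pos.2 (by positivity))

lemma att_ratio {W T : ℝ} (hn : 2 ≤ n) (hW : 1 ≤ W) (hT : 0 < T) :
    (att n W : ℝ) / (att n T : ℝ) ≤ 2 * W / T := by
  have hn' : (2 : ℝ) ≤ n := by exact_mod_cast hn
  have h1 := att_le n (zero_le_one.trans hW)
  have h2 := att_ge n T
  have h3 : 2 ≤ W * n := by nlinarith
  rw [div_le_div_iff₀ (Nat.cast_pos.2 (att_pos (by omega) hT)) hT]
  calc (att n W : ℝ) * T ≤ 2 * W * n * T := mul_le_mul_of_nonneg_right (by linarith) hT.le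
    _ = 2 * W * (T * n) := by ring
    _ ≤ _ := mul_le_mul_of_nonneg_left h2 (by linarith)

lemma att_double {W : ℝ} (hn : 2 ≤ n) (hW : 1 ≤ W) : 2 * att n W ≤ att n (3 * W) := by
  have hn' : (2 : ℝ) ≤ n := by exact_mod_cast hn
  have h3 : (2 : ℝ) ≤ W * n := by nlinarith
  refine Nat.mul_le_mul_left 2 (Nat.lt_add_one_iff.1 (Nat.cast_lt (α := ℝ).1 ?_))
  unfold att
  push_cast
  linarith [Nat.ceil_lt_add_one (show (0 : ℝ) ≤ W * n / 2 by positivity), Nat.le_ceil (3 * W * (n : ℝ) / 2)]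

lemma obsField_zero (x : Cfg n) (u : Fin n → ℝ) : obsField 0 x u = 0 := by
  funext i; simp [obsField]

/-- the failure set of the block identity without an observation -/
def blockBad (β : ℝ) (Ψ : Kern) (Rm ε Kc G W : ℝ) (n : ℕ) : Set (Edge n → ℝ) :=
  {g | ∃ (x : Cfg n) (θ : ℕ → Fin n → Fin 3 → ℝ), (∀ v i l, |θ v i l| ≤ Rm) ∧
    (ε + Kc * Real.sqrt (defect (cpl β g) 0 (att n G) (att n W) x)) * n <
      blockAvg (att n W) (fun v => |fieldErr β (cpl β g) 0 Ψ (θ v) v x|)}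

/-- the block identity without an observation -/
lemma block_zero {β : ℝ} (hB : BlockIdentity β) (Ψ : Kern) (Rm : ℝ) {ε : ℝ} (hε : 0 < ε) :
    ∃ Kc G₀ : ℝ, ∀ G : ℝ, G₀ ≤ G → ∃ W : ℝ, G ≤ W ∧
      Tendsto (fun n : ℕ => (disorder n).real (blockBad β Ψ Rm ε Kc G W n)) atTop (𝓝 0) := by
  obtain ⟨Kc, G₀, h⟩ := hB Ψ 0 Rm ε le_rfl hε
  refine ⟨Kc, G₀, fun G hG => ?_⟩
  obtain ⟨W, hW, hlim⟩ := h G hG
  refine ⟨W, hW, squeeze_zero (fun n => measureReal_nonneg) (fun n => ?_) hlim⟩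
  refine measureReal_mono ?_ (measure_ne_top _ _)
  rintro g ⟨x, θ, hθ, hlt⟩
  refine ⟨x, fun _ => θ, fun v => continuous_const, fun _ => hθ, ?_⟩
  simpa [obsField_zero, integral_const] using hlt

/-- the TAP supremum fails at some profile -/
def tapBad (β q₀ δ : ℝ) (n : ℕ) : Set (Edge n → ℝ) :=
  {g | ∃ m : Fin n → ℝ, (∀ i, |m i| < 1) ∧ q₀ * n ≤ ∑ i, m i ^ 2 ∧
    ∑ i, m i * Real.artanh (m i) + β ^ 2 * (1 - (∑ i, m i ^ 2) / n) * (∑ i, m i ^ 2) - δ * n ≤
      ∑ i, ∑ j, m i * cpl β g i j * m j}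

lemma tapBad_whp {β q₀ : ℝ} (h0 : 0 ≤ β) (h1 : β < 1) (hq : 0 < q₀) :
    ∃ δ > 0, Tendsto (fun n : ℕ => (disorder n).real (tapBad β q₀ δ n)) atTop (𝓝 0) := by
  obtain ⟨δ, hδ, c, hc, hev⟩ := tap_sup h0 h1 hq
  have hlim : Tendsto (fun n : ℕ => Real.exp (-(c * n))) atTop (𝓝 0) :=
    Real.tendsto_exp_atBot.comp (tendsto_neg_atTop_atBot.comp (tendsto_natCast_atTop_atTop.const_mul_atTop hc))
  exact ⟨δ, hδ, tendsto_of_tendsto_of_tendsto_of_le_of_le' tendsto_const_nhds hlim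
    (Eventually.of_forall fun _ => measureReal_nonneg) hev⟩

section step

variable {β : ℝ} {g : Edge n → ℝ} {L : ℝ}

lemma cav_sq (h0 : 0 ≤ β) (h1 : β < 1) (hL : 0 < L) (hop : Op (cpl β g) L) (v : ℕ) (x : Cfg n) :
    ∑ i, cav β (cpl β g) 0 v x i ^ 2 ≤ 2 * (L ^ 2 + 1) * (qmean (cpl β g) 0 v x * n) := by
  set m := mean (cpl β g) 0 v x with hm
  set o := onsager β (cpl β g) 0 v x with ho
  have hq := qmean_mem (J := cpl β g) (b := 0) v x
  have ho0 : 0 ≤ o := mul_nonneg (sq_nonneg β) (by linarith)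
  have ho1 : o ≤ 1 := mul_le_one₀ (by nlinarith) (by linarith) (by linarith)
  have h2 := op_vec (cpl_symm β g) hL hop m
  have e : ∑ i, m i ^ 2 = qmean (cpl β g) 0 v x * n := by
    rcases Nat.eq_zero_or_pos n with rfl | hn
    · simp
    · rw [qmean, div_mul_cancel₀ _ (Nat.cast_ne_zero.2 hn.ne')]
  rw [← e]
  calc ∑ i, cav β (cpl β g) 0 v x i ^ 2
      ≤ ∑ i, (2 * (∑ j, cpl β g i j * m j) ^ 2 + 2 * m i ^ 2) := by
        refine Finset.sum_le_sum fun i _ => ?_
        have : (o * m i) ^ 2 ≤ m i ^ 2 := by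
          rw [mul_pow]; exact mul_le_of_le_one_left (sq_nonneg _) (pow_le_one₀ ho0 ho1)
        simp only [cav, ← hm, ← ho]
        nlinarith [sq_nonneg ((∑ j, cpl β g i j * m j) + o * m i)]
    _ ≤ _ := by
        rw [Finset.sum_add_distrib, ← Finset.mul_sum, ← Finset.mul_sum]
        linarith

lemma tap_step (h0 : 0 ≤ β) (h1 : β < 1) (hn : 0 < n) (hL : 0 < L) (hop : Op (cpl β g) L) {q₀ δ η : ℝ}
    (hg : g ∉ tapBad β q₀ δ n) (hη : 0 < η) (hη' : (L + 3) * Real.sqrt η ≤ δ) (v : ℕ) (x : Cfg n) :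
    qmean (cpl β g) 0 v x ≤ 2 * q₀ + 2 * η +
      (∑ i, (mean (cpl β g) 0 v x i - Real.tanh (cav β (cpl β g) 0 v x i)) ^ 2) / (η * n) := by
  set m := mean (cpl β g) 0 v x with hm
  set q := qmean (cpl β g) 0 v x with hq
  set a := cav β (cpl β g) 0 v x with ha
  set E := ∑ i, (m i - Real.tanh (a i)) ^ 2 with hE
  have hn' : (0 : ℝ) < n := Nat.cast_pos.2 hn
  have hqm : 0 ≤ q ∧ q ≤ 1 := qmean_mem v x
  have hE0 : 0 ≤ E := Finset.sum_nonneg fun i _ => sq_nonneg _
  have hEd : 0 ≤ E / (η * n) := div_nonneg hE0 (by positivity)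
  rcases lt_or_ge (η * n) E with h | h
  · have : 1 < E / (η * n) := (one_lt_div (by positivity)).2 h
    have : (0:ℝ) ≤ 2 * η := by linarith
    by_cases hq0 : 0 ≤ q₀
    · linarith
    · exact absurd (hg ⟨fun _ => 0, fun _ => by simp, by
        simp only [ne_eq, OfNat.ofNat_ne_zero, not_false_eq_true, zero_pow, Finset.sum_const_zero]
        nlinarith, by
        have : (0:ℝ) ≤ δ * n := mul_nonneg ((mul_nonneg (by linarith) (Real.sqrt_nonneg η)).trans hη') hn'.le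
        simp
        linarith⟩) id
  · set w := fun i => Real.tanh (a i) with hw
    set d := fun i => m i - w i with hd
    have hw1 : ∑ i, w i ^ 2 ≤ n := by
      refine (Finset.sum_le_card_nsmul _ _ 1 fun i _ => ?_).trans_eq (by simp)
      exact (sq_le_one_iff_abs_le_one _).2 (tanh_abs_lt (a i)).le
    have hm1 : ∑ i, m i ^ 2 ≤ n := mean_sq_le v x
    have hsd : Real.sqrt (∑ i, d i ^ 2) ≤ Real.sqrt η * Real.sqrt n := by
      rw [← Real.sqrt_mul hη.le]; exact Real.sqrt_le_sqrt h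
    have hcs : ∀ p : Fin n → ℝ, ∑ i, p i ^ 2 ≤ n → |∑ i, p i * d i| ≤ Real.sqrt η * n := by
      intro p hp
      have hb : Real.sqrt (∑ i, p i ^ 2) * Real.sqrt (∑ i, d i ^ 2) ≤ Real.sqrt η * n := by
        calc Real.sqrt (∑ i, p i ^ 2) * Real.sqrt (∑ i, d i ^ 2) ≤ Real.sqrt n * (Real.sqrt η * Real.sqrt n) :=
              mul_le_mul (Real.sqrt_le_sqrt hp) hsd (Real.sqrt_nonneg _) (Real.sqrt_nonneg _)
          _ = Real.sqrt η * (Real.sqrt n * Real.sqrt n) := by ring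
          _ = _ := by rw [Real.mul_self_sqrt hn'.le]
      rw [← Real.sqrt_sq_eq_abs]
      refine le_trans (Real.sqrt_le_sqrt (Finset.sum_mul_sq_le_sq_mul_sq Finset.univ p d)) ?_
      rw [Real.sqrt_mul (Finset.sum_nonneg fun i _ => sq_nonneg _)]
      exact hb
    have hJ : |∑ i, ∑ j, cpl β g i j * (w i * d j)| ≤ L * (Real.sqrt η * n) := by
      have hv : ∑ i, (∑ j, cpl β g i j * w j) ^ 2 ≤ L ^ 2 * n :=
        (op_vec (cpl_symm β g) hL hop w).trans (mul_le_mul_of_nonneg_left hw1 (sq_nonneg L))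
      have e : ∑ i, ∑ j, cpl β g i j * (w i * d j) = L * ∑ i, ((∑ j, cpl β g i j * w j) / L) * d i := by
        rw [Finset.sum_comm, Finset.mul_sum]
        refine Finset.sum_congr rfl fun j _ => ?_
        rw [← mul_assoc, mul_div_cancel₀ _ hL.ne', Finset.sum_mul]
        exact Finset.sum_congr rfl fun i _ => by rw [cpl_symm β g i j]; ring
      rw [e, abs_mul, abs_of_pos hL]
      refine mul_le_mul_of_nonneg_left (hcs _ ?_) hL.le
      simp only [div_pow, ← Finset.sum_div]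
      rw [div_le_iff₀ (pow_pos hL 2)]
      linarith
    set qw := (∑ i, w i ^ 2) / n with hqw
    have hqw1 : qw ≤ 1 := div_le_one_of_le₀ hw1 hn'.le
    have hqw0 : 0 ≤ qw := div_nonneg (Finset.sum_nonneg fun i _ => sq_nonneg _) hn'.le
    have c1 : |∑ i, m i * d i| ≤ Real.sqrt η * n := hcs m hm1
    have c2 : |∑ i, w i * d i| ≤ Real.sqrt η * n := hcs w hw1
    have hdiff : |(qw - q) * n| ≤ 2 * (Real.sqrt η * n) := by
      have e : (qw - q) * n = -(∑ i, m i * d i) - ∑ i, w i * d i := by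
        rw [sub_mul, hqw, hq, qmean, div_mul_cancel₀ _ hn'.ne', div_mul_cancel₀ _ hn'.ne',
          ← Finset.sum_neg_distrib, ← Finset.sum_sub_distrib, ← Finset.sum_sub_distrib]
        exact Finset.sum_congr rfl fun i _ => by simp only [hd, ← hm]; ring
      rw [e]
      exact (abs_sub _ _).trans (by rw [abs_neg]; linarith)
    have hb2 : β ^ 2 ≤ 1 := by nlinarith
    have emain : ∑ i, w i * a i + β ^ 2 * (1 - qw) * (∑ i, w i ^ 2) - ∑ i, ∑ j, w i * cpl β g i j * w j =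
        ∑ i, ∑ j, cpl β g i j * (w i * d j) - β ^ 2 * (1 - q) * (∑ i, w i * d i)
          - β ^ 2 * qw * ((qw - q) * n) := by
      have e1 : ∑ i, w i * a i = ∑ i, ∑ j, cpl β g i j * (w i * m j) - β ^ 2 * (1 - q) * ∑ i, w i * m i := by
        rw [Finset.mul_sum, ← Finset.sum_sub_distrib]
        refine Finset.sum_congr rfl fun i _ => ?_
        simp only [ha, cav, onsager, ← hq, ← hm, mul_sub, Finset.mul_sum]
        congr 1
        · exact Finset.sum_congr rfl fun j _ => by ring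
        · ring
      have e2 : ∑ i, ∑ j, cpl β g i j * (w i * d j) =
          ∑ i, ∑ j, cpl β g i j * (w i * m j) - ∑ i, ∑ j, w i * cpl β g i j * w j := by
        simp only [← Finset.sum_sub_distrib, hd]
        exact Finset.sum_congr rfl fun i _ => Finset.sum_congr rfl fun j _ => by ring
      have e3 : ∑ i, w i * d i = ∑ i, w i * m i - ∑ i, w i ^ 2 := by
        simp only [← Finset.sum_sub_distrib, hd]
        exact Finset.sum_congr rfl fun i _ => by ring
      have e4 : ∑ i, w i ^ 2 = qw * n := by rw [hqw, div_mul_cancel₀ _ hn'.ne']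
      rw [e1, e2, e3, e4]
      ring
    have hle : ∑ i, w i * a i + β ^ 2 * (1 - qw) * (∑ i, w i ^ 2) - δ * n ≤
        ∑ i, ∑ j, w i * cpl β g i j * w j := by
      have t1 := (abs_le.1 hJ).2
      have t2 : |β ^ 2 * (1 - q) * (∑ i, w i * d i)| ≤ Real.sqrt η * n := by
        rw [abs_mul, abs_of_nonneg (mul_nonneg (sq_nonneg β) (by linarith : 0 ≤ 1 - q))]
        exact (mul_le_of_le_one_left (abs_nonneg _) (mul_le_one₀ hb2 (by linarith) (by linarith))).trans c2
      have t3 : |β ^ 2 * qw * ((qw - q) * n)| ≤ 2 * (Real.sqrt η * n) := by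
        rw [abs_mul, abs_of_nonneg (mul_nonneg (sq_nonneg β) hqw0)]
        exact (mul_le_of_le_one_left (abs_nonneg _) (mul_le_one₀ hb2 hqw0 hqw1)).trans hdiff
      have t4 : (L + 3) * Real.sqrt η * n ≤ δ * n := mul_le_mul_of_nonneg_right hη' hn'.le
      linarith [(abs_le.1 t2).1, (abs_le.1 t3).1]
    have hsmall : ∑ i, w i ^ 2 < q₀ * n := by
      by_contra hcon
      refine hg ⟨w, fun i => tanh_abs_lt (a i), not_lt.1 hcon, ?_⟩
      simp only [hw, Real.artanh_tanh] at hle ⊢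
      exact hle
    have hsum : ∑ i, m i ^ 2 ≤ 2 * (∑ i, w i ^ 2) + 2 * E := by
      rw [hE, Finset.mul_sum, Finset.mul_sum, ← Finset.sum_add_distrib]
      exact Finset.sum_le_sum fun i _ => by
        simp only [hw]
        nlinarith [sq_nonneg (m i - 2 * Real.tanh (a i))]
    have hqle : q ≤ 2 * q₀ + 2 * η := by
      rw [hq, qmean, div_le_iff₀ hn', ← hm]
      linarith
    linarith

open Classical in
/-- the parameters of the TAP kernel: outside `|a i| ≤ Rm` the weight is switched off -/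
noncomputable def tapPar (β : ℝ) (g : Edge n → ℝ) (Rm : ℝ) (x : Cfg n) (v : ℕ) (i : Fin n) : Fin 3 → ℝ :=
  if |cav β (cpl β g) 0 v x i| ≤ Rm then
    ![cav β (cpl β g) 0 v x i, onsager β (cpl β g) 0 v x,
      mean (cpl β g) 0 v x i - Real.tanh (cav β (cpl β g) 0 v x i)]
  else ![0, onsager β (cpl β g) 0 v x, 0]

lemma par_facts (h0 : 0 ≤ β) (h1 : β < 1) (v : ℕ) (x : Cfg n) (i : Fin n) :
    (0 ≤ onsager β (cpl β g) 0 v x ∧ onsager β (cpl β g) 0 v x ≤ 1) ∧
      |mean (cpl β g) 0 v x i - Real.tanh (cav β (cpl β g) 0 v x i)| ≤ 2 := by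
  have hq := qmean_mem (J := cpl β g) (b := 0) v x
  refine ⟨⟨mul_nonneg (sq_nonneg β) (by linarith), mul_le_one₀ (by nlinarith) (by linarith) (by linarith)⟩, ?_⟩
  have hm : |mean (cpl β g) 0 v x i| ≤ 1 :=
    Kpow_abs_le i.pos v (fun y => by cases y i <;> simp [spin]) x
  exact (abs_sub _ _).trans (by linarith [(tanh_abs_lt (cav β (cpl β g) 0 v x i)).le])

lemma tapPar_le (h0 : 0 ≤ β) (h1 : β < 1) {Rm : ℝ} (hR : 2 ≤ Rm) (x : Cfg n) (v : ℕ) (i : Fin n) (l : Fin 3) :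
    |tapPar β g Rm x v i l| ≤ Rm := by
  obtain ⟨⟨ho0, ho1⟩, hw⟩ := par_facts (g := g) h0 h1 v x i
  unfold tapPar
  split_ifs with hc
  · fin_cases l
    · exact hc
    · simpa using abs_le.2 ⟨by linarith, ho1.trans (by linarith)⟩
    · simpa using hw.trans hR
  · fin_cases l
    · simpa using zero_le_two.trans hR
    · simpa using abs_le.2 ⟨by linarith, ho1.trans (by linarith)⟩
    · simpa using zero_le_two.trans hR

/-- the squared TAP defect is at most the field error, the pairing and the truncation -/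
lemma tap_defect (h0 : 0 ≤ β) (h1 : β < 1) (hn : 0 < n) (hL : 0 < L) (hop : Op (cpl β g) L) {Rm : ℝ}
    (hR : 2 ≤ Rm) (v : ℕ) (x : Cfg n) :
    ∑ i, (mean (cpl β g) 0 v x i - Real.tanh (cav β (cpl β g) 0 v x i)) ^ 2 ≤
      |fieldErr β (cpl β g) 0 tapKern (tapPar β g Rm x v) v x| +
      |Kpow (cpl β g) 0 v (fun y => ∑ i, tapPar β g Rm x v i 2 * (spin (y i) - mag (cpl β g) 0 i y)) x| +
      8 * (L ^ 2 + 1) / Rm ^ 2 * n := by
  set J := cpl β g with hJ
  set m := mean J 0 v x with hm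
  set a := cav β J 0 v x with ha
  set o := onsager β J 0 v x with ho
  set θ := tapPar β g Rm x v with hθ
  have hpt : ∀ i y, tapKern.fn (θ i) (fld J 0 i y) * (fld J 0 i y - a i - o * Real.tanh (fld J 0 i y))
      - o * tapKern.dfn (θ i) (fld J 0 i y) = θ i 2 * (mag J 0 i y - Real.tanh (a i)) := by
    intro i y
    obtain ⟨hob, hw⟩ := par_facts (g := g) h0 h1 v x i
    by_cases hc : |a i| ≤ Rm
    · have hp : θ i = ![a i, o, m i - Real.tanh (a i)] := by
        simp only [hθ, tapPar, ha, ho, hm, hJ] at hc ⊢; rw [if_pos hc]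
      have h := tapKern_eq (p := θ i) (by rw [hp]; simpa using hob) (by rw [hp]; simpa using hw) (fld J 0 i y)
      rw [hp] at h ⊢
      simpa [mag] using h
    · have hp : θ i = ![0, o, 0] := by simp only [hθ, tapPar, ha, ho, hJ] at hc ⊢; rw [if_neg hc]
      have hz : cw 0 = 0 := cw_id (by norm_num)
      simp [hp, tapKern, hz]
  have e1 : fieldErr β J 0 tapKern θ v x =
      ∑ i, θ i 2 * (Kpow J 0 v (fun y => mag J 0 i y) x - Real.tanh (a i)) := by
    rw [fieldErr]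
    simp only [← ha, ← ho, hpt, Kpow_sum hn, Kpow_mul hn, Kpow_sub hn, Kpow_const hn]
  have e2 : Kpow J 0 v (fun y => ∑ i, θ i 2 * (spin (y i) - mag J 0 i y)) x =
      ∑ i, θ i 2 * (m i - Kpow J 0 v (fun y => mag J 0 i y) x) := by
    simp only [Kpow_sum hn, Kpow_mul hn, Kpow_sub hn]
    rfl
  have e3 : ∑ i, θ i 2 * (m i - Real.tanh (a i)) = fieldErr β J 0 tapKern θ v x +
      Kpow J 0 v (fun y => ∑ i, θ i 2 * (spin (y i) - mag J 0 i y)) x := by
    rw [e1, e2, ← Finset.sum_add_distrib]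
    exact Finset.sum_congr rfl fun i _ => by ring
  have hR2 : (0 : ℝ) < Rm ^ 2 := by positivity
  have hi : ∀ i, (m i - Real.tanh (a i)) ^ 2 ≤ θ i 2 * (m i - Real.tanh (a i)) + 4 * a i ^ 2 / Rm ^ 2 := by
    intro i
    obtain ⟨-, hw⟩ := par_facts (g := g) h0 h1 v x i
    by_cases hc : |a i| ≤ Rm
    · have hp : θ i 2 = m i - Real.tanh (a i) := by
        simp only [hθ, tapPar, ha, hm, hJ] at hc ⊢; rw [if_pos hc]; simp
      rw [hp, sq]
      exact le_add_of_nonneg_right (by positivity)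
    · have hp : θ i 2 = 0 := by
        simp only [hθ, tapPar, ha, hJ] at hc ⊢; rw [if_neg hc]; simp
      rw [hp, zero_mul, zero_add, le_div_iff₀ hR2]
      have h4 : (m i - Real.tanh (a i)) ^ 2 ≤ 4 := by
        rw [← sq_abs, show (4 : ℝ) = 2 ^ 2 by norm_num]
        exact pow_le_pow_left₀ (abs_nonneg _) hw 2
      have h5 : Rm ^ 2 ≤ a i ^ 2 := by
        rw [← sq_abs (a i)]; exact pow_le_pow_left₀ (by linarith) (not_le.1 hc).le 2
      calc (m i - Real.tanh (a i)) ^ 2 * Rm ^ 2 ≤ 4 * a i ^ 2 := mul_le_mul h4 h5 (sq_nonneg _) (by norm_num)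
        _ = _ := rfl
  have hsum : ∑ i, 4 * a i ^ 2 / Rm ^ 2 ≤ 8 * (L ^ 2 + 1) / Rm ^ 2 * n := by
    rw [← Finset.sum_div, ← Finset.mul_sum, div_mul_eq_mul_div]
    refine div_le_div_of_nonneg_right ?_ hR2.le
    have hq := (qmean_mem (J := J) (b := 0) v x).2
    have := cav_sq h0 h1 hL hop v x
    have h6 := mul_le_mul_of_nonneg_left (mul_le_of_le_one_left (Nat.cast_nonneg (α := ℝ) n) hq)
      (show (0 : ℝ) ≤ 2 * (L ^ 2 + 1) by positivity)
    linarith
  refine (Finset.sum_le_sum fun i _ => hi i).trans ?_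
  rw [Finset.sum_add_distrib, e3]
  exact add_le_add (add_le_add (le_abs_self _) (le_abs_self _)) hsum

lemma sqrt_ratio {W : ℕ} {G₁ : ℝ} (hn : 0 < n) (hG : 0 < G₁) (hW : G₁ * n ≤ W) (hL : 0 < L) :
    Real.sqrt ((Real.log 2 + L) / W) * Real.sqrt n ≤ Real.sqrt ((Real.log 2 + L) / G₁) := by
  have hn' : (0 : ℝ) < n := Nat.cast_pos.2 hn
  have hc : 0 ≤ Real.log 2 + L := add_nonneg (Real.log_pos one_lt_two).le hL.le
  rw [← Real.sqrt_mul (div_nonneg hc (Nat.cast_nonneg W))]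
  refine Real.sqrt_le_sqrt ?_
  rw [div_mul_eq_mul_div, div_le_div_iff₀ ((mul_pos hG hn').trans_le hW) hG, mul_assoc, mul_comm (n : ℝ)]
  exact mul_le_mul_of_nonneg_left hW hc

/-- one block: the overlap is small if the TAP identity nearly holds -/
lemma block_small (h0 : 0 ≤ β) (h1 : β < 1) (hn : 0 < n) (hL : 0 < L) (hop : Op (cpl β g) L)
    {q₀ δ η Rm ε₀ Kc s G W : ℝ} (hgt : g ∉ tapBad β q₀ δ n) (hη : 0 < η) (hη' : (L + 3) * Real.sqrt η ≤ δ)
    (hR : 2 ≤ Rm) (hgb : g ∉ blockBad β tapKern Rm ε₀ Kc G W n) (hs : 0 < s) (hW : 0 < W) (hGW : G ≤ W)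
    (x : Cfg n) :
    blockAvg (att n W) (fun v => qmean (cpl β g) 0 v x) ≤ 2 * q₀ + 2 * η +
      (ε₀ + max Kc 0 * (defect (cpl β g) 0 (att n G) (att n W) x / (2 * s) + s / 2) +
        8 * Real.sqrt ((Real.log 2 + L) / W) + 8 * (L ^ 2 + 1) / Rm ^ 2) / η := by
  set J := cpl β g with hJ
  have hn' : (0 : ℝ) < n := Nat.cast_pos.2 hn
  have hWn : 0 < att n W := att_pos hn hW
  set D := defect J 0 (att n G) (att n W) x
  have hD : 0 ≤ D := defect_nonneg hn (att_mono n hGW) x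
  have hfe : blockAvg (att n W) (fun v => |fieldErr β J 0 tapKern (tapPar β g Rm x v) v x|) ≤
      (ε₀ + max Kc 0 * (D / (2 * s) + s / 2)) * n := by
    have h := le_of_not_gt fun hlt => hgb ⟨x, tapPar β g Rm x, tapPar_le h0 h1 hR x, hlt⟩
    refine h.trans (mul_le_mul_of_nonneg_right (add_le_add le_rfl ?_) hn'.le)
    exact (mul_le_mul_of_nonneg_right (le_max_left _ _) (Real.sqrt_nonneg _)).trans
      (mul_le_mul_of_nonneg_left (sqrt_le_lin hD hs) (le_max_right _ _))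
  have hsp : blockAvg (att n W)
      (fun v => |Kpow J 0 v (fun y => ∑ i, tapPar β g Rm x v i 2 * (spin (y i) - mag J 0 i y)) x|) ≤
      8 * Real.sqrt ((Real.log 2 + L) / W) * n := by
    refine (spin_mag_block (cpl_symm β g) (cpl_diag β g) hop hn (fun _ => rfl) hWn x
      (fun v i _ => tapPar β g Rm x v i 2) (fun _ _ _ _ => rfl) (A := 2 * Real.sqrt n) (by positivity)
      (fun v y => ?_)).trans ?_
    · rw [mul_pow, Real.sq_sqrt hn'.le]
      refine (Finset.sum_le_card_nsmul _ _ (4 : ℝ) fun i _ => ?_).trans_eq (by simp; ring)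
      obtain ⟨-, hw⟩ := par_facts (g := g) h0 h1 v x i
      unfold tapPar
      split_ifs
      · simp only [Matrix.cons_val]
        rw [← sq_abs, show (4 : ℝ) = 2 ^ 2 by norm_num]
        exact pow_le_pow_left₀ (abs_nonneg _) hw 2
      · simp
    · have h := sqrt_ratio (n := n) (L := L) hn hW (att_ge n W) hL
      calc 4 * (2 * Real.sqrt n) * (n * Real.sqrt ((Real.log 2 + L) / (att n W)))
          = 8 * n * (Real.sqrt ((Real.log 2 + L) / (att n W)) * Real.sqrt n) := by ring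
        _ ≤ 8 * n * Real.sqrt ((Real.log 2 + L) / W) := mul_le_mul_of_nonneg_left h (by positivity)
        _ = _ := by ring
  have hp : ∀ v, qmean J 0 v x ≤ 2 * q₀ + 2 * η + (η * n)⁻¹ *
      (|fieldErr β J 0 tapKern (tapPar β g Rm x v) v x| +
        |Kpow J 0 v (fun y => ∑ i, tapPar β g Rm x v i 2 * (spin (y i) - mag J 0 i y)) x| +
        8 * (L ^ 2 + 1) / Rm ^ 2 * n) := fun v => by
    refine (tap_step h0 h1 hn hL hop hgt hη hη' v x).trans (add_le_add le_rfl ?_)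
    rw [div_eq_inv_mul]
    exact mul_le_mul_of_nonneg_left (tap_defect h0 h1 hn hL hop hR v x) (by positivity)
  refine (blockAvg_mono fun v _ _ => hp v).trans ?_
  rw [blockAvg_add, blockAvg_const hWn, blockAvg_mul, blockAvg_add, blockAvg_add, blockAvg_const hWn]
  refine add_le_add le_rfl ?_
  refine (mul_le_mul_of_nonneg_left (add_le_add (add_le_add hfe hsp) le_rfl) (by positivity)).trans (le_of_eq ?_)
  field_simp

lemma energy_point (h0 : 0 ≤ β) (h1 : β < 1) (hn : 0 < n) (hop : Op (cpl β g) 3) {C r : ℝ}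
    (hCd : C = Real.sqrt (2 * ((3 : ℝ) ^ 2 + 1))) (hr : 0 < r) (v : ℕ) (y : Cfg n) :
    β ^ 2 * n - (n * (1 + C / (2 * r))) * qmean (cpl β g) 0 v y - C * r / 2 * n -
      |fieldErr β (cpl β g) 0 enKern (fun _ _ => 0) v y| -
      |Kpow (cpl β g) 0 v (fun z => ∑ i, fld (cpl β g) 0 i z * (spin (z i) - mag (cpl β g) 0 i z)) y| ≤
      2 * Kpow (cpl β g) 0 v (qE (cpl β g) 0) y := by
  set J := cpl β g with hJ
  have hn' : (0 : ℝ) < n := Nat.cast_pos.2 hn
  have hb2 : β ^ 2 ≤ 1 := by nlinarith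
  have hC : 0 < C := hCd ▸ Real.sqrt_pos.2 (by norm_num)
  set q := qmean J 0 v y with hq
  have hqm : 0 ≤ q ∧ q ≤ 1 := qmean_mem v y
  set o := onsager β J 0 v y with ho
  set a := cav β J 0 v y with ha
  have e1 : fieldErr β J 0 enKern (fun _ _ => 0) v y =
      Kpow J 0 v (fun z => ∑ i, fld J 0 i z * mag J 0 i z) y - (∑ i, a i * Kpow J 0 v (mag J 0 i) y) - o * n := by
    rw [fieldErr]
    have ep : ∀ z, (∑ i, (enKern.fn (fun _ => 0) (fld J 0 i z) * (fld J 0 i z - a i - o * Real.tanh (fld J 0 i z))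
        - o * enKern.dfn (fun _ => 0) (fld J 0 i z))) =
        (∑ i, fld J 0 i z * mag J 0 i z) - (∑ i, a i * mag J 0 i z) - o * n := by
      intro z
      rw [show o * (n : ℝ) = ∑ _i : Fin n, o by simp; ring, ← Finset.sum_sub_distrib, ← Finset.sum_sub_distrib]
      exact Finset.sum_congr rfl fun i _ => by simp only [enKern, mag]; ring
    simp only [← ha, ← ho, ep, Kpow_sub hn, Kpow_const hn, Kpow_sum hn, Kpow_mul hn]
  have e2 : 2 * Kpow J 0 v (qE J 0) y = Kpow J 0 v (fun z => ∑ i, fld J 0 i z * (spin (z i) - mag J 0 i z)) y +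
      Kpow J 0 v (fun z => ∑ i, fld J 0 i z * mag J 0 i z) y := by
    rw [← Kpow_add hn, ← Kpow_mul hn]
    congr 1
    funext z
    rw [← Finset.sum_add_distrib]
    simp only [qE, fld, Pi.zero_apply, zero_mul, Finset.sum_const_zero, add_zero, Finset.sum_mul]
    rw [mul_div_cancel₀ _ (two_ne_zero' ℝ)]
    refine Finset.sum_congr rfl fun i _ => ?_
    rw [← Finset.sum_add_distrib]
    exact Finset.sum_congr rfl fun j _ => by ring
  have hcross : |∑ i, a i * Kpow J 0 v (mag J 0 i) y| ≤ C * (q / (2 * r) + r / 2) * n := by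
    have h6 := cav_sq h0 h1 (by norm_num : (0:ℝ) < 3) hop v y
    rw [← ha, ← hq] at h6
    have h7 : ∑ i, Kpow J 0 v (mag J 0 i) y ^ 2 ≤ n := by
      refine (Finset.sum_le_card_nsmul _ _ 1 fun i _ => ?_).trans_eq (by simp)
      exact (sq_le_one_iff_abs_le_one _).2 (Kpow_abs_le hn v (fun z => (tanh_abs_lt _).le) y)
    have h8 : Real.sqrt ((∑ i, a i ^ 2) * ∑ i, Kpow J 0 v (mag J 0 i) y ^ 2) ≤ C * Real.sqrt q * n := by
      calc Real.sqrt ((∑ i, a i ^ 2) * ∑ i, Kpow J 0 v (mag J 0 i) y ^ 2)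
          ≤ Real.sqrt (2 * ((3:ℝ) ^ 2 + 1) * q * (n : ℝ) ^ 2) := Real.sqrt_le_sqrt
            ((mul_le_mul h6 h7 (Finset.sum_nonneg fun i _ => sq_nonneg _)
              (mul_nonneg (by norm_num) (mul_nonneg hqm.1 hn'.le))).trans_eq (by ring))
        _ = C * Real.sqrt q * n := by
          rw [Real.sqrt_mul (mul_nonneg (by norm_num) hqm.1), Real.sqrt_mul (by norm_num), Real.sqrt_sq hn'.le, ← hCd]
    refine (le_trans ?_ h8).trans (mul_le_mul_of_nonneg_right
      (mul_le_mul_of_nonneg_left (sqrt_le_lin hqm.1 hr) hC.le) hn'.le)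
    rw [← Real.sqrt_sq_eq_abs]
    exact Real.sqrt_le_sqrt (Finset.sum_mul_sq_le_sq_mul_sq _ _ _)
  have hf := neg_abs_le (fieldErr β J 0 enKern (fun _ _ => 0) v y)
  have hsp := neg_abs_le (Kpow J 0 v (fun z => ∑ i, fld J 0 i z * (spin (z i) - mag J 0 i z)) y)
  have ho' : o = β ^ 2 * (1 - q) := rfl
  have hq2 : β ^ 2 * q * n ≤ q * n :=
    mul_le_mul_of_nonneg_right (mul_le_of_le_one_left hqm.1 hb2) hn'.le
  have hexp : C * (q / (2 * r) + r / 2) * n = n * (C / (2 * r)) * q + C * r / 2 * n := by ring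
  rw [e2]
  rw [ho'] at e1
  linarith [(abs_le.1 hcross).1]

lemma energy_block (hn : 0 < n) (hop : Op (cpl β g) 3) {ε₀ Kc s G W : ℝ}
    (hgb : g ∉ blockBad β enKern 0 ε₀ Kc G W n) (hs : 0 < s) (hW : 0 < W) (hGW : G ≤ W) (y : Cfg n) :
    blockAvg (att n W) (fun v => |fieldErr β (cpl β g) 0 enKern (fun _ _ => 0) v y|) +
      blockAvg (att n W) (fun v =>
        |Kpow (cpl β g) 0 v (fun z => ∑ i, fld (cpl β g) 0 i z * (spin (z i) - mag (cpl β g) 0 i z)) y|) ≤
      (ε₀ + max Kc 0 * (s / 2) + 12 * Real.sqrt ((Real.log 2 + 3) / W)) * n +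
        (n * (max Kc 0 / (2 * s))) * defect (cpl β g) 0 (att n G) (att n W) y := by
  set J := cpl β g with hJ
  have hn' : (0 : ℝ) < n := Nat.cast_pos.2 hn
  have hWn : 0 < att n W := att_pos hn hW
  have hD : 0 ≤ defect J 0 (att n G) (att n W) y := defect_nonneg hn (att_mono n hGW) y
  have h := le_of_not_gt fun hlt => hgb ⟨y, fun _ _ _ => (0 : ℝ), by simp, hlt⟩
  have hP' : blockAvg (att n W) (fun v => |fieldErr β J 0 enKern (fun _ _ => 0) v y|) ≤
      (ε₀ + max Kc 0 * (defect J 0 (att n G) (att n W) y / (2 * s) + s / 2)) * n := by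
    refine h.trans (mul_le_mul_of_nonneg_right (add_le_add le_rfl ?_) hn'.le)
    exact (mul_le_mul_of_nonneg_right (le_max_left _ _) (Real.sqrt_nonneg _)).trans
      (mul_le_mul_of_nonneg_left (sqrt_le_lin hD hs) (le_max_right _ _))
  have hS' : blockAvg (att n W)
      (fun v => |Kpow J 0 v (fun z => ∑ i, fld J 0 i z * (spin (z i) - mag J 0 i z)) y|) ≤
      12 * Real.sqrt ((Real.log 2 + 3) / W) * n := by
    refine (spin_mag_block (cpl_symm β g) (cpl_diag β g) hop hn (fun _ => rfl) hWn y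
      (fun _ i z => fld J 0 i z) (fun _ i z c => fld_update_self 0 (cpl_diag β g) i z c)
      (A := 3 * Real.sqrt n) (by positivity) (fun v z => ?_)).trans ?_
    · rw [mul_pow, Real.sq_sqrt hn'.le]
      have h9 := op_vec (cpl_symm β g) (by norm_num : (0:ℝ) < 3) hop (fun j => spin (z j))
      simpa [fld, sq, spin_mul_self] using h9
    · have h := sqrt_ratio (n := n) (L := (3 : ℝ)) hn (by linarith : (0:ℝ) < W) (att_ge n W) (by norm_num)
      calc 4 * (3 * Real.sqrt n) * (n * Real.sqrt ((Real.log 2 + 3) / (att n W)))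
          = 12 * n * (Real.sqrt ((Real.log 2 + 3) / (att n W)) * Real.sqrt n) := by ring
        _ ≤ 12 * n * Real.sqrt ((Real.log 2 + 3) / W) := mul_le_mul_of_nonneg_left h (by positivity)
        _ = _ := by ring
  have e : (ε₀ + max Kc 0 * (defect J 0 (att n G) (att n W) y / (2 * s) + s / 2)) * n =
      (ε₀ + max Kc 0 * (s / 2)) * n + (n * (max Kc 0 / (2 * s))) * defect J 0 (att n G) (att n W) y := by
    ring
  linarith

end step

/-- after a restart, the averaged defect of a block is at most the drop of the lagged overlap -/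
lemma restart_defect {J : Fin n → Fin n → ℝ} {b : Fin n → ℝ} (hn : 0 < n) {T W g₀ g₁ : ℕ} (hW : 0 < W)
    (h0 : g₀ ≤ W) (h1 : 2 * W ≤ g₁) (h2 : g₁ ≤ T) (x : Cfg n) :
    blockAvg T (fun u => Kpow J b u (fun y => defect J b g₀ W y) x) ≤
      (blockAvg T (fun w => qlag J b w g₀ x) - blockAvg T (fun w => qlag J b w g₁ x)) + 8 * W / T := by
  have e : ∀ u, Kpow J b u (fun y => defect J b g₀ W y) x =
      blockAvg W (fun v => Kpow J b u (qlag J b v g₀) x - Kpow J b u (qmean J b v) x) := fun u => by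
    simp only [defect, Kpow_blockAvg hn, Kpow_sub hn]
  simp only [e]
  rw [blockAvg_comm]
  refine (blockAvg_mono (g := fun _ =>
    (blockAvg T (fun w => qlag J b w g₀ x) - blockAvg T (fun w => qlag J b w g₁ x)) + 8 * W / T)
    fun v hv hv' => ?_).trans_eq (blockAvg_const hW _)
  rw [blockAvg_sub]
  have a1 := restart_qlag_le (J := J) (b := b) hn (T := T) (h0.trans hv) x
  have a2 := restart_qmean_ge (J := J) (b := b) hn (T := T) (v := v) (show v ≤ g₁ by omega) h2 x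
  have hv2 : (v : ℝ) ≤ 2 * W := by exact_mod_cast hv'.le
  have h3 : 2 * (v : ℝ) / T ≤ 4 * W / T := div_le_div_of_nonneg_right (by linarith) (Nat.cast_nonneg T)
  have h4 : (8 : ℝ) * W / T = 2 * (4 * W / T) := by ring
  linarith

/-- after a restart, the averaged overlap of a block is at least the lagged overlap -/
lemma restart_block_ge {J : Fin n → Fin n → ℝ} {b : Fin n → ℝ} (hn : 0 < n) {T W g₁ : ℕ} (hW : 0 < W)
    (h1 : 2 * W ≤ g₁) (h2 : g₁ ≤ T) (x : Cfg n) :
    blockAvg T (fun w => qlag J b w g₁ x) - 4 * W / T ≤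
      blockAvg T (fun u => Kpow J b u (fun y => blockAvg W fun v => qmean J b v y) x) := by
  simp only [Kpow_blockAvg hn]
  rw [blockAvg_comm]
  refine (blockAvg_const hW _).symm.trans_le (blockAvg_mono fun v hv hv' => ?_)
  have a2 := restart_qmean_ge (J := J) (b := b) hn (T := T) (v := v) (show v ≤ g₁ by omega) h2 x
  have hv2 : (v : ℝ) ≤ 2 * W := by exact_mod_cast hv'.le
  have h3 : 2 * (v : ℝ) / T ≤ 4 * W / T := div_le_div_of_nonneg_right (by linarith) (Nat.cast_nonneg T)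
  linarith

/-- the scales -/
noncomputable def scale (G₀ : ℝ) (Wf : ℝ → ℝ) : ℕ → ℝ
  | 0 => G₀
  | k + 1 => 3 * Wf (scale G₀ Wf k)

/-- the numerical end of the overlap step -/
lemma final_small {ε η e₁ K' s C Q₁ D r r' ρ A : ℝ} (hη : 0 < η) (hs : 0 < s) (hK : 0 ≤ K')
    (he : e₁ = η * ε / 8) (hηε : η ≤ ε / 16) (hKs : K' * s ≤ e₁) (hC : C ≤ 2 * e₁)
    (hav : A ≤ (2 * (ε / 16) + 2 * η + (e₁ + K' * (s / 2) + C) / η) + (K' / (2 * s * η)) * D)
    (hge : Q₁ - r' ≤ A) {Q₀ : ℝ} (hD : D ≤ (Q₀ - Q₁) + r) (hd : Q₀ - Q₁ ≤ s ^ 2 / 2) (hr : r = 2 * r')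
    (hρ : r ≤ 16 * ρ) (f1 : 32 * ρ ≤ s ^ 2) (f2 : 32 * ρ ≤ ε) :
    Q₁ ≤ ε := by
  have hDs : D ≤ s ^ 2 := by linarith
  have hKD : K' / (2 * s * η) * D ≤ K' * s / (2 * η) :=
    (mul_le_mul_of_nonneg_left hDs (by positivity)).trans_eq (by field_simp)
  have e : (e₁ + K' * (s / 2) + C) / η + K' * s / (2 * η) = (e₁ + K' * s + C) / η := by field_simp; ring
  have htot : (e₁ + K' * s + C) / η ≤ ε / 2 := by rw [div_le_iff₀ hη]; linarith
  linarith

/-- the numerical end of the energy step -/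
lemma final_energy {m b ε e₁ X Ks A₁ A₂ B E ρ : ℝ} (hm : 0 ≤ m) (hε : 0 ≤ ε) (he : e₁ = ε / 8)
    (hX : X ≤ e₁) (hKs : 2 * Ks ≤ e₁) (f : 64 * ρ ≤ ε) (t1 : A₁ ≤ e₁ * m) (t2 : A₂ ≤ Ks * m)
    (hav : b * m - e₁ / 2 * m - (e₁ + Ks + X) * m - A₁ - A₂ ≤ 2 * B) (hup : B ≤ E + 12 * ρ * m) :
    (b / 2 - ε) * m ≤ E := by
  subst he
  have m1 := mul_le_mul_of_nonneg_right hX hm
  have m2 := mul_le_mul_of_nonneg_right hKs hm
  have m3 := mul_le_mul_of_nonneg_right f hm
  have m4 := mul_nonneg hε hm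
  linarith

lemma frac_le {M q τ T : ℝ} (hT : 0 < T) (hq : 0 < q) (h : τ * (M / q) ≤ T) : M * (τ / T) ≤ q := by
  rw [← mul_div_assoc, div_le_iff₀ hT]
  have e : q * (τ * (M / q)) = M * τ := by field_simp
  linarith [mul_le_mul_of_nonneg_left h hq.le]

lemma sqrt_le_of_scale {c e W a : ℝ} (he : 0 < e) (ha : 0 < a) (hW : 0 < W) (h : a ^ 2 * c / e ^ 2 ≤ W) :
    a * Real.sqrt (c / W) ≤ e := by
  have h1 : c / W ≤ (e / a) ^ 2 := by
    rw [div_le_iff₀ (pow_pos he 2)] at h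
    rw [div_pow, div_le_div_iff₀ hW (pow_pos ha 2)]
    linarith
  have h2 := Real.sqrt_le_sqrt h1
  rw [Real.sqrt_sq (div_nonneg he.le ha.le), le_div_iff₀ ha] at h2
  linarith

lemma slack {e K : ℝ} (he : 0 ≤ e) (hK : 0 ≤ K) : K * (e / (K + 1)) ≤ e := by
  rw [← mul_div_assoc, div_le_iff₀ (by linarith)]
  linarith

/-- among `K` scales one has a drop at most `1 / K` -/
lemma exists_flat {K : ℕ} (hK : 0 < K) (Q : ℕ → ℝ) (h : ∀ k, 0 ≤ Q k ∧ Q k ≤ 1) :
    ∃ k < K, Q k - Q (k + 1) ≤ 1 / K := by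
  obtain ⟨k, hk, hle⟩ := Finset.exists_le_of_sum_le (s := Finset.range K) (f := fun k => Q k - Q (k + 1))
    (g := fun _ => 1 / (K : ℝ)) (Finset.nonempty_range_iff.2 hK.ne') (by
      rw [Finset.sum_range_sub' Q K, Finset.sum_const, Finset.card_range, nsmul_eq_mul,
        mul_one_div_cancel (Nat.cast_ne_zero.2 hK.ne')]
      linarith [(h 0).2, (h K).1])
  exact ⟨k, Finset.mem_range.1 hk, hle⟩

lemma lag_mem {J : Fin n → Fin n → ℝ} {b : Fin n → ℝ} (hn : 0 < n) {T : ℕ} (hT : 0 < T) (τ : ℕ) (x : Cfg n) :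
    0 ≤ blockAvg T (fun w => qlag J b w τ x) ∧ blockAvg T (fun w => qlag J b w τ x) ≤ 1 :=
  ⟨(blockAvg_const hT (0:ℝ)).symm.trans_le (blockAvg_mono fun _ _ _ => qlag_nonneg hn _ _ x),
    (blockAvg_mono fun _ _ _ => (abs_le.1 (abs_qlag_le hn _ _ x)).2).trans_eq (blockAvg_const hT 1)⟩

section det

variable {β : ℝ} {g : Edge n → ℝ}

/-- away from the bad sets a flat scale gives a small overlap at that lag -/
lemma small_det (h0 : 0 ≤ β) (h1 : β < 1) (hn : 2 ≤ n) (hop : Op (cpl β g) 3) {ε δ η e₁ Rm Kc s G W τ T : ℝ}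
    (hgt : g ∉ tapBad β (ε / 16) δ n) (hgb : g ∉ blockBad β tapKern Rm e₁ Kc G W n) (hη : 0 < η)
    (hηε : η ≤ ε / 16) (hη' : ((3 : ℝ) + 3) * Real.sqrt η ≤ δ) (hR : 2 ≤ Rm) (hs : 0 < s)
    (he : e₁ = η * ε / 8) (hKs : max Kc 0 * s ≤ e₁)
    (hC : 8 * Real.sqrt ((Real.log 2 + 3) / W) + 8 * ((3 : ℝ) ^ 2 + 1) / Rm ^ 2 ≤ 2 * e₁)
    (hW1 : 1 ≤ W) (hGW : G ≤ W) (hWτ : 3 * W ≤ τ) (hτT : τ ≤ T)
    (f1 : 32 * (τ / T) ≤ s ^ 2) (f2 : 32 * (τ / T) ≤ ε) (x : Cfg n)
    (hdrop : blockAvg (att n T) (fun w => qlag (cpl β g) 0 w (att n G) x) -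
      blockAvg (att n T) (fun w => qlag (cpl β g) 0 w (att n (3 * W)) x) ≤ s ^ 2 / 2) :
    blockAvg (att n T) (fun w => qlag (cpl β g) 0 w (att n τ) x) ≤ ε := by
  have hnp : 0 < n := by omega
  have hT0 : 0 < T := by linarith
  have hWn : 0 < att n W := att_pos hnp (by linarith)
  have hTp : 0 < att n T := att_pos hnp hT0
  have h1T : att n (3 * W) ≤ att n T := att_mono n (hWτ.trans hτT)
  have hρ : 8 * (att n W : ℝ) / att n T ≤ 16 * (τ / T) := by
    rw [mul_div_assoc, show 16 * (τ / T) = 8 * (2 * τ / T) by ring]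
    exact mul_le_mul_of_nonneg_left
      ((att_ratio hn hW1 hT0).trans (div_le_div_of_nonneg_right (by linarith) hT0.le)) (by norm_num)
  refine le_trans (blockAvg_mono fun w hw _ =>
    qlag_anti hnp (att_mono n hWτ) ((att_mono n hτT).trans hw) x) ?_
  have hav : blockAvg (att n T)
        (fun u => Kpow (cpl β g) 0 u (fun y => blockAvg (att n W) fun v => qmean (cpl β g) 0 v y) x) ≤
      (2 * (ε / 16) + 2 * η + (e₁ + max Kc 0 * (s / 2) +
        (8 * Real.sqrt ((Real.log 2 + 3) / W) + 8 * ((3 : ℝ) ^ 2 + 1) / Rm ^ 2)) / η) +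
        (max Kc 0 / (2 * s * η)) * blockAvg (att n T)
          (fun u => Kpow (cpl β g) 0 u (fun y => defect (cpl β g) 0 (att n G) (att n W) y) x) := by
    have hbl : ∀ y, blockAvg (att n W) (fun v => qmean (cpl β g) 0 v y) ≤
        (2 * (ε / 16) + 2 * η + (e₁ + max Kc 0 * (s / 2) +
          (8 * Real.sqrt ((Real.log 2 + 3) / W) + 8 * ((3 : ℝ) ^ 2 + 1) / Rm ^ 2)) / η) +
          (max Kc 0 / (2 * s * η)) * defect (cpl β g) 0 (att n G) (att n W) y := fun y =>
      (block_small h0 h1 hnp (by norm_num : (0:ℝ) < 3) hop hgt hη hη' hR hgb hs (by linarith) hGW y).trans_eq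
        (by field_simp; ring)
    refine (blockAvg_mono fun u _ _ => Kpow_mono hnp u hbl x).trans (le_of_eq ?_)
    simp only [Kpow_add hnp, Kpow_const hnp, Kpow_mul hnp, blockAvg_add, blockAvg_const hTp, blockAvg_mul]
  exact final_small hη hs (le_max_right _ _) he hηε hKs hC hav
    (restart_block_ge hnp hWn (att_double hn hW1) h1T x)
    (restart_defect hnp hWn (att_mono n hGW) (att_double hn hW1) h1T x) hdrop (by ring) hρ f1 f2

/-- after a restart a small lagged overlap makes a block small and flat -/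
lemma restarted_small {J : Fin n → Fin n → ℝ} {b : Fin n → ℝ} (hn : 0 < n) {T W g₀ τ : ℕ} (hT : 0 < T)
    (hW : 0 < W) (h0 : τ ≤ g₀) (h1 : g₀ ≤ W) (h2 : W ≤ T) {δ : ℝ} (x : Cfg n)
    (hQ : blockAvg T (fun w => qlag J b w τ x) ≤ δ / 2) (hr : 4 * ((W : ℝ) / T) ≤ δ / 2) :
    blockAvg T (fun u => Kpow J b u (fun y => blockAvg W fun v => qmean J b v y) x) ≤ δ ∧
      blockAvg T (fun u => Kpow J b u (fun y => defect J b g₀ W y) x) ≤ δ := by
  have hshift : ∀ v, v < 2 * W → 2 * (v : ℝ) / T ≤ δ / 2 := fun v hv => by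
    refine le_trans ?_ hr
    rw [← mul_div_assoc]
    exact div_le_div_of_nonneg_right (by linarith [show (v : ℝ) ≤ 2 * W by exact_mod_cast hv.le])
      (Nat.cast_nonneg _)
  constructor
  · simp only [Kpow_blockAvg hn]
    rw [blockAvg_comm]
    refine (blockAvg_mono fun v hv hv' => ?_).trans_eq (blockAvg_const hW δ)
    linarith [restart_qmean_le (J := J) (b := b) hn (T := T) ((h0.trans h1).trans hv) x, hshift v hv']
  · simp only [defect, Kpow_blockAvg hn, Kpow_sub hn]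
    rw [blockAvg_comm]
    refine (blockAvg_mono fun v hv hv' => ?_).trans_eq (blockAvg_const hW δ)
    rw [blockAvg_sub]
    have hnn : 0 ≤ blockAvg T (fun u => Kpow J b u (qmean J b v) x) :=
      (blockAvg_const hT (0:ℝ)).symm.trans_le (blockAvg_mono fun u _ _ =>
        (Kpow_const (J := J) (b := b) hn u 0 x).symm.trans_le (Kpow_mono hn u (fun z => (qmean_mem v z).1) x))
    have h3 : blockAvg T (fun w => qlag J b w g₀ x) ≤ blockAvg T (fun w => qlag J b w τ x) :=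
      blockAvg_mono fun w hw _ => qlag_anti hn h0 ((h1.trans h2).trans hw) x
    linarith [restart_qlag_le (J := J) (b := b) hn (T := T) (h1.trans hv) x, hshift v hv']

lemma qE_abs (hop : Op (cpl β g) 3) (z : Cfg n) : |qE (cpl β g) 0 z| ≤ 3 * n / 2 := by
  have h := hop fun i => spin (z i)
  simp only [sq, spin_mul_self, Finset.sum_const, Finset.card_univ, Fintype.card_fin, nsmul_eq_mul, mul_one] at h
  simp only [qE, Pi.zero_apply, zero_mul, Finset.sum_const_zero, add_zero]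
  rw [abs_div, abs_two]
  exact div_le_div_of_nonneg_right h two_pos.le

lemma restart_qE (hn : 0 < n) (hop : Op (cpl β g) 3) {T W : ℕ} (hW : 0 < W) {ρ : ℝ}
    (hρ : (W : ℝ) / T ≤ 2 * ρ) (x : Cfg n) :
    blockAvg T (fun u => Kpow (cpl β g) 0 u
      (fun y => blockAvg W fun v => Kpow (cpl β g) 0 v (qE (cpl β g) 0) y) x) ≤
      blockAvg T (fun w => Kpow (cpl β g) 0 w (qE (cpl β g) 0) x) + 12 * ρ * n := by
  simp only [Kpow_blockAvg hn]
  rw [blockAvg_comm]
  refine (blockAvg_mono fun v hv hv' => ?_).trans_eq (blockAvg_const hW _)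
  have hsh := (abs_le.1 (shift T (fun w => Kpow (cpl β g) 0 w (qE (cpl β g) 0) x)
    (fun w => Kpow_abs_le hn w (qE_abs hop) x) v)).2
  have e : ∀ u, Kpow (cpl β g) 0 u (fun y => Kpow (cpl β g) 0 v (qE (cpl β g) 0) y) x =
      Kpow (cpl β g) 0 (u + v) (qE (cpl β g) 0) x := fun u =>
    (congrFun (Kpow_comp u v (qE (cpl β g) 0)) x).symm
  simp only [e]
  have hv2 : (v : ℝ) / T ≤ 4 * ρ := by
    have h := div_le_div_of_nonneg_right (show (v : ℝ) ≤ 2 * W by exact_mod_cast hv'.le)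
      (Nat.cast_nonneg (α := ℝ) T)
    rw [mul_div_assoc] at h
    linarith
  have h5 := mul_le_mul_of_nonneg_left hv2 (show (0:ℝ) ≤ 3 * n by positivity)
  have e4 : 2 * (3 * (n : ℝ) / 2) * v / T = 3 * n * ((v : ℝ) / T) := by ring
  linarith

/-- away from the bad sets the energy is at its limit -/
lemma energy_det (h0 : 0 ≤ β) (h1 : β < 1) (hn : 2 ≤ n) (hop : Op (cpl β g) 3)
    {ε e₁ C r δ Kc s τ G W T : ℝ} (hgb : g ∉ blockBad β enKern 0 e₁ Kc G W n) (hε : 0 < ε)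
    (he : e₁ = ε / 8) (hCd : C = Real.sqrt (2 * ((3 : ℝ) ^ 2 + 1))) (hr : 0 < r) (hrd : C * r = e₁)
    (hs : 0 < s) (hKs : max Kc 0 * s ≤ e₁) (hδ : (1 + C / (2 * r)) * δ ≤ e₁) (hδs : δ ≤ s ^ 2)
    (hX : 12 * Real.sqrt ((Real.log 2 + 3) / W) ≤ e₁) (hτG : τ ≤ G) (hW1 : 1 ≤ W) (hGW : G ≤ W)
    (hWT : W ≤ T) (f1 : 64 * (W / T) ≤ δ) (f2 : 64 * (W / T) ≤ ε) (x : Cfg n)
    (hQ : blockAvg (att n T) (fun v => qlag (cpl β g) 0 v (att n τ) x) ≤ δ / 2) :
    (β ^ 2 / 2 - ε) * n ≤ blockAvg (att n T) (fun v => Kpow (cpl β g) 0 v (qE (cpl β g) 0) x) := by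
  have hnp : 0 < n := by omega
  have hn' : (0 : ℝ) < n := Nat.cast_pos.2 hnp
  have hT0 : 0 < T := by linarith
  have hTp : 0 < att n T := att_pos hnp hT0
  have hWn : 0 < att n W := att_pos hnp (by linarith)
  have hrat : (att n W : ℝ) / att n T ≤ 2 * (W / T) := (att_ratio hn hW1 hT0).trans_eq (by ring)
  have hwt : 0 ≤ W / T := div_nonneg (by linarith) hT0.le
  obtain ⟨hB1, hB2⟩ := restarted_small hnp hTp hWn (att_mono n hτG) (att_mono n hGW) (att_mono n hWT) x hQ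
    (by linarith)
  have hlow : ∀ y, (β ^ 2 * n - C * r / 2 * n -
        (e₁ + max Kc 0 * (s / 2) + 12 * Real.sqrt ((Real.log 2 + 3) / W)) * n) -
      (n * (1 + C / (2 * r))) * blockAvg (att n W) (fun v => qmean (cpl β g) 0 v y) -
      (n * (max Kc 0 / (2 * s))) * defect (cpl β g) 0 (att n G) (att n W) y ≤
      2 * blockAvg (att n W) (fun v => Kpow (cpl β g) 0 v (qE (cpl β g) 0) y) := by
    intro y
    have h := blockAvg_mono (W := att n W) fun v _ _ => energy_point h0 h1 hnp hop hCd hr v y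
    simp only [blockAvg_sub, blockAvg_mul, blockAvg_const hWn] at h
    linarith [energy_block hnp hop hgb hs (by linarith) hGW y]
  have hav := blockAvg_mono (W := att n T) fun u _ _ => Kpow_mono (J := cpl β g) (b := 0) hnp u hlow x
  simp only [Kpow_sub hnp, Kpow_const hnp, Kpow_mul hnp, blockAvg_sub, blockAvg_const hTp, blockAvg_mul] at hav
  rw [hrd] at hav
  have t1 := mul_le_mul_of_nonneg_left hB1
    (mul_nonneg hn'.le (show (0 : ℝ) ≤ 1 + C / (2 * r) by rw [hCd]; positivity))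
  have t1' := mul_le_mul_of_nonneg_left hδ hn'.le
  have t2 := mul_le_mul_of_nonneg_left (hB2.trans hδs)
    (mul_nonneg hn'.le (show (0 : ℝ) ≤ max Kc 0 / (2 * s) by positivity))
  have e2 : n * (max Kc 0 / (2 * s)) * s ^ 2 = max Kc 0 * (s / 2) * n := by field_simp
  exact final_energy hn'.le hε.le he hX (Ks := max Kc 0 * (s / 2)) (by linarith) f2 (t1.trans (by linarith))
    (t2.trans_eq e2) hav (restart_qE hnp hop hWn hrat x)

end det

end QS

/-- the mean magnetisation dies out -/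
theorem qSmall_of_block {β : ℝ} (h0 : 0 ≤ β) (h1 : β < 1) (hB : BlockIdentity β) : QSmall β := by
  intro ε hε
  obtain ⟨δ, hδ, htap⟩ := tapBad_whp h0 h1 (show 0 < ε / 16 by linarith)
  set η := min (ε / 16) ((δ / 6) ^ 2) with hηd
  have hη : 0 < η := lt_min (by linarith) (by positivity)
  have hη' : ((3 : ℝ) + 3) * Real.sqrt η ≤ δ := by
    calc ((3 : ℝ) + 3) * Real.sqrt η ≤ 6 * Real.sqrt ((δ / 6) ^ 2) :=
          mul_le_mul (by norm_num) (Real.sqrt_le_sqrt (min_le_right _ _)) (Real.sqrt_nonneg _) (by norm_num)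
      _ = δ := by rw [Real.sqrt_sq (by linarith)]; ring
  set e₁ := η * ε / 8 with he₁
  have he1 : 0 < e₁ := by positivity
  set Rm := 2 + 80 / e₁ with hRmd
  have hRm : 2 ≤ Rm := le_add_of_nonneg_right (by positivity)
  have hRe : 8 * ((3 : ℝ) ^ 2 + 1) / Rm ^ 2 ≤ e₁ := by
    have h3 : e₁ * Rm = 2 * e₁ + 80 := by rw [hRmd]; field_simp
    have h4 := mul_le_mul_of_nonneg_left hRm (show 0 ≤ e₁ * Rm by positivity)
    rw [div_le_iff₀ (by positivity)]
    linarith
  obtain ⟨Kc, G₀, hblk⟩ := block_zero hB tapKern Rm he1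
  set s := e₁ / (max Kc 0 + 1) with hsd
  have hs : 0 < s := by positivity
  have hKs : max Kc 0 * s ≤ e₁ := slack he1.le (le_max_right _ _)
  set Gs := max (max G₀ 1) ((8 : ℝ) ^ 2 * (Real.log 2 + 3) / e₁ ^ 2) with hGs
  have hex : ∀ G : ℝ, ∃ W : ℝ, Gs ≤ G → G ≤ W ∧
      Tendsto (fun n : ℕ => (disorder n).real (blockBad β tapKern Rm e₁ Kc G W n)) atTop (𝓝 0) := fun G => by
    by_cases h : Gs ≤ G
    · obtain ⟨W, hW⟩ := hblk G ((le_max_left _ _).trans ((le_max_left _ _).trans h))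
      exact ⟨W, fun _ => hW⟩
    · exact ⟨0, fun h' => absurd h' h⟩
  choose Wf hWf using hex
  set Gk := scale Gs Wf with hGk
  have h1s : 1 ≤ Gs := (le_max_right _ _).trans (le_max_left _ _)
  have hgs : ∀ k, Gs ≤ Gk k := by
    intro k
    induction k with
    | zero => exact le_rfl
    | succ k ih =>
      show Gs ≤ 3 * Wf (Gk k)
      linarith [(hWf _ ih).1]
  have hW1 : ∀ k, Gk k ≤ Wf (Gk k) := fun k => (hWf _ (hgs k)).1
  have hmono : Monotone Gk := monotone_nat_of_le_succ fun k => by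
    show Gk k ≤ 3 * Wf (Gk k)
    linarith [hW1 k, hgs k]
  obtain ⟨K, hK, hKbig⟩ : ∃ K : ℕ, 0 < K ∧ 2 / s ^ 2 ≤ K :=
    ⟨⌈2 / s ^ 2⌉₊ + 1, Nat.succ_pos _, (Nat.le_ceil _).trans (by push_cast; linarith)⟩
  have hs2 : 1 / (K : ℝ) ≤ s ^ 2 / 2 :=
    (one_div_le_one_div_of_le (by positivity) hKbig).trans_eq (one_div_div _ _)
  set τ := Gk K with hτ
  have hτ1 : 1 ≤ τ := h1s.trans (hgs K)
  refine ⟨τ, τ * (32 / s ^ 2 + 32 / ε + 1), lt_of_lt_of_le one_pos hτ1, fun T hT => ?_⟩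
  have a1 : 0 ≤ τ * (32 / s ^ 2) := by positivity
  have a2 : 0 ≤ τ * (32 / ε) := by positivity
  have hτT : τ ≤ T := by linarith
  have f1 : 32 * (τ / T) ≤ s ^ 2 := frac_le (by linarith) (by positivity) (by linarith)
  have f2 : 32 * (τ / T) ≤ ε := frac_le (by linarith) hε (by linarith)
  have hbad : Tendsto (fun n : ℕ => (disorder n).real {g | ¬ Op (cpl β g) 3} +
      (disorder n).real (tapBad β (ε / 16) δ n) +
      ∑ k ∈ Finset.range K, (disorder n).real (blockBad β tapKern Rm e₁ Kc (Gk k) (Wf (Gk k)) n)) atTop (𝓝 0) := by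
    have h3 := tendsto_finsetSum (Finset.range K) (fun k _ => (hWf _ (hgs k)).2)
    simpa using ((op_whp h0 h1).add htap).add h3
  refine tendsto_of_tendsto_of_tendsto_of_le_of_le' tendsto_const_nhds hbad
    (Eventually.of_forall fun _ => measureReal_nonneg) ?_
  filter_upwards [eventually_ge_atTop 2] with n hn
  refine le_trans (measureReal_mono (s₂ := ({g | ¬ Op (cpl β g) 3} ∪ tapBad β (ε / 16) δ n) ∪
    ⋃ k ∈ Finset.range K, blockBad β tapKern Rm e₁ Kc (Gk k) (Wf (Gk k)) n) ?_ (measure_ne_top _ _))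
    ((measureReal_union_le _ _).trans (add_le_add (measureReal_union_le _ _) (measureReal_biUnion_finset_le _ _)))
  rintro g ⟨x, hx⟩
  by_contra hcon
  simp only [Set.mem_union, Set.mem_iUnion, not_or, not_exists, Set.mem_ofPred_eq, not_not] at hcon
  obtain ⟨⟨hop, hgt⟩, hgb⟩ := hcon
  obtain ⟨k, hkK, hdrop⟩ := exists_flat hK
    (fun k => blockAvg (att n T) fun w => qlag (cpl β g) 0 w (att n (Gk k)) x)
    (fun k => lag_mem (by omega) (att_pos (by omega) (by linarith)) _ x)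
  have hC : 8 * Real.sqrt ((Real.log 2 + 3) / Wf (Gk k)) ≤ e₁ :=
    sqrt_le_of_scale he1 (by norm_num) (by linarith [hW1 k, hgs k])
      ((le_max_right _ _).trans ((hgs k).trans (hW1 k)))
  exact hx.not_ge (small_det h0 h1 hn hop hgt (hgb k (Finset.mem_range.2 hkK)) hη (min_le_left _ _) hη' hRm hs
    he₁ hKs (by linarith) (by linarith [hW1 k, hgs k]) (hW1 k) (hmono (Nat.succ_le_of_lt hkK)) hτT f1 f2 x
    (hdrop.trans hs2))

/-- the energy takes its limit -/
theorem energy_of_block {β : ℝ} (h0 : 0 ≤ β) (h1 : β < 1) (hB : BlockIdentity β) : EnergyLimit β := by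
  intro ε hε
  set C := Real.sqrt (2 * ((3 : ℝ) ^ 2 + 1)) with hCd
  have hC : 0 < C := Real.sqrt_pos.2 (by norm_num)
  set e₁ := ε / 8 with he₁
  have he1 : 0 < e₁ := by linarith
  obtain ⟨Kc, G₀, hblk⟩ := block_zero hB enKern 0 he1
  set s := e₁ / (max Kc 0 + 1) with hsd
  have hs : 0 < s := by positivity
  set r := e₁ / C with hrd
  have hr : 0 < r := by positivity
  have hp : 0 < 1 + C / (2 * r) := by positivity
  set δ := min (s ^ 2) (e₁ / (1 + C / (2 * r))) with hδd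
  have hδ : 0 < δ := lt_min (by positivity) (by positivity)
  have hδe : (1 + C / (2 * r)) * δ ≤ e₁ :=
    (mul_le_mul_of_nonneg_left (min_le_right _ _) hp.le).trans_eq (mul_div_cancel₀ _ hp.ne')
  obtain ⟨τ, T₁, -, hQS⟩ := qSmall_of_block h0 h1 hB (δ / 2) (by linarith)
  set G := max (max G₀ 1) (max τ ((12 : ℝ) ^ 2 * (Real.log 2 + 3) / e₁ ^ 2)) with hGd
  obtain ⟨W, hGW, hlimW⟩ := hblk G ((le_max_left _ _).trans (le_max_left _ _))
  have hW1 : 1 ≤ W := ((le_max_right _ _).trans (le_max_left _ _)).trans hGW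
  have hX : 12 * Real.sqrt ((Real.log 2 + 3) / W) ≤ e₁ := sqrt_le_of_scale he1 (by norm_num) (by linarith)
    (((le_max_right _ _).trans (le_max_right _ _)).trans hGW)
  refine ⟨max T₁ (W * (64 / δ + 64 / ε + 1)), fun T hT => ?_⟩
  have hTW : W * (64 / δ + 64 / ε + 1) ≤ T := (le_max_right _ _).trans hT
  have a1 : 0 ≤ W * (64 / δ) := by positivity
  have a2 : 0 ≤ W * (64 / ε) := by positivity
  have hWT : W ≤ T := by linarith
  have f1 : 64 * (W / T) ≤ δ := frac_le (by linarith) hδ (by linarith)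
  have f2 : 64 * (W / T) ≤ ε := frac_le (by linarith) hε (by linarith)
  have hbad : Tendsto (fun n : ℕ => (disorder n).real {g | ¬ Op (cpl β g) 3} +
      (disorder n).real (blockBad β enKern 0 e₁ Kc G W n) + (disorder n).real {g | ∃ x, δ / 2 <
        blockAvg (att n T) (fun v => qlag (cpl β g) 0 v (att n τ) x)}) atTop (𝓝 0) := by
    simpa using ((op_whp h0 h1).add hlimW).add (hQS T ((le_max_left _ _).trans hT))
  refine tendsto_of_tendsto_of_tendsto_of_le_of_le' tendsto_const_nhds hbad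
    (Eventually.of_forall fun _ => measureReal_nonneg) ?_
  filter_upwards [eventually_ge_atTop 2] with n hn
  refine le_trans (measureReal_mono (s₂ := ({g | ¬ Op (cpl β g) 3} ∪ blockBad β enKern 0 e₁ Kc G W n) ∪
    {g | ∃ x, δ / 2 < blockAvg (att n T) (fun v => qlag (cpl β g) 0 v (att n τ) x)}) ?_ (measure_ne_top _ _))
    ((measureReal_union_le _ _).trans (add_le_add (measureReal_union_le _ _) le_rfl))
  rintro g ⟨x, hx⟩
  by_contra hcon
  simp only [Set.mem_union, not_or, not_exists, not_lt, Set.mem_ofPred_eq, not_not] at hcon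
  obtain ⟨⟨hop, hgb⟩, hQ⟩ := hcon
  exact hx.not_ge (energy_det h0 h1 hn hop hgb hε he₁ hCd hr (mul_div_cancel₀ _ hC.ne') hs
    (slack he1.le (le_max_right _ _)) hδe (min_le_left _ _) hX ((le_max_left _ _).trans (le_max_right _ _))
    hW1 hGW hWT f1 f2 x (hQ x))

end Vale.Agent.P150.PA
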