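import Vale.Agent.P150.PA.BurnAssembly
import Vale.Agent.P150.PA.Bridge
import Vale.Agent.P150.PA.QSmall

/-! Part A assembled: burn-in of the flow from the block identity and the bound on posterior means. -/

namespace Vale.Agent.P150.PA

/-- burn-in from the block identity and the bound on the posterior means -/
theorem burnIn_of_mmse {β : ℝ} (h0 : 0 ≤ β) (h1 : β < 1) (hB : BlockIdentity β) (hM : MmseBound β) :
    High.BurnIn β :=
  burnIn_of_discrete h0 (discreteBurnIn_of h0 h1 (energy_of_block h0 h1 hB) hM)

end Vale.Agent.P150.PA
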