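import Vale.Agent.P150.PA.Tree

/-! Statements of the block identities of Part A: the identity for the local field on a block of times
after an arbitrary start, in the field of an arbitrary Gaussian observation of that start. -/

open MeasureTheory Filter
open scoped Topology

namespace Vale.Agent.P150.PA

open Ising

variable {n : ℕ}

/-- attempts in `τ` units of time, an even number -/
noncomputable def att (n : ℕ) (τ : ℝ) : ℕ := 2 * ⌈τ * n / 2⌉₊

/-- overlap of the mean at time `v` from `x` -/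
noncomputable def qmean (J : Fin n → Fin n → ℝ) (b : Fin n → ℝ) (v : ℕ) (x : Cfg n) : ℝ :=
  (∑ i, mean J b v x i ^ 2) / n

/-- mean at time `v` of the overlap of the mean at lag `τ` -/
noncomputable def qlag (J : Fin n → Fin n → ℝ) (b : Fin n → ℝ) (v τ : ℕ) (x : Cfg n) : ℝ :=
  Kpow J b (v - τ) (qmean J b τ) x

/-- average over the times `W ≤ v < 2 W` -/
noncomputable def blockAvg (W : ℕ) (f : ℕ → ℝ) : ℝ := (∑ v ∈ Finset.Ico W (2 * W), f v) / W

/-- lack of flatness of a block -/
noncomputable def defect (J : Fin n → Fin n → ℝ) (b : Fin n → ℝ) (G W : ℕ) (x : Cfg n) : ℝ :=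
  blockAvg W fun v => qlag J b v G x - qmean J b v x

/-- the reaction coefficient at time `v` -/
noncomputable def onsager (β : ℝ) (J : Fin n → Fin n → ℝ) (b : Fin n → ℝ) (v : ℕ) (x : Cfg n) : ℝ :=
  β ^ 2 * (1 - qmean J b v x)

/-- the cavity field at time `v` -/
noncomputable def cav (β : ℝ) (J : Fin n → Fin n → ℝ) (b : Fin n → ℝ) (v : ℕ) (x : Cfg n) (i : Fin n) : ℝ :=
  (∑ j, J i j * mean J b v x j) - onsager β J b v x * mean J b v x i

/-- a kernel with three parameters and its derivative in the field -/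
structure Kern where
  /-- the kernel -/
  fn : (Fin 3 → ℝ) → ℝ → ℝ
  /-- its derivative in the field -/
  dfn : (Fin 3 → ℝ) → ℝ → ℝ
  hasDeriv : ∀ p h, HasDerivAt (fn p) (dfn p h) h
  /-- a bound -/
  M : ℝ
  bdd : ∀ p h, |fn p h| ≤ M ∧ |dfn p h| ≤ M
  lip : ∀ p p' h h', |fn p h - fn p' h'| ≤ M * ((∑ l, |p l - p' l|) + |h - h'|) ∧
    |dfn p h - dfn p' h'| ≤ M * ((∑ l, |p l - p' l|) + |h - h'|)

/-- defect of the field identity at time `v`, with parameters `θ` -/
noncomputable def fieldErr (β : ℝ) (J : Fin n → Fin n → ℝ) (b : Fin n → ℝ) (Ψ : Kern)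
    (θ : Fin n → Fin 3 → ℝ) (v : ℕ) (x : Cfg n) : ℝ :=
  Kpow J b v (fun y => ∑ i,
    (Ψ.fn (θ i) (fld J 0 i y) * (fld J 0 i y - cav β J b v x i - onsager β J b v x * Real.tanh (fld J b i y))
      - onsager β J b v x * Ψ.dfn (θ i) (fld J 0 i y))) x

/-- The field identity on a block: averaged over the noise of the observation of the start, the defect is
at most `ε n` plus a multiple, independent of the scale `G`, of the root of the flatness defect. -/
def BlockIdentity (β : ℝ) : Prop :=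
  ∀ (Ψ : Kern) (t Rm ε : ℝ), 0 ≤ t → 0 < ε → ∃ Kc G₀ : ℝ, ∀ G : ℝ, G₀ ≤ G → ∃ W : ℝ, G ≤ W ∧
    Tendsto (fun n : ℕ => (disorder n).real {g | ∃ (x : Cfg n) (θ : (Fin n → ℝ) → ℕ → Fin n → Fin 3 → ℝ),
      (∀ v, Continuous fun u => θ u v) ∧ (∀ u v i l, |θ u v i l| ≤ Rm) ∧
      (ε + Kc * Real.sqrt (∫ u, defect (cpl β g) (obsField t x u) (att n G) (att n W) x ∂gauss (Fin n))) * n <
        ∫ u, blockAvg (att n W) (fun v => |fieldErr β (cpl β g) (obsField t x u) Ψ (θ u v) v x|) ∂gauss (Fin n)})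
      atTop (𝓝 0)

end Vale.Agent.P150.PA
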