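import Vale.Agent.P150.PA.Corr
import Vale.Agent.P150.PA.TapDefs

/-! Deterministic tools for the block identity: the exact drop of squared lagged means, the total
variation of lagged inner products, the same under an almost stationary density, and summation by parts. -/

namespace Vale.Agent.P150.PA

open Ising

variable {n : ℕ}

/-- summed Dirichlet density of two vector fields -/
noncomputable def dens2 (J : Fin n → Fin n → ℝ) (b : Fin n → ℝ) {m : ℕ} (u h : Fin m → Cfg n → ℝ)
    (x : Cfg n) : ℝ :=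
  ∑ l, ∑ i, (1 - mag J b i x ^ 2) * (dd i (u l) x * dd i (h l) x)

/-- mean at time `v` of the inner product of two vector fields averaged over lag `a` -/
noncomputable def lagc (J : Fin n → Fin n → ℝ) (b : Fin n → ℝ) {m : ℕ} (u h : Fin m → Cfg n → ℝ)
    (v a : ℕ) (x : Cfg n) : ℝ :=
  Kpow J b (v - a) (fun y => ∑ l, Kpow J b a (u l) y * Kpow J b a (h l) y) x

/-- stationarity error for the square of a vector field -/
noncomputable def sqErr (J : Fin n → Fin n → ℝ) (b : Fin n → ℝ) (f : Cfg n → ℝ) (B U : ℝ) : ℝ :=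
  4 / n * Real.sqrt (dir J b fun x => Real.sqrt (f x)) * Real.sqrt (3 * (2 * (B ^ 2 * U) + 4 * n * B ^ 4))

/-- stationarity error for the pairing of two vector fields -/
noncomputable def pairErr (J : Fin n → Fin n → ℝ) (b : Fin n → ℝ) (f : Cfg n → ℝ) (A B U : ℝ) : ℝ :=
  4 / n * Real.sqrt (dir J b fun x => Real.sqrt (f x)) * (A * (Real.sqrt (2 * U) + 3 * B * Real.sqrt n))

variable {J : Fin n → Fin n → ℝ} {b : Fin n → ℝ} {m : ℕ}

namespace Block

lemma Kpow_add_mul (k : ℕ) (c : ℝ) (φ ψ : Cfg n → ℝ) :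
    Kpow J b k (fun y => φ y + c * ψ y) = fun y => Kpow J b k φ y + c * Kpow J b k ψ y := by
  induction k with
  | zero => rfl
  | succ k ih =>
    rw [Pair.Kpow_succ, ih]
    funext y
    simp only [Pair.Kpow_succ, K, qb_eq]
    rw [mul_div, ← add_div, Finset.mul_sum, ← Finset.sum_add_distrib]
    congr 1
    exact Finset.sum_congr rfl fun i _ => by ring

lemma Kpow_sub (k : ℕ) (φ ψ : Cfg n → ℝ) :
    Kpow J b k (fun y => φ y - ψ y) = fun y => Kpow J b k φ y - Kpow J b k ψ y := by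
  simpa [sub_eq_add_neg] using Kpow_add_mul (J := J) (b := b) k (-1) φ ψ

lemma Kpow_mul_const (k : ℕ) (c : ℝ) (φ : Cfg n → ℝ) :
    Kpow J b k (fun y => c * φ y) = fun y => c * Kpow J b k φ y := by
  simpa using Corr.Kpow_lin (J := J) (b := b) (fun _ : Fin 1 => c) (fun _ => φ) k

lemma Kpow_sum (k : ℕ) (φ : Fin m → Cfg n → ℝ) :
    Kpow J b k (fun y => ∑ l, φ l y) = fun y => ∑ l, Kpow J b k (φ l) y := by
  simpa using Corr.Kpow_lin (J := J) (b := b) (fun _ : Fin m => (1 : ℝ)) φ k

lemma Kpow_comm (k : ℕ) (φ : Cfg n → ℝ) : Kpow J b (k + 1) φ = Kpow J b k (K J b φ) :=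
  Function.iterate_succ_apply _ _ _

lemma Kpow_one (φ : Cfg n → ℝ) : Kpow J b 1 φ = K J b φ := rfl

lemma Kpow_mono {φ ψ : Cfg n → ℝ} (h : ∀ y, φ y ≤ ψ y) (k : ℕ) (x : Cfg n) :
    Kpow J b k φ x ≤ Kpow J b k ψ x := by
  induction k generalizing x with
  | zero => exact h x
  | succ k ih => simp only [Pair.Kpow_succ]; exact K_mono b ih x

/-- Cauchy-Schwarz for a positive averaging operator -/
lemma Kpow_cauchy (k : ℕ) {φ V W : Cfg n → ℝ} (hV : ∀ y, 0 ≤ V y) (hW : ∀ y, 0 ≤ W y)
    (h : ∀ y, φ y ^ 2 ≤ V y * W y) (x : Cfg n) :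
    |Kpow J b k φ x| ≤ Real.sqrt (Kpow J b k V x) * Real.sqrt (Kpow J b k W x) := by
  rw [← Real.sqrt_mul (Pair.Kpow_nonneg hV k x)]
  refine Real.abs_le_sqrt ?_
  have hq : ∀ s : ℝ, 0 ≤ Kpow J b k W x * (s * s) + 2 * Kpow J b k φ x * s + Kpow J b k V x := by
    intro s
    have h0 : ∀ y, 0 ≤ (V y + 2 * s * φ y) + s * s * W y := fun y => by
      rcases eq_or_lt_of_le (hW y) with hw | hw
      · have : φ y = 0 := by
          have := h y; rw [← hw, mul_zero] at this
          exact pow_eq_zero_iff two_ne_zero |>.1 (le_antisymm this (sq_nonneg _))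
        rw [this, ← hw]; linarith [hV y]
      · refine nonneg_of_mul_nonneg_right ?_ hw
        linarith [sq_nonneg (W y * s + φ y), h y]
    have h1 := Pair.Kpow_nonneg (J := J) (b := b) h0 k x
    rw [Kpow_add_mul k (s * s) (fun y => V y + 2 * s * φ y) W, Kpow_add_mul k (2 * s) V φ] at h1
    linarith
  have hd := discrim_le_zero hq
  rw [discrim] at hd
  linarith

lemma K_sum (φ : Fin m → Cfg n → ℝ) (y : Cfg n) :
    K J b (fun z => ∑ l, φ l z) y = ∑ l, K J b (φ l) y := by
  have h := congrFun (Kpow_sum (J := J) (b := b) 1 φ) y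
  simpa only [Kpow_one] using h

/-- one attempt loses at least the site-conditional variance -/
lemma K_var_ge (φ : Cfg n → ℝ) (y : Cfg n) :
    (∑ i, (1 - mag J b i y ^ 2) * dd i φ y ^ 2) / n ≤ K J b (fun z => φ z ^ 2) y - K J b φ y ^ 2 := by
  rcases Nat.eq_zero_or_pos n with rfl | hn
  · simp [K]
  have hn' : (0 : ℝ) < n := Nat.cast_pos.2 hn
  have e : ∀ i, qb b J i (fun z => φ z ^ 2) y =
      qb b J i φ y ^ 2 + (1 - mag J b i y ^ 2) * dd i φ y ^ 2 := fun i => by
    rw [qb_eq, qb_eq, dd]; ring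
  have h := sq_sum_le_card_mul_sum_sq (s := (Finset.univ : Finset (Fin n))) (f := fun i => qb b J i φ y)
  rw [Finset.card_univ, Fintype.card_fin] at h
  have h2 : K J b φ y ^ 2 ≤ (∑ i, qb b J i φ y ^ 2) / n := by
    rw [K, div_pow, le_div_iff₀ hn', div_mul_eq_mul_div, div_le_iff₀ (by positivity)]
    linarith [mul_le_mul_of_nonneg_right h hn'.le]
  rw [K, Finset.sum_congr rfl fun i _ => e i, Finset.sum_add_distrib, add_div]
  linarith

/-- one attempt lowers a squared vector field at least by its Dirichlet density -/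
lemma drop_one (φ : Fin m → Cfg n → ℝ) (y : Cfg n) :
    dens2 J b φ φ y / n ≤ K J b (fun z => ∑ l, φ l z * φ l z) y - ∑ l, K J b (φ l) y * K J b (φ l) y := by
  rw [K_sum, ← Finset.sum_sub_distrib, dens2, Finset.sum_div]
  refine Finset.sum_le_sum fun l _ => ?_
  simpa only [pow_two] using K_var_ge (J := J) (b := b) (φ l) y

lemma drop_nonneg (φ : Fin m → Cfg n → ℝ) (y : Cfg n) :
    0 ≤ K J b (fun z => ∑ l, φ l z * φ l z) y - ∑ l, K J b (φ l) y * K J b (φ l) y :=
  le_trans (div_nonneg (Finset.sum_nonneg fun _ _ => Finset.sum_nonneg fun i _ =>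
    mul_nonneg (mag_sq J b i y).1 (mul_self_nonneg _)) (Nat.cast_nonneg n)) (drop_one φ y)

/-- the one-step covariance against the one-step variances -/
lemma cov_one (φ ψ : Fin m → Cfg n → ℝ) (y : Cfg n) :
    (K J b (fun z => ∑ l, φ l z * ψ l z) y - ∑ l, K J b (φ l) y * K J b (ψ l) y) ^ 2 ≤
      (K J b (fun z => ∑ l, φ l z * φ l z) y - ∑ l, K J b (φ l) y * K J b (φ l) y) *
        (K J b (fun z => ∑ l, ψ l z * ψ l z) y - ∑ l, K J b (ψ l) y * K J b (ψ l) y) := by
  have hq : ∀ s : ℝ, 0 ≤ (K J b (fun z => ∑ l, ψ l z * ψ l z) y - ∑ l, K J b (ψ l) y * K J b (ψ l) y) * (s * s) +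
      2 * (K J b (fun z => ∑ l, φ l z * ψ l z) y - ∑ l, K J b (φ l) y * K J b (ψ l) y) * s +
      (K J b (fun z => ∑ l, φ l z * φ l z) y - ∑ l, K J b (φ l) y * K J b (φ l) y) := by
    intro s
    have h := drop_nonneg (J := J) (b := b) (fun l z => φ l z + s * ψ l z) y
    refine h.trans (le_of_eq ?_)
    simp only [K_sum, ← Finset.sum_sub_distrib, Finset.mul_sum, Finset.sum_mul, ← Finset.sum_add_distrib]
    refine Finset.sum_congr rfl fun l _ => ?_
    simp only [← Kpow_one]
    rw [show (fun z => (φ l z + s * ψ l z) * (φ l z + s * ψ l z)) =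
        fun z => (φ l z * φ l z + 2 * s * (φ l z * ψ l z)) + s * s * (ψ l z * ψ l z) from funext fun z => by ring,
      Kpow_add_mul 1 (s * s) (fun z => φ l z * φ l z + 2 * s * (φ l z * ψ l z)) (fun z => ψ l z * ψ l z),
      Kpow_add_mul 1 (2 * s) (fun z => φ l z * φ l z) (fun z => φ l z * ψ l z), Kpow_add_mul 1 s (φ l) (ψ l)]
    ring
  have hd := discrim_le_zero hq
  rw [discrim] at hd
  linarith

/-- the exact change of `lagc` in one step of the lag -/
lemma lag_step (u h : Fin m → Cfg n → ℝ) {v a : ℕ} (ha : a < v) (x : Cfg n) :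
    lagc J b u h v a x - lagc J b u h v (a + 1) x = Kpow J b (v - a - 1) (fun y =>
      K J b (fun z => ∑ l, Kpow J b a (u l) z * Kpow J b a (h l) z) y -
        ∑ l, K J b (Kpow J b a (u l)) y * K J b (Kpow J b a (h l)) y) x := by
  rw [Kpow_sub, lagc, lagc, show v - a = v - a - 1 + 1 by omega, Kpow_comm,
    show v - (a + 1) = v - a - 1 + 1 - 1 by omega]
  simp only [Pair.Kpow_succ, Nat.add_sub_cancel]

lemma Ef_dens_nonneg {f : Cfg n → ℝ} (hf : ∀ x, 0 ≤ f x) (φ : Fin m → Cfg n → ℝ) :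
    0 ≤ Ef J b f (dens2 J b φ φ) :=
  Finset.sum_nonneg fun x _ => mul_nonneg (wt_pos J b x).le (mul_nonneg (hf x)
    (Finset.sum_nonneg fun _ _ => Finset.sum_nonneg fun i _ => mul_nonneg (mag_sq J b i x).1 (mul_self_nonneg _)))

lemma gam_spin (l : Fin n) (y : Cfg n) : gam (fun z => spin (z l)) y ≤ 1 := by
  have h := Corr.gam_lin_spin (Pi.single l 1) y
  simpa [Pi.single_apply, Finset.sum_ite_eq'] using h

end Block

open Block

/-- drop of the squared lagged mean of a vector field -/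
theorem lag_drop (u : Fin m → Cfg n → ℝ) {v a : ℕ} (ha : a < v) (x : Cfg n) :
    Kpow J b (v - a - 1) (dens2 J b (fun l => Kpow J b a (u l)) (fun l => Kpow J b a (u l))) x / n ≤
      lagc J b u u v a x - lagc J b u u v (a + 1) x := by
  rw [lag_step u u ha, div_eq_inv_mul]
  refine le_trans (le_of_eq (congrFun (Kpow_mul_const (J := J) (b := b) (v - a - 1) ((n : ℝ)⁻¹)
    (dens2 J b (fun l => Kpow J b a (u l)) (fun l => Kpow J b a (u l)))) x).symm) ?_
  refine Kpow_mono (fun y => ?_) _ x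
  rw [← div_eq_inv_mul]
  exact drop_one (fun l => Kpow J b a (u l)) y

/-- squared lagged means are antitone in the lag -/
theorem lag_anti (u : Fin m → Cfg n → ℝ) {v a c : ℕ} (hac : a ≤ c) (hc : c ≤ v) (x : Cfg n) :
    lagc J b u u v c x ≤ lagc J b u u v a x := by
  induction c, hac using Nat.le_induction with
  | base => exact le_rfl
  | succ c _ ih =>
    refine le_trans ?_ (ih (by omega))
    have h := lag_step (J := J) (b := b) u u (v := v) (a := c) (by omega) x
    have h0 := Pair.Kpow_nonneg (J := J) (b := b) (fun y => drop_nonneg (J := J) (b := b) (fun l => Kpow J b c (u l)) y) (v - c - 1) x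
    linarith

/-- total variation in the lag of a lagged inner product, exact -/
theorem tv_lag (u h : Fin m → Cfg n → ℝ) {v p q : ℕ} (hpq : p ≤ q) (hq : q ≤ v) (x : Cfg n) :
    ∑ a ∈ Finset.Ico p q, |lagc J b u h v a x - lagc J b u h v (a + 1) x| ≤
      Real.sqrt (lagc J b u u v p x - lagc J b u u v q x) * Real.sqrt (lagc J b h h v p x - lagc J b h h v q x) := by
  have hav : ∀ a ∈ Finset.Ico p q, a < v := fun a ha => by have := (Finset.mem_Ico.1 ha).2; omega
  have hnn : ∀ (w : Fin m → Cfg n → ℝ) a, a < v → 0 ≤ lagc J b w w v a x - lagc J b w w v (a + 1) x := fun w a ha =>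
    sub_nonneg.2 (lag_anti w (Nat.le_succ a) (by omega) x)
  refine le_trans (Finset.sum_le_sum (g := fun a => Real.sqrt (lagc J b u u v a x - lagc J b u u v (a + 1) x) *
    Real.sqrt (lagc J b h h v a x - lagc J b h h v (a + 1) x)) fun a ha => ?_) ?_
  · rw [lag_step u h (hav a ha), lag_step u u (hav a ha), lag_step h h (hav a ha)]
    exact Kpow_cauchy _ (fun y => drop_nonneg _ y) (fun y => drop_nonneg _ y) (fun y => cov_one _ _ y) x
  refine (Real.sum_mul_le_sqrt_mul_sqrt _ _ _).trans (le_of_eq ?_)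
  have e : ∀ w : Fin m → Cfg n → ℝ, ∑ a ∈ Finset.Ico p q, Real.sqrt (lagc J b w w v a x - lagc J b w w v (a + 1) x) ^ 2 =
      lagc J b w w v p x - lagc J b w w v q x := fun w => by
    rw [Finset.sum_congr rfl fun a ha => Real.sq_sqrt (hnn w a (hav a ha)),
      Finset.sum_Ico_eq_sum_range]
    have h := Finset.sum_range_sub' (fun i => lagc J b w w v (p + i) x) (q - p)
    simp only [Nat.add_zero, Nat.add_sub_cancel' hpq, ← Nat.add_assoc] at h
    exact h
  rw [e, e]

lemma qlag_eq (v a : ℕ) (x : Cfg n) :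
    qlag J b v a x = lagc J b (fun l z => spin (z l)) (fun l z => spin (z l)) v a x / n := by
  rw [div_eq_inv_mul, lagc, ← congrFun (Kpow_mul_const (J := J) (b := b) (v - a) ((n : ℝ)⁻¹)
    (fun y => ∑ l, Kpow J b a (fun z => spin (z l)) y * Kpow J b a (fun z => spin (z l)) y)) x, qlag]
  congr 1
  funext y
  simp only [qmean, mean, pow_two]
  ring

lemma qlag_self (v : ℕ) (x : Cfg n) : qlag J b v v x = qmean J b v x := by rw [qlag, Nat.sub_self]; rfl

/-- the drop of the overlap of lagged means dominates the Dirichlet density -/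
theorem qlag_drop {v a : ℕ} (ha : a < v) (x : Cfg n) :
    Kpow J b (v - a - 1) (dens2 J b (fun l z => mean J b a z l) (fun l z => mean J b a z l)) x / (n : ℝ) ^ 2 ≤
      qlag J b v a x - qlag J b v (a + 1) x := by
  rw [qlag_eq, qlag_eq, ← sub_div, pow_two, ← div_div]
  exact div_le_div_of_nonneg_right (lag_drop (fun l z => spin (z l)) ha x) (Nat.cast_nonneg n)

theorem qlag_anti {v a c : ℕ} (hac : a ≤ c) (hc : c ≤ v) (x : Cfg n) : qlag J b v c x ≤ qlag J b v a x := by
  rw [qlag_eq, qlag_eq]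
  exact div_le_div_of_nonneg_right (lag_anti _ hac hc x) (Nat.cast_nonneg n)

/-- one step of the lag moves the overlap by at most a multiple of `1/n` -/
theorem qlag_step {L : ℝ} (hJ : Tame J L) {v a : ℕ} (ha : a < v) (x : Cfg n) :
    qlag J b v a x - qlag J b v (a + 1) x ≤ 4 / n * (1 + gradC L / n) ^ a := by
  rcases Nat.eq_zero_or_pos n with rfl | hn
  · simp [qlag_eq]
  have hn' : (0 : ℝ) < n := Nat.cast_pos.2 hn
  rw [qlag_eq, qlag_eq, ← sub_div, lag_step _ _ ha, div_le_iff₀ hn']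
  set r := (1 + gradC L / (n : ℝ)) ^ a
  refine le_trans (Kpow_mono (ψ := fun _ => 4 * r) (fun y => ?_) _ x) ?_
  · rw [K_sum, ← Finset.sum_sub_distrib]
    refine (Finset.sum_le_card_nsmul _ _ (4 / n * r) fun l _ => ?_).trans_eq ?_
    · have h := (K_sq_sub_le b (J := J) (Kpow J b a fun z => spin (z l)) y).trans
        (mul_le_mul_of_nonneg_left (gam_Kpow_le b hJ (gam_spin l) a y) (by positivity))
      simpa only [mul_one, pow_two] using h
    · simp only [Finset.card_univ, Fintype.card_fin, nsmul_eq_mul]; field_simp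
  · have hr : 0 ≤ 4 * r := mul_nonneg (by norm_num) (pow_nonneg (zero_le_one.trans Corr.one_le_base) a)
    have hc : ∀ k y, Kpow J b k (fun _ => 4 * r) y ≤ 4 * r := by
      intro k
      induction k with
      | zero => exact fun y => le_rfl
      | succ k ih => intro y; rw [Pair.Kpow_succ]; exact (K_mono b ih y).trans (K_const_le b hr y)
    refine (hc _ x).trans (le_of_eq ?_)
    field_simp

/-- pairing of a vector field with the increments of another under a density -/
theorem dirpair (hs : ∀ i j, J i j = J j i) (hd : ∀ i, J i i = 0) {f : Cfg n → ℝ} (hf : ∀ x, 0 ≤ f x)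
    (hmean : ∑ x, wt J b x * f x = 1) (hn : 0 < n) (u h : Fin m → Cfg n → ℝ) {A B U : ℝ} (hA : 0 ≤ A)
    (hB : 0 ≤ B) (hgh : ∀ (v : Fin m → ℝ) y, gam (fun z => ∑ l, v l * h l z) y ≤ A ^ 2 * ∑ l, v l ^ 2)
    (hgu : ∀ (v : Fin m → ℝ) y, gam (fun z => ∑ l, v l * u l z) y ≤ B ^ 2 * ∑ l, v l ^ 2)
    (hU : ∀ y, ∑ l, u l y ^ 2 ≤ U) :
    |Ef J b f (fun x => ∑ l, u l x * (K J b (h l) x - h l x))| ≤
      Real.sqrt (Ef J b f (dens2 J b u u)) * Real.sqrt (Ef J b f (dens2 J b h h)) / n + pairErr J b f A B U := by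
  have hn' : (0 : ℝ) < n := Nat.cast_pos.2 hn
  set G := fun (i : Fin n) x => ∑ l, ((u l (Function.update x i true) + u l (Function.update x i false)) / 2 -
    mag J b i x * dd i (u l) x) * dd i (h l) x with hG
  have hGi : ∀ i x c, G i (Function.update x i c) = G i x := fun i x c => by
    simp [hG, mag_update b hd, dd]
  have e : Ef J b f (fun x => ∑ l, u l x * (K J b (h l) x - h l x)) =
      -((Ef J b f (dens2 J b u h) + ∑ x, wt J b x * ∑ i, (1 - mag J b i x ^ 2) * dd i f x * G i x) / n) := by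
    have e1 : ∀ l x, K J b (h l) x - h l x = -((∑ i, proj J b i (h l) x) / n) := fun l x => by
      simp only [K, qb, Finset.sum_sub_distrib, Finset.sum_const, Finset.card_univ, Fintype.card_fin, nsmul_eq_mul]
      field_simp
      ring
    have e2 : Ef J b f (fun x => ∑ l, u l x * (K J b (h l) x - h l x)) =
        -((∑ l, ∑ i, ∑ x, wt J b x * ((fun y => f y * u l y) x * proj J b i (h l) x)) / n) := by
      simp only [Ef, e1, mul_neg, Finset.sum_neg_distrib, ← mul_div_assoc, ← Finset.sum_div, Finset.mul_sum]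
      rw [Finset.sum_comm, Finset.sum_congr rfl fun l (_ : l ∈ Finset.univ) => Finset.sum_comm]
      congr 2
      exact Finset.sum_congr rfl fun l _ => Finset.sum_congr rfl fun i _ => Finset.sum_congr rfl fun x _ => by ring
    rw [e2]
    congr 2
    have e3 : ∀ i l, ∑ x, wt J b x * ((fun y => f y * u l y) x * proj J b i (h l) x) =
        ∑ x, wt J b x * (f x * ((1 - mag J b i x ^ 2) * (dd i (u l) x * dd i (h l) x))) +
          ∑ x, wt J b x * ((1 - mag J b i x ^ 2) * dd i f x *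
            (((u l (Function.update x i true) + u l (Function.update x i false)) / 2 -
              mag J b i x * dd i (u l) x) * dd i (h l) x)) := fun i l => by
      rw [site_mul b hs hd, Finset.sum_congr rfl fun x (_ : x ∈ Finset.univ) =>
          congrArg (wt J b x * ·) (mul_comm (f x) ((1 - mag J b i x ^ 2) * (dd i (u l) x * dd i (h l) x))),
        ← avg_qb_mul b hs hd i (fun x => (1 - mag J b i x ^ 2) * (dd i (u l) x * dd i (h l) x)) f
          (fun x c => by simp only [mag_update b hd, dd_update]), ← Finset.sum_add_distrib]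
      exact Finset.sum_congr rfl fun x _ => by rw [qb_eq]; simp only [dd]; ring
    simp only [e3, Finset.sum_add_distrib, Ef, dens2, hG, Finset.mul_sum]
    refine congrArg₂ (· + ·) ?_ ?_
    · rw [Finset.sum_congr rfl fun l (_ : l ∈ Finset.univ) => Finset.sum_comm, Finset.sum_comm]
    · rw [Finset.sum_congr rfl fun l (_ : l ∈ Finset.univ) => Finset.sum_comm, Finset.sum_comm]
      exact Finset.sum_congr rfl fun x _ => Finset.sum_comm
  rw [e, abs_neg, abs_div, Nat.abs_cast, pairErr]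
  refine le_trans (div_le_div_of_nonneg_right (abs_add_le _ _) hn'.le) ?_
  rw [add_div]
  refine add_le_add (div_le_div_of_nonneg_right ?_ hn'.le) ?_
  · have hc : Ef J b f (dens2 J b u h) ^ 2 ≤ Ef J b f (dens2 J b u u) * Ef J b f (dens2 J b h h) := by
      set w := fun (s : Cfg n × Fin m × Fin n) => wt J b s.1 * (f s.1 * (1 - mag J b s.2.2 s.1 ^ 2)) with hwdef
      have hw : ∀ s, 0 ≤ w s := fun s => mul_nonneg (wt_pos J b s.1).le (mul_nonneg (hf s.1) (mag_sq J b s.2.2 s.1).1)
      have hsum : ∀ a c : Fin m → Cfg n → ℝ, Ef J b f (dens2 J b a c) =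
          ∑ s : Cfg n × Fin m × Fin n, w s * (dd s.2.2 (a s.2.1) s.1 * dd s.2.2 (c s.2.1) s.1) := fun a c => by
        simp only [Ef, dens2, Fintype.sum_prod_type, Finset.mul_sum, hwdef]
        exact Finset.sum_congr rfl fun x _ => Finset.sum_congr rfl fun l _ => Finset.sum_congr rfl fun i _ => by ring
      rw [hsum, hsum, hsum]
      exact Finset.sum_sq_le_sum_mul_sum_of_sq_le_mul _ (fun s _ => mul_nonneg (hw s) (mul_self_nonneg _))
        (fun s _ => mul_nonneg (hw s) (mul_self_nonneg _)) (fun s _ => le_of_eq (by ring))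
    rw [← Real.sqrt_mul]
    · exact Real.abs_le_sqrt hc
    · exact Ef_dens_nonneg hf u
  rw [div_le_iff₀ hn']
  refine (pair hs hd hf G hGi).trans ?_
  set R := A * (Real.sqrt (2 * U) + 3 * B * Real.sqrt n)
  rw [show 4 / (n : ℝ) * Real.sqrt (dir J b fun x => Real.sqrt (f x)) * R * n =
      4 * Real.sqrt (dir J b fun x => Real.sqrt (f x)) * R by field_simp]
  refine mul_le_mul_of_nonneg_left ?_ (by positivity)
  have hR : 0 ≤ R := by positivity
  refine (Real.sqrt_le_left hR).2 ?_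
  calc ∑ x, wt J b x * (f x * ∑ i, G i x ^ 2) ≤ ∑ x, wt J b x * (f x * R ^ 2) := by
        refine Finset.sum_le_sum fun x _ => mul_le_mul_of_nonneg_left (mul_le_mul_of_nonneg_left ?_ (hf x)) (wt_pos J b x).le
        set X := fun i => ∑ l, u l x * dd i (h l) x
        set Z := fun i => ∑ l, dd i (u l) x * dd i (h l) x
        have hU0 : 0 ≤ U := (Finset.sum_nonneg fun l _ => sq_nonneg _).trans (hU x)
        have hlin : ∀ (v : Fin m → ℝ) (φ : Fin m → Cfg n → ℝ) i,
            dd i (fun z => ∑ l, v l * φ l z) x = ∑ l, v l * dd i (φ l) x := fun v φ i => by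
          simp only [dd, ← Finset.sum_sub_distrib, Finset.sum_div]
          exact Finset.sum_congr rfl fun l _ => by ring
        have hX : ∑ i, X i ^ 2 ≤ A ^ 2 * U := by
          refine le_trans (le_of_eq ?_) ((hgh (fun l => u l x) x).trans
            (mul_le_mul_of_nonneg_left (hU x) (sq_nonneg A)))
          exact Finset.sum_congr rfl fun i _ => by rw [hlin]
        have hcol : ∀ (φ : Fin m → Cfg n → ℝ) (C : ℝ),
            (∀ (v : Fin m → ℝ) y, gam (fun z => ∑ l, v l * φ l z) y ≤ C ^ 2 * ∑ l, v l ^ 2) →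
              ∀ i, ∑ l, dd i (φ l) x ^ 2 ≤ C ^ 2 := by
          intro φ C hφ i
          have h1 : (∑ l, dd i (φ l) x ^ 2) * (∑ l, dd i (φ l) x ^ 2) ≤ C ^ 2 * ∑ l, dd i (φ l) x ^ 2 := by
            refine le_trans ?_ (hφ (fun l => dd i (φ l) x) x)
            refine le_trans (le_of_eq ?_) (Finset.single_le_sum
              (f := fun i' => dd i' (fun z => ∑ l, dd i (φ l) x * φ l z) x ^ 2)
              (fun _ _ => sq_nonneg _) (Finset.mem_univ i))
            rw [hlin]
            simp only [sq]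
          rcases eq_or_lt_of_le (Finset.sum_nonneg fun l _ => sq_nonneg (dd i (φ l) x) :
            0 ≤ ∑ l, dd i (φ l) x ^ 2) with h0 | h0
          · rw [← h0]; exact sq_nonneg C
          · exact le_of_mul_le_mul_right h1 h0
        have hZ : ∑ i, Z i ^ 2 ≤ n * (A ^ 2 * B ^ 2) := by
          refine (Finset.sum_le_card_nsmul _ _ (A ^ 2 * B ^ 2) fun i _ => ?_).trans_eq (by simp)
          refine (Finset.sum_mul_sq_le_sq_mul_sq _ _ _).trans ?_
          rw [mul_comm (A ^ 2)]
          exact mul_le_mul (hcol u B hgu i) (hcol h A hgh i) (Finset.sum_nonneg fun _ _ => sq_nonneg _) (sq_nonneg B)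
        have hGe : ∀ i, G i x ^ 2 ≤ 2 * X i ^ 2 + 8 * Z i ^ 2 := fun i => by
          have e1 : G i x = X i - (spin (x i) + mag J b i x) * Z i := by
            simp only [hG, X, Z, Finset.mul_sum, ← Finset.sum_sub_distrib]
            refine Finset.sum_congr rfl fun l _ => ?_
            cases hx : x i
            · have e : Function.update x i false = x := by rw [← hx, Function.update_eq_self]
              simp only [dd, spin, e, Bool.false_eq_true, if_false]; ring
            · have e : Function.update x i true = x := by rw [← hx, Function.update_eq_self]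
              simp only [dd, spin, e, if_true]; ring
          have hc : (spin (x i) + mag J b i x) ^ 2 ≤ 4 := by
            have := abs_lt.1 (tanh_abs_lt (fld J b i x))
            rw [show (4 : ℝ) = 2 ^ 2 by norm_num, sq_le_sq, abs_two, abs_le, mag]
            cases x i <;> simp [spin] <;> constructor <;> linarith
          rw [e1]
          have := mul_le_mul_of_nonneg_right hc (sq_nonneg (Z i))
          linarith [sq_nonneg (X i + (spin (x i) + mag J b i x) * Z i)]
        refine (Finset.sum_le_sum fun i _ => hGe i).trans ?_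
        rw [Finset.sum_add_distrib, ← Finset.mul_sum, ← Finset.mul_sum]
        have hR2 : R ^ 2 = A ^ 2 * (2 * U) + 6 * (A ^ 2 * B * (Real.sqrt (2 * U) * Real.sqrt n)) + 9 * (A ^ 2 * B ^ 2 * n) := by
          simp only [R]
          rw [mul_pow, add_sq, mul_pow, mul_pow, Real.sq_sqrt (by positivity), Real.sq_sqrt (Nat.cast_nonneg n)]
          ring
        have h0 : 0 ≤ A ^ 2 * B * (Real.sqrt (2 * U) * Real.sqrt n) := by positivity
        have h1 : 0 ≤ A ^ 2 * B ^ 2 * (n : ℝ) := by positivity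
        rw [hR2]
        linarith
    _ = R ^ 2 := by simp only [← mul_assoc, ← Finset.sum_mul, hmean, one_mul]

/-- under a density the Dirichlet form of a vector field is paid for by the drop of its square -/
theorem dens_drop (hs : ∀ i j, J i j = J j i) (hd : ∀ i, J i i = 0) {f : Cfg n → ℝ} (hf : ∀ x, 0 ≤ f x)
    (hmean : ∑ x, wt J b x * f x = 1) (hn : 0 < n) (u : Fin m → Cfg n → ℝ) {B U : ℝ}
    (hgu : ∀ (v : Fin m → ℝ) y, gam (fun z => ∑ l, v l * u l z) y ≤ B ^ 2 * ∑ l, v l ^ 2)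
    (hU : ∀ y, ∑ l, u l y ^ 2 ≤ U) :
    Ef J b f (dens2 J b u u) / n ≤ Ef J b f (fun x => ∑ l, u l x * u l x) -
      Ef J b f (fun x => ∑ l, K J b (u l) x * K J b (u l) x) + sqErr J b f B U := by
  have h1 : Ef J b f (dens2 J b u u) / n ≤ Ef J b f (fun x => K J b (fun z => ∑ l, u l z * u l z) x) -
      Ef J b f (fun x => ∑ l, K J b (u l) x * K J b (u l) x) := by
    rw [Corr.Ef_sub, Ef, Ef, Finset.sum_div]
    refine Finset.sum_le_sum fun x _ => ?_
    rw [mul_div_assoc, mul_div_assoc]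
    exact mul_le_mul_of_nonneg_left (mul_le_mul_of_nonneg_left (drop_one u x) (hf x)) (wt_pos J b x).le
  have h2 := stat hs hd hn hf (fun z => ∑ l, u l z * u l z) (b := b)
  have h3 : Real.sqrt (∑ x, wt J b x * (f x * gam (fun z => ∑ l, u l z * u l z) x)) ≤
      Real.sqrt (3 * (2 * (B ^ 2 * U) + 4 * n * B ^ 4)) := by
    refine Real.sqrt_le_sqrt ((Corr.Ef_mono hf fun x => ?_).trans_eq (Corr.Ef_const hmean _))
    exact (Corr.gam_inner u u hgu hgu hU hU x).trans_eq (by ring)
  have h4 := (le_abs_self _).trans (h2.trans (mul_le_mul_of_nonneg_left h3 (by positivity)))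
  have e : Ef J b f (fun x => K J b (fun z => ∑ l, u l z * u l z) x) - Ef J b f (fun x => ∑ l, u l x * u l x) =
      ∑ x, wt J b x * (f x * (K J b (fun z => ∑ l, u l z * u l z) x - ∑ l, u l x * u l x)) := Corr.Ef_sub _ _
  rw [sqErr]
  linarith

/-- total variation in the lag under a density -/
theorem tv {L : ℝ} (hJ : Tame J L) {f : Cfg n → ℝ} (hf : ∀ x, 0 ≤ f x) (hmean : ∑ x, wt J b x * f x = 1)
    (hn : 0 < n) (u h : Fin m → Cfg n → ℝ) {A B U H : ℝ} (hA : 0 ≤ A) (hB : 0 ≤ B)
    (hgh : ∀ (v : Fin m → ℝ) y, gam (fun z => ∑ l, v l * h l z) y ≤ A ^ 2 * ∑ l, v l ^ 2)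
    (hgu : ∀ (v : Fin m → ℝ) y, gam (fun z => ∑ l, v l * u l z) y ≤ B ^ 2 * ∑ l, v l ^ 2)
    (hU : ∀ y, ∑ l, u l y ^ 2 ≤ U) (hH : ∀ y, ∑ l, h l y ^ 2 ≤ H) {p q : ℕ} (hpq : p ≤ q) :
    let r := Real.sqrt ((1 + gradC L / n) ^ q)
    ∑ a ∈ Finset.Ico p q, |Ef J b f (fun x => ∑ l, Kpow J b a (u l) x *
        (Kpow J b (a + 1) (h l) x - Kpow J b a (h l) x))| ≤
      Real.sqrt (Ef J b f (fun x => ∑ l, Kpow J b p (u l) x * Kpow J b p (u l) x) -
          Ef J b f (fun x => ∑ l, Kpow J b q (u l) x * Kpow J b q (u l) x) + (q - p : ℕ) * sqErr J b f (r * B) U) *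
        Real.sqrt (Ef J b f (fun x => ∑ l, Kpow J b p (h l) x * Kpow J b p (h l) x) -
          Ef J b f (fun x => ∑ l, Kpow J b q (h l) x * Kpow J b q (h l) x) + (q - p : ℕ) * sqErr J b f (r * A) H) +
        (q - p : ℕ) * pairErr J b f (r * A) (r * B) U := by
  intro r
  have hn' : (0 : ℝ) < n := Nat.cast_pos.2 hn
  have hr : ∀ a ≤ q, Real.sqrt ((1 + gradC L / n) ^ a) ≤ r := fun a ha =>
    Real.sqrt_le_sqrt (pow_le_pow_right₀ Corr.one_le_base ha)
  have hg : ∀ (w : Fin m → Cfg n → ℝ) {C : ℝ}, 0 ≤ C →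
      (∀ (v : Fin m → ℝ) y, gam (fun z => ∑ l, v l * w l z) y ≤ C ^ 2 * ∑ l, v l ^ 2) → ∀ a ≤ q,
      ∀ (v : Fin m → ℝ) y, gam (fun z => ∑ l, v l * Kpow J b a (w l) z) y ≤ (r * C) ^ 2 * ∑ l, v l ^ 2 :=
    fun w C hC hw a ha v y => (Corr.gam_Kpow_lin hJ hw a v y).trans (mul_le_mul_of_nonneg_right
      (pow_le_pow_left₀ (mul_nonneg (Real.sqrt_nonneg _) hC) (mul_le_mul_of_nonneg_right (hr a ha) hC) 2)
      (Finset.sum_nonneg fun l _ => sq_nonneg _))
  have key : ∀ a ∈ Finset.Ico p q, |Ef J b f (fun x => ∑ l, Kpow J b a (u l) x *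
      (Kpow J b (a + 1) (h l) x - Kpow J b a (h l) x))| ≤
      Real.sqrt (Ef J b f (dens2 J b (fun l => Kpow J b a (u l)) fun l => Kpow J b a (u l)) / n) *
        Real.sqrt (Ef J b f (dens2 J b (fun l => Kpow J b a (h l)) fun l => Kpow J b a (h l)) / n) +
        pairErr J b f (r * A) (r * B) U := by
    intro a ha
    have haq : a ≤ q := (Finset.mem_Ico.1 ha).2.le
    simp only [Pair.Kpow_succ]
    refine (dirpair hJ.symm hJ.diag hf hmean hn (fun l => Kpow J b a (u l)) (fun l => Kpow J b a (h l))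
      (mul_nonneg (Real.sqrt_nonneg _) hA) (mul_nonneg (Real.sqrt_nonneg _) hB) (hg h hA hgh a haq)
      (hg u hB hgu a haq) (Corr.sum_sq_Kpow_le hU a)).trans (le_of_eq ?_)
    rw [Real.sqrt_div' _ hn'.le, Real.sqrt_div' _ hn'.le, div_mul_div_comm, Real.mul_self_sqrt hn'.le]
  refine (Finset.sum_le_sum key).trans ?_
  rw [Finset.sum_add_distrib, Finset.sum_const, Nat.card_Ico, nsmul_eq_mul]
  refine add_le_add ((Real.sum_mul_le_sqrt_mul_sqrt _ _ _).trans ?_) le_rfl
  have hdrop : ∀ (w : Fin m → Cfg n → ℝ) {C W : ℝ}, 0 ≤ C →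
      (∀ (v : Fin m → ℝ) y, gam (fun z => ∑ l, v l * w l z) y ≤ C ^ 2 * ∑ l, v l ^ 2) →
      (∀ y, ∑ l, w l y ^ 2 ≤ W) →
      ∑ a ∈ Finset.Ico p q, Real.sqrt (Ef J b f (dens2 J b (fun l => Kpow J b a (w l)) fun l => Kpow J b a (w l)) / n) ^ 2 ≤
        Ef J b f (fun x => ∑ l, Kpow J b p (w l) x * Kpow J b p (w l) x) -
          Ef J b f (fun x => ∑ l, Kpow J b q (w l) x * Kpow J b q (w l) x) + (q - p : ℕ) * sqErr J b f (r * C) W := by
    intro w C W hC hw hW
    set S := fun a => Ef J b f (fun x => ∑ l, Kpow J b a (w l) x * Kpow J b a (w l) x)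
    refine (Finset.sum_le_sum (g := fun a => (S a - S (a + 1)) + sqErr J b f (r * C) W) fun a ha => ?_).trans ?_
    · rw [Real.sq_sqrt (div_nonneg (Ef_dens_nonneg hf fun l => Kpow J b a (w l)) hn'.le)]
      refine (dens_drop hJ.symm hJ.diag hf hmean hn (fun l => Kpow J b a (w l))
        (hg w hC hw a (Finset.mem_Ico.1 ha).2.le) (Corr.sum_sq_Kpow_le hW a)).trans (le_of_eq ?_)
      simp only [S, Pair.Kpow_succ]
    · rw [Finset.sum_add_distrib, Finset.sum_const, Nat.card_Ico, nsmul_eq_mul]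
      refine add_le_add (le_of_eq ?_) le_rfl
      rw [Finset.sum_Ico_eq_sum_range]
      have h := Finset.sum_range_sub' (fun i => S (p + i)) (q - p)
      simp only [Nat.add_zero, Nat.add_sub_cancel' hpq, ← Nat.add_assoc] at h
      exact h
  exact mul_le_mul (Real.sqrt_le_sqrt (hdrop u hB hgu hU)) (Real.sqrt_le_sqrt (hdrop h hA hgh hH))
    (Real.sqrt_nonneg _) (Real.sqrt_nonneg _)

/-- summation by parts when one sequence moves by at most `c` per step -/
theorem sum_parts (A B : ℕ → ℝ) {c : ℝ} {p q : ℕ} (hpq : p ≤ q) (hA : ∀ k ∈ Finset.Ico p q, |A (k + 1) - A k| ≤ c) :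
    |∑ k ∈ Finset.Ico p q, (A k * (B (k + 1) - B k) + B k * (A (k + 1) - A k)) - (A q * B q - A p * B p)| ≤
      c * ∑ k ∈ Finset.Ico p q, |B (k + 1) - B k| := by
  have e : A q * B q - A p * B p = ∑ k ∈ Finset.Ico p q, (A (k + 1) * B (k + 1) - A k * B k) :=
    (Finset.sum_Ico_sub (fun k => A k * B k) hpq).symm
  rw [e, ← Finset.sum_sub_distrib, Finset.mul_sum]
  refine (Finset.abs_sum_le_sum_abs _ _).trans (Finset.sum_le_sum fun k hk => ?_)
  rw [show A k * (B (k + 1) - B k) + B k * (A (k + 1) - A k) - (A (k + 1) * B (k + 1) - A k * B k) =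
    -((A (k + 1) - A k) * (B (k + 1) - B k)) by ring, abs_neg, abs_mul]
  exact mul_le_mul_of_nonneg_right (hA k hk) (abs_nonneg _)

/-- with a sign-free first factor, only the size of the first sequence and the total variation matter -/
theorem sum_parts_le (A B : ℕ → ℝ) {c : ℝ} {p q : ℕ} (hA : ∀ k ∈ Finset.Ico p q, |A k| ≤ c) :
    |∑ k ∈ Finset.Ico p q, A k * (B (k + 1) - B k)| ≤ c * ∑ k ∈ Finset.Ico p q, |B (k + 1) - B k| := by
  rw [Finset.mul_sum]
  exact (Finset.abs_sum_le_sum_abs _ _).trans (Finset.sum_le_sum fun k hk => by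
    rw [abs_mul]; exact mul_le_mul_of_nonneg_right (hA k hk) (abs_nonneg _))

/-- the law after `k` attempts from `x₀` as a density -/
theorem start_density (hs : ∀ i j, J i j = J j i) (hd : ∀ i, J i i = 0) (k : ℕ) (φ : Cfg n → ℝ) (x₀ : Cfg n) :
    Kpow J b k φ x₀ = Ef J b (Kpow J b k (Pi.single x₀ (wt J b x₀)⁻¹)) φ := by
  induction k generalizing φ with
  | zero =>
    rw [Ef, Finset.sum_eq_single x₀ (fun y _ hy => by simp [Kpow, hy]) (by simp)]
    simp only [Kpow, Function.iterate_zero, id, Pi.single_eq_same]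
    field_simp [(wt_pos J b x₀).ne']
  | succ k ih =>
    rw [Block.Kpow_comm, ih, Ef, Ef]
    set d := Kpow J b k (Pi.single x₀ (wt J b x₀)⁻¹)
    rw [Pair.Kpow_succ]
    simp only [K, ← mul_div_assoc, div_mul_eq_mul_div, ← Finset.sum_div, Finset.mul_sum, Finset.sum_mul]
    congr 1
    rw [Finset.sum_comm, Finset.sum_congr rfl fun i (_ : i ∈ Finset.univ) => avg_qb_symm b hs hd i d φ,
      Finset.sum_comm]
    exact Finset.sum_congr rfl fun x _ => Finset.sum_congr rfl fun i _ => by ring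

/-- the Dirichlet form of the root of an averaged density is at most the average -/
theorem dir_sqrt_avg {ι : Type*} (s : Finset ι) {w : ι → ℝ} (hw : ∀ k ∈ s, 0 ≤ w k) {d : ι → Cfg n → ℝ}
    (hd : ∀ k ∈ s, ∀ x, 0 ≤ d k x) :
    dir J b (fun x => Real.sqrt (∑ k ∈ s, w k * d k x)) ≤ ∑ k ∈ s, w k * dir J b (fun x => Real.sqrt (d k x)) := by
  simp only [dir, Finset.mul_sum]
  rw [Finset.sum_comm (s := s)]
  refine Finset.sum_le_sum fun i _ => ?_
  rw [Finset.sum_comm (s := s)]
  refine Finset.sum_le_sum fun x _ => ?_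
  have hnn : ∀ y, 0 ≤ ∑ k ∈ s, w k * d k y := fun y => Finset.sum_nonneg fun k hk => mul_nonneg (hw k hk) (hd k hk y)
  have key : dd i (fun y => Real.sqrt (∑ k ∈ s, w k * d k y)) x ^ 2 ≤
      ∑ k ∈ s, w k * dd i (fun y => Real.sqrt (d k y)) x ^ 2 := by
    simp only [dd]
    set P := Function.update x i true
    set M := Function.update x i false
    have hcs : ∑ k ∈ s, w k * (Real.sqrt (d k P) * Real.sqrt (d k M)) ≤
        Real.sqrt (∑ k ∈ s, w k * d k P) * Real.sqrt (∑ k ∈ s, w k * d k M) := by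
      rw [← Real.sqrt_mul (hnn P)]
      refine Real.le_sqrt_of_sq_le (Finset.sum_sq_le_sum_mul_sum_of_sq_le_mul s (fun k hk => mul_nonneg (hw k hk) (hd k hk P))
        (fun k hk => mul_nonneg (hw k hk) (hd k hk M)) fun k hk => le_of_eq ?_)
      rw [mul_pow, mul_pow, Real.sq_sqrt (hd k hk P), Real.sq_sqrt (hd k hk M)]; ring
    have e : ∑ k ∈ s, w k * ((Real.sqrt (d k P) - Real.sqrt (d k M)) / 2) ^ 2 =
        (∑ k ∈ s, w k * d k P + ∑ k ∈ s, w k * d k M - 2 * ∑ k ∈ s, w k * (Real.sqrt (d k P) * Real.sqrt (d k M))) / 4 := by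
      rw [Finset.mul_sum, ← Finset.sum_add_distrib, ← Finset.sum_sub_distrib, Finset.sum_div]
      refine Finset.sum_congr rfl fun k hk => ?_
      linear_combination (w k / 4) * Real.sq_sqrt (hd k hk P) + (w k / 4) * Real.sq_sqrt (hd k hk M)
    rw [e]
    linarith [Real.sq_sqrt (hnn P), Real.sq_sqrt (hnn M)]
  have h := mul_le_mul_of_nonneg_left key (mul_nonneg (wt_pos J b x).le (mag_sq J b i x).1)
  rw [Finset.mul_sum] at h
  refine le_trans (le_of_eq ?_) (h.trans (le_of_eq (Finset.sum_congr rfl fun k _ => ?_))) <;> ring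

end Vale.Agent.P150.PA
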