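import Vale.Agent.P150.PA.Defs

/-! The law of a finite path of update attempts: decomposition at a time, the Markov property,
martingale increments and their responses. -/

namespace Vale.Agent.P150.PA

open Ising

variable {n : ℕ} (J : Fin n → Fin n → ℝ) (b : Fin n → ℝ)

lemma sp_nonneg (x : Cfg n) (i : Fin n) (c : Bool) : 0 ≤ sp J b x i c := by
  have h := abs_lt.1 (tanh_abs_lt (fld J b i x))
  unfold sp mag
  cases c <;> simp [spin] <;> linarith

lemma sp_sum (x : Cfg n) (i : Fin n) : sp J b x i true + sp J b x i false = 1 := by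
  simp [sp, spin]; ring

lemma pw_nonneg {N : ℕ} (x : Cfg n) (ω : Path n N) : 0 ≤ pw J b x ω :=
  Finset.prod_nonneg fun _ _ => div_nonneg (sp_nonneg J b _ _ _) (Nat.cast_nonneg n)

/-- one attempt, written over moves -/
lemma K_eq_sum (f : Cfg n → ℝ) (x : Cfg n) :
    K J b f x = ∑ m : Move n, sp J b x m.1 m.2 / n * f (Function.update x m.1 m.2) := by
  rw [K, Finset.sum_div, Fintype.sum_prod_type]
  refine Finset.sum_congr rfl fun i _ => ?_
  rw [Fintype.sum_bool, qb_eq, sp, sp]
  simp only [spin, if_true, Bool.false_eq_true, if_false]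
  ring

lemma K_one (hn : 0 < n) (x : Cfg n) : K J b (fun _ => 1) x = 1 := by
  have : (n : ℝ) ≠ 0 := by exact_mod_cast hn.ne'
  simp only [K, qb_eq]
  have h : ∀ i, ((1 + mag J b i x) * 1 + (1 - mag J b i x) * 1) / 2 = (1 : ℝ) := fun i => by ring
  simp [h, this]

lemma step_sum (hn : 0 < n) (x : Cfg n) : ∑ m : Move n, sp J b x m.1 m.2 / n = 1 := by
  have := K_one J b hn x
  simpa [K_eq_sum] using this

lemma st_succ_cons {N : ℕ} (x : Cfg n) (m : Move n) (ω : Path n N) :
    ∀ k, st x (Fin.cons m ω : Path n (N + 1)) (k + 1) = st (Function.update x m.1 m.2) ω k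
  | 0 => by simp [st]
  | k + 1 => by
    rw [st, st_succ_cons x m ω k, st]
    by_cases h : k < N
    · rw [dif_pos (Nat.succ_lt_succ h), dif_pos h,
        show (⟨k + 1, Nat.succ_lt_succ h⟩ : Fin (N + 1)) = Fin.succ ⟨k, h⟩ from rfl, Fin.cons_succ]
    · rw [dif_neg (by omega), dif_neg h]

lemma pw_cons {N : ℕ} (x : Cfg n) (m : Move n) (ω : Path n N) :
    pw J b x (Fin.cons m ω : Path n (N + 1)) =
      sp J b x m.1 m.2 / n * pw J b (Function.update x m.1 m.2) ω := by
  simp only [pw, Fin.prod_univ_succ, Fin.cons_zero, Fin.cons_succ, Fin.val_zero, Fin.val_succ,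
    st_succ_cons]
  rfl

/-- decomposition at the first attempt -/
lemma pex_succ {N : ℕ} (x : Cfg n) (F : Path n (N + 1) → ℝ) :
    pex J b x F = ∑ m : Move n, sp J b x m.1 m.2 / n *
      pex J b (Function.update x m.1 m.2) (fun ω => F (Fin.cons m ω)) := by
  simp only [pex]
  rw [← (Fin.consEquiv fun _ => Move n).sum_comp (fun ω => pw J b x ω * F ω), Fintype.sum_prod_type]
  refine Finset.sum_congr rfl fun m _ => ?_
  rw [Finset.mul_sum]
  refine Finset.sum_congr rfl fun ω _ => ?_
  show pw J b x (Fin.cons m ω) * F (Fin.cons m ω) = _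
  rw [pw_cons]; ring

lemma pex_zero (x : Cfg n) (F : Path n 0 → ℝ) : pex J b x F = F Fin.elim0 := by
  rw [pex, Fintype.sum_unique]
  simp [pw]
  exact congrArg F (Subsingleton.elim _ _)

lemma pex_const_mul {N : ℕ} (x : Cfg n) (c : ℝ) (F : Path n N → ℝ) :
    pex J b x (fun ω => c * F ω) = c * pex J b x F := by
  simp only [pex, Finset.mul_sum]
  exact Finset.sum_congr rfl fun ω _ => by ring

lemma pex_add {N : ℕ} (x : Cfg n) (F G : Path n N → ℝ) :
    pex J b x (fun ω => F ω + G ω) = pex J b x F + pex J b x G := by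
  simp only [pex, mul_add, Finset.sum_add_distrib]

lemma pex_sum {N : ℕ} {ι : Type*} (s : Finset ι) (x : Cfg n) (F : ι → Path n N → ℝ) :
    pex J b x (fun ω => ∑ a ∈ s, F a ω) = ∑ a ∈ s, pex J b x (F a) := by
  simp only [pex, Finset.mul_sum]
  exact Finset.sum_comm

lemma pex_mono {N : ℕ} (x : Cfg n) {F G : Path n N → ℝ} (h : ∀ ω, F ω ≤ G ω) :
    pex J b x F ≤ pex J b x G :=
  Finset.sum_le_sum fun ω _ => mul_le_mul_of_nonneg_left (h ω) (pw_nonneg J b x ω)

theorem pex_one (hn : 0 < n) :
    ∀ {N : ℕ} (x : Cfg n), pex J b x (fun _ : Path n N => (1 : ℝ)) = 1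
  | 0, x => by rw [pex_zero]
  | N + 1, x => by
    rw [pex_succ]
    simp only [pex_one hn, mul_one]
    exact step_sum J b hn x

lemma pw_sum (hn : 0 < n) {N : ℕ} (x : Cfg n) : ∑ ω : Path n N, pw J b x ω = 1 := by
  simpa [pex] using pex_one J b hn (N := N) x

lemma pex_const (hn : 0 < n) {N : ℕ} (x : Cfg n) (c : ℝ) :
    pex J b x (fun _ : Path n N => c) = c := by
  simp [pex, ← Finset.sum_mul, pw_sum J b hn]

lemma abs_pex_le {N : ℕ} (x : Cfg n) (F : Path n N → ℝ) :
    |pex J b x F| ≤ pex J b x (fun ω => |F ω|) :=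
  (Finset.abs_sum_le_sum_abs _ _).trans_eq
    (Finset.sum_congr rfl fun ω _ => by rw [abs_mul, abs_of_nonneg (pw_nonneg J b x ω)])

lemma Kpow_zero (f : Cfg n → ℝ) : Kpow J b 0 f = f := rfl

lemma Kpow_succ (k : ℕ) (f : Cfg n → ℝ) : Kpow J b (k + 1) f = K J b (Kpow J b k f) :=
  Function.iterate_succ_apply' _ _ _

theorem pex_st (hn : 0 < n) (f : Cfg n → ℝ) :
    ∀ {k N : ℕ}, k ≤ N → ∀ x, pex J b x (fun ω : Path n N => f (st x ω k)) = Kpow J b k f x
  | 0, N, _, x => by simp only [st, Kpow_zero]; exact pex_const J b hn x _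
  | k + 1, 0, h, _ => absurd h (by omega)
  | k + 1, N + 1, h, x => by
    rw [pex_succ, Kpow_succ, K_eq_sum]
    refine Finset.sum_congr rfl fun m _ => ?_
    simp only [st_succ_cons]
    rw [pex_st hn f (Nat.le_of_succ_le_succ h)]

lemma st_append_left {N M : ℕ} (x : Cfg n) (a : Path n N) (c : Path n M) :
    ∀ {k}, k ≤ N → st x (Fin.append a c) k = st x a k
  | 0, _ => rfl
  | k + 1, h => by
    rw [st, st, st_append_left x a c (by omega : k ≤ N), dif_pos (by omega : k < N),
      dif_pos (by omega : k < N + M)]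
    rw [show (⟨k, by omega⟩ : Fin (N + M)) = Fin.castAdd M ⟨k, by omega⟩ from rfl, Fin.append_left]

lemma st_append_right {N M : ℕ} (x : Cfg n) (a : Path n N) (c : Path n M) :
    ∀ k, st x (Fin.append a c) (N + k) = st (st x a N) c k
  | 0 => by rw [Nat.add_zero, st_append_left x a c le_rfl]; rfl
  | k + 1 => by
    rw [← Nat.add_assoc, st, st_append_right x a c k, st]
    by_cases h : k < M
    · rw [dif_pos (by omega), dif_pos h,
        show (⟨N + k, by omega⟩ : Fin (N + M)) = Fin.natAdd N ⟨k, h⟩ from rfl, Fin.append_right]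
    · rw [dif_neg (by omega), dif_neg h]

lemma pw_append {N M : ℕ} (x : Cfg n) (a : Path n N) (c : Path n M) :
    pw J b x (Fin.append a c) = pw J b x a * pw J b (st x a N) c := by
  simp only [pw, Fin.prod_univ_add, Fin.append_left, Fin.append_right, Fin.val_castAdd,
    Fin.val_natAdd, st_append_right]
  congr 1
  exact Finset.prod_congr rfl fun k _ => by rw [st_append_left x a c k.2.le]

/-- the Markov property: a path of `N + M` attempts is a path of `N` attempts followed by one of
`M` attempts from its end -/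
theorem pex_split {N M : ℕ} (x : Cfg n) (F : Path n (N + M) → ℝ) :
    pex J b x F = pex J b x (fun a : Path n N => pex J b (st x a N) (fun c : Path n M =>
      F (Fin.append a c))) := by
  simp only [pex]
  rw [← (Fin.appendEquiv (α := Move n) N M).sum_comp (fun ω => pw J b x ω * F ω),
    Fintype.sum_prod_type]
  refine Finset.sum_congr rfl fun a _ => ?_
  rw [Finset.mul_sum]
  refine Finset.sum_congr rfl fun c _ => ?_
  simp only [Fin.appendEquiv, Equiv.coe_fn_mk]
  rw [pw_append]; ring

/-- the functional `G` is determined by the first `u` attempts -/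
def Before {N : ℕ} {α : Sort*} (u : ℕ) (G : Path n N → α) : Prop :=
  ∀ ω ω', (∀ l : Fin N, (l : ℕ) < u → ω l = ω' l) → G ω = G ω'

lemma Before.cons {N : ℕ} {α : Sort*} {u : ℕ} {G : Path n (N + 1) → α} (h : Before (u + 1) G)
    (m : Move n) : Before u (fun ω : Path n N => G (Fin.cons m ω)) := fun ω ω' e => h _ _ fun l => by
  refine Fin.cases (by simp) (fun j => ?_) l
  intro hj
  simp only [Fin.cons_succ]
  exact e j (by simpa using hj)

lemma Before.mono {N : ℕ} {α : Sort*} {u v : ℕ} {G : Path n N → α} (h : Before u G) (huv : u ≤ v) :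
    Before v G := fun ω ω' e => h ω ω' fun l hl => e l (hl.trans_le huv)

lemma before_st {N : ℕ} {α : Type*} (x : Cfg n) (f : Cfg n → α) :
    ∀ u, Before u (fun ω : Path n N => f (st x ω u)) := by
  have h : ∀ u (ω ω' : Path n N), (∀ l : Fin N, (l : ℕ) < u → ω l = ω' l) → st x ω u = st x ω' u := by
    intro u
    induction u with
    | zero => intros; rfl
    | succ k ih =>
      intro ω ω' e
      rw [st, st, ih ω ω' fun l hl => e l (hl.trans k.lt_succ_self)]
      by_cases hk : k < N
      · rw [dif_pos hk, dif_pos hk, e ⟨k, hk⟩ k.lt_succ_self]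
      · rw [dif_neg hk, dif_neg hk]
  exact fun u ω ω' e => congrArg f (h u ω ω' e)

/-- conditioning on the first `u` attempts -/
theorem pex_markov (hn : 0 < n) (f : Cfg n → ℝ) :
    ∀ {u k N : ℕ}, u ≤ k → k ≤ N → ∀ x (G : Path n N → ℝ), Before u G →
      pex J b x (fun ω => G ω * f (st x ω k)) =
        pex J b x (fun ω => G ω * Kpow J b (k - u) f (st x ω u))
  | 0, k, N, _, hkN, x, G, hG => by
    have hc : ∀ ω, G ω = G (fun _ => ((⟨0, hn⟩ : Fin n), true)) := fun ω =>
      hG ω _ fun l hl => absurd hl (Nat.not_lt_zero _)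
    simp only [st, Nat.sub_zero]
    rw [show (fun ω : Path n N => G ω * f (st x ω k)) =
        fun ω => G (fun _ => ((⟨0, hn⟩ : Fin n), true)) * f (st x ω k) from funext fun ω => by rw [← hc],
      show (fun ω : Path n N => G ω * Kpow J b k f x) =
        fun _ => G (fun _ => ((⟨0, hn⟩ : Fin n), true)) * Kpow J b k f x from funext fun ω => by rw [← hc],
      pex_const_mul, pex_st J b hn f hkN, pex_const J b hn]
  | u + 1, 0, N, h, _, _, _, _ => absurd h (by omega)
  | u + 1, k + 1, 0, _, h, _, _, _ => absurd h (by omega)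
  | u + 1, k + 1, N + 1, huk, hkN, x, G, hG => by
    rw [pex_succ, pex_succ]
    refine Finset.sum_congr rfl fun m _ => ?_
    simp only [st_succ_cons, Nat.succ_sub_succ]
    rw [pex_markov hn f (Nat.le_of_succ_le_succ huk) (Nat.le_of_succ_le_succ hkN) _ _ (hG.cons m)]

lemma step_inc (x : Cfg n) (i : Fin n) (F : Cfg n → ℝ) :
    ∑ m : Move n, sp J b x m.1 m.2 / n * (inc J b x m i * F (Function.update x m.1 m.2)) =
      (1 - mag J b i x ^ 2) * dd i F x / n := by
  rw [Fintype.sum_prod_type, Finset.sum_eq_single i (fun j _ hj => by simp [inc, hj]) (by simp)]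
  simp only [Fintype.sum_bool, inc, if_true, sp, dd, spin, Bool.false_eq_true, if_false]
  ring

/-- increments are martingale differences -/
theorem pex_inc_zero (hn : 0 < n) (i : Fin n) :
    ∀ {u N : ℕ} (hu : u < N) (x : Cfg n) (G : Path n N → ℝ), Before u G →
      pex J b x (fun ω => G ω * inc J b (st x ω u) (ω ⟨u, hu⟩) i) = 0
  | 0, N + 1, _, x, G, hG => by
    set g0 := G (fun _ => ((⟨0, hn⟩ : Fin n), true))
    have hc : ∀ ω, G ω = g0 := fun ω => hG ω _ fun l hl => absurd hl (Nat.not_lt_zero _)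
    rw [pex_succ]
    simp only [hc, st, Fin.mk_zero, Fin.cons_zero, pex_const J b hn]
    have h := step_inc J b x i (fun _ => g0)
    simp only [dd, sub_self, zero_div, mul_zero] at h
    rw [← h]
    exact Finset.sum_congr rfl fun m _ => by ring
  | u + 1, N + 1, hu, x, G, hG => by
    rw [pex_succ]
    refine Finset.sum_eq_zero fun m _ => ?_
    have e : ∀ ω : Path n N, (Fin.cons m ω : Path n (N + 1)) ⟨u + 1, hu⟩ = ω ⟨u, by omega⟩ :=
      fun ω => Fin.cons_succ (α := fun _ => Move n) m ω ⟨u, by omega⟩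
    simp only [st_succ_cons, e]
    rw [pex_inc_zero hn i (by omega : u < N) _ _ (hG.cons m), mul_zero]

/-- response of a later observable to an increment -/
theorem pex_response (hn : 0 < n) (i : Fin n) (f : Cfg n → ℝ) :
    ∀ {u k N : ℕ} (hu : u < N), u < k → k ≤ N → ∀ x : Cfg n,
      pex J b x (fun ω => inc J b (st x ω u) (ω ⟨u, hu⟩) i * f (st x ω k)) =
        Kpow J b u (fun z => (1 - mag J b i z ^ 2) * dd i (Kpow J b (k - u - 1) f) z / n) x
  | 0, 0, _, _, h, _, _ => absurd h (by omega)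
  | u + 1, 0, _, _, h, _, _ => absurd h (by omega)
  | 0, k + 1, N + 1, _, _, hkN, x => by
    rw [pex_succ, Kpow_zero]
    simp only [Nat.sub_zero, Nat.add_sub_cancel]
    rw [← step_inc]
    refine Finset.sum_congr rfl fun m _ => ?_
    simp only [st_succ_cons]
    simp only [st, Fin.mk_zero, Fin.cons_zero]
    rw [pex_const_mul, pex_st J b hn f (Nat.le_of_succ_le_succ hkN)]
  | u + 1, k + 1, N + 1, hu, huk, hkN, x => by
    rw [pex_succ, Kpow_succ, K_eq_sum]
    refine Finset.sum_congr rfl fun m _ => ?_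
    have e : ∀ ω : Path n N, (Fin.cons m ω : Path n (N + 1)) ⟨u + 1, hu⟩ = ω ⟨u, by omega⟩ :=
      fun ω => Fin.cons_succ (α := fun _ => Move n) m ω ⟨u, by omega⟩
    simp only [st_succ_cons, e, Nat.succ_sub_succ]
    rw [pex_response hn i f (by omega : u < N) (by omega) (by omega)]

/-- variance of a one-time observable -/
theorem pex_var (hn : 0 < n) {f : Cfg n → ℝ} {k N : ℕ} (hk : k ≤ N) (x : Cfg n) :
    pex J b x (fun ω : Path n N => (f (st x ω k) - Kpow J b k f x) ^ 2) =
      Kpow J b k (fun y => f y ^ 2) x - Kpow J b k f x ^ 2 := by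
  have h1 := pex_st J b hn (fun y => f y ^ 2) hk x
  have h2 := pex_st J b hn f hk x
  set c := Kpow J b k f x
  rw [show (fun ω : Path n N => (f (st x ω k) - c) ^ 2) =
      fun ω => f (st x ω k) ^ 2 + ((-2 * c) * f (st x ω k) + c ^ 2) from funext fun ω => by ring,
    pex_add, pex_add, pex_const_mul, pex_const J b hn, h1, h2]
  ring

/-- a bounded variable decorrelates from a concentrated one -/
theorem pex_prod (hn : 0 < n) {N : ℕ} (x : Cfg n) {F G : Path n N → ℝ} {B : ℝ}
    (hF : ∀ ω, |F ω| ≤ B) :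
    |pex J b x (fun ω => F ω * G ω) - pex J b x F * pex J b x G| ≤
      B * Real.sqrt (pex J b x (fun ω => (G ω - pex J b x G) ^ 2)) := by
  set c := pex J b x G
  have e : pex J b x (fun ω => F ω * G ω) - pex J b x F * c = pex J b x (fun ω => F ω * (G ω - c)) := by
    rw [show (fun ω => F ω * (G ω - c)) = fun ω => F ω * G ω + (-c) * F ω from funext fun ω => by ring,
      pex_add, pex_const_mul]
    ring
  have hB : 0 ≤ B := (abs_nonneg _).trans (hF fun _ => ((⟨0, hn⟩ : Fin n), true))
  rw [e]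
  refine (abs_pex_le J b x _).trans ?_
  refine ((pex_mono J b x (G := fun ω => B * |G ω - c|) fun ω => by
    rw [abs_mul]; exact mul_le_mul_of_nonneg_right (hF ω) (abs_nonneg _)).trans_eq
      (pex_const_mul J b x B _)).trans (mul_le_mul_of_nonneg_left ?_ hB)
  refine (le_abs_self _).trans (Real.abs_le_sqrt ?_)
  have cs := Finset.sum_mul_sq_le_sq_mul_sq Finset.univ (fun ω => Real.sqrt (pw J b x ω))
    (fun ω => Real.sqrt (pw J b x ω) * |G ω - c|)
  simp only [mul_pow, Real.sq_sqrt (pw_nonneg J b x _), sq_abs, pw_sum J b hn, one_mul] at cs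
  simpa only [pex, ← mul_assoc, Real.mul_self_sqrt (pw_nonneg J b x _)] using cs

end Vale.Agent.P150.PA
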