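import Vale.Agent.P150.PA.Tree
import Vale.Agent.P150.PA.Path

/-! The law of the branching experiment: every copy is, given the past, an independent sample from its
starting configuration; the main path is the plain chain; increments are martingale differences. -/

open MeasureTheory

namespace Vale.Agent.P150.PA

open Ising

variable {n : ℕ}

/-! ### bounded measurable functions of a noise and a discrete variable -/

/-- measurable in the first argument and bounded, for each value of the second -/
def Bd {α ι : Type*} [MeasurableSpace α] (F : α → ι → ℝ) : Prop :=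
  ∀ i, Measurable (fun a => F a i) ∧ ∃ C, ∀ a, |F a i| ≤ C

namespace Bd

variable {α α' ι ι' : Type*} [MeasurableSpace α] [MeasurableSpace α'] {F G : α → ι → ℝ}

lemma of_bound (hm : ∀ i, Measurable (fun a => F a i)) {C : ℝ}
    (hb : ∀ a i, |F a i| ≤ C) : Bd F :=
  fun i => ⟨hm i, C, fun a => hb a i⟩

lemma discrete (f : ι → ℝ) : Bd (fun (_ : α) i => f i) :=
  fun i => ⟨measurable_const, |f i|, fun _ => le_rfl⟩

lemma const (c : ℝ) : Bd (fun (_ : α) (_ : ι) => c) := discrete _

lemma comp (h : Bd F) {π : α' → α} (hπ : Measurable π) (τ : ι' → ι) : Bd (fun a i => F (π a) (τ i)) :=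
  fun i => ⟨(h (τ i)).1.comp hπ, (h (τ i)).2.imp fun _ hC _ => hC _⟩

lemma add (h : Bd F) (h' : Bd G) : Bd (fun a i => F a i + G a i) := fun i => by
  obtain ⟨C, hC⟩ := (h i).2
  obtain ⟨D, hD⟩ := (h' i).2
  exact ⟨(h i).1.add (h' i).1, C + D, fun a => (abs_add_le _ _).trans (add_le_add (hC a) (hD a))⟩

lemma neg (h : Bd F) : Bd (fun a i => -F a i) := fun i => by
  obtain ⟨C, hC⟩ := (h i).2
  exact ⟨(h i).1.neg, C, fun a => (abs_neg _).trans_le (hC a)⟩

lemma sub (h : Bd F) (h' : Bd G) : Bd (fun a i => F a i - G a i) := by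
  simpa [sub_eq_add_neg] using h.add h'.neg

lemma mul (h : Bd F) (h' : Bd G) : Bd (fun a i => F a i * G a i) := fun i => by
  obtain ⟨C, hC⟩ := (h i).2
  obtain ⟨D, hD⟩ := (h' i).2
  refine ⟨(h i).1.mul (h' i).1, C * D, fun a => ?_⟩
  rw [abs_mul]
  exact mul_le_mul (hC a) (hD a) (abs_nonneg _) ((abs_nonneg _).trans (hC a))

lemma const_mul (h : Bd F) (c : ℝ) : Bd (fun a i => c * F a i) := (const c).mul h

lemma abs (h : Bd F) : Bd (fun a i => |F a i|) := fun i => by
  obtain ⟨C, hC⟩ := (h i).2
  exact ⟨(h i).1.norm, C, fun a => (abs_abs _).trans_le (hC a)⟩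

lemma sum {κ : Type*} {s : Finset κ} {F : κ → α → ι → ℝ} (h : ∀ k ∈ s, Bd (F k)) :
    Bd (fun a i => ∑ k ∈ s, F k a i) := fun i => by
  classical
  induction s using Finset.induction_on with
  | empty => simpa using const (α := α) (ι := ι) 0 i
  | insert k s hk ih =>
    obtain ⟨C, hC⟩ := (h k (Finset.mem_insert_self _ _) i).2
    obtain ⟨hm, D, hD⟩ := ih fun j hj => h j (Finset.mem_insert_of_mem hj)
    simp only [Finset.sum_insert hk]
    exact ⟨(h k (Finset.mem_insert_self _ _) i).1.add hm, C + D,
      fun a => (abs_add_le _ _).trans (add_le_add (hC a) (hD a))⟩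

lemma integrable (h : Bd F) (μ : Measure α) [IsFiniteMeasure μ] (i : ι) : Integrable (fun a => F a i) μ := by
  obtain ⟨hm, C, hC⟩ := h i
  exact (integrable_const C).mono' hm.aestronglyMeasurable (Filter.Eventually.of_forall hC)

end Bd

/-! ### one copy -/

section Copy

variable (S : Sched) (J : Fin n → Fin n → ℝ) (b : Fin n → ℝ)

/-- probability of a copy from `F` given its noise -/
noncomputable def lw (F : Cfg n) (u : Fin n → ℝ) (l : Leg S n) : ℝ :=
  pw J b F l.1 * pw J (fun i => b i + obsField S.t (st F l.1 S.D) u i) (st F l.1 S.D) l.2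

/-- bounded measurable functionals of a copy -/
abbrev CBd (X : Copy S n → ℝ) : Prop := Bd (fun (u : Fin n → ℝ) (l : Leg S n) => X (u, l))

/-- bounded measurable functionals of two copies -/
abbrev CBd2 (X : Copy S n → Copy S n → ℝ) : Prop :=
  Bd (fun (u : (Fin n → ℝ) × (Fin n → ℝ)) (l : Leg S n × Leg S n) => X (u.1, l.1) (u.2, l.2))

lemma lw_nonneg (F : Cfg n) (u : Fin n → ℝ) (l : Leg S n) : 0 ≤ lw S J b F u l :=
  mul_nonneg (pw_nonneg _ _ _ _) (pw_nonneg _ _ _ _)

lemma lw_sum (hn : 0 < n) (F : Cfg n) (u : Fin n → ℝ) : ∑ l, lw S J b F u l = 1 := by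
  simp only [lw, Fintype.sum_prod_type, ← Finset.mul_sum, pw_sum _ _ hn, mul_one]

lemma lw_le_one (hn : 0 < n) (F : Cfg n) (u : Fin n → ℝ) (l : Leg S n) : lw S J b F u l ≤ 1 :=
  (Finset.single_le_sum (fun l' _ => lw_nonneg S J b F u l') (Finset.mem_univ l)).trans_eq
    (lw_sum S J b hn F u)

lemma abs_lw_le (hn : 0 < n) (F : Cfg n) (u : Fin n → ℝ) (l : Leg S n) : |lw S J b F u l| ≤ 1 :=
  (abs_of_nonneg (lw_nonneg S J b F u l)).trans_le (lw_le_one S J b hn F u l)

lemma continuous_lw (F : Cfg n) (l : Leg S n) : Continuous (fun u => lw S J b F u l) := by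
  have ht : Continuous Real.tanh := by
    rw [show Real.tanh = fun a => Real.sinh a / Real.cosh a from funext Real.tanh_eq_sinh_div_cosh]
    exact Real.continuous_sinh.div Real.continuous_cosh fun a => (Real.cosh_pos a).ne'
  unfold lw pw sp mag fld obsField
  fun_prop

lemma bd_lw (hn : 0 < n) (F : Cfg n) : Bd (fun u l => lw S J b F u l) :=
  .of_bound (fun l => (continuous_lw S J b F l).measurable) fun u l => abs_lw_le S J b hn F u l

lemma lex_def (F : Cfg n) (X : Copy S n → ℝ) :
    lex S J b F X = ∫ u, ∑ l, lw S J b F u l * X (u, l) ∂gauss (Fin n) := rfl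

variable {S} in
lemma CBd.integrable_lw {X : Copy S n → ℝ} (hX : CBd S X) (hn : 0 < n) (F : Cfg n) :
    Integrable (fun u => ∑ l, lw S J b F u l * X (u, l)) (gauss (Fin n)) :=
  integrable_finsetSum _ fun l _ => ((bd_lw S J b hn F).mul hX).integrable _ l

lemma lex_const (hn : 0 < n) (F : Cfg n) (c : ℝ) : lex S J b F (fun _ => c) = c := by
  simp [lex_def, ← Finset.sum_mul, lw_sum S J b hn]

lemma lex_one (hn : 0 < n) (F : Cfg n) : lex S J b F (fun _ => 1) = 1 := lex_const S J b hn F 1

lemma lex_const_mul (F : Cfg n) (c : ℝ) (X : Copy S n → ℝ) :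
    lex S J b F (fun a => c * X a) = c * lex S J b F X := by
  simp only [lex_def, mul_left_comm _ c, ← Finset.mul_sum, integral_const_mul]

lemma lex_mul_const (F : Cfg n) (c : ℝ) (X : Copy S n → ℝ) :
    lex S J b F (fun a => X a * c) = lex S J b F X * c := by
  simp only [mul_comm _ c, lex_const_mul]

lemma lex_neg (F : Cfg n) (X : Copy S n → ℝ) : lex S J b F (fun a => -X a) = -lex S J b F X := by
  simpa using lex_const_mul S J b F (-1) X

lemma lex_add (hn : 0 < n) (F : Cfg n) {X Y : Copy S n → ℝ} (hX : CBd S X) (hY : CBd S Y) :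
    lex S J b F (fun a => X a + Y a) = lex S J b F X + lex S J b F Y := by
  simp only [lex_def, mul_add, Finset.sum_add_distrib]
  exact integral_add (hX.integrable_lw J b hn F) (hY.integrable_lw J b hn F)

lemma lex_sub (hn : 0 < n) (F : Cfg n) {X Y : Copy S n → ℝ} (hX : CBd S X) (hY : CBd S Y) :
    lex S J b F (fun a => X a - Y a) = lex S J b F X - lex S J b F Y := by
  simp only [lex_def, mul_sub, Finset.sum_sub_distrib]
  exact integral_sub (hX.integrable_lw J b hn F) (hY.integrable_lw J b hn F)

lemma lex_sum (hn : 0 < n) (F : Cfg n) {κ : Type*} (s : Finset κ) {X : κ → Copy S n → ℝ}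
    (hX : ∀ k ∈ s, CBd S (X k)) :
    lex S J b F (fun a => ∑ k ∈ s, X k a) = ∑ k ∈ s, lex S J b F (X k) := by
  simp only [lex_def, Finset.mul_sum]
  rw [← integral_finsetSum _ fun k hk => (hX k hk).integrable_lw J b hn F]
  exact integral_congr_ae (Filter.Eventually.of_forall fun u => Finset.sum_comm)

lemma lex_mono (hn : 0 < n) (F : Cfg n) {X Y : Copy S n → ℝ} (hX : CBd S X) (hY : CBd S Y)
    (h : ∀ a, X a ≤ Y a) : lex S J b F X ≤ lex S J b F Y := by
  simp only [lex_def]
  exact integral_mono (hX.integrable_lw J b hn F) (hY.integrable_lw J b hn F) fun u =>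
    Finset.sum_le_sum fun l _ => mul_le_mul_of_nonneg_left (h _) (lw_nonneg S J b F u l)

lemma lex_nonneg (F : Cfg n) {X : Copy S n → ℝ} (h : ∀ a, 0 ≤ X a) : 0 ≤ lex S J b F X :=
  integral_nonneg fun u => Finset.sum_nonneg fun l _ => mul_nonneg (lw_nonneg S J b F u l) (h (u, l))

lemma abs_lex_le (hn : 0 < n) (F : Cfg n) {X : Copy S n → ℝ} (hX : CBd S X) :
    |lex S J b F X| ≤ lex S J b F (fun a => |X a|) :=
  abs_le.2 ⟨neg_le.1 (by rw [← lex_neg]; exact lex_mono S J b hn F hX.neg hX.abs fun a => neg_le_abs _),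
    lex_mono S J b hn F hX hX.abs fun a => le_abs_self _⟩

lemma abs_lex_le_bound (hn : 0 < n) (F : Cfg n) {X : Copy S n → ℝ} {C : ℝ} (h : ∀ a, |X a| ≤ C) :
    |lex S J b F X| ≤ C := by
  rw [lex_def, ← Real.norm_eq_abs]
  refine (norm_integral_le_of_norm_le_const (C := C) (Filter.Eventually.of_forall fun u => ?_)).trans_eq
    (by rw [probReal_univ (μ := gauss (Fin n)), mul_one])
  refine (Finset.abs_sum_le_sum_abs _ _).trans ((Finset.sum_le_sum (g := fun l => lw S J b F u l * C)
    fun l _ => ?_).trans_eq (by rw [← Finset.sum_mul, lw_sum S J b hn, one_mul]))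
  rw [abs_mul, abs_of_nonneg (lw_nonneg S J b F u l)]
  exact mul_le_mul_of_nonneg_left (h _) (lw_nonneg S J b F u l)

/-- a functional of the untilted attempts -/
lemma lex_fst (hn : 0 < n) (F : Cfg n) (f : Path n S.D → ℝ) :
    lex S J b F (fun a => f a.2.1) = pex J b F f := by
  have e : ∀ u, ∑ l : Leg S n, lw S J b F u l * f l.1 = pex J b F f := fun u => by
    rw [Fintype.sum_prod_type, pex]
    refine Finset.sum_congr rfl fun l _ => ?_
    simp only [lw]
    rw [← Finset.sum_mul, ← Finset.mul_sum, pw_sum _ _ hn, mul_one]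
  simp [lex_def, e]

/-- the observed configuration has the law of the plain chain after `D` attempts -/
theorem lex_mid (hn : 0 < n) (F : Cfg n) (f : Cfg n → ℝ) :
    lex S J b F (fun a => f (st F a.2.1 S.D)) = Kpow J b S.D f F := by
  rw [lex_fst S J b hn F fun l => f (st F l S.D), pex_st J b hn f le_rfl]

variable {S} in
lemma CBd2.section_ {X : Copy S n → Copy S n → ℝ} (hX : CBd2 S X) (a : Copy S n) : CBd S (X a) :=
  hX.comp (π := fun u => (a.1, u)) (by fun_prop) (fun l => (a.2, l))

variable {S} in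
lemma CBd.fst {X : Copy S n → ℝ} (hX : CBd S X) : CBd2 S (fun a _ => X a) :=
  hX.comp measurable_fst Prod.fst

variable {S} in
lemma CBd.snd {X : Copy S n → ℝ} (hX : CBd S X) : CBd2 S (fun _ a' => X a') :=
  hX.comp measurable_snd Prod.snd

/-- a product over the two copies -/
theorem lex2_mul (F : Cfg n) (X Y : Copy S n → ℝ) :
    lex2 S J b F (fun a a' => X a * Y a') = lex S J b F X * lex S J b F Y := by
  simp only [lex2, lex_const_mul, lex_mul_const]

lemma lex2_const (hn : 0 < n) (F : Cfg n) (c : ℝ) : lex2 S J b F (fun _ _ => c) = c := by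
  simp only [lex2, lex_const S J b hn]

/-- attempts before `k`, and the noise if the attempt `k` is tilted, agree -/
def Pre (k : ℕ) (a a' : Copy S n) : Prop :=
  (∀ j : Fin S.D, (j : ℕ) < k → a.2.1 j = a'.2.1 j) ∧ (S.D ≤ k → a.1 = a'.1) ∧
    ∀ j : Fin S.R, S.D + j < k → a.2.2 j = a'.2.2 j

variable {S} in
lemma Pre.mono {j k : ℕ} {a a' : Copy S n} (h : Pre S k a a') (hjk : j ≤ k) : Pre S j a a' :=
  ⟨fun l hl => h.1 l (by omega), fun hl => h.2.1 (by omega), fun l hl => h.2.2 l (by omega)⟩

variable {S} in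
lemma Pre.cpos {j k : ℕ} {a a' : Copy S n} (h : Pre S k a a') (hjk : j ≤ k) (F : Cfg n) :
    cpos S F a j = cpos S F a' j := by
  unfold PA.cpos
  split_ifs with hj
  · exact before_st F id j a.2.1 a'.2.1 fun l hl => h.1 l (by omega)
  · have e : st F a.2.1 S.D = st F a'.2.1 S.D :=
      before_st F id S.D a.2.1 a'.2.1 fun l hl => h.1 l (by omega)
    rw [e]
    exact before_st _ id (j - S.D) a.2.2 a'.2.2 fun l hl => h.2.2 l (by omega)

variable {S} in
lemma Pre.cinc {k : ℕ} {j : Fin (S.D + S.R)} {a a' : Copy S n} (h : Pre S k a a') (hjk : (j : ℕ) < k)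
    (F : Cfg n) (i : Fin n) : cinc S J b F a j i = cinc S J b F a' j i := by
  unfold PA.cinc
  split_ifs with hj
  · rw [show st F a.2.1 (j : ℕ) = st F a'.2.1 (j : ℕ) from
      before_st F id _ a.2.1 a'.2.1 fun l hl => h.1 l (by omega), h.1 ⟨j, hj⟩ hjk]
  · have e : st F a.2.1 S.D = st F a'.2.1 S.D :=
      before_st F id S.D a.2.1 a'.2.1 fun l hl => h.1 l (by omega)
    rw [e, h.2.1 (by omega)]
    rw [show st (st F a'.2.1 S.D) a.2.2 ((j : ℕ) - S.D) = st (st F a'.2.1 S.D) a'.2.2 ((j : ℕ) - S.D) from
      before_st _ id _ a.2.2 a'.2.2 fun l hl => h.2.2 l (by omega),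
      h.2.2 ⟨(j : ℕ) - S.D, by omega⟩ (by simp only; omega)]

lemma abs_inc_le (x : Cfg n) (m : Move n) (i : Fin n) : |inc J b x m i| ≤ 2 := by
  unfold inc
  split_ifs
  · have h := abs_lt.1 (tanh_abs_lt (fld J b i x))
    rw [abs_le]
    cases m.2 <;> simp [spin, mag] <;> constructor <;> linarith
  · simp

lemma abs_cinc_le (F : Cfg n) (a : Copy S n) (k : Fin (S.D + S.R)) (i : Fin n) :
    |cinc S J b F a k i| ≤ 2 := by
  unfold cinc
  split_ifs <;> exact abs_inc_le _ _ _ _ _

lemma bd_cinc (F : Cfg n) (k : Fin (S.D + S.R)) (i : Fin n) :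
    CBd S (fun a => cinc S J b F a k i) := by
  refine .of_bound (fun l => ?_) fun u l => abs_cinc_le S J b F (u, l) k i
  have ht : Continuous Real.tanh := by
    rw [show Real.tanh = fun a => Real.sinh a / Real.cosh a from funext Real.tanh_eq_sinh_div_cosh]
    exact Real.continuous_sinh.div Real.continuous_cosh fun a => (Real.cosh_pos a).ne'
  unfold cinc
  split_ifs
  · dsimp only
    exact measurable_const
  · refine Continuous.measurable ?_
    unfold inc mag fld obsField
    dsimp only
    split_ifs <;> fun_prop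

/-- increments of a copy are martingale differences -/
theorem lex_cinc_zero (hn : 0 < n) (F : Cfg n) (k : Fin (S.D + S.R)) (i : Fin n) (G : Copy S n → ℝ)
    (hG : ∀ a a', Pre S k a a' → G a = G a') :
    lex S J b F (fun a => G a * cinc S J b F a k i) = 0 := by
  set m₀ : Move n := (⟨0, hn⟩, true)
  by_cases h : (k : ℕ) < S.D
  · have e : ∀ a : Copy S n, G a * cinc S J b F a k i =
        G (0, a.2.1, fun _ => m₀) * inc J b (st F a.2.1 k) (a.2.1 ⟨k, h⟩) i := fun a => by
      rw [cinc, dif_pos h, hG a (0, a.2.1, fun _ => m₀)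
        ⟨fun _ _ => rfl, fun h' => absurd h' (by omega), fun j hj => absurd hj (by omega)⟩]
    simp only [e]
    rw [lex_fst S J b hn F fun l => G (0, l, fun _ => m₀) * inc J b (st F l k) (l ⟨k, h⟩) i]
    exact pex_inc_zero J b hn i h F _ fun l l' hl => hG _ _
      ⟨fun j hj => hl j hj, fun _ => rfl, fun j hj => absurd hj (by omega)⟩
  · have hk : (k : ℕ) - S.D < S.R := by omega
    have e : ∀ (u : Fin n → ℝ) (l1 : Path n S.D), ∑ l2 : Path n S.R,
        lw S J b F u (l1, l2) * (G (u, l1, l2) * cinc S J b F (u, l1, l2) k i) = 0 := fun u l1 => by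
      have h0 := pex_inc_zero J (fun j => b j + obsField S.t (st F l1 S.D) u j) hn i hk (st F l1 S.D)
        (fun l2 => G (u, l1, l2)) fun l2 l2' hl => hG _ _
          ⟨fun _ _ => rfl, fun _ => rfl, fun j hj => hl j (by omega)⟩
      simp only [pex] at h0
      simp only [cinc, dif_neg h, lw, mul_assoc, ← Finset.mul_sum] at h0 ⊢
      rw [h0, mul_zero]
    simp [lex_def, Fintype.sum_prod_type, e]

end Copy

/-! ### the experiment -/

variable (S : Sched) (J : Fin n → Fin n → ℝ) (b : Fin n → ℝ)

/-- replace the noise of the copy `(p, c)` -/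
noncomputable def updN (z : Noise S n) (p : Fin S.P) (c : Bool) (u : Fin n → ℝ) : Noise S n :=
  fun q => if (q.1, q.2.1) = (p, c) then u q.2.2 else z q

/-- replace the attempts of the copy `(p, c)` -/
def updO (ω : Out S n) (p : Fin S.P) (c : Bool) (l : Leg S n) : Out S n :=
  Function.update ω p (Function.update (ω p) c l)

section Upd

variable {S} (x : Cfg n) (z : Noise S n) (ω : Out S n) (p : Fin S.P) (c : Bool) (u : Fin n → ℝ) (l : Leg S n)

@[simp] lemma noise_updN_self : noise S (updN S z p c u) p c = u := by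
  funext i; simp [noise, updN]

lemma noise_updN_ne {q : Fin S.P} {d : Bool} (h : (q, d) ≠ (p, c)) :
    noise S (updN S z p c u) q d = noise S z q d := by
  funext i; simp [noise, updN, h]

@[simp] lemma updO_self : updO S ω p c l p c = l := by simp [updO]

lemma updO_ne {q : Fin S.P} {d : Bool} (h : (q, d) ≠ (p, c)) : updO S ω p c l q d = ω q d := by
  by_cases hq : q = p
  · subst hq
    have hd : d ≠ c := fun e => h (by rw [e])
    simp [updO, hd]
  · simp [updO, hq]

lemma updO_period_ne {q : Fin S.P} (h : q ≠ p) : updO S ω p c l q = ω q := by simp [updO, h]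

lemma updO_updO_self : updO S (updO S ω p c l) p c (ω p c) = ω := by
  funext q d
  by_cases h : (q, d) = (p, c)
  · cases h; simp
  · rw [updO_ne _ _ _ _ h, updO_ne _ _ _ _ h]

@[simp] lemma copy_upd_self : copy S (updN S z p c u) (updO S ω p c l) p c = (u, l) := by
  simp [copy]

lemma copy_upd_ne {q : Fin S.P} {d : Bool} (h : (q, d) ≠ (p, c)) :
    copy S (updN S z p c u) (updO S ω p c l) q d = copy S z ω q d := by
  simp [copy, noise_updN_ne z p c u h, updO_ne ω p c l h]

lemma measurable_updN : Measurable (fun q : Noise S n × (Fin n → ℝ) => updN S q.1 p c q.2) := by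
  refine measurable_pi_lambda _ fun q => ?_
  simp only [updN]
  split_ifs <;> fun_prop

lemma measurable_noise : Measurable (fun z : Noise S n => noise S z p c) := by
  unfold noise; fun_prop

end Upd

section Law

variable {S}

/-- the starting configuration of a period only depends on the earlier attempts on the main path -/
lemma origin_congr (x : Cfg n) {ω ω' : Out S n} :
    ∀ {m : ℕ}, (∀ q : Fin S.P, (q : ℕ) < m → (ω q true).1 = (ω' q true).1) →
      origin S x ω m = origin S x ω' m
  | 0, _ => rfl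
  | m + 1, h => by
    simp only [origin]
    rw [origin_congr x fun q hq => h q (by omega)]
    split_ifs with hm
    · rw [h ⟨m, hm⟩ (by simp)]
    · rfl

lemma origin_updO (x : Cfg n) (ω : Out S n) (p : Fin S.P) (c : Bool) (l : Leg S n) {m : ℕ}
    (h : c = false ∨ m ≤ p) : origin S x (updO S ω p c l) m = origin S x ω m := by
  refine origin_congr x fun q hq => ?_
  rw [updO_ne]
  rintro e
  rcases h with h | h
  · simp [h] at e
  · exact absurd (congrArg (fun r => ((r.1 : Fin S.P) : ℕ)) e) (by simp only; omega)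

lemma origin_succ (x : Cfg n) (z : Noise S n) (ω : Out S n) (p : Fin S.P) :
    origin S x ω ((p : ℕ) + 1) = st (origin S x ω p) (copy S z ω p true).2.1 S.D := by
  simp [origin, p.2, copy]

variable (S)

/-- weight with only the copies in `A` following their law, the others uniform -/
noncomputable def twA (A : Finset (Fin S.P × Bool)) (x : Cfg n) (z : Noise S n) (ω : Out S n) : ℝ :=
  ∏ q : Fin S.P × Bool, if q ∈ A then lw S J b (origin S x ω q.1) (noise S z q.1 q.2) (ω q.1 q.2)
    else (Fintype.card (Leg S n) : ℝ)⁻¹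

lemma tw'_eq_twA (x : Cfg n) (z : Noise S n) (ω : Out S n) :
    tw' S J b x z ω = twA S J b Finset.univ x z ω := by
  simp only [tw', twA, Finset.mem_univ, if_true]
  rw [Fintype.prod_prod_type]
  rfl

theorem tw'_nonneg (x : Cfg n) (z : Noise S n) (ω : Out S n) : 0 ≤ tw' S J b x z ω :=
  Finset.prod_nonneg fun _ _ => Finset.prod_nonneg fun _ _ =>
    mul_nonneg (pw_nonneg _ _ _ _) (pw_nonneg _ _ _ _)

/-- remaining factor of `twA` after removing the copy `q₀` -/
noncomputable def twR (A : Finset (Fin S.P × Bool)) (q₀ : Fin S.P × Bool) (x : Cfg n) (z : Noise S n)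
    (ω : Out S n) : ℝ :=
  ∏ q ∈ Finset.univ.erase q₀, if q ∈ A then lw S J b (origin S x ω q.1) (noise S z q.1 q.2) (ω q.1 q.2)
    else (Fintype.card (Leg S n) : ℝ)⁻¹

variable {S J b}

lemma twA_eq_mul {A : Finset (Fin S.P × Bool)} {q₀ : Fin S.P × Bool} (x : Cfg n) (z : Noise S n)
    (ω : Out S n) (h : q₀ ∈ A) : twA S J b A x z ω =
      lw S J b (origin S x ω q₀.1) (noise S z q₀.1 q₀.2) (ω q₀.1 q₀.2) * twR S J b A q₀ x z ω := by
  rw [twA, twR, ← Finset.mul_prod_erase _ _ (Finset.mem_univ q₀), if_pos h]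

lemma twA_erase {A : Finset (Fin S.P × Bool)} {q₀ : Fin S.P × Bool} (x : Cfg n) (z : Noise S n)
    (ω : Out S n) : twA S J b (A.erase q₀) x z ω =
      (Fintype.card (Leg S n) : ℝ)⁻¹ * twR S J b A q₀ x z ω := by
  rw [twA, twR, ← Finset.mul_prod_erase _ _ (Finset.mem_univ q₀), if_neg (Finset.notMem_erase q₀ A)]
  congr 1
  exact Finset.prod_congr rfl fun q hq => by
    simp [Finset.mem_erase, Finset.ne_of_mem_erase hq]

/-- changing the copy `(p, c)` does not affect the other active factors -/
def Free (A : Finset (Fin S.P × Bool)) (p : Fin S.P) (c : Bool) : Prop :=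
  c = false ∨ ∀ q ∈ A, q.1 ≤ p

lemma twR_upd {A : Finset (Fin S.P × Bool)} {p : Fin S.P} {c : Bool} (h : Free A p c) (x : Cfg n)
    (z : Noise S n) (ω : Out S n) (u : Fin n → ℝ) (l : Leg S n) :
    twR S J b A (p, c) x (updN S z p c u) (updO S ω p c l) = twR S J b A (p, c) x z ω := by
  refine Finset.prod_congr rfl fun q hq => ?_
  split_ifs with hA
  · have hne : (q.1, q.2) ≠ (p, c) := Finset.ne_of_mem_erase hq
    rw [origin_updO x ω p c l (h.imp id fun h' => Fin.le_def.1 (h' q hA)), noise_updN_ne z p c u hne,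
      updO_ne ω p c l hne]
  · rfl

lemma sum_updO (p : Fin S.P) (c : Bool) (H : Out S n → ℝ) :
    ∑ ω, ∑ l : Leg S n, H (updO S ω p c l) = Fintype.card (Leg S n) * ∑ ω, H ω := by
  let e : Out S n × Leg S n → Out S n × Leg S n := fun v => (updO S v.1 p c v.2, v.1 p c)
  have he : Function.Involutive e := fun v => by simp [e, updO_updO_self]
  have h := Fintype.sum_equiv he.toPerm (fun v => H (e v).1) (fun v => H v.1) fun v => rfl
  simp only [e] at h
  rw [Fintype.sum_prod_type, Fintype.sum_prod_type] at h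
  rw [h, Finset.mul_sum]
  simp

/-- summing out one copy -/
lemma sum_twA {A : Finset (Fin S.P × Bool)} {p : Fin S.P} {c : Bool} (h : (p, c) ∈ A) (hf : Free A p c)
    (x : Cfg n) (z : Noise S n) (F : Out S n → ℝ) :
    (Fintype.card (Leg S n) : ℝ) * ∑ ω, twA S J b A x z ω * F ω =
      ∑ ω, twR S J b A (p, c) x z ω *
        ∑ l, lw S J b (origin S x ω p) (noise S z p c) l * F (updO S ω p c l) := by
  rw [← sum_updO p c]
  refine Finset.sum_congr rfl fun ω _ => ?_
  rw [Finset.mul_sum]
  refine Finset.sum_congr rfl fun l _ => ?_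
  have hR : twR S J b A (p, c) x z (updO S ω p c l) = twR S J b A (p, c) x z ω := by
    have := twR_upd (J := J) (b := b) hf x z ω (noise S z p c) l
    rwa [show updN S z p c (noise S z p c) = z by
      funext q
      simp only [updN]
      split_ifs with e
      · obtain ⟨q1, q2, i⟩ := q
        cases e
        rfl
      · rfl] at this
  rw [twA_eq_mul x z _ h, hR, updO_self, origin_updO x ω p c l (Or.inr le_rfl)]
  ring

lemma card_leg_ne (hn : 0 < n) : (Fintype.card (Leg S n) : ℝ) ≠ 0 := by
  have : Nonempty (Move n) := ⟨(⟨0, hn⟩, true)⟩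
  exact Nat.cast_ne_zero.2 Fintype.card_ne_zero

variable (J b) in
/-- periods on which a functional does not depend can be made uniform -/
lemma sum_twA_filter (hn : 0 < n) (x : Cfg n) (z : Noise S n) (m : ℕ) (F : Out S n → ℝ)
    (hF : ∀ ω ω' : Out S n, (∀ q : Fin S.P, (q : ℕ) < m → ω q = ω' q) → F ω = F ω')
    (A : Finset (Fin S.P × Bool)) :
    ∑ ω, twA S J b A x z ω * F ω = ∑ ω, twA S J b (A.filter (·.1.1 < m)) x z ω * F ω := by
  induction A using Finset.induction_on_max_value (f := fun q : Fin S.P × Bool => q.1) with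
  | empty => simp
  | insert q s hq hle ih =>
    by_cases hm : (q.1 : ℕ) < m
    · rw [Finset.filter_true_of_mem]
      intro q' hq'
      rcases Finset.mem_insert.1 hq' with rfl | hq'
      · exact hm
      · exact lt_of_le_of_lt (Fin.le_def.1 (hle q' hq')) hm
    · rw [Finset.filter_insert, if_neg (by simpa using hm), ← ih]
      have hF' : ∀ ω l, F (updO S ω q.1 q.2 l) = F ω := fun ω l =>
        hF _ _ fun r hr => updO_period_ne ω q.1 q.2 l fun e => hm (e ▸ hr)
      have hf : Free (insert q s) q.1 q.2 := Or.inr fun r hr =>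
        (Finset.mem_insert.1 hr).elim (fun e => e ▸ le_rfl) (hle r)
      have h1 := sum_twA (J := J) (b := b) (Finset.mem_insert_self q s) hf x z F
      simp only [hF', ← Finset.sum_mul, lw_sum S J b hn, one_mul] at h1
      refine mul_left_cancel₀ (card_leg_ne hn) (h1.trans ?_)
      conv_rhs => rw [← Finset.erase_insert hq, Finset.mul_sum]
      refine Finset.sum_congr rfl fun ω _ => ?_
      rw [twA_erase, ← mul_assoc, ← mul_assoc, mul_inv_cancel₀ (card_leg_ne hn), one_mul]

variable (S J b) in
theorem tw'_sum (hn : 0 < n) (x : Cfg n) (z : Noise S n) : ∑ ω, tw' S J b x z ω = 1 := by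
  have h := sum_twA_filter J b hn x z 0 (fun _ => 1) (fun _ _ _ => rfl) Finset.univ
  simp only [mul_one] at h
  simp only [tw'_eq_twA, h, Nat.not_lt_zero, Finset.filter_false]
  simp only [twA, Finset.notMem_empty, if_false, Finset.prod_const, Finset.sum_const, nsmul_eq_mul]
  have hc : Fintype.card (Out S n) = Fintype.card (Leg S n) ^ (2 * S.P) := by
    rw [Fintype.card_fun, Fintype.card_fun, Fintype.card_bool, Fintype.card_fin, ← pow_mul]
  have hq : Fintype.card (Fin S.P × Bool) = 2 * S.P := by simp [mul_comm]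
  rw [Finset.card_univ, Finset.card_univ, hc, hq, Nat.cast_pow, ← mul_pow,
    mul_inv_cancel₀ (card_leg_ne hn), one_pow]

variable (S J b) in
theorem tw'_le_one (hn : 0 < n) (x : Cfg n) (z : Noise S n) (ω : Out S n) : tw' S J b x z ω ≤ 1 :=
  (Finset.single_le_sum (fun ω' _ => tw'_nonneg S J b x z ω') (Finset.mem_univ ω)).trans_eq
    (tw'_sum S J b hn x z)

end Law

section Expect

variable (x : Cfg n)

lemma bd_twA (hn : 0 < n) (A : Finset (Fin S.P × Bool)) :
    Bd (fun z ω => twA S J b A x z ω) := fun ω => by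
  constructor
  · refine Finset.measurable_prod _ fun q _ => ?_
    split_ifs
    · exact (continuous_lw S J b _ _).measurable.comp (measurable_noise q.1 q.2)
    · exact measurable_const
  · refine ⟨∏ _q : Fin S.P × Bool, (1 : ℝ), fun z => ?_⟩
    simp only [twA, Finset.abs_prod]
    refine Finset.prod_le_prod (fun q _ => abs_nonneg _) fun q _ => ?_
    split_ifs
    · exact abs_lw_le S J b hn _ _ _
    · rw [abs_inv, Nat.abs_cast]
      exact Nat.cast_inv_le_one _

lemma bd_tw' (hn : 0 < n) : Bd (fun z ω => tw' S J b x z ω) := by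
  simp only [tw'_eq_twA]; exact bd_twA S J b x hn _

lemma integrable_tex (hn : 0 < n) {F : Noise S n → Out S n → ℝ} (hF : Bd F) :
    Integrable (fun z => ∑ ω, tw' S J b x z ω * F z ω) (gauss (Fin S.P × Bool × Fin n)) :=
  integrable_finsetSum _ fun ω _ => ((bd_tw' S J b x hn).mul hF).integrable _ ω

theorem tex_const (hn : 0 < n) (c : ℝ) : tex S J b x (fun _ _ => c) = c := by
  simp [tex, ← Finset.sum_mul, tw'_sum S J b hn]

theorem tex_one (hn : 0 < n) : tex S J b x (fun _ _ => 1) = 1 := tex_const S J b x hn 1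

theorem tex_const_mul (c : ℝ) (F : Noise S n → Out S n → ℝ) :
    tex S J b x (fun z ω => c * F z ω) = c * tex S J b x F := by
  simp only [tex, mul_left_comm _ c, ← Finset.mul_sum, integral_const_mul]

theorem tex_neg (F : Noise S n → Out S n → ℝ) :
    tex S J b x (fun z ω => -F z ω) = -tex S J b x F := by
  simpa using tex_const_mul S J b x (-1) F

theorem tex_add (hn : 0 < n) {F G : Noise S n → Out S n → ℝ} (hF : Bd F) (hG : Bd G) :
    tex S J b x (fun z ω => F z ω + G z ω) = tex S J b x F + tex S J b x G := by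
  simp only [tex, mul_add, Finset.sum_add_distrib]
  exact integral_add (integrable_tex S J b x hn hF) (integrable_tex S J b x hn hG)

theorem tex_sub (hn : 0 < n) {F G : Noise S n → Out S n → ℝ} (hF : Bd F) (hG : Bd G) :
    tex S J b x (fun z ω => F z ω - G z ω) = tex S J b x F - tex S J b x G := by
  simp only [tex, mul_sub, Finset.sum_sub_distrib]
  exact integral_sub (integrable_tex S J b x hn hF) (integrable_tex S J b x hn hG)

theorem tex_sum (hn : 0 < n) {κ : Type*} (s : Finset κ) {F : κ → Noise S n → Out S n → ℝ}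
    (hF : ∀ k ∈ s, Bd (F k)) :
    tex S J b x (fun z ω => ∑ k ∈ s, F k z ω) = ∑ k ∈ s, tex S J b x (F k) := by
  simp only [tex, Finset.mul_sum]
  rw [← integral_finsetSum _ fun k hk => integrable_tex S J b x hn (hF k hk)]
  exact integral_congr_ae (Filter.Eventually.of_forall fun u => Finset.sum_comm)

theorem tex_mono (hn : 0 < n) {F G : Noise S n → Out S n → ℝ} (hF : Bd F) (hG : Bd G)
    (h : ∀ z ω, F z ω ≤ G z ω) : tex S J b x F ≤ tex S J b x G := by
  simp only [tex]
  exact integral_mono (integrable_tex S J b x hn hF) (integrable_tex S J b x hn hG) fun z =>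
    Finset.sum_le_sum fun ω _ => mul_le_mul_of_nonneg_left (h _ _) (tw'_nonneg S J b x z ω)

theorem tex_nonneg {F : Noise S n → Out S n → ℝ} (h : ∀ z ω, 0 ≤ F z ω) : 0 ≤ tex S J b x F :=
  integral_nonneg fun z => Finset.sum_nonneg fun ω _ => mul_nonneg (tw'_nonneg S J b x z ω) (h z ω)

theorem abs_tex_le (hn : 0 < n) {F : Noise S n → Out S n → ℝ} (hF : Bd F) :
    |tex S J b x F| ≤ tex S J b x (fun z ω => |F z ω|) :=
  abs_le.2 ⟨neg_le.1 (by rw [← tex_neg]; exact tex_mono S J b x hn hF.neg hF.abs fun z ω => neg_le_abs _),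
    tex_mono S J b x hn hF hF.abs fun z ω => le_abs_self _⟩

/-- the noise of one copy can be drawn afresh -/
lemma measurePreserving_updN (p : Fin S.P) (c : Bool) :
    MeasurePreserving (fun q : Noise S n × (Fin n → ℝ) => updN S q.1 p c q.2)
      ((gauss (Fin S.P × Bool × Fin n)).prod (gauss (Fin n))) (gauss (Fin S.P × Bool × Fin n)) := by
  classical
  refine ⟨measurable_updN p c, (Measure.pi_eq fun s hs => ?_).symm⟩
  rw [Measure.map_apply (measurable_updN p c) (MeasurableSet.univ_pi hs)]
  have e : (fun q : Noise S n × (Fin n → ℝ) => updN S q.1 p c q.2) ⁻¹' Set.univ.pi s =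
      (Set.univ.pi fun q => if (q.1, q.2.1) = (p, c) then Set.univ else s q) ×ˢ
        (Set.univ.pi fun i => s (p, c, i)) := by
    ext v
    simp only [Set.mem_preimage, Set.mem_univ_pi, Set.mem_prod]
    constructor
    · intro h
      refine ⟨fun q => ?_, fun i => by simpa [updN] using h (p, c, i)⟩
      have := h q
      simp only [updN] at this
      split_ifs with hq
      · trivial
      · rwa [if_neg hq] at this
    · rintro ⟨h, hu⟩ q
      simp only [updN]
      split_ifs with hq
      · obtain ⟨q1, q2, i⟩ := q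
        cases hq
        exact hu i
      · simpa [hq] using h q
  rw [e, Measure.prod_prod, gauss, gauss, Measure.pi_pi, Measure.pi_pi]
  have split : ∀ f : Fin S.P × Bool × Fin n → ENNReal,
      ∏ q, f q = ∏ q : Fin S.P × Bool, ∏ i, f (q.1, q.2, i) := fun f => by
    simp only [Fintype.prod_prod_type]
  rw [split, split]
  rw [Fintype.prod_eq_mul_prod_compl (p, c), Fintype.prod_eq_mul_prod_compl (p, c)
    (fun q : Fin S.P × Bool => ∏ i, ProbabilityTheory.gaussianReal 0 1 (s (q.1, q.2, i)))]
  simp only [if_true, measure_univ, Finset.prod_const_one, one_mul]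
  rw [mul_comm]
  congr 1
  refine Finset.prod_congr rfl fun q hq => Finset.prod_congr rfl fun i _ => ?_
  rw [if_neg (by simpa using hq)]

lemma Bd.upd {S : Sched} {F : Noise S n → Out S n → ℝ} (hF : Bd F) (p : Fin S.P) (c : Bool) (ω : Out S n) :
    Bd (fun (q : Noise S n × (Fin n → ℝ)) (l : Leg S n) => F (updN S q.1 p c q.2) (updO S ω p c l)) :=
  hF.comp (measurable_updN p c) _

lemma cbd_upd {S : Sched} {F : Noise S n → Out S n → ℝ} (hF : Bd F) (z : Noise S n) (ω : Out S n)
    (p : Fin S.P) (c : Bool) : CBd S (fun a => F (updN S z p c a.1) (updO S ω p c a.2)) :=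
  (hF.upd p c ω).comp (π := fun u => (z, u)) (by fun_prop) id

/-- conditional mean given everything but the copy `(p, c)` -/
noncomputable def cond (p : Fin S.P) (c : Bool) (F : Noise S n → Out S n → ℝ) (z : Noise S n)
    (ω : Out S n) : ℝ :=
  lex S J b (origin S x ω p) fun a => F (updN S z p c a.1) (updO S ω p c a.2)

lemma bd_cond (hn : 0 < n) (p : Fin S.P) (c : Bool) {F : Noise S n → Out S n → ℝ} (hF : Bd F) :
    Bd (cond S J b x p c F) := fun ω => by
  have hm : Measurable fun q : Noise S n × (Fin n → ℝ) => ∑ l : Leg S n,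
      lw S J b (origin S x ω p) q.2 l * F (updN S q.1 p c q.2) (updO S ω p c l) :=
    Finset.measurable_sum _ fun l _ =>
      ((continuous_lw S J b _ l).measurable.comp measurable_snd).mul ((hF.upd p c ω) l).1
  refine ⟨(hm.stronglyMeasurable.integral_prod_right' (ν := gauss (Fin n))).measurable, ?_⟩
  have := fun l => (hF (updO S ω p c l)).2
  choose C hC using this
  refine ⟨∑ l, |C l|, fun z => abs_lex_le_bound S J b hn _ fun a => (hC a.2 _).trans ?_⟩
  exact (le_abs_self _).trans (Finset.single_le_sum (fun l _ => abs_nonneg (C l)) (Finset.mem_univ a.2))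

/-- `(p, c)` may be drawn afresh for a weight with active copies `A` -/
lemma integral_twA_cond (hn : 0 < n) {A : Finset (Fin S.P × Bool)} {p : Fin S.P} {c : Bool}
    (h : (p, c) ∈ A) (hf : Free A p c) {F : Noise S n → Out S n → ℝ} (hF : Bd F) :
    ∫ z, ∑ ω, twA S J b A x z ω * F z ω ∂gauss (Fin S.P × Bool × Fin n) =
      ∫ z, ∑ ω, twA S J b A x z ω * cond S J b x p c F z ω ∂gauss (Fin S.P × Bool × Fin n) := by
  have key : ∀ {G : Noise S n → Out S n → ℝ}, Bd G →
      (Fintype.card (Leg S n) : ℝ) * ∫ z, ∑ ω, twA S J b A x z ω * G z ω ∂gauss (Fin S.P × Bool × Fin n) =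
        ∫ z, ∑ ω, twR S J b A (p, c) x z ω * cond S J b x p c G z ω ∂gauss (Fin S.P × Bool × Fin n) := by
    intro G hG
    have hi : Integrable (fun z => ∑ ω, twA S J b A x z ω * G z ω) (gauss (Fin S.P × Bool × Fin n)) :=
      integrable_finsetSum _ fun ω _ => ((bd_twA S J b x hn A).mul hG).integrable _ ω
    have mp := measurePreserving_updN (n := n) S p c
    have hi2 := (hi.const_mul (Fintype.card (Leg S n) : ℝ))
    rw [← integral_const_mul, ← mp.map_eq,
      integral_map (measurable_updN p c).aemeasurable (by rw [mp.map_eq]; exact hi2.aestronglyMeasurable),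
      mp.map_eq, integral_prod]
    swap
    · exact mp.integrable_comp_of_integrable hi2
    refine integral_congr_ae (Filter.Eventually.of_forall fun z => ?_)
    have e : ∀ u, (Fintype.card (Leg S n) : ℝ) *
        ∑ ω, twA S J b A x (updN S z p c u) ω * G (updN S z p c u) ω =
        ∑ ω, twR S J b A (p, c) x z ω *
          ∑ l, lw S J b (origin S x ω p) u l * G (updN S z p c u) (updO S ω p c l) := fun u => by
      rw [sum_twA h hf x (updN S z p c u) (G (updN S z p c u))]
      refine Finset.sum_congr rfl fun ω _ => ?_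
      rw [noise_updN_self]
      congr 1
      have := twR_upd (J := J) (b := b) hf x z ω u (ω p c)
      rwa [show updO S ω p c (ω p c) = ω by simp [updO]] at this
    simp only [e]
    rw [integral_finsetSum _ fun ω _ => ((cbd_upd hG z ω p c).integrable_lw J b hn _).const_mul _]
    refine Finset.sum_congr rfl fun ω _ => ?_
    rw [integral_const_mul]
    rfl
  refine mul_left_cancel₀ (card_leg_ne (S := S) hn) ((key hF).trans ?_)
  rw [key (bd_cond S J b x hn p c hF)]
  refine integral_congr_ae (Filter.Eventually.of_forall fun z => Finset.sum_congr rfl fun ω _ => ?_)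
  congr 1
  have e : ∀ a : Copy S n, cond S J b x p c F (updN S z p c a.1) (updO S ω p c a.2) =
      cond S J b x p c F z ω := fun a => by
    simp only [cond, origin_updO x ω p c a.2 (Or.inr le_rfl)]
    congr 1
    funext a'
    congr 1
    · funext q; simp only [updN]; split_ifs <;> rfl
    · simp [updO]
  simp only [cond] at e ⊢
  simp only [e, lex_const S J b hn]

/-- a functional does not depend on the attempts of the periods after `p` -/
def Upto (p : Fin S.P) (F : Noise S n → Out S n → ℝ) : Prop :=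
  ∀ z ω ω', (∀ q : Fin S.P, q ≤ p → ω q = ω' q) → F z ω = F z ω'

/-- one copy is an independent sample given the rest (for a copy on the main path: given the earlier
periods and its sibling) -/
theorem tex_resample (hn : 0 < n) (p : Fin S.P) (c : Bool) {F : Noise S n → Out S n → ℝ} (hF : Bd F)
    (hfut : c = false ∨ Upto S p F) : tex S J b x F = tex S J b x (cond S J b x p c F) := by
  simp only [tex, tw'_eq_twA]
  rcases hfut with rfl | hu
  · exact integral_twA_cond S J b x hn (Finset.mem_univ _) (Or.inl rfl) hF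
  · set A := (Finset.univ : Finset (Fin S.P × Bool)).filter (·.1.1 < (p : ℕ) + 1)
    have hlt : ∀ {q : Fin S.P}, q ≤ p ↔ (q : ℕ) < (p : ℕ) + 1 := by
      intro q; rw [Fin.le_def]; omega
    have hG : ∀ z ω ω', (∀ q : Fin S.P, (q : ℕ) < (p : ℕ) + 1 → ω q = ω' q) →
        cond S J b x p c F z ω = cond S J b x p c F z ω' := fun z ω ω' he => by
      simp only [cond]
      rw [origin_congr x fun q hq => by rw [he q (by omega)]]
      congr 1
      funext a
      refine hu _ _ _ fun q hq => ?_
      by_cases hqp : q = p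
      · subst hqp; simp [updO, he q (hlt.1 hq)]
      · simp [updO, hqp, he q (hlt.1 hq)]
    simp only [fun z => sum_twA_filter J b hn x z _ (F z) (fun ω ω' he => hu z ω ω' fun q hq =>
        he q (hlt.1 hq)) Finset.univ,
      fun z => sum_twA_filter J b hn x z _ (cond S J b x p c F z) (hG z) Finset.univ]
    exact integral_twA_cond S J b x hn (by simp) (Or.inr fun q hq => hlt.2 (Finset.mem_filter.1 hq).2) hF

/-- `G` only depends on the periods before `p` -/
def Past (p : Fin S.P) (G : Noise S n → Out S n → ℝ) : Prop :=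
  ∀ z z' ω ω', (∀ q : Fin S.P, q < p → ω q = ω' q ∧ ∀ c, noise S z q c = noise S z' q c) →
    G z ω = G z' ω'

lemma bd_origin {p : ℕ} {X : Cfg n → Copy S n → Copy S n → ℝ} (hX : ∀ F, CBd2 S (X F)) (q : Fin S.P) :
    Bd (fun z ω => X (origin S x ω p) (copy S z ω q true) (copy S z ω q false)) := fun ω =>
  ⟨((hX (origin S x ω p) (ω q true, ω q false)).1.comp
    ((measurable_noise q true).prodMk (measurable_noise q false))),
    ((hX (origin S x ω p) (ω q true, ω q false)).2).imp fun _ hC z => hC (noise S z q true, noise S z q false)⟩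

variable {S} in
lemma bd_at {p : ℕ} {X : Cfg n → Copy S n → ℝ} (hX : ∀ F, CBd S (X F)) (q : Fin S.P) (c : Bool) :
    Bd (fun z ω => X (origin S x ω p) (copy S z ω q c)) := fun ω =>
  ⟨(hX (origin S x ω p) (ω q c)).1.comp (measurable_noise q c),
    (hX (origin S x ω p) (ω q c)).2.imp fun _ hC z => hC (noise S z q c)⟩

variable {S} in
lemma upto_at (X : Cfg n → Copy S n → ℝ) {p q : Fin S.P} (h : q ≤ p) (c : Bool) :
    Upto S p (fun z ω => X (origin S x ω q) (copy S z ω q c)) := fun z ω ω' he => by
  dsimp only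
  rw [origin_congr x fun r hr => by rw [he r ((Fin.le_def.2 hr.le).trans h)]]
  simp only [copy, he q h]

variable {S} in
lemma past_at (X : Cfg n → Copy S n → Copy S n → ℝ) {p q : Fin S.P} (h : q < p) :
    Past S p (fun z ω => X (origin S x ω q) (copy S z ω q true) (copy S z ω q false)) :=
  fun z z' ω ω' he => by
  dsimp only
  rw [origin_congr x fun r hr => by rw [(he r (lt_trans (Fin.lt_def.2 hr) h)).1]]
  simp only [copy, (he q h).1, (he q h).2]

variable {S} in
lemma Upto.mul {p : Fin S.P} {F G : Noise S n → Out S n → ℝ} (hF : Upto S p F) (hG : Upto S p G) :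
    Upto S p (fun z ω => F z ω * G z ω) :=
  fun z ω ω' he => congrArg₂ (· * ·) (hF z ω ω' he) (hG z ω ω' he)

/-- given the past, the two copies of a period are independent samples -/
theorem tex_past (hn : 0 < n) (p : Fin S.P) {G : Noise S n → Out S n → ℝ} (hG : Bd G) (hGp : Past S p G)
    {X : Cfg n → Copy S n → Copy S n → ℝ} (hX : ∀ F, CBd2 S (X F)) :
    tex S J b x (fun z ω => G z ω * X (origin S x ω p) (copy S z ω p true) (copy S z ω p false)) =
      tex S J b x (fun z ω => G z ω * lex2 S J b (origin S x ω p) (X (origin S x ω p))) := by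
  set Φ := fun z ω => G z ω * X (origin S x ω p) (copy S z ω p true) (copy S z ω p false)
  have hΦ : Bd Φ := hG.mul (bd_origin S x hX p)
  have hU : ∀ (z : Noise S n) (ω : Out S n) c (a : Copy S n),
      G (updN S z p c a.1) (updO S ω p c a.2) = G z ω := fun z ω c a => hGp _ _ _ _ fun q hq =>
    ⟨updO_period_ne _ _ _ _ hq.ne, fun d => noise_updN_ne _ _ _ _ fun e => hq.ne (Prod.ext_iff.1 e).1⟩
  have e1 : cond S J b x p false Φ = fun z ω => G z ω *
      lex S J b (origin S x ω p) (X (origin S x ω p) (copy S z ω p true)) := by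
    funext z ω
    simp only [cond, Φ, hU, origin_updO x ω p false _ (Or.inl rfl), copy_upd_self,
      copy_upd_ne z ω p false _ _ (show (p, true) ≠ (p, false) by simp), lex_const_mul]
  have hb1 := bd_cond S J b x hn p false hΦ
  rw [tex_resample S J b x hn p false hΦ (Or.inl rfl), e1]
  rw [e1] at hb1
  rw [tex_resample S J b x hn p true hb1 (Or.inr fun z ω ω' he => ?_)]
  · congr 1
    funext z ω
    simp only [cond, hU, origin_updO x ω p true _ (Or.inr le_rfl), copy_upd_self, lex_const_mul]
    rfl
  · dsimp only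
    rw [hGp z z ω ω' fun q hq => ⟨he q hq.le, fun _ => rfl⟩,
      origin_congr x fun q hq => by rw [he q (Fin.le_def.2 hq.le)]]
    simp only [copy, he p le_rfl]

/-- the starting configuration of a period follows the plain chain -/
theorem tex_origin (hn : 0 < n) : ∀ {p : ℕ}, p ≤ S.P → ∀ g : Cfg n → ℝ,
    tex S J b x (fun _ ω => g (origin S x ω p)) = Kpow J b (p * S.D) g x
  | 0, _, g => by simpa [origin, Kpow] using tex_const S J b x hn (g x)
  | p + 1, hp, g => by
    set q : Fin S.P := ⟨p, hp⟩
    have hX : ∀ F : Cfg n, CBd2 S (fun a _ => g (st F a.2.1 S.D)) := fun F =>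
      Bd.discrete (α := (Fin n → ℝ) × (Fin n → ℝ)) fun l : Leg S n × Leg S n => g (st F l.1.1 S.D)
    have h := tex_past S J b x hn q (G := fun _ _ => 1) (Bd.const 1) (fun _ _ _ _ _ => rfl) hX
    simp only [one_mul, ← origin_succ, lex2, lex_const S J b hn, lex_mid S J b hn] at h
    rw [h, tex_origin hn (Nat.le_of_succ_le hp), Kpow, Kpow, Kpow, ← Function.iterate_add_apply,
      show p * S.D + S.D = (p + 1) * S.D by ring]

/-- the mean of a functional of one period -/
theorem tex_copy (hn : 0 < n) (p : Fin S.P) {X : Cfg n → Copy S n → Copy S n → ℝ}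
    (hX : ∀ F, CBd2 S (X F)) :
    tex S J b x (fun z ω => X (origin S x ω p) (copy S z ω p true) (copy S z ω p false)) =
      Kpow J b (p * S.D) (fun F => lex2 S J b F (X F)) x := by
  have h := tex_past S J b x hn p (G := fun _ _ => 1) (Bd.const 1) (fun _ _ _ _ _ => rfl) hX
  simp only [one_mul] at h
  exact h.trans (tex_origin S J b x hn p.2.le fun F => lex2 S J b F (X F))

/-- an increment of a copy is orthogonal to everything that precedes it in the experiment -/
theorem tex_future_zero (hn : 0 < n) (p : Fin S.P) (c : Bool) (k : Fin (S.D + S.R)) (i : Fin n)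
    {G : Noise S n → Out S n → ℝ} (hG : Bd G) (hfut : c = false ∨ Upto S p G)
    (hpre : ∀ z ω (a a' : Copy S n), Pre S k a a' →
      G (updN S z p c a.1) (updO S ω p c a.2) = G (updN S z p c a'.1) (updO S ω p c a'.2)) :
    tex S J b x (fun z ω => G z ω * cinc S J b (origin S x ω p) (copy S z ω p c) k i) = 0 := by
  have hΦ : Bd (fun z ω => G z ω * cinc S J b (origin S x ω p) (copy S z ω p c) k i) :=
    hG.mul fun ω => ⟨(bd_cinc S J b (origin S x ω p) k i (ω p c)).1.comp (measurable_noise p c),
      2, fun z => abs_cinc_le S J b _ _ k i⟩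
  rw [tex_resample S J b x hn p c hΦ (hfut.imp id fun hu z ω ω' he => by
    dsimp only
    rw [hu z ω ω' he, origin_congr x fun q hq => by rw [he q (Fin.le_def.2 hq.le)]]
    simp only [copy, he p le_rfl])]
  have e : cond S J b x p c (fun z ω => G z ω * cinc S J b (origin S x ω p) (copy S z ω p c) k i) =
      fun _ _ => 0 := by
    funext z ω
    simp only [cond, origin_updO x ω p c _ (Or.inr le_rfl), copy_upd_self]
    exact lex_cinc_zero S J b hn _ k i (fun a => G (updN S z p c a.1) (updO S ω p c a.2)) (hpre z ω)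
  rw [e, tex_const S J b x hn]

end Expect

end Vale.Agent.P150.PA
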