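import Vale.Agent.P150.PA.Field
import Vale.Agent.P150.PA.TapDefs
import Vale.Agent.P150.PA.BlockDrop
import Vale.Agent.P150.PA.TreePath

/-! Centring means of the channel identity: the mean of the spins of a copy at `l` tilted attempts after
the observation is close to the mean at the observation. The tilted chain moves little from the
conditional law at the observation, whose Dirichlet form, averaged over the observation time, is paid
for by the conditional entropy of the start. -/

open MeasureTheory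

namespace Vale.Agent.P150.PA

open Ising

variable {n : ℕ}

/-- density of the law after `d` attempts from `F` -/
noncomputable def condDens (J : Fin n → Fin n → ℝ) (b : Fin n → ℝ) (d : ℕ) (F : Cfg n) : Cfg n → ℝ :=
  Kpow J b d (Pi.single F (wt J b F)⁻¹)

/-- Dirichlet form of the root of the density of the law after `d` attempts from `F` -/
noncomputable def condDir (J : Fin n → Fin n → ℝ) (b : Fin n → ℝ) (d : ℕ) (F : Cfg n) : ℝ :=
  dir J b fun y => Real.sqrt (condDens J b d F y)

variable {J : Fin n → Fin n → ℝ} {b : Fin n → ℝ}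

namespace Centre

open FieldAux

lemma point_nonneg (F y : Cfg n) : 0 ≤ (Pi.single F (wt J b F)⁻¹ : Cfg n → ℝ) y := by
  rcases eq_or_ne y F with rfl | h
  · simp [(wt_pos J b y).le]
  · simp [h]

lemma dens_nonneg (d : ℕ) (F y : Cfg n) : 0 ≤ condDens J b d F y :=
  Pair.Kpow_nonneg (point_nonneg F) d y

lemma dir_nonneg (g : Cfg n → ℝ) : 0 ≤ dir J b g :=
  Finset.sum_nonneg fun i _ => Finset.sum_nonneg fun x _ =>
    mul_nonneg (wt_pos J b x).le (mul_nonneg (mag_sq J b i x).1 (sq_nonneg _))

lemma Kpow_const (hn : 0 < n) (k : ℕ) (c : ℝ) : Kpow J b k (fun _ => c) = fun _ => c := by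
  induction k with
  | zero => rfl
  | succ k ih =>
    rw [Pair.Kpow_succ, ih]
    funext y
    simp [K, qb_const, hn.ne']

lemma Kpow_finsetSum {ι : Type*} (s : Finset ι) (k : ℕ) (φ : ι → Cfg n → ℝ) (x : Cfg n) :
    Kpow J b k (fun y => ∑ a ∈ s, φ a y) x = ∑ a ∈ s, Kpow J b k (φ a) x := by
  induction k generalizing x with
  | zero => rfl
  | succ k ih =>
    simp only [Pair.Kpow_succ, funext ih, K, qb_eq, Finset.mul_sum, ← Finset.sum_add_distrib, Finset.sum_div]
    exact Finset.sum_comm

lemma le_sqrt_of_forall {X a : ℝ} (ha : 0 ≤ a) (h : ∀ s, 0 < s → X ≤ (s * a + 1 / s) / 2) :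
    X ≤ Real.sqrt a := by
  refine le_of_forall_pos_le_add fun η hη => ?_
  have hd : 0 < Real.sqrt a + η := by positivity
  refine (h (1 / (Real.sqrt a + η)) (by positivity)).trans ?_
  rw [one_div_one_div, one_div_mul_eq_div]
  have h2 : a / (Real.sqrt a + η) ≤ Real.sqrt a + η := by
    rw [div_le_iff₀ hd]
    nlinarith [Real.mul_self_sqrt ha, Real.sqrt_nonneg a]
  linarith

lemma amgm {u v s : ℝ} (hu : 0 ≤ u) (hv : 0 ≤ v) (hs : 0 < s) :
    Real.sqrt u * Real.sqrt v ≤ (s * u + v / s) / 2 := by
  rw [le_div_iff₀ (by norm_num : (0 : ℝ) < 2)]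
  have h := div_nonneg (sq_nonneg (s * Real.sqrt u - Real.sqrt v)) hs.le
  have e : (s * Real.sqrt u - Real.sqrt v) ^ 2 / s = s * u + v / s - Real.sqrt u * Real.sqrt v * 2 := by
    have h1 := Real.mul_self_sqrt hu
    have h2 := Real.mul_self_sqrt hv
    field_simp
    linear_combination s ^ 2 * h1 + h2
  linarith

lemma stat_unnormalised {L A : ℝ} (hJ : Tame J L) (hn : 0 < n) {c : Fin n → ℝ} {f : Cfg n → ℝ}
    (hf : ∀ x, 0 ≤ f x) (hZ : 0 < ∑ x, wt J c x * f x) {h : Cfg n → ℝ} (hA : ∀ y, gam h y ≤ A) (l : ℕ) :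
    |∑ x, wt J c x * (f x * (Kpow J c l h x - h x))| ≤
      4 * l / n * Real.sqrt ((1 + gradC L / n) ^ l * A) *
        (Real.sqrt (dir J c fun x => Real.sqrt (f x)) * Real.sqrt (∑ x, wt J c x * f x)) := by
  set Z := ∑ x, wt J c x * f x with hZd
  set r := 1 + gradC L / (n : ℝ) with hr
  have hA0 : ∀ y : Cfg n, 0 ≤ A := fun y => (gam_nonneg h y).trans (hA y)
  have hr1 : 1 ≤ r := le_add_of_nonneg_right (div_nonneg (gradC_nonneg L) (Nat.cast_nonneg n))
  have h1 := stat_iter (b := c) hJ.symm hJ.diag hn (f := fun x => f x / Z)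
    (fun x => div_nonneg (hf x) hZ.le)
    (by simp only [← mul_div_assoc, ← Finset.sum_div]; exact div_self hZ.ne') h (k := l) (A := r ^ l * A)
    fun j hj y => (gam_Kpow_le c hJ hA j y).trans
      (mul_le_mul_of_nonneg_right (pow_le_pow_right₀ hr1 hj.le) (hA0 y))
  have e1 : ∑ x, wt J c x * (f x / Z * (Kpow J c l h x - h x)) =
      (∑ x, wt J c x * (f x * (Kpow J c l h x - h x))) / Z := by
    rw [Finset.sum_div]; exact Finset.sum_congr rfl fun x _ => by ring
  have e2 : dir J c (fun x => Real.sqrt (f x / Z)) = dir J c (fun x => Real.sqrt (f x)) / Z := by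
    simp only [dir, Finset.sum_div]
    refine Finset.sum_congr rfl fun i _ => Finset.sum_congr rfl fun x _ => ?_
    have e : dd i (fun x => Real.sqrt (f x / Z)) x = dd i (fun x => Real.sqrt (f x)) x / Real.sqrt Z := by
      simp only [dd, Real.sqrt_div' _ hZ.le]; ring
    rw [e, div_pow, Real.sq_sqrt hZ.le]; ring
  rw [e1, e2, abs_div, abs_of_pos hZ, div_le_iff₀ hZ, Real.sqrt_div' _ hZ.le] at h1
  refine h1.trans (le_of_eq ?_)
  have h2 := Real.mul_self_sqrt hZ.le
  have h3 := (Real.sqrt_pos.2 hZ).ne'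
  field_simp
  linear_combination (-(l : ℝ) * Real.sqrt (dir J c fun x => Real.sqrt (f x))) * Real.sqrt (r ^ l * A) * h2

/-- the chain in the field of the observation moves little from the law of the observed configuration -/
theorem tilt_stat {L A t : ℝ} (hJ : Tame J L) (hn : 0 < n) (ht : 0 ≤ t) {f : Cfg n → ℝ} (hf : ∀ x, 0 ≤ f x)
    (hmean : ∑ x, wt J b x * f x = 1) {h : Cfg n → ℝ} (hA : ∀ y, gam h y ≤ A) (l : ℕ) :
    |∫ z, ∑ x, wt J b x * (f x * (Kpow J (b + yob t x z) l h x - h x)) ∂gauss (Fin n)| ≤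
      4 * l / n * Real.sqrt ((1 + gradC L / n) ^ l * A) * Real.sqrt (dir J b fun x => Real.sqrt (f x)) := by
  set κ := 4 * (l : ℝ) / n * Real.sqrt ((1 + gradC L / n) ^ l * A) with hκ
  set g := fun x => Real.sqrt (f x) with hg
  set m := fun z => mix (wt J b) (fun (y : Cfg n) i => spin (y i)) (Real.sqrt t) z with hm
  have hκ0 : 0 ≤ κ := by positivity
  have hm0 : ∀ z, 0 < m z := fun z => mix_pos (fun x => wt_pos J b x) _ _ z
  have him : Integrable m (gauss (Fin n)) :=
    integrable_of_bound (continuous_mix _ _ _) fun z =>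
      abs_mix_le (A₀ := 1) (fun y k => by cases y k <;> simp [spin]) _ _ z
  have hcw : ∀ x, Continuous fun z => wt J (b + Real.sqrt t • z) x := fun x => by
    unfold wt
    refine Continuous.div ?_ (by unfold qE; fun_prop) fun z =>
      (Finset.sum_pos (fun _ _ => Real.exp_pos _) Finset.univ_nonempty).ne'
    unfold qE; fun_prop
  have hcy : Continuous fun z : Fin n → ℝ => b + Real.sqrt t • z := by fun_prop
  have hwle : ∀ (c : Fin n → ℝ) x, wt J c x ≤ 1 := fun c x => by
    rw [← wt_sum J c]
    exact Finset.single_le_sum (fun y _ => (wt_pos J c y).le) (Finset.mem_univ x)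
  rw [bayes ht (fun x y => f x * (Kpow J (b + y) l h x - h x))
    (fun x => continuous_const.mul (((continuous_Kpow J h l x).comp (by fun_prop)).sub continuous_const))
    (B := (∑ y, f y) * (∑ y, |h y| + ∑ y, |h y|)) fun x y => ?_]
  swap
  · rw [abs_mul, abs_of_nonneg (hf x)]
    exact mul_le_mul (Finset.single_le_sum (fun y _ => hf y) (Finset.mem_univ x))
      ((abs_sub _ _).trans (add_le_add (abs_Kpow_le J _ h l x)
        (Finset.single_le_sum (f := fun y => |h y|) (fun _ _ => abs_nonneg _) (Finset.mem_univ x))))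
      (abs_nonneg _) (Finset.sum_nonneg fun y _ => hf y)
  set Z := fun z => ∑ x, wt J (b + Real.sqrt t • z) x * f x with hZ
  set E := fun z => dir J (b + Real.sqrt t • z) g with hE
  have hZpos : ∀ z, 0 < Z z := fun z => by
    obtain ⟨x, -, hx⟩ := Finset.exists_ne_zero_of_sum_ne_zero (hmean.trans_ne one_ne_zero)
    exact Finset.sum_pos' (fun y _ => mul_nonneg (wt_pos J _ y).le (hf y))
      ⟨x, Finset.mem_univ x, mul_pos (wt_pos J _ x)
        ((hf x).lt_of_ne fun h => hx (by rw [← h, mul_zero]))⟩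
  have iZ : Integrable (fun z => m z * Z z) (gauss (Fin n)) := by
    refine him.mul_bdd (c := ∑ y, f y)
      (continuous_finsetSum _ fun x _ => (hcw x).mul continuous_const).aestronglyMeasurable
      (Filter.Eventually.of_forall fun z => ?_)
    rw [Real.norm_eq_abs, abs_of_pos (hZpos z)]
    exact Finset.sum_le_sum fun x _ => mul_le_of_le_one_left (hf x) (hwle _ x)
  have iE : Integrable (fun z => m z * E z) (gauss (Fin n)) := by
    refine him.mul_bdd (c := ∑ i, ∑ x : Cfg n, dd i g x ^ 2)
      (continuous_finsetSum _ fun i _ => continuous_finsetSum _ fun x _ => (hcw x).mul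
        ((continuous_const.sub (((continuous_mag J i x).comp hcy).pow 2)).mul continuous_const)).aestronglyMeasurable
      (Filter.Eventually.of_forall fun z => ?_)
    rw [Real.norm_eq_abs, abs_of_nonneg (dir_nonneg g)]
    exact Finset.sum_le_sum fun i _ => Finset.sum_le_sum fun x _ =>
      (mul_le_of_le_one_left (mul_nonneg (mag_sq J _ i x).1 (sq_nonneg _)) (hwle _ x)).trans
        (mul_le_of_le_one_left (sq_nonneg _) (mag_sq J _ i x).2)
  have hIZ : ∫ z, m z * Z z ∂gauss (Fin n) = 1 := by
    rw [← bayes ht (fun x _ => f x) (fun x => continuous_const) (B := ∑ y, f y) fun x y => by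
      rw [abs_of_nonneg (hf x)]; exact Finset.single_le_sum (fun y _ => hf y) (Finset.mem_univ x)]
    simp [hmean]
  have hIE : ∫ z, m z * E z ∂gauss (Fin n) ≤ dir J b g := tilt_dir_post (b := b) hJ.symm hJ.diag ht g
  set X := fun z => m z * ∑ x, wt J (b + Real.sqrt t • z) x *
    (f x * (Kpow J (b + Real.sqrt t • z) l h x - h x)) with hX
  rcases hκ0.lt_or_eq with hκp | hκz
  · rw [mul_comm κ, ← div_le_iff₀ hκp]
    refine le_sqrt_of_forall (dir_nonneg g) fun s hs => ?_
    rw [div_le_iff₀ hκp]
    refine (abs_integral_le_integral_abs (f := X)).trans ?_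
    refine (integral_mono_of_nonneg (Filter.Eventually.of_forall fun z => abs_nonneg _)
      (g := fun z => κ * ((s * (m z * E z) + m z * Z z / s) / 2)) (by fun_prop (disch := assumption))
      (Filter.Eventually.of_forall fun z => ?_)).trans ?_
    · show |X z| ≤ _
      simp only [hX]
      rw [abs_mul, abs_of_pos (hm0 z)]
      refine (mul_le_mul_of_nonneg_left ((stat_unnormalised hJ hn hf (hZpos z) hA l).trans
        (mul_le_mul_of_nonneg_left (amgm (dir_nonneg g) (hZpos z).le hs) hκ0)) (hm0 z).le).trans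
        (le_of_eq ?_)
      simp only [hE, hZ]
      ring
    · rw [integral_const_mul, integral_div, integral_add (iE.const_mul s) (iZ.div_const s),
        integral_const_mul, integral_div, hIZ, mul_comm κ]
      gcongr
  · have h0 : ∀ z, X z = 0 := fun z => by
      have := stat_unnormalised hJ hn hf (hZpos z) hA l
      rw [← hκ, ← hκz, zero_mul] at this
      simp [hX, abs_nonpos_iff.1 this]
    show |∫ z, X z ∂gauss (Fin n)| ≤ _
    simp [h0, ← hκz]

lemma continuous_tilt (t : ℝ) (h : Cfg n → ℝ) (l : ℕ) (p : Cfg n) :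
    Continuous fun z => Kpow J (b + yob t p z) l h p :=
  (continuous_Kpow J h l p).comp (by unfold yob; fun_prop)

lemma integrable_tilt (t : ℝ) (h : Cfg n → ℝ) (l : ℕ) (p : Cfg n) :
    Integrable (fun z => Kpow J (b + yob t p z) l h p) (gauss (Fin n)) :=
  integrable_bdd (continuous_tilt t h l p) fun _ => abs_Kpow_le J _ h l p

/-- mean of a spin after the tilted attempts, given the observed configuration -/
noncomputable def tmean (J : Fin n → Fin n → ℝ) (b : Fin n → ℝ) (t : ℝ) (l : ℕ) (i : Fin n) (p : Cfg n) : ℝ :=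
  ∫ z, Kpow J (b + yob t p z) l (fun y => spin (y i)) p ∂gauss (Fin n)

/-- the means of the spins move little during the tilted attempts -/
theorem shift_sq_le {L t : ℝ} (hJ : Tame J L) (hn : 0 < n) (ht : 0 ≤ t) (d l : ℕ) (F : Cfg n) :
    Real.sqrt (∑ i, (Kpow J b d (tmean J b t l i) F - mean J b d F i) ^ 2) ≤
      4 * l / n * Real.sqrt ((1 + gradC L / n) ^ l) * Real.sqrt (condDir J b d F) := by
  set δ := fun i => Kpow J b d (tmean J b t l i) F - mean J b d F i with hδ
  set φ := fun y : Cfg n => ∑ i, δ i * spin (y i) with hφ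
  set X := ∑ i, δ i ^ 2 with hXd
  set ρ := condDens J b d F with hρ
  have hr0 : (0 : ℝ) ≤ (1 + gradC L / n) ^ l := pow_nonneg (add_nonneg zero_le_one
    (div_nonneg (gradC_nonneg L) (Nat.cast_nonneg n))) l
  have hmean : ∑ y, wt J b y * ρ y = 1 := by
    have h1 := start_density hJ.symm hJ.diag d (fun _ => (1 : ℝ)) F (b := b)
    rw [Kpow_const hn, Ef] at h1
    simpa [hρ, condDens] using h1.symm
  have hlin : ∀ p, ∑ i, δ i * tmean J b t l i p = ∫ z, Kpow J (b + yob t p z) l φ p ∂gauss (Fin n) := fun p => by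
    simp only [hφ, Corr.Kpow_lin, tmean, ← integral_const_mul]
    exact (integral_finsetSum _ fun i _ => (integrable_tilt t _ l p).const_mul _).symm
  have e1 : X = Kpow J b d (fun p => ∑ i, δ i * (tmean J b t l i p - spin (p i))) F := by
    rw [Corr.Kpow_lin]
    refine Finset.sum_congr rfl fun i _ => ?_
    rw [sq, Block.Kpow_sub]
    rfl
  have e2 : X = ∫ z, ∑ p, wt J b p * (ρ p * (Kpow J (b + yob t p z) l φ p - φ p)) ∂gauss (Fin n) := by
    have hi : ∀ p ∈ (Finset.univ : Finset (Cfg n)), Integrable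
        (fun z => wt J b p * (ρ p * (Kpow J (b + yob t p z) l φ p - φ p))) (gauss (Fin n)) := fun p _ =>
      ((((integrable_tilt t φ l p).sub (integrable_const _)).const_mul _).const_mul _)
    rw [e1, start_density hJ.symm hJ.diag, Ef, integral_finsetSum _ hi]
    refine Finset.sum_congr rfl fun p _ => ?_
    rw [integral_const_mul, integral_const_mul, integral_sub (integrable_tilt t φ l p) (integrable_const _),
      integral_const, probReal_univ, one_smul, ← hlin p]
    simp only [hρ, condDens, hφ, mul_sub, Finset.sum_sub_distrib]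
  have h := tilt_stat (b := b) hJ hn ht (dens_nonneg d F) hmean (A := X)
    (fun y => (gam_linear δ y).le) l
  rw [← e2, abs_of_nonneg (Finset.sum_nonneg fun i _ => sq_nonneg _), Real.sqrt_mul hr0] at h
  rcases (Real.sqrt_nonneg X).lt_or_eq with hp | hz
  · refine le_of_mul_le_mul_left ?_ hp
    rw [Real.mul_self_sqrt (Finset.sum_nonneg fun i _ => sq_nonneg _)]
    exact h.trans (le_of_eq (by rw [condDir]; ring))
  · rw [← hz]; positivity

/-- the mean of a spin of a copy after the observation -/
theorem lex_spin (hn : 0 < n) (S : Sched) {l : ℕ} (hl : l ≤ S.R) (F : Cfg n) (i : Fin n) :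
    lex S J b F (fun a => spin (cpos S F a (S.D + l) i)) = Kpow J b S.D (tmean J b S.t l i) F := by
  have e : ∀ a : Copy S n, cpos S F a (S.D + l) = st (st F a.2.1 S.D) a.2.2 l := fun a => by
    unfold cpos
    split_ifs with h
    · obtain rfl : l = 0 := by omega
      rfl
    · rw [Nat.add_sub_cancel_left]
  simp only [lex, e]
  have e2 : ∀ (u : Fin n → ℝ), ∑ a : Leg S n, pw J b F a.1 *
      pw J (fun i => b i + obsField S.t (st F a.1 S.D) u i) (st F a.1 S.D) a.2 *
        spin (st (st F a.1 S.D) a.2 l i) =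
      ∑ q : Path n S.D, pw J b F q *
        Kpow J (b + yob S.t (st F q S.D) u) l (fun y => spin (y i)) (st F q S.D) := fun u => by
    rw [Fintype.sum_prod_type]
    refine Finset.sum_congr rfl fun q _ => ?_
    rw [← pex_st J (b + yob S.t (st F q S.D) u) hn (fun y => spin (y i)) hl, pex, Finset.mul_sum]
    exact Finset.sum_congr rfl fun r _ => by rw [mul_assoc]; rfl
  simp only [e2]
  rw [integral_finsetSum _ fun q _ => (integrable_tilt S.t _ l (st F q S.D)).const_mul _]
  simp only [integral_const_mul]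
  rw [← pex_st J b hn (tmean J b S.t l i) le_rfl]
  rfl

/-- one copy: the squared centring mean is the squared mean at the observation up to the conditional dissipation -/
theorem centre_point {L : ℝ} (hJ : Tame J L) (hn : 0 < n) (S : Sched) (ht : 0 ≤ S.t) {l : ℕ}
    (hl : l ≤ S.R) (F : Cfg n) :
    |(∑ i, lex S J b F (fun a => spin (cpos S F a (S.D + l) i)) ^ 2) / n - qmean J b S.D F| ≤
      8 * l / n * Real.sqrt ((1 + gradC L / n) ^ l) * Real.sqrt (condDir J b S.D F / n) := by
  have hn' : (0 : ℝ) < n := Nat.cast_pos.2 hn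
  simp only [lex_spin hn S hl F]
  set A := fun i => Kpow J b S.D (tmean J b S.t l i) F with hA
  set B := mean J b S.D F with hB
  have hAn : ∑ i, A i ^ 2 ≤ n := Corr.sum_sq_Kpow_le (u := fun i => tmean J b S.t l i) (fun p => by
    refine (Finset.sum_le_sum (g := fun _ => (1 : ℝ)) fun i _ => ?_).trans (by simp)
    rw [sq_le_one_iff_abs_le_one, tmean, ← Real.norm_eq_abs]
    refine (norm_integral_le_of_norm_le_const (C := 1) (Filter.Eventually.of_forall fun z => ?_)).trans
      (by simp)
    have h1 := Block.Kpow_mono (J := J) (b := b + yob S.t p z) (φ := fun y => spin (y i)) (ψ := fun _ => 1)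
      (fun y => by cases y i <;> simp [spin]) l p
    have h2 := Block.Kpow_mono (J := J) (b := b + yob S.t p z) (φ := fun _ => -1) (ψ := fun y => spin (y i))
      (fun y => by cases y i <;> simp [spin]) l p
    rw [Kpow_const hn] at h1 h2
    exact abs_le.2 ⟨h2, h1⟩) S.D F
  have hBn : ∑ i, B i ^ 2 ≤ n := Corr.sum_sq_mean_le S.D F
  have hcs : |∑ i, A i ^ 2 - ∑ i, B i ^ 2| ≤
      Real.sqrt (∑ i, (A i - B i) ^ 2) * (2 * Real.sqrt n) := by
    rw [← Finset.sum_sub_distrib]
    have hAB : ∑ i, (A i + B i) ^ 2 ≤ (2 * Real.sqrt n) ^ 2 := by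
      rw [mul_pow, Real.sq_sqrt hn'.le]
      refine (Finset.sum_le_sum (g := fun i => 2 * A i ^ 2 + 2 * B i ^ 2) fun i _ => ?_).trans ?_
      · nlinarith [sq_nonneg (A i - B i)]
      · rw [Finset.sum_add_distrib, ← Finset.mul_sum, ← Finset.mul_sum]
        linarith
    refine le_trans ?_ (mul_le_mul_of_nonneg_left
      ((Real.sqrt_le_sqrt hAB).trans_eq (Real.sqrt_sq (by positivity))) (Real.sqrt_nonneg _))
    rw [← Real.sqrt_mul (Finset.sum_nonneg fun i _ => sq_nonneg _)]
    refine Real.abs_le_sqrt ?_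
    rw [Finset.sum_congr rfl fun i _ => show A i ^ 2 - B i ^ 2 = (A i - B i) * (A i + B i) by ring]
    exact Finset.sum_mul_sq_le_sq_mul_sq _ _ _
  rw [qmean, ← sub_div, abs_div, abs_of_pos hn', div_le_iff₀ hn']
  refine (hcs.trans (mul_le_mul_of_nonneg_right (shift_sq_le hJ hn ht S.D l F) (by positivity))).trans
    (le_of_eq ?_)
  rw [Real.sqrt_div' _ hn'.le]
  generalize Real.sqrt ((1 + gradC L / (n : ℝ)) ^ l) = a
  have h0 := (Real.sqrt_pos.2 hn').ne'
  field_simp
  linear_combination (8 * (l : ℝ) * a * Real.sqrt (condDir J b S.D F)) *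
    Real.mul_self_sqrt hn'.le

end Centre

/-- entropy per spin of a deterministic start -/
noncomputable def centC (b : Fin n → ℝ) (L : ℝ) : ℝ := Real.log 2 + L + 2 * (∑ i, |b i|) / n

/-- the conditional Dirichlet form averaged over the time of the end and the length is small -/
theorem condDir_avg {L : ℝ} (hJ : Tame J L) (hn : 0 < n) {T D : ℕ} (hD : 0 < D) (hT : 2 * D ≤ T)
    (x : Cfg n) :
    blockAvg T (fun v => blockAvg D fun d => Kpow J b (v - d) (condDir J b d) x) ≤
      2 * (n : ℝ) ^ 2 * centC b L / D := by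
  have hn' : (0 : ℝ) < n := Nat.cast_pos.2 hn
  have hT' : 0 < T := by omega
  set B := (n : ℝ) ^ 2 * centC b L with hB
  have hsum : ∀ F, ∑ d ∈ Finset.Ico D (2 * D), condDir J b d F ≤ B := fun F => by
    refine (Finset.sum_le_sum_of_subset_of_nonneg (t := Finset.range (2 * D))
      (fun d hd => Finset.mem_range.2 (Finset.mem_Ico.1 hd).2) fun d _ _ => Centre.dir_nonneg _).trans ?_
    refine (sum_dir_sqrt hJ.symm hJ.diag hn (Centre.point_nonneg F) (2 * D)).trans ?_
    refine (mul_le_mul_of_nonneg_left (ent_point hJ.op F) hn'.le).trans (le_of_eq ?_)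
    simp only [hB, centC]
    field_simp
  have hpos : ∀ u d, 0 ≤ Kpow J b u (condDir J b d) x := fun u d =>
    Pair.Kpow_nonneg (fun F => Centre.dir_nonneg _) u x
  have h : ∑ v ∈ Finset.Ico T (2 * T), ∑ d ∈ Finset.Ico D (2 * D), Kpow J b (v - d) (condDir J b d) x ≤
      2 * T * B := by
    rw [Finset.sum_comm]
    refine le_trans (b := ∑ d ∈ Finset.Ico D (2 * D), ∑ u ∈ Finset.range (2 * T),
      Kpow J b u (condDir J b d) x) (Finset.sum_le_sum fun d hd => ?_) ?_
    · have hd2 : d ≤ T := (Finset.mem_Ico.1 hd).2.le.trans hT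
      rw [← Finset.sum_image (s := Finset.Ico T (2 * T)) (g := fun v => v - d)
        (f := fun u => Kpow J b u (condDir J b d) x)
        fun a ha c hc e => by
          simp only [Finset.coe_Ico, Set.mem_Ico] at ha hc e
          omega]
      refine Finset.sum_le_sum_of_subset_of_nonneg (fun u hu => ?_) fun u _ _ => hpos u d
      obtain ⟨v, hv, rfl⟩ := Finset.mem_image.1 hu
      simp only [Finset.mem_Ico] at hv
      simp only [Finset.mem_range]
      omega
    · rw [Finset.sum_comm]
      refine (Finset.sum_le_sum (g := fun _ => B) fun u _ => ?_).trans_eq (by simp)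
      rw [← Centre.Kpow_finsetSum]
      exact (Block.Kpow_mono hsum u x).trans_eq (by rw [Centre.Kpow_const hn])
  simp only [blockAvg, ← Finset.sum_div]
  rw [div_div, div_le_div_iff₀ (by positivity) (by positivity)]
  calc (∑ v ∈ Finset.Ico T (2 * T), ∑ d ∈ Finset.Ico D (2 * D), Kpow J b (v - d) (condDir J b d) x) * D
      ≤ 2 * T * B * D := mul_le_mul_of_nonneg_right h (Nat.cast_nonneg D)
    _ = 2 * (n : ℝ) ^ 2 * centC b L * (D * T) := by simp only [hB]; ring

/-- Averaged over the end time `v` and the length `d`, the squared centring means at `l` tilted attempts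
equal the overlap of the mean at lag `d` up to the conditional dissipation. -/
theorem centring {L t : ℝ} (hJ : Tame J L) (hn : 0 < n) (ht : 0 ≤ t) (P R r : ℕ) {l : ℕ} (hl : l ≤ R)
    {T D : ℕ} (hD : 0 < D) (hT : 2 * D ≤ T) (x : Cfg n) :
    blockAvg T (fun v => blockAvg D fun d =>
      |Kpow J b (v - d) (fun F => (∑ i, lex ⟨P, d, R, r, t⟩ J b F
          (fun a => spin (cpos ⟨P, d, R, r, t⟩ F a (d + l) i)) ^ 2) / n) x - qlag J b v d x|) ≤
      8 * l / n * Real.sqrt ((1 + gradC L / n) ^ l) * Real.sqrt (2 * n * centC b L / D) := by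
  have hn' : (0 : ℝ) < n := Nat.cast_pos.2 hn
  set κ := 8 * (l : ℝ) / n * Real.sqrt ((1 + gradC L / n) ^ l) with hκ
  have hκ0 : 0 ≤ κ := by positivity
  have hc : 0 < centC b L := by
    have hL : 0 ≤ L := le_trans (Finset.sum_nonneg fun j _ => sq_nonneg _) (hJ.row2 ⟨0, hn⟩)
    have h2 : 0 ≤ 2 * (∑ i, |b i|) / n := by positivity
    simp only [centC]
    linarith [Real.log_pos (by norm_num : (1 : ℝ) < 2)]
  set s := Real.sqrt (2 * n * centC b L / D) with hs
  have hD' : (0 : ℝ) < D := Nat.cast_pos.2 hD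
  have hs0 : 0 < s := Real.sqrt_pos.2 (by positivity)
  have key : ∀ v d, |Kpow J b (v - d) (fun F => (∑ i, lex ⟨P, d, R, r, t⟩ J b F
          (fun a => spin (cpos ⟨P, d, R, r, t⟩ F a (d + l) i)) ^ 2) / n) x - qlag J b v d x| ≤
      κ / (2 * s * n) * Kpow J b (v - d) (condDir J b d) x + κ * s / 2 := fun v d => by
    set H := fun F => κ / (2 * s * n) * condDir J b d F + κ * s / 2 with hH
    have hp : ∀ F, |(∑ i, lex ⟨P, d, R, r, t⟩ J b F
          (fun a => spin (cpos ⟨P, d, R, r, t⟩ F a (d + l) i)) ^ 2) / n - qmean J b d F| ≤ H F := fun F => by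
      refine (Centre.centre_point hJ hn ⟨P, d, R, r, t⟩ ht hl F).trans ?_
      have h1 := mul_le_mul_of_nonneg_left (Centre.amgm (u := condDir J b d F / n) (v := 1)
        (div_nonneg (Centre.dir_nonneg _) hn'.le) zero_le_one (one_div_pos.2 hs0)) hκ0
      rw [Real.sqrt_one, mul_one] at h1
      refine h1.trans (le_of_eq ?_)
      simp only [hH]
      field_simp
    have e : Kpow J b (v - d) H x = κ / (2 * s * n) * Kpow J b (v - d) (condDir J b d) x + κ * s / 2 := by
      have h1 := congrFun (Block.Kpow_add_mul (J := J) (b := b) (v - d) (κ / (2 * s * n))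
        (fun _ => κ * s / 2) (condDir J b d)) x
      simp only [Centre.Kpow_const hn] at h1
      rw [add_comm] at h1
      rw [← h1, hH]
      simp only [add_comm]
    rw [qlag, ← congrFun (Block.Kpow_sub (J := J) (b := b) (v - d) _ (qmean J b d)) x, ← e]
    refine abs_le.2 ⟨?_, Block.Kpow_mono (fun F => (abs_le.1 (hp F)).2) _ x⟩
    have h2 := Block.Kpow_mono (J := J) (b := b) (fun F => (abs_le.1 (hp F)).1) (v - d) x
    have h3 := congrFun (Block.Kpow_mul_const (J := J) (b := b) (v - d) (-1) H) x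
    simp only [neg_one_mul] at h3
    linarith
  have hT' : 0 < T := by omega
  have have_avg := condDir_avg (b := b) hJ hn hD hT x
  simp only [blockAvg] at have_avg ⊢
  refine (div_le_div_of_nonneg_right (Finset.sum_le_sum fun v _ => div_le_div_of_nonneg_right
    (Finset.sum_le_sum fun d _ => key v d) (Nat.cast_nonneg D)) (Nat.cast_nonneg T)).trans ?_
  simp only [Finset.sum_add_distrib, ← Finset.mul_sum, Finset.sum_const, Nat.card_Ico, nsmul_eq_mul,
    add_div, mul_div_assoc (κ / (2 * s * n))]
  rw [show 2 * D - D = D by omega, show 2 * T - T = T by omega]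
  refine (add_le_add (mul_le_mul_of_nonneg_left have_avg (by positivity)) le_rfl).trans (le_of_eq ?_)
  have hss : s * s = 2 * n * centC b L / D := Real.mul_self_sqrt (by positivity)
  rw [show 2 * (n : ℝ) ^ 2 * centC b L / D = n * (s * s) by rw [hss]; ring]
  field_simp
  ring

end Vale.Agent.P150.PA
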