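import Vale.Agent.P150.PA.ChanShape
import Vale.Agent.P150.PA.AvgDir
import Vale.Agent.P150.PA.Centring
import Vale.Agent.P150.Fast.OpNorm

/-! Stationarity of the defect of the channel identity in the origin time: shifting the origin by `k`
attempts moves it by at most `n` times a small constant plus a multiple of the error at the
observation time. Functionals that are not factors of the variance calculus are first approximated. -/

open MeasureTheory Matrix

namespace Vale.Agent.P150.PA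

open Ising LegVar

variable {n : ℕ}

namespace ChanStat

/-- a functional given site by site through the noise, the observed, the test and the end configuration -/
abbrev SiteFn (n : ℕ) := (Fin n → ℝ) → Cfg n → Cfg n → Cfg n → Fin n → ℝ

/-- the functional of a copy -/
noncomputable def siteX (S : Sched) (X : SiteFn n) (F : Cfg n) (a : Copy S n) : ℝ :=
  ∑ i, X a.1 (st F a.2.1 S.D) (cpos S F a (S.D + S.r)) (cpos S F a (S.D + S.R)) i

/-- its mean over one copy from the time `u` -/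
noncomputable def gs (S : Sched) (J : Fin n → Fin n → ℝ) (u : ℕ) (x : Cfg n) (X : SiteFn n) : ℝ :=
  gmean S J u x (siteX S X)

/-- integrable in the noise -/
def Int1 (X : SiteFn n) : Prop := ∀ p y e i, Integrable (fun z => X z p y e i) (gauss (Fin n))

variable {J : Fin n → Fin n → ℝ} {L M τ t : ℝ} {S : Sched} {X X' : SiteFn n}

lemma integrable_lw (hX : Int1 X) (hn : 0 < n) (F : Cfg n) :
    Integrable (fun z => ∑ l, lw S J 0 F z l * siteX S X F (z, l)) (gauss (Fin n)) := by
  refine integrable_finsetSum _ fun l _ => ?_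
  refine (Integrable.bdd_mul (c := 1) ?_ (continuous_lw S J 0 F l).aestronglyMeasurable
    (Filter.Eventually.of_forall fun z => by simpa using abs_lw_le S J 0 hn F z l))
  exact integrable_finsetSum _ fun i _ => hX (st F l.1 S.D)
    (if S.D + S.r ≤ S.D then st F l.1 (S.D + S.r) else st (st F l.1 S.D) l.2 (S.D + S.r - S.D))
    (if S.D + S.R ≤ S.D then st F l.1 (S.D + S.R) else st (st F l.1 S.D) l.2 (S.D + S.R - S.D)) i

lemma gs_sub (hX : Int1 X) (hX' : Int1 X') (hn : 0 < n) (u : ℕ) (x : Cfg n) :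
    gs S J u x (fun z p y e i => X z p y e i - X' z p y e i) = gs S J u x X - gs S J u x X' := by
  have e : (fun F => lex S J 0 F (siteX S (fun z p y e i => X z p y e i - X' z p y e i) F)) =
      fun F => lex S J 0 F (siteX S X F) - lex S J 0 F (siteX S X' F) := funext fun F => by
    simp only [lex_def]
    rw [← integral_sub (integrable_lw hX hn F) (integrable_lw hX' hn F)]
    refine integral_congr_ae (Filter.Eventually.of_forall fun z => ?_)
    simp only [siteX, Finset.sum_sub_distrib, mul_sub]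
  simp only [gs, gmean, e]
  exact congrFun (Block.Kpow_sub (J := J) (b := 0) u _ _) x

lemma gs_close (hX : Int1 X) (hX' : Int1 X') (hn : 0 < n) {B : (Fin n → ℝ) → ℝ}
    (hB : Integrable B (gauss (Fin n)))
    (h : ∀ z p y e, ∑ i, |X z p y e i - X' z p y e i| ≤ B z) (u : ℕ) (x : Cfg n) :
    |gs S J u x X - gs S J u x X'| ≤ ∫ z, B z ∂gauss (Fin n) := by
  refine Kpow_close 0 hn (fun F => ?_) u x
  simp only [lex_def]
  rw [← integral_sub (integrable_lw hX hn F) (integrable_lw hX' hn F), ← Real.norm_eq_abs]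
  refine norm_integral_le_of_norm_le hB (Filter.Eventually.of_forall fun z => ?_)
  rw [Real.norm_eq_abs, ← Finset.sum_sub_distrib]
  refine (Finset.abs_sum_le_sum_abs _ _).trans ((Finset.sum_le_sum (g := fun l => lw S J 0 F z l * B z)
    fun l _ => ?_).trans_eq (by rw [← Finset.sum_mul, lw_sum S J 0 hn, one_mul]))
  rw [← mul_sub, abs_mul, abs_of_nonneg (lw_nonneg S J 0 F z l)]
  refine mul_le_mul_of_nonneg_left ?_ (lw_nonneg S J 0 F z l)
  simp only [siteX, ← Finset.sum_sub_distrib]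
  exact (Finset.abs_sum_le_sum_abs _ _).trans (h _ _ _ _)

lemma gs_bound (hX : Int1 X) (hn : 0 < n) {B : (Fin n → ℝ) → ℝ} (hB : Integrable B (gauss (Fin n)))
    (h : ∀ z p y e, ∑ i, |X z p y e i| ≤ B z) (u : ℕ) (x : Cfg n) :
    |gs S J u x X| ≤ ∫ z, B z ∂gauss (Fin n) := by
  have h0 : gs S J u x (fun _ _ _ _ _ => (0 : ℝ)) = 0 := by
    have hs := gs_sub (S := S) (J := J) hX hX hn u x
    simpa using hs
  have hc := gs_close (S := S) (J := J) hX (X' := fun _ _ _ _ _ => 0) (fun _ _ _ _ => integrable_const 0)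
    hn hB (by simpa using h) u x
  rwa [h0, sub_zero] at hc

lemma gs_bound_const (hX : Int1 X) (hn : 0 < n) {B : ℝ} (h : ∀ z p y e i, |X z p y e i| ≤ B) (u : ℕ)
    (x : Cfg n) : |gs S J u x X| ≤ n * B := by
  refine (gs_bound hX hn (integrable_const (n * B)) (fun z p y e => ?_) u x).trans_eq (by simp)
  exact (Finset.sum_le_sum fun i _ => h z p y e i).trans_eq (by simp)

/-- a bounded functional as a function of the configuration at the observation -/
lemma gs_post (hn : 0 < n) (hr : S.r ≤ S.R) (hc : ∀ p y e i, Continuous fun z => X z p y e i) {B : ℝ}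
    (hb : ∀ z p y e i, |X z p y e i| ≤ B) (u : ℕ) (x : Cfg n) :
    gs S J u x X = Kpow J 0 (u + S.D) (fun p => ∫ z, Kpow J (hf 0 S.t p z) S.r (fun y =>
      Kpow J (hf 0 S.t p z) (S.R - S.r) (fun e => ∑ i, X z p y e i) y) p ∂gauss (Fin n)) x := by
  have hb' : ∀ (F : Cfg n) (a : Copy S n), |siteX S X F a| ≤ n * B := fun F a =>
    (Finset.abs_sum_le_sum_abs _ _).trans ((Finset.sum_le_sum fun i _ => hb _ _ _ _ i).trans_eq (by simp))
  have hc' : ∀ (F : Cfg n) (l : Leg S n), Continuous fun z => siteX S X F (z, l) := fun F l =>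
    continuous_finsetSum _ fun i _ => hc (st F l.1 S.D)
      (if S.D + S.r ≤ S.D then st F l.1 (S.D + S.r) else st (st F l.1 S.D) l.2 (S.D + S.r - S.D))
      (if S.D + S.R ≤ S.D then st F l.1 (S.D + S.R) else st (st F l.1 S.D) l.2 (S.D + S.R - S.D)) i
  set H := fun p => ∫ z, Kpow J (hf 0 S.t p z) S.r (fun y =>
    Kpow J (hf 0 S.t p z) (S.R - S.r) (fun e => ∑ i, X z p y e i) y) p ∂gauss (Fin n)
  have key : ∀ F, lex S J 0 F (siteX S X F) = Kpow J 0 S.D H F := fun F => by
    rw [lex_eq hn (hc' F) (hb' F), ← pex_st J 0 hn H (le_refl S.D) F]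
    congr 1
    funext l1
    simp only [H]
    refine integral_congr_ae (Filter.Eventually.of_forall fun z => ?_)
    simp only [siteX, cpos_high (Nat.le_add_right S.D _), Nat.add_sub_cancel_left]
    exact pex_two _ hn hr le_rfl _ (fun y e => ∑ i, X z (st F l1 S.D) y e i)
  simp only [gs, gmean, key]
  simp only [Kpow]
  rw [← Function.iterate_add_apply]

/-! ### stationarity of a pair of factors -/

/-- constant of the stationarity of a pair -/
noncomputable def shC (M L τ : ℝ) : ℝ := 4 * τ * Real.sqrt (G L τ * (meanC τ * pairA M L τ))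

lemma shC_nonneg (hτ : 0 ≤ τ) : 0 ≤ shC M L τ := by unfold shC; positivity

lemma stat_kpow (hJ : Tame J L) (hn : 0 < n) {k : ℕ} (hk : (k : ℝ) ≤ τ * n) {h : Cfg n → ℝ} {A : ℝ}
    (hA : ∀ y, gam h y ≤ A * n) (v : ℕ) (x : Cfg n) :
    |Kpow J 0 (v + k) h x - Kpow J 0 v h x| ≤ n * (4 * τ * Real.sqrt (G L τ * A) * eAt J 0 v x) := by
  have hn' : (0 : ℝ) < n := Nat.cast_pos.2 hn
  have hs := Real.mul_self_sqrt hn'.le
  have hτ : 0 ≤ τ := nonneg_of_mul_nonneg_left ((Nat.cast_nonneg k).trans hk) hn'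
  have hA0 : 0 ≤ A := nonneg_of_mul_nonneg_left ((gam_nonneg h x).trans (hA x)) hn'
  set f := Kpow J 0 v (Pi.single x (wt J 0 x)⁻¹)
  have hf : ∀ y, 0 ≤ f y := fun y => Pair.Kpow_nonneg (AvgDir.single_nonneg x) v y
  have e : ∀ φ, Kpow J 0 v φ x = Ef J 0 f φ := fun φ => start_density hJ.symm hJ.diag v φ x
  have hmean : ∑ y, wt J 0 y * f y = 1 := by
    have h1 := e fun _ => 1
    rw [Centre.Kpow_const hn] at h1
    simpa [Ef] using h1.symm
  have h1 := stat_iter (b := 0) hJ.symm hJ.diag hn hf hmean h (k := k) (A := G L τ * (A * n))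
    fun l hl y => gam_Kpow_G 0 hJ hn (le_trans (by exact_mod_cast hl.le) hk) hA y
  have e2 : Kpow J 0 (v + k) h x - Kpow J 0 v h x = ∑ y, wt J 0 y * (f y * (Kpow J 0 k h y - h y)) := by
    have : Kpow J 0 (v + k) h = Kpow J 0 v (Kpow J 0 k h) := Function.iterate_add_apply _ _ _ _
    rw [this, e, e, Ef, Ef, ← Finset.sum_sub_distrib]
    exact Finset.sum_congr rfl fun y _ => by ring
  rw [e2]
  refine h1.trans ?_
  have hd : Real.sqrt (dir J 0 fun y => Real.sqrt (f y)) = eAt J 0 v x * Real.sqrt n := by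
    rw [eAt, div_mul_cancel₀ _ (Real.sqrt_pos.2 hn').ne']
  rw [hd, ← mul_assoc (G L τ), Real.sqrt_mul' _ hn'.le]
  have he := AvgDir.eAt_nonneg (J := J) (b := 0) v x
  have hkn : (k : ℝ) / n ≤ τ := (div_le_iff₀ hn').2 hk
  calc 4 * (k : ℝ) / n * (eAt J 0 v x * Real.sqrt n) * (Real.sqrt (G L τ * A) * Real.sqrt n)
      = ((k : ℝ) / n) * (4 * eAt J 0 v x * Real.sqrt (G L τ * A) * (Real.sqrt n * Real.sqrt n)) := by ring
    _ ≤ τ * (4 * eAt J 0 v x * Real.sqrt (G L τ * A) * (Real.sqrt n * Real.sqrt n)) :=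
        mul_le_mul_of_nonneg_right hkn (by positivity)
    _ = _ := by rw [hs]; ring

/-- hypotheses of the shift -/
structure Hyp (S : Sched) (J : Fin n → Fin n → ℝ) (L τ : ℝ) (k : ℕ) : Prop where
  pos : 0 < n
  tame : Tame J L
  r_le : S.r ≤ S.R
  R_le : (S.R : ℝ) ≤ τ * n
  k_le : (k : ℝ) ≤ τ * n
  t_nonneg : 0 ≤ S.t
  t_le : S.t ≤ τ

variable {k : ℕ}

lemma Hyp.tau_nonneg (H : Hyp S J L τ k) : 0 ≤ τ := H.t_nonneg.trans H.t_le

/-- the product of two factors, the first at the test and the second at the end -/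
def pairX (Φ Φ' : Cfg n → (Fin n → ℝ) → Cfg n → Fin n → ℝ) : SiteFn n :=
  fun z p y e i => Φ p z y i * Φ' p z e i

variable {Φ Φ' : Cfg n → (Fin n → ℝ) → Cfg n → Fin n → ℝ}

lemma int_pairX (hΦ : Fac M L Φ) (hΦ' : Fac M L Φ') : Int1 (pairX Φ Φ') := fun p y e i =>
  integrable_bdd ((hΦ.smooth p y i).continuous.mul (hΦ'.smooth p e i).continuous)
    (B := facB M * facB M) fun z => by
    simp only [pairX]
    rw [abs_mul]
    exact mul_le_mul (hΦ.abs_le p z y i) (hΦ'.abs_le p z e i) (abs_nonneg _) (zero_le_one.trans one_le_facB)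

lemma shift_pair (H : Hyp S J L τ k) (hΦ : Fac M L Φ) (hΦ' : Fac M L Φ') (u : ℕ) (x : Cfg n) :
    |gs S J (u + k) x (pairX Φ Φ') - gs S J u x (pairX Φ Φ')| ≤
      n * (shC M L τ * eAt J 0 (u + S.D) x) := by
  obtain ⟨hn, hJ, hr, hR, hk, ht0, ht⟩ := H
  have hb : ∀ z p y e i, |pairX Φ Φ' z p y e i| ≤ facB M * facB M := fun z p y e i => by
    simp only [pairX]
    rw [abs_mul]
    exact mul_le_mul (hΦ.abs_le p z y i) (hΦ'.abs_le p z e i) (abs_nonneg _) (zero_le_one.trans one_le_facB)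
  have hc : ∀ p y e i, Continuous fun z => pairX Φ Φ' z p y e i := fun p y e i =>
    (hΦ.smooth p y i).continuous.mul (hΦ'.smooth p e i).continuous
  rw [gs_post hn hr hc hb, gs_post hn hr hc hb, show u + k + S.D = u + S.D + k by omega]
  simp only [pairX, Kpow_sum_eq]
  have hm : ((S.r : ℕ) : ℝ) ≤ τ * n := le_trans (by exact_mod_cast hr) hR
  have hd : ((S.R - S.r : ℕ) : ℝ) ≤ τ * n := le_trans (by exact_mod_cast Nat.sub_le _ _) hR
  exact stat_kpow hJ hn hk (fun y => ((pair_sec hJ hn hm hd hΦ hΦ').gam_mean 0 ht0 ht y).trans_eq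
    (mul_assoc _ _ _).symm) _ x

/-- a functional close to a pair moves little -/
lemma shift_of_close (H : Hyp S J L τ k) (hΦ : Fac M L Φ) (hΦ' : Fac M L Φ') {η : ℝ} (u : ℕ) (x : Cfg n)
    (h : ∀ v, |gs S J v x X - gs S J v x (pairX Φ Φ')| ≤ n * η) :
    |gs S J (u + k) x X - gs S J u x X| ≤ n * (2 * η + shC M L τ * eAt J 0 (u + S.D) x) := by
  have h1 := abs_le.1 (h (u + k))
  have h2 := abs_le.1 (h u)
  have h3 := abs_le.1 (shift_pair H hΦ hΦ' u x)
  rw [abs_le]
  constructor <;> linarith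

lemma fac_ofStart : Fac M L (fun (p : Cfg n) _ _ j => spin (p j)) where
  gam_le _ _ v y := by
    rw [show gam (fun _ : Cfg n => ∑ j, v j * spin (_ : Bool)) y = 0 by simp [gam, dd]]
    exact mul_nonneg facA_nonneg (Finset.sum_nonneg fun _ _ => sq_nonneg _)
  abs_le p _ _ j := le_trans (by simp only [spin]; split_ifs <;> norm_num) one_le_facB
  smooth _ _ _ := contDiff_const
  param p p' u u' _ j := by
    have hB := one_le_facB (M := M)
    have : 0 ≤ |u j - u' j| := abs_nonneg _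
    by_cases h : p j = p' j
    · rw [h, sub_self, abs_zero, if_pos rfl]; positivity
    · rw [if_neg h]
      have h2 : |spin (p j) - spin (p' j)| ≤ 2 := by
        simp only [spin]; split_ifs <;> norm_num
      nlinarith

/-! ### the approximating tests -/

section Tests

variable (ψ : ChanTest)

lemma M_nonneg : 0 ≤ ψ.M := (abs_nonneg _).trans (ψ.bdd 0 0 true).1

lemma contDiff_noise (h : ℝ) (c : Bool) : ContDiff ℝ 1 fun u => ψ.fn h u c := by
  rw [contDiff_one_iff_deriv]
  refine ⟨fun u => (ψ.hasDerivZ h u c).differentiableAt, ?_⟩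
  rw [show (deriv fun u => ψ.fn h u c) = fun u => ψ.zfn h u c from funext fun u => (ψ.hasDerivZ h u c).deriv]
  exact ψ.contZ h c

lemma continuous_of_lip {f : ℝ → ℝ → ℝ} {C : ℝ} (hC : 0 ≤ C)
    (hf : ∀ h h' u u', |f h u - f h' u'| ≤ C * (|h - h'| + |u - u'|)) :
    Continuous fun s : ℝ × ℝ => f s.1 s.2 := by
  refine LipschitzWith.continuous (K := Real.toNNReal (2 * C)) (LipschitzWith.of_dist_le_mul fun a b => ?_)
  rw [Real.dist_eq, Real.coe_toNNReal _ (by positivity), Prod.dist_eq, Real.dist_eq, Real.dist_eq]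
  refine (hf _ _ _ _).trans ?_
  nlinarith [le_max_left |a.1 - b.1| |a.2 - b.2|, le_max_right |a.1 - b.1| |a.2 - b.2|]

lemma cont_fn (c : Bool) : Continuous fun s : ℝ × ℝ => ψ.fn s.1 s.2 c :=
  continuous_of_lip (M_nonneg ψ) fun h h' u u' => (ψ.lip h h' u u' c).1

lemma cont_dfn (c : Bool) : Continuous fun s : ℝ × ℝ => ψ.dfn s.1 s.2 c :=
  continuous_of_lip (M_nonneg ψ) fun h h' u u' => (ψ.lip h h' u u' c).2

lemma bdd_chanTest : (chanTest n ψ).Bdd ψ.M where
  fn_le _ h u c := (ψ.bdd h u c).1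
  dfn_le _ h u c := (ψ.bdd h u c).2.1
  dfn_lip _ h h' u c := by simpa [chanTest] using (ψ.lip h h' u u c).2
  noise_lip _ h u u' c := by simpa [chanTest] using (ψ.lip h h u u' c).1
  cont _ c := ⟨cont_fn ψ c, cont_dfn ψ c⟩

lemma bdd_mono {φ : Test n} {M M' : ℝ} (h : φ.Bdd M) (hM : M ≤ M') : φ.Bdd M' where
  fn_le i a u c := (h.fn_le i a u c).trans hM
  dfn_le i a u c := (h.dfn_le i a u c).trans hM
  dfn_lip i a a' u c := (h.dfn_lip i a a' u c).trans (mul_le_mul_of_nonneg_right hM (abs_nonneg _))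
  noise_lip i a u u' c := (h.noise_lip i a u u' c).trans (mul_le_mul_of_nonneg_right hM (abs_nonneg _))
  cont := h.cont

/-- a bounded version of the identity -/
noncomputable def cut (R h : ℝ) : ℝ := R * Real.tanh (h / R)

lemma abs_cut_le {R : ℝ} (hR : 0 ≤ R) (h : ℝ) : |cut R h| ≤ R := by
  rw [cut, abs_mul, abs_of_nonneg hR]
  exact mul_le_of_le_one_right hR (tanh_abs_lt _).le

lemma cut_lip {R : ℝ} (hR : 0 < R) (h h' : ℝ) : |cut R h - cut R h'| ≤ |h - h'| := by
  rw [cut, cut, ← mul_sub, abs_mul, abs_of_pos hR]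
  refine (mul_le_mul_of_nonneg_left (tanh_lip _ _) hR.le).trans (le_of_eq ?_)
  rw [← sub_div, abs_div, abs_of_pos hR]
  field_simp

lemma cut_close {R : ℝ} (hR : 0 < R) (h : ℝ) : |h - cut R h| ≤ h ^ 2 / R := by
  have key : ∀ s : ℝ, |Real.tanh s - s| ≤ s ^ 2 := fun s => by
    rcases le_total |s| 1 with h1 | h1
    · refine (abs_tanh_sub_le s).trans ?_
      rw [← sq_abs s]
      exact pow_le_pow_of_le_one (abs_nonneg s) h1 (by norm_num)
    · have h2 := abs_tanh_le s
      rw [← sq_abs]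
      have hs : 0 ≤ Real.tanh s * s := tanh_mul_self_nonneg s
      rcases le_total 0 s with h0 | h0
      · rw [abs_of_nonneg h0] at h1 h2 ⊢
        have : 0 ≤ Real.tanh s := nonneg_of_mul_nonneg_left hs (by linarith)
        rw [abs_of_nonpos (by linarith [le_abs_self (Real.tanh s)])]
        nlinarith
      · rw [abs_of_nonpos h0] at h1 h2 ⊢
        have : Real.tanh s ≤ 0 := by nlinarith
        rw [abs_of_nonneg (by linarith [neg_abs_le (Real.tanh s)])]
        nlinarith
  have h3 := mul_le_mul_of_nonneg_left (key (h / R)) hR.le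
  rw [← abs_of_pos hR, ← abs_mul, abs_of_pos hR, mul_sub, mul_div_cancel₀ _ hR.ne', abs_sub_comm] at h3
  refine h3.trans (le_of_eq ?_)
  field_simp
where
  tanh_mul_self_nonneg (s : ℝ) : 0 ≤ Real.tanh s * s := by
    rw [Real.tanh_eq_sinh_div_cosh, div_mul_eq_mul_div]
    refine div_nonneg ?_ (Real.cosh_pos s).le
    rcases le_total 0 s with h | h
    · exact mul_nonneg (Real.sinh_nonneg_iff.2 h) h
    · exact mul_nonneg_of_nonpos_of_nonpos (Real.sinh_nonpos_iff.2 h) h

lemma cont_cut {R : ℝ} (hR : 0 < R) : ContDiff ℝ 1 (cut R) := by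
  unfold cut
  exact contDiff_const.mul (LegVar.contDiff_tanh.comp (contDiff_id.div_const R))

/-- the cut local field -/
noncomputable def fieldTest (n : ℕ) (R : ℝ) (hR : 0 < R) : Test n where
  fn _ h _ _ := cut R h
  dfn _ h _ _ := 1 - Real.tanh (h / R) ^ 2
  hasDeriv _ h _ _ := by
    refine (((hasDerivAt_tanh' (h / R)).comp h ((hasDerivAt_id h).div_const R)).const_mul R).congr_deriv ?_
    field_simp

lemma bdd_fieldTest {R : ℝ} (hR : 1 ≤ R) : (fieldTest n R (zero_lt_one.trans_le hR)).Bdd (2 * R) where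
  fn_le _ h _ _ := (abs_cut_le (zero_le_one.trans hR) h).trans (by linarith)
  dfn_le _ h _ _ := by
    have := (sq_lt_one_iff_abs_lt_one _).2 (tanh_abs_lt (h / R))
    simp only [fieldTest]
    rw [abs_of_nonneg (by linarith)]
    linarith [sq_nonneg (Real.tanh (h / R))]
  dfn_lip _ h h' _ _ := by
    simp only [fieldTest]
    have h1 := tanh_lip (h' / R) (h / R)
    rw [show 1 - Real.tanh (h / R) ^ 2 - (1 - Real.tanh (h' / R) ^ 2) =
      (Real.tanh (h' / R) + Real.tanh (h / R)) * (Real.tanh (h' / R) - Real.tanh (h / R)) by ring, abs_mul]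
    have h2 : |Real.tanh (h' / R) + Real.tanh (h / R)| ≤ 2 :=
      (abs_add_le _ _).trans (by linarith [tanh_abs_lt (h' / R), tanh_abs_lt (h / R)])
    refine (mul_le_mul h2 h1 (abs_nonneg _) zero_le_two).trans ?_
    rw [← sub_div, abs_div, abs_sub_comm h h', abs_of_pos (zero_lt_one.trans_le hR)]
    exact mul_le_mul (by linarith) (div_le_self (abs_nonneg _) hR) (by positivity) (by linarith)
  noise_lip _ h u u' _ := by simp [fieldTest]; positivity
  cont _ _ := by
    have h1 : Continuous Real.tanh := contDiff_tanh.continuous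
    constructor <;> simp only [fieldTest, cut] <;> fun_prop

/-- difference quotient in the field -/
noncomputable def quotTest (n : ℕ) (δ : ℝ) : Test n where
  fn _ h u c := (ψ.fn (h + δ) u c - ψ.fn h u c) / δ
  dfn _ h u c := (ψ.dfn (h + δ) u c - ψ.dfn h u c) / δ
  hasDeriv _ h u c := (((ψ.hasDeriv (h + δ) u c).comp_add_const h δ).sub (ψ.hasDeriv h u c)).div_const δ

/-- difference quotient in the noise -/
noncomputable def zquotTest (n : ℕ) (δ : ℝ) : Test n where
  fn _ h u c := (ψ.fn h (u + δ) c - ψ.fn h u c) / δ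
  dfn _ h u c := (ψ.dfn h (u + δ) c - ψ.dfn h u c) / δ
  hasDeriv _ h u c := ((ψ.hasDeriv h (u + δ) c).sub (ψ.hasDeriv h u c)).div_const δ

/-- the test times the cut noise -/
noncomputable def noiseTest (n : ℕ) (R : ℝ) : Test n where
  fn _ h u c := cut R u * ψ.fn h u c
  dfn _ h u c := cut R u * ψ.dfn h u c
  hasDeriv _ h u c := (ψ.hasDeriv h u c).const_mul _

variable {δ : ℝ} (hδ : 0 < δ)
include hδ

omit ψ in
lemma quot_le {a b K : ℝ} (h : |a - b| ≤ K) : |(a - b) / δ| ≤ K / δ := by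
  rw [abs_div, abs_of_pos hδ]; exact div_le_div_of_nonneg_right h hδ.le

lemma bdd_quotTest : (quotTest ψ n δ).Bdd (2 * ψ.M / δ) where
  fn_le _ h u c := quot_le hδ ((abs_sub _ _).trans (by linarith [(ψ.bdd (h + δ) u c).1, (ψ.bdd h u c).1]))
  dfn_le _ h u c := quot_le hδ ((abs_sub _ _).trans (by linarith [(ψ.bdd (h + δ) u c).2.1, (ψ.bdd h u c).2.1]))
  dfn_lip _ h h' u c := by
    simp only [quotTest, ← sub_div]
    rw [div_mul_eq_mul_div, sub_sub_sub_comm]
    have h1 := (ψ.lip (h + δ) (h' + δ) u u c).2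
    have h2 := (ψ.lip h h' u u c).2
    simp only [add_sub_add_right_eq_sub, sub_self, abs_zero, add_zero] at h1 h2
    exact quot_le hδ ((abs_sub _ _).trans (by linarith))
  noise_lip _ h u u' c := by
    simp only [quotTest, ← sub_div]
    rw [div_mul_eq_mul_div, sub_sub_sub_comm]
    have h1 := (ψ.lip (h + δ) (h + δ) u u' c).1
    have h2 := (ψ.lip h h u u' c).1
    simp only [sub_self, abs_zero, zero_add] at h1 h2
    exact quot_le hδ ((abs_sub _ _).trans (by linarith))
  cont _ c := by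
    have h1 := cont_fn ψ c
    have h2 := cont_dfn ψ c
    exact ⟨((h1.comp (by fun_prop : Continuous fun s : ℝ × ℝ => (s.1 + δ, s.2))).sub h1).div_const δ,
      ((h2.comp (by fun_prop : Continuous fun s : ℝ × ℝ => (s.1 + δ, s.2))).sub h2).div_const δ⟩

lemma bdd_zquotTest : (zquotTest ψ n δ).Bdd (2 * ψ.M / δ) where
  fn_le _ h u c := quot_le hδ ((abs_sub _ _).trans (by linarith [(ψ.bdd h (u + δ) c).1, (ψ.bdd h u c).1]))
  dfn_le _ h u c := quot_le hδ ((abs_sub _ _).trans (by linarith [(ψ.bdd h (u + δ) c).2.1, (ψ.bdd h u c).2.1]))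
  dfn_lip _ h h' u c := by
    simp only [zquotTest, ← sub_div]
    rw [div_mul_eq_mul_div, sub_sub_sub_comm]
    have h1 := (ψ.lip h h' (u + δ) (u + δ) c).2
    have h2 := (ψ.lip h h' u u c).2
    simp only [sub_self, abs_zero, add_zero] at h1 h2
    exact quot_le hδ ((abs_sub _ _).trans (by linarith))
  noise_lip _ h u u' c := by
    simp only [zquotTest, ← sub_div]
    rw [div_mul_eq_mul_div, sub_sub_sub_comm]
    have h1 := (ψ.lip h h (u + δ) (u' + δ) c).1
    have h2 := (ψ.lip h h u u' c).1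
    simp only [add_sub_add_right_eq_sub, sub_self, abs_zero, zero_add] at h1 h2
    exact quot_le hδ ((abs_sub _ _).trans (by linarith))
  cont _ c := by
    have h1 := cont_fn ψ c
    have h2 := cont_dfn ψ c
    exact ⟨((h1.comp (by fun_prop : Continuous fun s : ℝ × ℝ => (s.1, s.2 + δ))).sub h1).div_const δ,
      ((h2.comp (by fun_prop : Continuous fun s : ℝ × ℝ => (s.1, s.2 + δ))).sub h2).div_const δ⟩

lemma quot_close (i : Fin n) (h u : ℝ) (c : Bool) : |(quotTest ψ n δ).fn i h u c - ψ.dfn h u c| ≤ ψ.M * δ := by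
  have ht := test_taylor (bdd_chanTest (n := n) ψ) i u c (h := h) (D := δ) (x := h + δ) (y := h)
    (by simp [abs_of_pos hδ]) (by simpa using hδ.le)
  simp only [chanTest, add_sub_cancel_left, abs_of_pos hδ] at ht
  have e : (quotTest ψ n δ).fn i h u c - ψ.dfn h u c =
      (ψ.fn (h + δ) u c - ψ.fn h u c - ψ.dfn h u c * δ) / δ := by
    simp only [quotTest]; field_simp
  rw [e]
  exact (quot_le hδ ht).trans_eq (by field_simp)

omit hδ

lemma bdd_noiseTest {R : ℝ} (hR : 1 ≤ R) : (noiseTest ψ n R).Bdd (2 * R * ψ.M) where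
  fn_le _ h u c := by
    simp only [noiseTest, abs_mul]
    refine (mul_le_mul (abs_cut_le (by linarith) u) (ψ.bdd h u c).1 (abs_nonneg _) (by linarith)).trans ?_
    nlinarith [M_nonneg ψ]
  dfn_le _ h u c := by
    simp only [noiseTest, abs_mul]
    refine (mul_le_mul (abs_cut_le (by linarith) u) (ψ.bdd h u c).2.1 (abs_nonneg _) (by linarith)).trans ?_
    nlinarith [M_nonneg ψ]
  dfn_lip _ h h' u c := by
    simp only [noiseTest, ← mul_sub, abs_mul]
    have h1 := (ψ.lip h h' u u c).2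
    simp only [sub_self, abs_zero, add_zero] at h1
    refine (mul_le_mul (abs_cut_le (by linarith) u) h1 (abs_nonneg _) (by linarith)).trans ?_
    nlinarith [mul_nonneg (M_nonneg ψ) (abs_nonneg (h - h'))]
  noise_lip _ h u u' c := by
    simp only [noiseTest]
    rw [show cut R u * ψ.fn h u c - cut R u' * ψ.fn h u' c =
      (cut R u - cut R u') * ψ.fn h u c + cut R u' * (ψ.fn h u c - ψ.fn h u' c) by ring]
    refine (abs_add_le _ _).trans ?_
    rw [abs_mul, abs_mul]
    have h1 := mul_le_mul (cut_lip (zero_lt_one.trans_le hR) u u') (ψ.bdd h u c).1 (abs_nonneg _) (abs_nonneg _)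
    have h2 := (ψ.lip h h u u' c).1
    simp only [sub_self, abs_zero, zero_add] at h2
    have h3 := mul_le_mul (abs_cut_le (by linarith : (0:ℝ) ≤ R) u') h2 (abs_nonneg _) (by linarith)
    nlinarith [mul_nonneg (M_nonneg ψ) (abs_nonneg (u - u'))]
  cont _ c := by
    have h1 := cont_fn ψ c
    have h2 := cont_dfn ψ c
    have h3 := (cont_cut (zero_lt_one.trans_le hR)).continuous.comp (continuous_snd (X := ℝ) (Y := ℝ))
    exact ⟨h3.mul h1, h3.mul h2⟩

end Tests

/-! ### Gaussian facts -/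

lemma integral_coord_sq (i : Fin n) :
    Integrable (fun z => z i ^ 2) (gauss (Fin n)) ∧ ∫ z, z i ^ 2 ∂gauss (Fin n) = 1 := by
  have hb : ∀ s : ℝ, |s| ≤ 1 * Real.exp (1 * |s|) := fun s => by
    linarith [Real.add_one_le_exp (1 * |s|)]
  have h2 : ∀ s : ℝ, s ^ 2 ≤ 2 * Real.exp (1 * |s|) := fun s => by
    have := Real.quadratic_le_exp_of_nonneg (abs_nonneg s)
    rw [sq_abs] at this
    rw [one_mul]
    linarith [abs_nonneg s]
  refine ⟨integrable_of_bound (C := 2) (M := 1) (by fun_prop) fun z => ?_, ?_⟩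
  · rw [abs_of_nonneg (sq_nonneg _)]
    exact (h2 _).trans (mul_le_mul_of_nonneg_left (Real.exp_le_exp.2 (by linarith [abs_le_l1 z i])) zero_le_two)
  · have hs := stein_one (f := fun s => s) (f' := fun _ => 1) (C := 1) (M := 1) hasDerivAt_id continuous_const hb
      fun s => by simpa using Real.one_le_exp (abs_nonneg s)
    simp only [← sq] at hs
    have hmp := measurePreserving_eval (μ := fun _ : Fin n => ProbabilityTheory.gaussianReal 0 1) i
    have := integral_map (μ := Measure.pi fun _ : Fin n => ProbabilityTheory.gaussianReal 0 1)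
      hmp.measurable.aemeasurable (f := fun s : ℝ => s ^ 2) (by fun_prop)
    rw [hmp.map_eq, hs] at this
    simpa [gauss] using this.symm

lemma integral_abs_rho_sub_one {σ : ℝ} (h0 : 0 < σ) (h1 : σ ≤ 1) (i : Fin n) :
    ∫ z, |rho σ i z - 1| ∂gauss (Fin n) ≤ 2 * σ := by
  have ir : Integrable (rho σ i) (gauss (Fin n)) :=
    integrable_of_bound (C := 1) (continuous_rho _ i) fun z => by rw [one_mul]; exact abs_rho_le _ i z
  have irr : Integrable (fun z => rho σ i z * rho σ i z) (gauss (Fin n)) :=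
    integrable_of_bound (C := 1) ((continuous_rho _ i).mul (continuous_rho _ i)) fun z => by
      rw [abs_mul, one_mul, add_mul, Real.exp_add]
      exact mul_le_mul (abs_rho_le _ i z) (abs_rho_le _ i z) (abs_nonneg _) (Real.exp_pos _).le
  have isq : Integrable (fun z => (rho σ i z - 1) ^ 2) (gauss (Fin n)) :=
    ((irr.sub (ir.const_mul 2)).add (integrable_const (1 : ℝ))).congr
      (Filter.Eventually.of_forall fun z => by simp only [Pi.add_apply, Pi.sub_apply]; ring)
  have e : ∫ z, (rho σ i z - 1) ^ 2 ∂gauss (Fin n) = Real.exp (σ ^ 2) - 1 := by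
    have i2 : Integrable (fun z => 2 * rho σ i z - 1) (gauss (Fin n)) :=
      (ir.const_mul 2).sub (integrable_const _)
    rw [show (fun z => (rho σ i z - 1) ^ 2) = fun z => rho σ i z * rho σ i z - (2 * rho σ i z - 1) from
      funext fun z => by ring, integral_sub irr i2, integral_sub (ir.const_mul 2) (integrable_const _),
      integral_rho_sq, integral_const_mul, integral_rho]
    simp; ring
  have h3 : Real.exp (σ ^ 2) - 1 ≤ 3 * σ ^ 2 := by
    have h := Real.add_one_le_exp (-(σ ^ 2))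
    have hm := mul_le_mul_of_nonneg_right h (Real.exp_pos (σ ^ 2)).le
    rw [← Real.exp_add, neg_add_cancel, Real.exp_zero] at hm
    have h4 : Real.exp (σ ^ 2) ≤ 3 :=
      (Real.exp_le_exp.2 (pow_le_one₀ h0.le h1)).trans Real.exp_one_lt_three.le
    nlinarith [mul_le_mul_of_nonneg_left h4 (sq_nonneg σ)]
  refine (integral_mono_of_nonneg (Filter.Eventually.of_forall fun z => abs_nonneg _)
    ((isq.div_const (2 * σ)).add (integrable_const (σ / 2))) (Filter.Eventually.of_forall fun z => ?_)).trans ?_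
  · simp only [Pi.add_apply]
    rw [← sub_nonneg]
    have : (rho σ i z - 1) ^ 2 / (2 * σ) + σ / 2 - |rho σ i z - 1| = (|rho σ i z - 1| - σ) ^ 2 / (2 * σ) := by
      rw [← sq_abs (rho σ i z - 1)]
      generalize |rho σ i z - 1| = a
      field_simp; ring
    rw [this]; positivity
  · rw [Pi.add_def, integral_add (isq.div_const _) (integrable_const _), integral_div, e]
    simp only [integral_const, probReal_univ, one_smul]
    have := (div_le_iff₀ (by positivity : 0 < 2 * σ)).2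
      (h3.trans_eq (show 3 * σ ^ 2 = 3 * σ / 2 * (2 * σ) by ring))
    linarith

lemma Kpow_field_bdd (hn : 0 < n) {f : Cfg n → ℝ} {B : ℝ} (hf : ∀ y, |f y| ≤ B) (h h' : Fin n → ℝ)
    (m : ℕ) (x : Cfg n) :
    |Kpow J h m f x - Kpow J h' m f x| ≤ (m : ℝ) / n * (B * ∑ i, |h i - h' i|) := by
  induction m generalizing x with
  | zero => simp [Kpow]
  | succ m ih =>
    have h1 : |K J h (Kpow J h m f) x - K J h (Kpow J h' m f) x| ≤ (m : ℝ) / n * (B * ∑ i, |h i - h' i|) :=
      Kpow_close h hn ih 1 x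
    have h2 : |K J h (Kpow J h' m f) x - K J h' (Kpow J h' m f) x| ≤ (B * ∑ i, |h i - h' i|) / n := by
      set g := Kpow J h' m f
      have hg : ∀ y, |g y| ≤ B := abs_Kpow_le h' hn hf m
      have e : K J h g x - K J h' g x = (∑ i, (mag J h i x - mag J h' i x) * dd i g x) / n := by
        simp only [K, qb_eq, dd, ← sub_div, ← Finset.sum_sub_distrib]
        congr 1
        exact Finset.sum_congr rfl fun i _ => by ring
      rw [e, abs_div, Nat.abs_cast, Finset.mul_sum]
      refine div_le_div_of_nonneg_right ((Finset.abs_sum_le_sum_abs _ _).trans (Finset.sum_le_sum fun i _ => ?_))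
        (Nat.cast_nonneg n)
      rw [abs_mul, mul_comm B]
      refine mul_le_mul ((tanh_lip _ _).trans (le_of_eq (by simp [fld]))) ?_ (abs_nonneg _) (abs_nonneg _)
      rw [dd, abs_div, abs_two]
      linarith [abs_sub (g (Function.update x i true)) (g (Function.update x i false)),
        hg (Function.update x i true), hg (Function.update x i false)]
    rw [Kpow_succ, Kpow_succ]
    refine (abs_sub_le _ (K J h (Kpow J h' m f) x) _).trans ((add_le_add h1 h2).trans_eq ?_)
    push_cast; ring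

/-- the difference quotient in the noise of one site, averaged over the noise, against the derivative -/
lemma zquot_site (hn : 0 < n) {ht0 : 0 ≤ t} (ht : t ≤ τ) {r : ℕ} (hr : (r : ℝ) ≤ τ * n) (p : Cfg n)
    (i : Fin n) {f f' : Cfg n → ℝ → ℝ} {B : ℝ} (hd : ∀ y s, HasDerivAt (f y) (f' y s) s)
    (hc : ∀ y, Continuous (f' y)) (hb : ∀ y s, |f y s| ≤ B) (hb' : ∀ y s, |f' y s| ≤ B) {δ : ℝ}
    (hδ : 0 < δ) (hδ1 : δ ≤ 1) :
    |(∫ z, Kpow J (hf 0 t p z) r (fun y => (f y (z i + δ) - f y (z i)) / δ) p ∂gauss (Fin n))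
        - ∫ z, Kpow J (hf 0 t p z) r (fun y => f' y (z i)) p ∂gauss (Fin n)| ≤
      B * δ * (2 + τ * Real.sqrt t) := by
  have hB : 0 ≤ B := (abs_nonneg _).trans (hb p 0)
  have hτ : 0 ≤ τ := ht0.trans ht
  have hhf : Continuous fun z => hf 0 t p z := (contDiff_hf 0 t p).continuous
  have cK : ∀ (φ : (Fin n → ℝ) → Cfg n → ℝ), (∀ y, Continuous fun z => φ z y) →
      Continuous fun z => Kpow J (hf 0 t p z) r (φ z) p := fun φ hφ => by
    simp only [← pex_st J _ hn _ (le_refl r) p]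
    exact continuous_pex p hhf fun l => hφ _
  have cf : ∀ y, Continuous (f y) := fun y => continuous_iff_continuousAt.2 fun s => (hd y s).continuousAt
  set P := fun (s : ℝ) (z : Fin n → ℝ) => Kpow J (hf 0 t p z) r (fun y => f y (z i + s)) p with hP
  set P' := fun (s : ℝ) (z : Fin n → ℝ) => Kpow J (hf 0 t p z) r (fun y => f' y (z i + s)) p with hP'
  have cP : ∀ s, Continuous (P s) := fun s => cK _ fun y => (cf y).comp (by fun_prop)
  have cP' : ∀ s, Continuous (P' s) := fun s => cK _ fun y => (hc y).comp (by fun_prop)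
  have bP : ∀ s z, |P s z| ≤ B := fun s z => abs_Kpow_le _ hn (fun y => hb y _) r p
  have bP' : ∀ s z, |P' s z| ≤ B := fun s z => abs_Kpow_le _ hn (fun y => hb' y _) r p
  have hD : ∀ s, HasDerivAt (fun s => ∫ z, P s z ∂gauss (Fin n)) (∫ z, P' s z ∂gauss (Fin n)) s := fun s => by
    refine hasDerivAt_gauss_integral cP cP' (C₀ := B) (M₀ := 0) (C := B) (M := 0) (fun z => by simpa using bP s z)
      (fun θ _ z => by simpa using bP' θ z) fun θ z => ?_
    simp only [hP, hP', ← pex_st J _ hn _ (le_refl r) p, pex]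
    exact HasDerivAt.fun_sum fun l _ => ((hd _ _).comp_const_add (z i) θ).const_mul _
  obtain ⟨σ, ⟨hσ0, hσδ⟩, hσ⟩ := exists_hasDerivAt_eq_slope (fun s => ∫ z, P s z ∂gauss (Fin n)) _ hδ
    (fun s _ => (hD s).continuousAt.continuousWithinAt) fun s _ => hD s
  have hquot : (∫ z, Kpow J (hf 0 t p z) r (fun y => (f y (z i + δ) - f y (z i)) / δ) p ∂gauss (Fin n)) =
      ∫ z, P' σ z ∂gauss (Fin n) := by
    rw [hσ, ← integral_sub (integrable_bdd (cP δ) (bP δ)) (integrable_bdd (cP 0) (bP 0)), sub_zero, ← integral_div]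
    refine integral_congr_ae (Filter.Eventually.of_forall fun z => ?_)
    simp only [hP, ← pex_st J _ hn _ (le_refl r) p, pex, ← Finset.sum_sub_distrib, Finset.sum_div, add_zero]
    exact Finset.sum_congr rfl fun l _ => by ring
  rw [hquot]
  set e : Fin n → ℝ := Pi.single i σ with he
  set Hσ := fun v : Fin n → ℝ => Kpow J (hf 0 t p (v - e)) r (fun y => f' y (v i)) p with hHσ
  set G0 := fun v : Fin n → ℝ => Kpow J (hf 0 t p v) r (fun y => f' y (v i)) p with hG0
  have cH : Continuous Hσ := by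
    simp only [hHσ, ← pex_st J _ hn _ (le_refl r) p]
    exact continuous_pex p (hhf.comp (by fun_prop)) fun l => (hc _).comp (continuous_apply i)
  have cG : Continuous G0 := cK _ fun y => (hc y).comp (continuous_apply i)
  have bH : ∀ v, |Hσ v| ≤ B := fun v => abs_Kpow_le _ hn (fun y => hb' y _) r p
  have bG : ∀ v, |G0 v| ≤ B := fun v => abs_Kpow_le _ hn (fun y => hb' y _) r p
  have e1 : ∫ z, P' σ z ∂gauss (Fin n) = ∫ z, rho σ i z * Hσ z ∂gauss (Fin n) := by
    rw [← shift_eq]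
    refine integral_congr_ae (Filter.Eventually.of_forall fun z => ?_)
    simp [hP', hHσ, he]
  have hclose : ∀ v, |Hσ v - G0 v| ≤ τ * Real.sqrt t * B * σ := fun v => by
    refine (Kpow_field_bdd hn (fun y => hb' y _) _ _ r p).trans ?_
    have hs : ∑ j, |hf (0 : Fin n → ℝ) t p (v - e) j - hf 0 t p v j| = Real.sqrt t * σ := by
      rw [Finset.sum_eq_single i (fun j _ hj => by simp [hf, obsField, he, hj]) (by simp)]
      have : hf (0 : Fin n → ℝ) t p (v - e) i - hf 0 t p v i = -(Real.sqrt t * σ) := by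
        simp [hf, obsField, he]; ring
      rw [this, abs_neg, abs_of_nonneg (by positivity)]
    rw [hs]
    refine (mul_le_mul_of_nonneg_right ((div_le_iff₀ (Nat.cast_pos.2 hn)).2 hr) (by positivity)).trans_eq ?_
    ring
  have ir : Integrable (rho σ i) (gauss (Fin n)) :=
    integrable_of_bound (C := 1) (continuous_rho _ i) fun z => by rw [one_mul]; exact abs_rho_le _ i z
  have iH : Integrable (fun z => rho σ i z * Hσ z) (gauss (Fin n)) :=
    ir.mul_bdd (c := B) cH.aestronglyMeasurable (Filter.Eventually.of_forall fun z => by simpa using bH z)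
  have iG := integrable_bdd cG bG
  have e0 : ∫ z, Kpow J (hf 0 t p z) r (fun y => f' y (z i)) p ∂gauss (Fin n) = ∫ z, G0 z ∂gauss (Fin n) := rfl
  rw [e0, e1, ← integral_sub iH iG, ← Real.norm_eq_abs]
  have ia : Integrable (fun z => |rho σ i z - 1|) (gauss (Fin n)) := (ir.sub (integrable_const (1:ℝ))).abs
  refine (norm_integral_le_of_norm_le ((ir.mul_const (τ * Real.sqrt t * B * σ)).add (ia.mul_const B))
    (Filter.Eventually.of_forall fun z => ?_)).trans ?_
  · rw [Real.norm_eq_abs, Pi.add_apply, show rho σ i z * Hσ z - G0 z =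
      rho σ i z * (Hσ z - G0 z) + (rho σ i z - 1) * G0 z by ring]
    refine (abs_add_le _ _).trans (add_le_add ?_ ?_) <;> rw [abs_mul]
    · rw [abs_of_pos (show 0 < rho σ i z from Real.exp_pos _)]
      exact mul_le_mul_of_nonneg_left (hclose z) (Real.exp_pos _).le
    · exact mul_le_mul_of_nonneg_left (bG z) (abs_nonneg _)
  · rw [Pi.add_def, integral_add (ir.mul_const _) (ia.mul_const B), integral_mul_const, integral_mul_const,
      integral_rho, one_mul]
    have h1 := mul_le_mul_of_nonneg_right (integral_abs_rho_sub_one hσ0 (hσδ.le.trans hδ1) i) hB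
    have h2 := mul_le_mul_of_nonneg_left hσδ.le (by positivity : 0 ≤ τ * Real.sqrt t * B + 2 * B)
    linarith

lemma sum_fld_sq (hJ : Tame J L) (hn : 0 < n) (y : Cfg n) : ∑ i, fld J 0 i y ^ 2 ≤ L ^ 2 * n := by
  have hL := AvgDir.op_nonneg hJ.op hn
  have hJ' : Fast.OpNorm.OpLe (Matrix.of J) L := by
    refine Fast.OpNorm.opLe_of_quad hL (Matrix.IsSymm.ext fun i j => hJ.symm j i) fun v => ?_
    refine le_trans (le_of_eq ?_) (hJ.op v)
    simp only [dotProduct, Matrix.mulVec, Matrix.of_apply, Finset.mul_sum]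
    congr 1
    exact Finset.sum_congr rfl fun i _ => Finset.sum_congr rfl fun j _ => by ring
  have h := hJ'.2 fun j => spin (y j)
  simp only [Fast.OpNorm.nsq, Matrix.mulVec, dotProduct, Matrix.of_apply] at h
  refine le_trans (le_of_eq ?_) (h.trans_eq ?_)
  · exact Finset.sum_congr rfl fun i _ => by simp [fld]
  · simp [sq, spin_mul_self]

lemma sum_abs_fld (hJ : Tame J L) (hn : 0 < n) (y : Cfg n) : ∑ i, |fld J 0 i y| ≤ L * n := by
  have hL := AvgDir.op_nonneg hJ.op hn
  have hc := sq_sum_le_card_mul_sum_sq (s := Finset.univ) (f := fun i => |fld J 0 i y|)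
  simp only [Finset.card_univ, Fintype.card_fin, sq_abs] at hc
  refine (pow_le_pow_iff_left₀ (by positivity) (by positivity) two_ne_zero).1 (hc.trans ?_)
  exact (mul_le_mul_of_nonneg_left (sum_fld_sq hJ hn y) (Nat.cast_nonneg n)).trans_eq (by ring)

/-! ### the five functionals -/

section Functionals

variable (ψ : ChanTest) (J) (S)

/-- test times the field at the end -/
noncomputable def xA : SiteFn n := fun z p y e i => ψ.fn (fld J 0 i y) (z i) (p i) * fld J 0 i e
/-- test times the observed spin -/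
noncomputable def xB : SiteFn n := fun z p y _ i => ψ.fn (fld J 0 i y) (z i) (p i) * spin (p i)
/-- derivative of the test -/
noncomputable def xC : SiteFn n := fun z p y _ i => ψ.dfn (fld J 0 i y) (z i) (p i)
/-- the noise term -/
noncomputable def xE : SiteFn n := fun z p y _ i =>
  z i * ψ.fn (fld J 0 i y) (z i) (p i) - ψ.zfn (fld J 0 i y) (z i) (p i)
/-- test times the spin at the end -/
noncomputable def xG : SiteFn n := fun z p y e i => ψ.fn (fld J 0 i y) (z i) (p i) * spin (e i)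
/-- the overlap -/
def xQ : SiteFn n := fun _ p _ e i => spin (p i) * spin (e i)

lemma chanErr_eq (β : ℝ) (u : ℕ) (x : Cfg n) : chanErr S J β ψ u x =
    gs S J u x (xA J ψ) - β ^ 2 * (gs S J u x xQ / n * gs S J u x (xB J ψ)
      + gs S J u x xQ / n * gs S J u x (xC J ψ)
      + gs S J u x xQ / n / Real.sqrt S.t * gs S J u x (xE J ψ)
      + (1 - gs S J u x xQ / n) * gs S J u x (xG J ψ)) := rfl

variable {J S}

lemma abs_spin_eq (c : Bool) : |spin c| = 1 := by cases c <;> simp [spin]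

lemma continuous_noise (h : ℝ) (c : Bool) (i : Fin n) :
    Continuous fun z : Fin n → ℝ => ψ.fn h (z i) c :=
  (contDiff_noise ψ h c).continuous.comp (continuous_apply i)

lemma int_xA : Int1 (xA J ψ) := fun p y e i =>
  (integrable_bdd (continuous_noise ψ _ _ i) (fun z => (ψ.bdd _ _ _).1)).mul_const _

lemma int_xB : Int1 (xB J ψ) := fun p y e i =>
  (integrable_bdd (continuous_noise ψ _ _ i) (fun z => (ψ.bdd _ _ _).1)).mul_const _

lemma int_xG : Int1 (xG J ψ) := fun p y e i =>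
  (integrable_bdd (continuous_noise ψ _ _ i) (fun z => (ψ.bdd _ _ _).1)).mul_const _

lemma int_xC : Int1 (xC J ψ) := fun p y e i =>
  integrable_bdd ((cont_dfn ψ (p i)).comp (continuous_const.prodMk (continuous_apply i)))
    fun z => (ψ.bdd _ _ _).2.1

lemma int_zfn : Int1 (fun z p y _ i => ψ.zfn (fld J 0 i y) (z i) (p i)) := fun p y e i =>
  integrable_bdd ((ψ.contZ _ _).comp (continuous_apply i)) fun z => (ψ.bdd _ _ _).2.2

lemma int_zfun : Int1 (fun z p y _ i => z i * ψ.fn (fld J 0 i y) (z i) (p i)) := fun p y e i =>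
  integrable_of_bound (C := ψ.M) (M := 1) ((continuous_apply i).mul (continuous_noise ψ _ _ i)) fun z => by
    rw [abs_mul, mul_comm ψ.M]
    exact mul_le_mul ((abs_le_l1 z i).trans ((by linarith [Real.add_one_le_exp (1 * l1 z)] :
      l1 z ≤ Real.exp (1 * l1 z)))) (ψ.bdd _ _ _).1 (abs_nonneg _) (Real.exp_pos _).le

lemma int_xE : Int1 (xE J ψ) := fun p y e i => (int_zfun ψ p y e i).sub (int_zfn ψ p y e i)

lemma int_xQ : Int1 (xQ (n := n)) := fun _ _ _ _ => integrable_const _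

variable (hn : 0 < n)
include hn

lemma bound_xA (hJ : Tame J L) (u : ℕ) (x : Cfg n) : |gs S J u x (xA J ψ)| ≤ n * (ψ.M * L) := by
  refine (gs_bound (int_xA ψ) hn (integrable_const (n * (ψ.M * L))) (fun z p y e => ?_) u x).trans_eq (by simp)
  refine (Finset.sum_le_sum fun i _ => (abs_mul _ _).trans_le
    (mul_le_mul_of_nonneg_right (ψ.bdd _ _ _).1 (abs_nonneg _))).trans ?_
  rw [← Finset.mul_sum]
  exact (mul_le_mul_of_nonneg_left (sum_abs_fld hJ hn e) (M_nonneg ψ)).trans_eq (by ring)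

lemma bound_xB (u : ℕ) (x : Cfg n) : |gs S J u x (xB J ψ)| ≤ n * ψ.M :=
  gs_bound_const (int_xB ψ) hn (fun z p y e i => by
    rw [xB, abs_mul, abs_spin_eq, mul_one]; exact (ψ.bdd _ _ _).1) u x

lemma bound_xG (u : ℕ) (x : Cfg n) : |gs S J u x (xG J ψ)| ≤ n * ψ.M :=
  gs_bound_const (int_xG ψ) hn (fun z p y e i => by
    rw [xG, abs_mul, abs_spin_eq, mul_one]; exact (ψ.bdd _ _ _).1) u x

lemma bound_xC (u : ℕ) (x : Cfg n) : |gs S J u x (xC J ψ)| ≤ n * ψ.M :=
  gs_bound_const (int_xC ψ) hn (fun z p y e i => (ψ.bdd _ _ _).2.1) u x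

omit ψ in
lemma bound_xQ (u : ℕ) (x : Cfg n) : |gs S J u x xQ / n| ≤ 1 := by
  rw [abs_div, Nat.abs_cast, div_le_one (Nat.cast_pos.2 hn)]
  simpa using gs_bound_const int_xQ hn (B := 1) (fun z p y e i => by simp [xQ, abs_mul, abs_spin_eq]) u x

lemma bound_xE (u : ℕ) (x : Cfg n) : |gs S J u x (xE J ψ)| ≤ n * (2 * ψ.M) := by
  have hi : ∀ i : Fin n, Integrable (fun z => ψ.M * ((z i ^ 2 + 1) / 2) + ψ.M) (gauss (Fin n)) := fun i =>
    ((((integral_coord_sq i).1.add (integrable_const 1)).div_const 2).const_mul _).add (integrable_const _)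
  refine (gs_bound (int_xE ψ) hn (integrable_finsetSum _ fun i _ => hi i) (fun z p y e =>
    Finset.sum_le_sum fun i _ => ?_) u x).trans_eq ?_
  · refine (abs_sub _ _).trans (add_le_add ?_ (ψ.bdd _ _ _).2.2)
    rw [abs_mul, mul_comm ψ.M]
    refine mul_le_mul ?_ (ψ.bdd _ _ _).1 (abs_nonneg _) (by positivity)
    nlinarith [sq_abs (z i), sq_nonneg (|z i| - 1)]
  · rw [integral_finsetSum _ fun i _ => hi i]
    have e : ∀ i : Fin n, ∫ z, (ψ.M * ((z i ^ 2 + 1) / 2) + ψ.M) ∂gauss (Fin n) = 2 * ψ.M := fun i => by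
      have i1 : Integrable (fun z => ψ.M * ((z i ^ 2 + 1) / 2)) (gauss (Fin n)) :=
        (((integral_coord_sq i).1.add (integrable_const 1)).div_const 2).const_mul _
      rw [integral_add i1 (integrable_const _), integral_const_mul, integral_div,
        integral_add (integral_coord_sq i).1 (integrable_const _), (integral_coord_sq i).2]
      simp; ring
    simp [e]

omit hn
variable {R δ : ℝ} (H : Hyp S J L τ k)
include H

/-- a common bound of the tests -/
noncomputable def bigM (ψ : ChanTest) (R δ : ℝ) : ℝ :=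
  2 * R + 2 * R * ψ.M + 2 * ψ.M / δ + ψ.M + 1

omit H in
lemma le_bigM (hR : 1 ≤ R) (hδ : 0 < δ) : ψ.M ≤ bigM ψ R δ ∧ 2 * R ≤ bigM ψ R δ ∧
    2 * R * ψ.M ≤ bigM ψ R δ ∧ 2 * ψ.M / δ ≤ bigM ψ R δ := by
  have hM := M_nonneg ψ
  have : 0 ≤ 2 * ψ.M / δ := by positivity
  have : 0 ≤ 2 * R * ψ.M := by positivity
  refine ⟨?_, ?_, ?_, ?_⟩ <;> simp only [bigM] <;> linarith

/-- the factor of the test -/
lemma fac_psi (hR : 1 ≤ R) (hδ : 0 < δ) :
    Fac (bigM ψ R δ) L (fun p z (y : Cfg n) i => ψ.fn (fld J 0 i y) (z i) (p i)) :=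
  Fac.test (φ := chanTest n ψ) H.tame (bdd_mono (bdd_chanTest ψ) (le_bigM ψ hR hδ).1)
    fun _ h c => contDiff_noise ψ h c

lemma shift_xA (hR : 1 ≤ R) (hδ : 0 < δ) (u : ℕ) (x : Cfg n) :
    |gs S J (u + k) x (xA J ψ) - gs S J u x (xA J ψ)| ≤
      n * (2 * (ψ.M * L ^ 2 / R) + shC (bigM ψ R δ) L τ * eAt J 0 (u + S.D) x) := by
  have hR0 : 0 < R := zero_lt_one.trans_le hR
  have h2 : Fac (bigM ψ R δ) L (fun (_ : Cfg n) _ (e : Cfg n) i => cut R (fld J 0 i e)) :=
    Fac.test (φ := fieldTest n R hR0) H.tame (bdd_mono (bdd_fieldTest hR) (le_bigM ψ hR hδ).2.1)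
      fun _ _ _ => contDiff_const
  refine shift_of_close H (fac_psi ψ H hR hδ) h2 u x fun v => ?_
  refine (gs_close (int_xA ψ) (int_pairX (fac_psi ψ H hR hδ) h2) H.pos
    (integrable_const (n * (ψ.M * L ^ 2 / R))) (fun z p y e => ?_) v x).trans_eq (by simp)
  refine (Finset.sum_le_sum (g := fun i => ψ.M * (fld J 0 i e ^ 2 / R)) fun i _ => ?_).trans ?_
  · simp only [xA, pairX, ← mul_sub, abs_mul]
    exact mul_le_mul (ψ.bdd _ _ _).1 (cut_close hR0 _) (abs_nonneg _) (M_nonneg ψ)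
  · rw [← Finset.mul_sum, ← Finset.sum_div]
    refine (mul_le_mul_of_nonneg_left (div_le_div_of_nonneg_right (sum_fld_sq H.tame H.pos e) hR0.le)
      (M_nonneg ψ)).trans_eq ?_
    ring

lemma shift_xB (hR : 1 ≤ R) (hδ : 0 < δ) (u : ℕ) (x : Cfg n) :
    |gs S J (u + k) x (xB J ψ) - gs S J u x (xB J ψ)| ≤
      n * (shC (bigM ψ R δ) L τ * eAt J 0 (u + S.D) x) :=
  shift_pair H (fac_psi ψ H hR hδ) fac_ofStart u x

lemma shift_xG (hR : 1 ≤ R) (hδ : 0 < δ) (u : ℕ) (x : Cfg n) :
    |gs S J (u + k) x (xG J ψ) - gs S J u x (xG J ψ)| ≤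
      n * (shC (bigM ψ R δ) L τ * eAt J 0 (u + S.D) x) :=
  shift_pair H (fac_psi ψ H hR hδ) Fac.ofSpin u x

omit ψ in
lemma shift_xQ (M : ℝ) (u : ℕ) (x : Cfg n) :
    |gs S J (u + k) x xQ / n - gs S J u x xQ / n| ≤ shC M L τ * eAt J 0 (u + S.D) x := by
  rw [← sub_div, abs_div, Nat.abs_cast, div_le_iff₀ (Nat.cast_pos.2 H.pos), mul_comm _ (n : ℝ)]
  exact shift_pair (M := M) H fac_ofStart Fac.ofSpin u x

omit ψ H in
lemma pairX_one (Φ : Cfg n → (Fin n → ℝ) → Cfg n → Fin n → ℝ) :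
    pairX Φ (fun _ _ _ _ => 1) = fun z p y _ i => Φ p z y i := by
  funext z p y e i; simp [pairX]

lemma shift_xC (hR : 1 ≤ R) (hδ : 0 < δ) (u : ℕ) (x : Cfg n) :
    |gs S J (u + k) x (xC J ψ) - gs S J u x (xC J ψ)| ≤
      n * (2 * (ψ.M * δ) + shC (bigM ψ R δ) L τ * eAt J 0 (u + S.D) x) := by
  have h1 : Fac (bigM ψ R δ) L (fun p z (y : Cfg n) i => (quotTest ψ n δ).fn i (fld J 0 i y) (z i) (p i)) :=
    Fac.test (φ := quotTest ψ n δ) H.tame (bdd_mono (bdd_quotTest ψ hδ) (le_bigM ψ hR hδ).2.2.2)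
      fun _ h c => ((contDiff_noise ψ (h + δ) c).sub (contDiff_noise ψ h c)).div_const δ
  have h2 : Fac (bigM ψ R δ) L (fun (_ : Cfg n) (_ : Fin n → ℝ) (_ : Cfg n) (_ : Fin n) => (1 : ℝ)) :=
    Fac.ofConst (w := fun _ => 1) fun _ => by simp
  refine shift_of_close H h1 h2 u x fun v => ?_
  refine (gs_close (int_xC ψ) (int_pairX h1 h2) H.pos (integrable_const (n * (ψ.M * δ))) (fun z p y e => ?_)
    v x).trans_eq (by simp)
  refine (Finset.sum_le_sum fun i _ => ?_).trans_eq (by simp : ∑ _i : Fin n, ψ.M * δ = _)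
  simp only [pairX_one, xC]
  rw [abs_sub_comm]
  exact quot_close ψ hδ i _ _ _

lemma shift_xE (hR : 1 ≤ R) (hδ : 0 < δ) (hδ1 : δ ≤ 1) (u : ℕ) (x : Cfg n) :
    |gs S J (u + k) x (xE J ψ) - gs S J u x (xE J ψ)| ≤
      n * (2 * (ψ.M / R + ψ.M * δ * (2 + τ * Real.sqrt S.t))
        + 2 * shC (bigM ψ R δ) L τ * eAt J 0 (u + S.D) x) := by
  have hR0 : 0 < R := zero_lt_one.trans_le hR
  obtain ⟨-, -, hM3, hM4⟩ := le_bigM ψ hR hδ
  have h1 : Fac (bigM ψ R δ) L (fun p z (y : Cfg n) i => (noiseTest ψ n R).fn i (fld J 0 i y) (z i) (p i)) :=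
    Fac.test (φ := noiseTest ψ n R) H.tame (bdd_mono (bdd_noiseTest ψ hR) hM3)
      fun _ h c => (cont_cut hR0).mul (contDiff_noise ψ h c)
  have h2 : Fac (bigM ψ R δ) L (fun p z (y : Cfg n) i => (zquotTest ψ n δ).fn i (fld J 0 i y) (z i) (p i)) :=
    Fac.test (φ := zquotTest ψ n δ) H.tame (bdd_mono (bdd_zquotTest ψ hδ) hM4)
      fun _ h c => (((contDiff_noise ψ h c).comp (contDiff_id.add contDiff_const)).sub
        (contDiff_noise ψ h c)).div_const δ
  have h3 : Fac (bigM ψ R δ) L (fun (_ : Cfg n) (_ : Fin n → ℝ) (_ : Cfg n) (_ : Fin n) => (1 : ℝ)) :=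
    Fac.ofConst (w := fun _ => 1) fun _ => by simp
  set Z1 : SiteFn n := fun z p y _ i => z i * ψ.fn (fld J 0 i y) (z i) (p i)
  set Z2 : SiteFn n := fun z p y _ i => ψ.zfn (fld J 0 i y) (z i) (p i)
  have d1 : |gs S J (u + k) x Z1 - gs S J u x Z1| ≤
      n * (2 * (ψ.M / R) + shC (bigM ψ R δ) L τ * eAt J 0 (u + S.D) x) := by
    refine shift_of_close H h1 h3 u x fun v => ?_
    refine (gs_close (int_zfun ψ) (int_pairX h1 h3) H.pos
      (B := fun z => ∑ i, ψ.M * (z i ^ 2 / R))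
      (integrable_finsetSum _ fun i _ => ((integral_coord_sq i).1.div_const R).const_mul _)
      (fun z p y e => Finset.sum_le_sum fun i _ => ?_) v x).trans_eq ?_
    · simp only [pairX_one, noiseTest, ← sub_mul, abs_mul]
      rw [mul_comm]
      exact mul_le_mul (ψ.bdd _ _ _).1 (cut_close hR0 _) (abs_nonneg _) (M_nonneg ψ)
    · rw [integral_finsetSum _ fun i _ => ((integral_coord_sq i).1.div_const R).const_mul _]
      simp [integral_const_mul, integral_div, (integral_coord_sq _).2]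
      left; ring
  have d2 : |gs S J (u + k) x Z2 - gs S J u x Z2| ≤
      n * (2 * (ψ.M * δ * (2 + τ * Real.sqrt S.t)) + shC (bigM ψ R δ) L τ * eAt J 0 (u + S.D) x) := by
    refine shift_of_close H h2 h3 u x fun v => ?_
    rw [pairX_one]
    have hbq : ∀ (z : Fin n → ℝ) (p y e : Cfg n) (i : Fin n), |(zquotTest ψ n δ).fn i (fld J 0 i y) (z i) (p i)| ≤ 2 * ψ.M / δ :=
      fun z p y e i => (bdd_zquotTest ψ hδ).fn_le _ _ _ _
    rw [gs_post H.pos H.r_le (X := Z2) (fun p y e i => (ψ.contZ _ _).comp (continuous_apply i))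
        (fun z p y e i => (ψ.bdd _ _ _).2.2),
      gs_post H.pos H.r_le (fun p y e i => (h2.smooth p y i).continuous) hbq]
    refine Kpow_close 0 H.pos (fun p => ?_) _ x
    have hconst : ∀ (h : Fin n → ℝ) (m : ℕ) (c : ℝ) (y : Cfg n), Kpow J h m (fun _ => c) y = c :=
      fun h m c y => congrFun (Centre.Kpow_const (b := h) H.pos m c) y
    simp only [Z2, hconst, Centre.Kpow_finsetSum]
    have cK : ∀ (φ : (Fin n → ℝ) → Cfg n → ℝ), (∀ y, Continuous fun z => φ z y) →
        Continuous fun z => Kpow J (hf 0 S.t p z) S.r (φ z) p := fun φ hφ => by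
      simp only [← pex_st J _ H.pos _ (le_refl S.r) p]
      exact continuous_pex p (contDiff_hf 0 S.t p).continuous fun l => hφ _
    have i1 : ∀ i, Integrable (fun z => Kpow J (hf 0 S.t p z) S.r
        (fun y => ψ.zfn (fld J 0 i y) (z i) (p i)) p) (gauss (Fin n)) := fun i =>
      integrable_bdd (cK _ fun y => (ψ.contZ _ _).comp (continuous_apply i))
        fun z => abs_Kpow_le _ H.pos (fun y => (ψ.bdd _ _ _).2.2) _ _
    have i2 : ∀ i, Integrable (fun z => Kpow J (hf 0 S.t p z) S.r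
        (fun y => (zquotTest ψ n δ).fn i (fld J 0 i y) (z i) (p i)) p) (gauss (Fin n)) := fun i =>
      integrable_bdd (cK _ fun y => (h2.smooth p y i).continuous)
        fun z => abs_Kpow_le _ H.pos (fun y => hbq z p y y i) _ _
    rw [integral_finsetSum _ fun i _ => i1 i, integral_finsetSum _ fun i _ => i2 i, ← Finset.sum_sub_distrib]
    refine (Finset.abs_sum_le_sum_abs _ _).trans ((Finset.sum_le_sum fun i _ => ?_).trans_eq
      (by simp : ∑ _i : Fin n, ψ.M * δ * (2 + τ * Real.sqrt S.t) = n * (ψ.M * δ * (2 + τ * Real.sqrt S.t))))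
    rw [abs_sub_comm]
    exact zquot_site (t := S.t) (ht0 := H.t_nonneg) H.pos H.t_le (le_trans (by exact_mod_cast H.r_le) H.R_le) p i
      (f := fun y s => ψ.fn (fld J 0 i y) s (p i)) (f' := fun y s => ψ.zfn (fld J 0 i y) s (p i))
      (fun y s => ψ.hasDerivZ _ _ _) (fun y => ψ.contZ _ _) (fun y s => (ψ.bdd _ _ _).1)
      (fun y s => (ψ.bdd _ _ _).2.2) hδ hδ1
  have e : ∀ v, gs S J v x (xE J ψ) = gs S J v x Z1 - gs S J v x Z2 := fun v =>
    gs_sub (int_zfun ψ) (int_zfn ψ) H.pos v x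
  rw [e, e, sub_sub_sub_comm]
  refine (abs_sub _ _).trans ((add_le_add d1 d2).trans_eq ?_)
  ring

end Functionals

/-- bound of the change of a product -/
lemma abs_mul_sub_mul {q q' X X' a b c m : ℝ} (hq : |q'| ≤ m) (hΔq : |q - q'| ≤ a) (hX : |X| ≤ b)
    (hΔX : |X - X'| ≤ c) : |q * X - q' * X'| ≤ a * b + m * c := by
  rw [show q * X - q' * X' = (q - q') * X + q' * (X - X') by ring]
  refine (abs_add_le _ _).trans ?_
  rw [abs_mul, abs_mul]
  exact add_le_add (mul_le_mul hΔq hX (abs_nonneg _) ((abs_nonneg _).trans hΔq))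
    (mul_le_mul hq hΔX (abs_nonneg _) ((abs_nonneg _).trans hq))

end ChanStat

open ChanStat

/-- stationarity of the defect of the channel identity in the origin time -/
theorem chanErr_shift (β : ℝ) (ψ : ChanTest) (t τ L ε : ℝ) (ht : 0 < t) (hε : 0 < ε) :
    ∃ C : ℝ, 0 ≤ C ∧ ∀ n : ℕ, 0 < n → ∀ J : Fin n → Fin n → ℝ, Tame J L → ∀ S : Sched, S.t = t →
      S.r ≤ S.R → (S.R : ℝ) ≤ τ * n → ∀ u k : ℕ, (k : ℝ) ≤ τ * n → ∀ x : Cfg n,
        |chanErr S J β ψ (u + k) x - chanErr S J β ψ u x| ≤ n * (ε + C * eAt J 0 (u + S.D) x) := by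
  set T := max τ t
  set st' := Real.sqrt t
  have hst : 0 < st' := Real.sqrt_pos.2 ht
  have hM := M_nonneg ψ
  have hT : 0 ≤ T := ht.le.trans (le_max_right _ _)
  set K₀ := 2 * ψ.M * L ^ 2 + β ^ 2 * (2 * ψ.M + 2 * (ψ.M + ψ.M * (2 + T * st')) / st')
  set R := max 1 (K₀ / ε)
  set δ := 1 / R with hδd
  have hR : 1 ≤ R := le_max_left _ _
  have hR0 : 0 < R := zero_lt_one.trans_le hR
  have hδ : 0 < δ := by positivity
  have hδ1 : δ ≤ 1 := by rw [hδd, div_le_one hR0]; exact hR
  set B := shC (bigM ψ R δ) L T with hBd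
  have hB : 0 ≤ B := shC_nonneg hT
  refine ⟨B + β ^ 2 * (B * (3 * ψ.M) + 4 * B + (2 * ψ.M + 2) * B / st'), by positivity,
    fun n hn J hJ S hS hr hR' u k hk x => ?_⟩
  have hτT : τ * n ≤ T * n := mul_le_mul_of_nonneg_right (le_max_left _ _) (Nat.cast_nonneg n)
  have H : Hyp S J L T k :=
    ⟨hn, hJ, hr, hR'.trans hτT, hk.trans hτT, hS ▸ ht.le, hS ▸ le_max_right _ _⟩
  set e := eAt J 0 (u + S.D) x
  have he : 0 ≤ e := AvgDir.eAt_nonneg _ _
  have hn0 : (0 : ℝ) ≤ n := Nat.cast_nonneg n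
  have dA := shift_xA ψ H hR hδ u x
  have dB := shift_xB ψ H hR hδ u x
  have dC := shift_xC ψ H hR hδ u x
  have dE := shift_xE ψ H hR hδ hδ1 u x
  rw [show Real.sqrt S.t = st' by rw [hS]] at dE
  have dG := shift_xG ψ H hR hδ u x
  have dq := shift_xQ H (bigM ψ R δ) u x
  have bq := bound_xQ (S := S) (J := J) hn u x
  have pB := abs_mul_sub_mul bq dq (bound_xB ψ hn (u + k) x) dB
  have pC := abs_mul_sub_mul bq dq (bound_xC ψ hn (u + k) x) dC
  have pE := abs_mul_sub_mul bq dq (bound_xE ψ hn (u + k) x) dE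
  have b1 : |1 - gs S J u x xQ / n| ≤ 2 := (abs_sub _ _).trans (by rw [abs_one]; linarith)
  have dq1 : |(1 - gs S J (u + k) x xQ / n) - (1 - gs S J u x xQ / n)| ≤ B * e := by
    rw [sub_sub_sub_cancel_left, abs_sub_comm]; exact dq
  have pG := abs_mul_sub_mul b1 dq1 (bound_xG ψ hn (u + k) x) dG
  rw [← hBd] at dA pB pC pE pG
  rw [chanErr_eq, chanErr_eq, show Real.sqrt S.t = st' by rw [hS]]
  set qu := gs S J u x xQ / n
  set qk := gs S J (u + k) x xQ / n
  set PA := gs S J (u + k) x (xA J ψ) - gs S J u x (xA J ψ)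
  set PB := qk * gs S J (u + k) x (xB J ψ) - qu * gs S J u x (xB J ψ)
  set PC := qk * gs S J (u + k) x (xC J ψ) - qu * gs S J u x (xC J ψ)
  set PE := qk * gs S J (u + k) x (xE J ψ) - qu * gs S J u x (xE J ψ)
  set PG := (1 - qk) * gs S J (u + k) x (xG J ψ) - (1 - qu) * gs S J u x (xG J ψ)
  have e0 : gs S J (u + k) x (xA J ψ) - β ^ 2 * (qk * gs S J (u + k) x (xB J ψ) +
        qk * gs S J (u + k) x (xC J ψ) + qk / st' * gs S J (u + k) x (xE J ψ) +
        (1 - qk) * gs S J (u + k) x (xG J ψ)) -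
      (gs S J u x (xA J ψ) - β ^ 2 * (qu * gs S J u x (xB J ψ) + qu * gs S J u x (xC J ψ) +
        qu / st' * gs S J u x (xE J ψ) + (1 - qu) * gs S J u x (xG J ψ))) =
      PA - β ^ 2 * (PB + PC + PE / st' + PG) := by simp only [PA, PB, PC, PE, PG]; ring
  rw [e0]
  have hsum : |PB + PC + PE / st' + PG| ≤ |PB| + |PC| + |PE| / st' + |PG| := by
    have hd : |PE / st'| = |PE| / st' := by rw [abs_div, abs_of_pos hst]
    linarith [abs_add_le (PB + PC + PE / st') PG, abs_add_le (PB + PC) (PE / st'), abs_add_le PB PC]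
  have hKε : 2 * (ψ.M * L ^ 2 / R) +
      β ^ 2 * (2 * (ψ.M * δ) + 2 * (ψ.M / R + ψ.M * δ * (2 + T * st')) / st') ≤ ε := by
    have h1 : K₀ / R ≤ ε := by
      rw [div_le_iff₀ hR0, mul_comm ε, ← div_le_iff₀ hε]; exact le_max_right _ _
    refine le_trans (le_of_eq ?_) h1
    simp only [K₀, hδd]; field_simp
  have hE := div_le_div_of_nonneg_right pE hst.le
  refine (abs_sub _ _).trans ?_
  rw [abs_mul, abs_of_nonneg (sq_nonneg β)]
  refine (add_le_add dA (mul_le_mul_of_nonneg_left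
    (hsum.trans (add_le_add (add_le_add (add_le_add pB pC) hE) pG)) (sq_nonneg β))).trans ?_
  have := mul_le_mul_of_nonneg_left hKε hn0
  refine le_trans (le_of_eq ?_) (add_le_add this (le_refl
    (n * ((B + β ^ 2 * (B * (3 * ψ.M) + 4 * B + (2 * ψ.M + 2) * B / st')) * e)))
    |>.trans_eq (mul_add _ _ _).symm)
  field_simp
  ring

end Vale.Agent.P150.PA
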