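import Vale.Agent.P150.PA.LegTools

/-! Variance under one copy of linear and bilinear observables of the spins and of the test: each is
`O(n)`, uniformly in the starting configuration and the external field. -/

namespace Vale.Agent.P150.PA

open Ising MeasureTheory

variable {n : ℕ}

/-- variance under one copy -/
noncomputable def lvar (S : Sched) (J : Fin n → Fin n → ℝ) (b : Fin n → ℝ) (F : Cfg n)
    (X : Copy S n → ℝ) : ℝ :=
  lex S J b F (fun a => X a ^ 2) - lex S J b F X ^ 2

namespace LegVar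

variable {J : Fin n → Fin n → ℝ} {L M τ : ℝ}

/-- field of the tilted attempts after observing `y` with noise `u` -/
noncomputable def hf (b : Fin n → ℝ) (t : ℝ) (y : Cfg n) (u : Fin n → ℝ) : Fin n → ℝ :=
  fun i => b i + obsField t y u i

lemma contDiff_hf (b : Fin n → ℝ) (t : ℝ) (y : Cfg n) : ContDiff ℝ 1 (hf b t y) := by
  unfold hf obsField
  exact contDiff_pi.2 fun i => contDiff_const.add (contDiff_const.add (contDiff_const.mul (contDiff_apply ℝ ℝ i)))

/-- conditions on a conditional mean given the observed configuration `p`, the noise `u`, the field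
`h` and the starting configuration -/
structure Sec (Ψ : Cfg n → (Fin n → ℝ) → (Fin n → ℝ) → Cfg n → ℝ) (A B : ℝ) : Prop where
  smooth : ∀ p y (h : (Fin n → ℝ) → Fin n → ℝ), ContDiff ℝ 1 h → ContDiff ℝ 1 fun u => Ψ p u (h u) y
  grad : ∀ p u h y, gam (Ψ p u h) y ≤ A
  field : ∀ p u h h' y, |Ψ p u h y - Ψ p u h' y| ≤ Real.sqrt A * nrm (fun i => h i - h' i)
  param : ∃ c : Fin n → ℝ, (∀ i, 0 ≤ c i) ∧ ∑ i, c i ^ 2 ≤ A ∧ ∀ p p' u u' h y,
    |Ψ p u h y - Ψ p' u' h y| ≤ ∑ i, c i * ((if p i = p' i then 0 else 1) + |u i - u' i|)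
  bdd : ∀ p u h y, |Ψ p u h y| ≤ B

variable {Ψ : Cfg n → (Fin n → ℝ) → (Fin n → ℝ) → Cfg n → ℝ} {A B t : ℝ}

/-- constant of the average over the noise -/
noncomputable def meanC (τ : ℝ) : ℝ :=
  (1 + 2 * Real.sqrt τ) ^ 2 + 4 * Real.exp (4 * τ) + Real.exp (4 * τ) * (1 + Real.sqrt τ) ^ 2

lemma meanC_nonneg : 0 ≤ meanC τ := by unfold meanC; positivity

lemma integrable_bdd {g : (Fin n → ℝ) → ℝ} (hg : Continuous g) {B : ℝ} (hb : ∀ u, |g u| ≤ B) :
    Integrable g (gauss (Fin n)) :=
  integrable_of_bound (M := 0) hg fun u => by simpa using hb u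

lemma Sec.nonneg (hΨ : Sec Ψ A B) : 0 ≤ A :=
  (gam_nonneg _ _).trans (hΨ.grad (fun _ => true) 0 0 fun _ => true)

/-- variance in the noise -/
lemma Sec.var (hΨ : Sec Ψ A B) (b : Fin n → ℝ) (ht : t ≤ τ) (y : Cfg n) :
    ∫ u, Ψ y u (hf b t y u) y ^ 2 ∂gauss (Fin n) - (∫ u, Ψ y u (hf b t y u) y ∂gauss (Fin n)) ^ 2 ≤
      (1 + Real.sqrt τ) ^ 2 * A := by
  obtain ⟨c, c0, csq, hc⟩ := hΨ.param
  have hA : 0 ≤ A := hΨ.nonneg
  refine (var_gauss_le (K := (1 + Real.sqrt t) * Real.sqrt A) (hΨ.smooth y y _ (contDiff_hf b t y))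
    (fun u => hΨ.bdd _ _ _ _) (by positivity) fun u v => ?_).trans ?_
  · refine (abs_sub_le _ (Ψ y v (hf b t y u) y) _).trans ?_
    have h1 : |Ψ y u (hf b t y u) y - Ψ y v (hf b t y u) y| ≤ Real.sqrt A * nrm (fun i => u i - v i) := by
      refine (hc y y u v _ y).trans ?_
      simp only [if_true, zero_add]
      refine (Real.sum_mul_le_sqrt_mul_sqrt _ _ _).trans ?_
      simp only [sq_abs]
      exact mul_le_mul_of_nonneg_right (Real.sqrt_le_sqrt csq) (Real.sqrt_nonneg _)
    have h2 : |Ψ y v (hf b t y u) y - Ψ y v (hf b t y v) y| ≤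
        Real.sqrt A * (Real.sqrt t * nrm (fun i => u i - v i)) := by
      refine (hΨ.field y v _ _ y).trans (le_of_eq ?_)
      have e : (fun i => hf b t y u i - hf b t y v i) = fun i => Real.sqrt t * (u i - v i) :=
        funext fun i => by simp only [hf, obsField]; ring
      rw [e, nrm_smul, abs_of_nonneg (Real.sqrt_nonneg t)]
    linarith
  · rw [mul_pow, Real.sq_sqrt hA]
    gcongr

lemma flip_eq (φ : Cfg n → ℝ) (y : Cfg n) (i : Fin n) :
    φ (Function.update y i (!y i)) - φ y = -2 * spin (y i) * dd i φ y := by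
  have e : Function.update y i (y i) = y := Function.update_eq_self i y
  cases h : y i <;> rw [h] at e <;>
    simp only [dd, spin, e, Bool.not_false, Bool.not_true, if_true, Bool.false_eq_true, if_false] <;> ring

/-- gradient of the average over the noise -/
lemma Sec.gam_mean (hΨ : Sec Ψ A B) (b : Fin n → ℝ) (ht0 : 0 ≤ t) (ht : t ≤ τ) (y : Cfg n) :
    gam (fun z => ∫ u, Ψ z u (hf b t z u) z ∂gauss (Fin n)) y ≤ meanC τ * A := by
  classical
  have hA : 0 ≤ A := hΨ.nonneg
  have hB : 0 ≤ B := (abs_nonneg _).trans (hΨ.bdd y 0 0 y)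
  have hvar := hΨ.var b ht y
  obtain ⟨c, c0, csq, hc⟩ := hΨ.param
  set a : Fin n → ℝ := fun i => Real.sqrt t * (spin (!y i) - spin (y i)) with ha
  have hsp : ∀ c : Bool, spin (!c) - spin c = -(2 * spin c) := fun c => by cases c <;> simp [spin] <;> norm_num
  have ha2 : ∀ i, a i ^ 2 = 4 * t := fun i => by
    rw [ha, mul_pow, Real.sq_sqrt ht0, hsp, neg_sq, mul_pow, sq (spin (y i)), spin_mul_self]; ring
  have hab : ∀ i, |a i| ≤ 2 * Real.sqrt τ := fun i => by
    refine (Real.abs_le_sqrt (le_of_eq (ha2 i))).trans ?_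
    rw [Real.sqrt_mul (by norm_num), show (4 : ℝ) = 2 ^ 2 by norm_num, Real.sqrt_sq zero_le_two]
    exact mul_le_mul_of_nonneg_left (Real.sqrt_le_sqrt ht) zero_le_two
  set yi := fun i => Function.update y i (!y i) with hyi
  set g := fun u => Ψ y u (hf b t y u) y with hg
  set g' := fun i u => Ψ y u (hf b t y u) (yi i) with hg'
  have cg : Continuous g := (hΨ.smooth y y _ (contDiff_hf b t y)).continuous
  have cg' : ∀ i, Continuous (g' i) := fun i => (hΨ.smooth y (yi i) _ (contDiff_hf b t y)).continuous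
  have bg : ∀ u, |g u| ≤ B := fun u => hΨ.bdd _ _ _ _
  have bg' : ∀ i u, |g' i u| ≤ B := fun i u => hΨ.bdd _ _ _ _
  have ir : ∀ i (f : (Fin n → ℝ) → ℝ), Continuous f → ∀ C, (∀ u, |f u| ≤ C) →
      Integrable (fun u => rho (a i) i u * f u) (gauss (Fin n)) := fun i f hf C hC =>
    integrable_of_bound (C := C) ((continuous_rho _ i).mul hf) fun u => by
      rw [abs_mul, mul_comm C]
      exact mul_le_mul (abs_rho_le _ i u) (hC u) (abs_nonneg _) (Real.exp_pos _).le
  have irr : ∀ i j, Integrable (fun u => rho (a i) i u * rho (a j) j u) (gauss (Fin n)) := fun i j =>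
    integrable_of_bound (C := 1) ((continuous_rho _ i).mul (continuous_rho _ j)) fun u => by
      rw [abs_mul, one_mul, add_mul, Real.exp_add]
      exact mul_le_mul (abs_rho_le _ i u) (abs_rho_le _ j u) (abs_nonneg _) (Real.exp_pos _).le
  have ir1 : ∀ i, Integrable (rho (a i) i) (gauss (Fin n)) := fun i =>
    integrable_of_bound (C := 1) (continuous_rho _ i) fun u => by rw [one_mul]; exact abs_rho_le _ i u
  set κ := Real.exp (4 * τ) with hκ
  have hκt : ∀ i, Real.exp (a i ^ 2) ≤ κ := fun i => by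
    rw [ha2, hκ]; exact Real.exp_le_exp.2 (by linarith)
  -- the change of the starting configuration
  set X := fun i => ∫ u, rho (a i) i u * (g' i u - g u) ∂gauss (Fin n)
  set d := fun i u => dd i (Ψ y u (hf b t y u)) y
  have hd : ∀ i u, g' i u - g u = -2 * spin (y i) * d i u := fun i u => flip_eq _ y i
  have hX : ∀ i, X i ^ 2 ≤ κ * ∫ u, (g' i u - g u) ^ 2 ∂gauss (Fin n) := fun i => by
    have h := bessel (ι := Unit) (μ := gauss (Fin n)) (f := fun _ => rho (a i) i)
      (X := fun u => g' i u - g u) (κ := κ) (Real.exp_pos _)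
      (integrable_bdd (((cg' i).sub cg).pow 2) (B := (B + B) ^ 2) fun u => by
        rw [abs_pow]
        exact pow_le_pow_left₀ (abs_nonneg _) ((abs_sub _ _).trans (add_le_add (bg' i u) (bg u))) 2)
      (fun _ => ir i _ ((cg' i).sub cg) (B + B) fun u => (abs_sub _ _).trans (add_le_add (bg' i u) (bg u)))
      (fun _ _ => irr i i) (fun _ _ h => absurd (Subsingleton.elim _ _) h)
      (fun _ => (integral_rho_sq _ i).le.trans (hκt i))
    simpa using h
  -- the change of the likelihood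
  set Y := fun i => ∫ u, (rho (a i) i u - 1) * g u ∂gauss (Fin n)
  have hY : ∑ i, Y i ^ 2 ≤ κ * ((1 + Real.sqrt τ) ^ 2 * A) := by
    set m := ∫ u, g u ∂gauss (Fin n)
    have ig : Integrable g (gauss (Fin n)) := integrable_bdd cg bg
    have ig2 : Integrable (fun u => g u ^ 2) (gauss (Fin n)) := integrable_bdd (cg.pow 2) (B := B ^ 2) fun u => by
      rw [abs_pow]; exact pow_le_pow_left₀ (abs_nonneg _) (bg u) 2
    have igm : Integrable (fun u => (g u - m) ^ 2) (gauss (Fin n)) :=
      integrable_bdd ((cg.sub continuous_const).pow 2) (B := (B + |m|) ^ 2) fun u => by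
        rw [abs_pow]
        exact pow_le_pow_left₀ (abs_nonneg _) ((abs_sub _ _).trans (add_le_add (bg u) le_rfl)) 2
    have irm : ∀ i, Integrable (fun u => rho (a i) i u * (g u - m)) (gauss (Fin n)) := fun i =>
      ir i _ (cg.sub continuous_const) (B + |m|) fun u => (abs_sub _ _).trans (add_le_add (bg u) le_rfl)
    have iff' : ∀ i j, Integrable (fun u => (rho (a i) i u - 1) * (rho (a j) j u - 1)) (gauss (Fin n)) :=
      fun i j => ((((irr i j).sub (ir1 i)).sub (ir1 j)).add (integrable_const (1 : ℝ))).congr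
        (Filter.Eventually.of_forall fun u => by simp only [Pi.add_apply, Pi.sub_apply]; ring)
    have e : ∀ i j, ∫ u, (rho (a i) i u - 1) * (rho (a j) j u - 1) ∂gauss (Fin n) =
        (∫ u, rho (a i) i u * rho (a j) j u ∂gauss (Fin n)) - 1 := fun i j => by
      have i1 : Integrable (fun u => rho (a i) i u * rho (a j) j u - rho (a i) i u) (gauss (Fin n)) :=
        (irr i j).sub (ir1 i)
      have i2 : Integrable (fun u => rho (a j) j u - 1) (gauss (Fin n)) := (ir1 j).sub (integrable_const _)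
      rw [show (fun u => (rho (a i) i u - 1) * (rho (a j) j u - 1)) =
          fun u => (rho (a i) i u * rho (a j) j u - rho (a i) i u) - (rho (a j) j u - 1) from
          funext fun u => by ring, integral_sub i1 i2,
        integral_sub (irr i j) (ir1 i), integral_sub (ir1 j) (integrable_const _), integral_rho, integral_rho]
      simp
    have ifX : ∀ i, Integrable (fun u => (rho (a i) i u - 1) * (g u - m)) (gauss (Fin n)) := fun i =>
      ((irm i).sub (ig.sub (integrable_const m))).congr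
        (Filter.Eventually.of_forall fun u => by simp only [Pi.sub_apply]; ring)
    have h := bessel (μ := gauss (Fin n)) (f := fun i u => rho (a i) i u - 1) (X := fun u => g u - m)
      (κ := κ) (Real.exp_pos _) igm ifX iff'
      (fun i j hij => by rw [e, integral_rho_mul _ _ hij, sub_self])
      (fun i => by rw [e, integral_rho_sq]; linarith [hκt i])
    have eY : ∀ i, ∫ u, (rho (a i) i u - 1) * (g u - m) ∂gauss (Fin n) = Y i := fun i => by
      have i0 : Integrable (fun u => (rho (a i) i u - 1) * g u) (gauss (Fin n)) :=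
        ((ir i g cg B bg).sub ig).congr (Filter.Eventually.of_forall fun u => by simp only [Pi.sub_apply]; ring)
      have i1 : Integrable (fun u => rho (a i) i u - 1) (gauss (Fin n)) := (ir1 i).sub (integrable_const _)
      rw [show (fun u => (rho (a i) i u - 1) * (g u - m)) =
          fun u => (rho (a i) i u - 1) * g u - m * (rho (a i) i u - 1) from funext fun u => by ring,
        integral_sub i0 (i1.const_mul m), integral_const_mul,
        integral_sub (ir1 i) (integrable_const _), integral_rho]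
      simp [Y]
    simp only [eY] at h
    refine h.trans (mul_le_mul_of_nonneg_left (le_trans (le_of_eq ?_) hvar) (Real.exp_pos _).le)
    have i2 : Integrable (fun u => 2 * m * g u - m ^ 2) (gauss (Fin n)) :=
      (ig.const_mul _).sub (integrable_const _)
    rw [show (fun u => (g u - m) ^ 2) = fun u => g u ^ 2 - (2 * m * g u - m ^ 2) from funext fun u => by ring,
      integral_sub ig2 i2,
      integral_sub (ig.const_mul _) (integrable_const _), integral_const_mul]
    show _ = (∫ u, g u ^ 2 ∂gauss (Fin n)) - m ^ 2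
    simp; ring
  -- one flip
  have hflip : ∀ i, dd i (fun z => ∫ u, Ψ z u (hf b t z u) z ∂gauss (Fin n)) y ^ 2 ≤
      3 / 4 * (((1 + 2 * Real.sqrt τ) * c i) ^ 2 + X i ^ 2 + Y i ^ 2) := by
    intro i
    set F := fun u => Ψ (yi i) (u - Pi.single i (a i)) (hf b t y u) (yi i) with hF
    have eh : ∀ u, hf b t y (u + Pi.single i (a i)) = hf b t (yi i) u := fun u => funext fun j => by
      by_cases hj : j = i
      · subst hj
        simp only [hf, obsField, hyi, Function.update_self, Pi.add_apply, Pi.single_eq_same, ha]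
        linear_combination (spin (!y j) - spin (y j)) * Real.mul_self_sqrt ht0
      · simp [hf, obsField, hyi, hj]
    have cF : Continuous F := by
      have h := ((hΨ.smooth (yi i) (yi i) (fun v => hf b t y (v + Pi.single i (a i)))
        ((contDiff_hf b t y).comp (contDiff_id.add contDiff_const))).continuous).comp
        (continuous_id.sub (continuous_const (y := Pi.single i (a i))))
      simpa [hF, Function.comp_def] using h
    have e1 : ∫ u, Ψ (yi i) u (hf b t (yi i) u) (yi i) ∂gauss (Fin n) =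
        ∫ u, rho (a i) i u * F u ∂gauss (Fin n) := by
      rw [← shift_eq]
      simp [hF, eh]
    set W := ∫ u, rho (a i) i u * (F u - g' i u) ∂gauss (Fin n)
    have hdiff : ∀ u, |F u - g' i u| ≤ (1 + 2 * Real.sqrt τ) * c i := fun u => by
      refine (hc _ _ _ _ _ _).trans ?_
      rw [Finset.sum_eq_single i (fun j _ hj => by simp [hyi, hj]) (by simp)]
      simp only [hyi, Function.update_self, Bool.not_eq_self, if_false, Pi.sub_apply, Pi.single_eq_same,
        sub_sub_cancel_left, abs_neg]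
      rw [mul_comm _ (c i)]
      exact mul_le_mul_of_nonneg_left (by linarith [hab i]) (c0 i)
    have hW : |W| ≤ (1 + 2 * Real.sqrt τ) * c i := by
      refine abs_integral_le_integral_abs.trans ?_
      have hCi : Integrable (fun u => rho (a i) i u * ((1 + 2 * Real.sqrt τ) * c i)) (gauss (Fin n)) :=
        (ir1 i).mul_const _
      refine (integral_mono_of_nonneg (Filter.Eventually.of_forall fun u => abs_nonneg _) hCi
        (Filter.Eventually.of_forall fun u => ?_)).trans_eq ?_
      · show |_| ≤ _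
        rw [abs_mul, abs_of_pos (show 0 < rho (a i) i u from Real.exp_pos _)]
        exact mul_le_mul_of_nonneg_left (hdiff u) (Real.exp_pos _).le
      · rw [integral_mul_const, integral_rho, one_mul]
    have esum : (∫ u, rho (a i) i u * F u ∂gauss (Fin n)) - ∫ u, g u ∂gauss (Fin n) = W + X i + Y i := by
      have iF := ir i F cF B fun u => hΨ.bdd _ _ _ _
      have iG := ir i g cg B bg
      have iG' := ir i (g' i) (cg' i) B (bg' i)
      simp only [W, X, Y, mul_sub, sub_mul, one_mul]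
      rw [integral_sub iF iG', integral_sub iG' iG, integral_sub iG (integrable_bdd cg bg)]
      ring
    have key : dd i (fun z => ∫ u, Ψ z u (hf b t z u) z ∂gauss (Fin n)) y ^ 2 = (W + X i + Y i) ^ 2 / 4 := by
      have h := flip_eq (fun z => ∫ u, Ψ z u (hf b t z u) z ∂gauss (Fin n)) y i
      rw [← esum, ← e1]
      simp only [hg]
      rw [show yi i = Function.update y i (!y i) from rfl, h, mul_pow, mul_pow, sq (spin (y i)), spin_mul_self]
      ring
    rw [key]
    have hW2 := sq_le_sq' (abs_le.1 hW).1 (abs_le.1 hW).2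
    linarith [sq_nonneg (W - X i), sq_nonneg (W - Y i), sq_nonneg (X i - Y i)]
  have hX2 : ∑ i, X i ^ 2 ≤ κ * (4 * A) := by
    refine (Finset.sum_le_sum fun i _ => hX i).trans ?_
    rw [← Finset.mul_sum]
    refine mul_le_mul_of_nonneg_left ?_ (Real.exp_pos _).le
    have isq : ∀ i, Integrable (fun u => (g' i u - g u) ^ 2) (gauss (Fin n)) := fun i => by
      refine integrable_bdd (((cg' i).sub cg).pow 2) (B := (B + B) ^ 2) fun u => ?_
      show |(g' i u - g u) ^ 2| ≤ _
      rw [abs_pow]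
      exact pow_le_pow_left₀ (abs_nonneg _) ((abs_sub _ _).trans (add_le_add (bg' i u) (bg u))) 2
    rw [← integral_finsetSum _ fun i _ => isq i]
    refine (integral_mono_of_nonneg (Filter.Eventually.of_forall fun u => Finset.sum_nonneg fun _ _ => sq_nonneg _)
      (integrable_const (4 * A)) (Filter.Eventually.of_forall fun u => ?_)).trans_eq (by simp)
    refine le_trans (le_of_eq ?_) (mul_le_mul_of_nonneg_left (hΨ.grad y u (hf b t y u) y) zero_le_four)
    rw [gam, Finset.mul_sum]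
    refine Finset.sum_congr rfl fun i _ => ?_
    rw [hd, mul_pow, mul_pow, sq (spin (y i)), spin_mul_self]
    norm_num [d]
  have hc2 : ∑ i, ((1 + 2 * Real.sqrt τ) * c i) ^ 2 ≤ (1 + 2 * Real.sqrt τ) ^ 2 * A := by
    simp only [mul_pow, ← Finset.mul_sum]
    exact mul_le_mul_of_nonneg_left csq (sq_nonneg _)
  refine (Finset.sum_le_sum fun i _ => hflip i).trans ?_
  rw [← Finset.mul_sum, Finset.sum_add_distrib, Finset.sum_add_distrib]
  have h0 : ∀ (f : Fin n → ℝ), 0 ≤ ∑ i, f i ^ 2 := fun f => Finset.sum_nonneg fun _ _ => sq_nonneg _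
  simp only [meanC, ← hκ]
  linarith [h0 X, h0 Y, h0 fun i => (1 + 2 * Real.sqrt τ) * c i]

/-- bound of a factor -/
noncomputable def facB (M : ℝ) : ℝ := max M 1

/-- gradient bound of a factor -/
noncomputable def facA (M L : ℝ) : ℝ := 10 * facB M ^ 2 * max L 1 ^ 2

lemma one_le_facB : 1 ≤ facB M := le_max_right _ _

lemma facA_nonneg : 0 ≤ facA M L := by unfold facA; positivity

lemma one_le_facA : 1 ≤ facA M L := by
  unfold facA
  nlinarith [one_le_pow₀ (n := 2) (one_le_facB (M := M)), one_le_pow₀ (n := 2) (le_max_right L 1)]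

/-- an observable of one time, depending on the observation only through its own site -/
structure Fac (M L : ℝ) (Φ : Cfg n → (Fin n → ℝ) → Cfg n → Fin n → ℝ) : Prop where
  gam_le : ∀ p u (v : Fin n → ℝ) y, gam (fun z => ∑ j, v j * Φ p u z j) y ≤ facA M L * ∑ j, v j ^ 2
  abs_le : ∀ p u z j, |Φ p u z j| ≤ facB M
  smooth : ∀ p z j, ContDiff ℝ 1 fun u => Φ p u z j
  param : ∀ p p' u u' z j, |Φ p u z j - Φ p' u' z j| ≤
    2 * facB M * ((if p j = p' j then 0 else 1) + |u j - u' j|)

variable {Φ Φ' : Cfg n → (Fin n → ℝ) → Cfg n → Fin n → ℝ}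

lemma Fac.vb (hΦ : Fac M L Φ) (p : Cfg n) (u : Fin n → ℝ) : VB (Φ p u) (facA M L) (n * facB M ^ 2) :=
  ⟨facA_nonneg, hΦ.gam_le p u, fun z => sum_sq_le_of_abs (hΦ.abs_le p u z)⟩

lemma Fac.ofSpin : Fac M L (fun _ _ (z : Cfg n) j => spin (z j)) where
  gam_le _ _ v y := by
    refine (Corr.gam_lin_spin v y).trans ?_
    rw [one_pow]
    exact mul_le_mul_of_nonneg_right one_le_facA (Finset.sum_nonneg fun _ _ => sq_nonneg _)
  abs_le _ _ z j := le_trans (by simp only [spin]; split_ifs <;> norm_num) one_le_facB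
  smooth _ _ _ := contDiff_const
  param _ _ _ _ _ _ := by
    rw [sub_self, abs_zero]
    have := one_le_facB (M := M)
    positivity

lemma Fac.ofConst {w : Fin n → ℝ} (hw : ∀ j, |w j| ≤ 1) : Fac M L (fun _ _ (_ : Cfg n) j => w j) where
  gam_le _ _ v y := by
    have : gam (fun _ : Cfg n => ∑ j, v j * w j) y = 0 := by simp [gam, dd]
    rw [this]
    exact mul_nonneg facA_nonneg (Finset.sum_nonneg fun _ _ => sq_nonneg _)
  abs_le _ _ _ j := (hw j).trans one_le_facB
  smooth _ _ _ := contDiff_const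
  param _ _ _ _ _ _ := by
    rw [sub_self, abs_zero]
    have := one_le_facB (M := M)
    positivity

lemma test_taylor {φ : Test n} (hφ : φ.Bdd M) (i : Fin n) (u : ℝ) (c : Bool) {h D x y : ℝ}
    (hx : |x - h| ≤ D) (hy : |y - h| ≤ D) :
    |φ.fn i x u c - φ.fn i y u c - φ.dfn i h u c * (x - y)| ≤ M * D * |x - y| := by
  have hM : 0 ≤ M := (abs_nonneg _).trans (hφ.fn_le i h u c)
  have hs : Set.uIcc y x ⊆ Metric.closedBall h D := by
    refine (convex_closedBall h D).ordConnected.uIcc_subset ?_ ?_ <;>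
      simpa [Metric.mem_closedBall, Real.dist_eq]
  have key := (convex_uIcc y x).norm_image_sub_le_of_norm_hasDerivWithin_le
    (f := fun s => φ.fn i s u c - φ.dfn i h u c * s) (C := M * D)
    (fun s _ => ((φ.hasDeriv i s u c).sub ((hasDerivAt_id s).const_mul _)).hasDerivWithinAt)
    (fun s hs' => by
      rw [mul_one, Real.norm_eq_abs]
      refine (hφ.dfn_lip i s h u c).trans (mul_le_mul_of_nonneg_left ?_ hM)
      simpa [Metric.mem_closedBall, Real.dist_eq] using hs hs')
    Set.left_mem_uIcc Set.right_mem_uIcc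
  simp only [Real.norm_eq_abs] at key
  refine le_trans (le_of_eq ?_) key
  congr 1; ring

lemma Fac.test (hJ : Tame J L) {φ : Test n} (hφ : φ.Bdd M)
    (hu : ∀ i h c, ContDiff ℝ 1 fun u => φ.fn i h u c) :
    Fac M L (fun p u (z : Cfg n) j => φ.fn j (fld J 0 j z) (u j) (p j)) where
  abs_le p u z j := (hφ.fn_le _ _ _ _).trans (le_max_left _ _)
  smooth p z j := (hu j _ _).comp (contDiff_apply ℝ ℝ j)
  param p p' u u' z j := by
    have h1 : (0 : ℝ) ≤ facB M := zero_le_one.trans one_le_facB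
    have h2 : M ≤ facB M := le_max_left _ _
    split_ifs with h
    · rw [h]
      refine (hφ.noise_lip _ _ _ _ _).trans (mul_le_mul ?_ (by simp) (abs_nonneg _) (by linarith))
      linarith
    · refine (abs_sub _ _).trans ?_
      have := mul_nonneg h1 (abs_nonneg (u j - u' j))
      linarith [hφ.fn_le j (fld J 0 j z) (u j) (p j), hφ.fn_le j (fld J 0 j z) (u' j) (p' j)]
  gam_le p u v y := by
    set L' := max L 1
    set M' := facB M
    have hn : ∀ i : Fin n, 0 ≤ M := fun i => (abs_nonneg _).trans (hφ.fn_le i 0 0 true)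
    have hJ' : Tame J L' :=
      ⟨hJ.symm, hJ.diag, fun w => (hJ.op w).trans (mul_le_mul_of_nonneg_right (le_max_left _ _)
        (Finset.sum_nonneg fun _ _ => sq_nonneg _)), fun i => (hJ.row2 i).trans (le_max_left _ _), hJ.small⟩
    have hL : 0 < L' := zero_lt_one.trans_le (le_max_right _ _)
    have hM' : 0 ≤ M' := zero_le_one.trans one_le_facB
    set w := fun j => v j * φ.dfn j (fld J 0 j y) (u j) (p j) with hw
    set P := fun i => ∑ j, J j i * w j
    set R := fun i => ∑ j, |v j| * J j i ^ 2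
    have hdd : ∀ i, dd i (fun z => ∑ j, v j * φ.fn j (fld J 0 j z) (u j) (p j)) y ^ 2 ≤
        2 * P i ^ 2 + 8 * M' ^ 2 * R i ^ 2 := fun i => by
      have he : |dd i (fun z => ∑ j, v j * φ.fn j (fld J 0 j z) (u j) (p j)) y - P i| ≤ 2 * M' * R i := by
        simp only [dd, P, R, hw, ← Finset.sum_sub_distrib, Finset.sum_div, Finset.mul_sum]
        refine (Finset.abs_sum_le_sum_abs _ _).trans (Finset.sum_le_sum fun j _ => ?_)
        set h := fld J 0 j y
        set x₁ := fld J 0 j (Function.update y i true) with hx₁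
        set x₂ := fld J 0 j (Function.update y i false) with hx₂
        have e1 : x₁ = h + J j i * (spin true - spin (y i)) := fld_update J 0 j i y true
        have e2 : x₂ = h + J j i * (spin false - spin (y i)) := fld_update J 0 j i y false
        have hb : ∀ c, |spin c - spin (y i)| ≤ 2 := fun c => by
          cases c <;> cases y i <;> simp [spin] <;> norm_num
        have ht := test_taylor (x := x₁) (y := x₂) (h := h) (D := |J j i| * 2) hφ j (u j) (p j)
          (by rw [e1, add_sub_cancel_left, abs_mul]; exact mul_le_mul_of_nonneg_left (hb _) (abs_nonneg _))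
          (by rw [e2, add_sub_cancel_left, abs_mul]; exact mul_le_mul_of_nonneg_left (hb _) (abs_nonneg _))
        have e3 : x₁ - x₂ = 2 * J j i := by rw [e1, e2]; simp [spin]; ring
        rw [e3] at ht
        calc _ = |v j| / 2 * |φ.fn j x₁ (u j) (p j) - φ.fn j x₂ (u j) (p j) -
              φ.dfn j h (u j) (p j) * (2 * J j i)| := by
              rw [← abs_two (α := ℝ), ← abs_div, ← abs_mul]
              congr 1; simp only [abs_two]; ring
          _ ≤ |v j| / 2 * (M * (|J j i| * 2) * |2 * J j i|) := mul_le_mul_of_nonneg_left ht (by positivity)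
          _ ≤ _ := by
            rw [abs_mul, abs_two, ← sq_abs (J j i)]
            have := mul_le_mul_of_nonneg_right (le_max_left M 1) (by positivity : 0 ≤ 2 * |v j| * |J j i| ^ 2)
            simp only [M', facB]
            linarith
      set Z := dd i (fun z => ∑ j, v j * φ.fn j (fld J 0 j z) (u j) (p j)) y
      have h2 := sq_le_sq' (_root_.abs_le.1 he).1 (_root_.abs_le.1 he).2
      linarith [sq_nonneg (Z - 2 * P i)]
    have hP : ∑ i, P i ^ 2 ≤ L' ^ 2 * ∑ j, w j ^ 2 := by
      have h := bilin_le hJ' (fun i => P i / L') w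
      have e : ∑ i, ∑ j, J j i * (P i / L' * w j) = (∑ i, P i ^ 2) / L' := by
        rw [Finset.sum_div]
        refine Finset.sum_congr rfl fun i _ => ?_
        rw [sq, mul_div_right_comm, Finset.mul_sum]
        exact Finset.sum_congr rfl fun j _ => by ring
      rw [e, div_le_iff₀ hL] at h
      simp only [div_pow, ← Finset.sum_div] at h
      have e2 : L' / 2 * ((∑ i, P i ^ 2) / L' ^ 2 + ∑ j, w j ^ 2) * L' =
          ((∑ i, P i ^ 2) + L' ^ 2 * ∑ j, w j ^ 2) / 2 := by field_simp
      linarith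
    have hw2 : ∑ j, w j ^ 2 ≤ M' ^ 2 * ∑ j, v j ^ 2 := by
      rw [Finset.mul_sum]
      refine Finset.sum_le_sum fun j _ => ?_
      rw [hw, mul_pow, mul_comm]
      refine mul_le_mul_of_nonneg_right ?_ (sq_nonneg _)
      rw [← sq_abs]
      exact pow_le_pow_left₀ (abs_nonneg _) ((hφ.dfn_le _ _ _ _).trans (le_max_left _ _)) 2
    have hR : ∑ i, R i ^ 2 ≤ L' ^ 2 * ∑ j, v j ^ 2 := by
      have h1 : ∀ i, R i ^ 2 ≤ L' * ∑ j, v j ^ 2 * J j i ^ 2 := fun i => by
        refine le_trans (le_of_eq ?_) ((Finset.sum_mul_sq_le_sq_mul_sq Finset.univ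
          (fun j => |J j i|) (fun j => |v j| * |J j i|)).trans ?_)
        · simp only [R]; congr 1
          exact Finset.sum_congr rfl fun j _ => by rw [← sq_abs (J j i)]; ring
        · simp only [mul_pow, sq_abs]
          refine mul_le_mul_of_nonneg_right (le_trans (le_of_eq ?_) (hJ'.row2 i))
            (Finset.sum_nonneg fun j _ => by positivity)
          exact Finset.sum_congr rfl fun j _ => by rw [hJ.symm i j]
      refine (Finset.sum_le_sum fun i _ => h1 i).trans ?_
      rw [← Finset.mul_sum, Finset.sum_comm, pow_two, mul_assoc]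
      refine mul_le_mul_of_nonneg_left ?_ hL.le
      rw [Finset.mul_sum]
      refine Finset.sum_le_sum fun j _ => ?_
      rw [← Finset.mul_sum, mul_comm L']
      exact mul_le_mul_of_nonneg_left (hJ'.row2 j) (sq_nonneg _)
    refine (Finset.sum_le_sum fun i _ => hdd i).trans ?_
    rw [Finset.sum_add_distrib, ← Finset.mul_sum, ← Finset.mul_sum]
    have h3 := mul_le_mul_of_nonneg_left hw2 (sq_nonneg L')
    have h4 := mul_le_mul_of_nonneg_left hR (mul_nonneg (by norm_num : (0 : ℝ) ≤ 8) (sq_nonneg M'))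
    show _ ≤ 10 * M' ^ 2 * L' ^ 2 * _
    linarith

/-- gradient bound of a linear conditional mean -/
noncomputable def linA (M L τ : ℝ) : ℝ := (1 + τ ^ 2) * (G L τ * facA M L) + 4 * facB M ^ 2

lemma linA_nonneg : 0 ≤ linA M L τ := by
  unfold linA; have := facA_nonneg (M := M) (L := L); have := G_pos (L := L) (τ := τ); positivity

lemma lin_sec (hJ : Tame J L) (hn : 0 < n) {m : ℕ} (hm : (m : ℝ) ≤ τ * n) (hΦ : Fac M L Φ)
    (w : Fin n → ℝ) :
    Sec (fun p u h y => Kpow J h m (fun z => ∑ j, w j * Φ p u z j) y) (linA M L τ * ∑ j, w j ^ 2)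
      (∑ j, |w j| * facB M) := by
  set W := ∑ j, w j ^ 2
  have hW : 0 ≤ W := Finset.sum_nonneg fun _ _ => sq_nonneg _
  have hτ : 0 ≤ τ := nonneg_of_mul_nonneg_left ((Nat.cast_nonneg m).trans hm) (Nat.cast_pos.2 hn)
  have hB : 0 ≤ facB M := zero_le_one.trans one_le_facB
  have hGA : 0 ≤ G L τ * facA M L := mul_nonneg G_pos.le facA_nonneg
  have hgrad : ∀ p u (h : Fin n → ℝ) y, gam (Kpow J h m fun z => ∑ j, w j * Φ p u z j) y ≤
      G L τ * (facA M L * W) := fun p u h y => gam_Kpow_G h hJ hn hm (hΦ.gam_le p u w) y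
  refine ⟨fun p y h hh => contDiff_Kpow hh (fun z => ContDiff.sum fun j _ =>
      contDiff_const.mul (hΦ.smooth p z j)) m y, fun p u h y => (hgrad p u h y).trans ?_,
    fun p u h h' y => (Kpow_field_le hJ hn hm (hΦ.gam_le p u w) h h' y).trans
      (mul_le_mul_of_nonneg_right ?_ (nrm_nonneg _)), ⟨fun i => 2 * facB M * |w i|,
    fun i => by positivity, ?_, fun p p' u u' h y => ?_⟩, fun p u h y => ?_⟩
  · rw [← mul_assoc]; refine mul_le_mul_of_nonneg_right ?_ hW
    simp only [linA]; nlinarith [mul_nonneg (sq_nonneg τ) hGA, sq_nonneg (facB M)]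
  · have e : τ * Real.sqrt (G L τ * (facA M L * W)) = Real.sqrt (τ ^ 2 * (G L τ * (facA M L * W))) := by
      rw [Real.sqrt_mul (sq_nonneg τ), Real.sqrt_sq hτ]
    rw [e, ← mul_assoc (G L τ), ← mul_assoc]
    refine Real.sqrt_le_sqrt (mul_le_mul_of_nonneg_right ?_ hW)
    simp only [linA]; linarith [sq_nonneg (facB M)]
  · simp only [mul_pow, sq_abs, ← Finset.mul_sum]
    refine mul_le_mul_of_nonneg_right ?_ hW
    simp only [linA]; nlinarith [mul_nonneg (sq_nonneg τ) hGA]
  · refine Kpow_close h hn (fun z => ?_) m y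
    rw [← Finset.sum_sub_distrib]
    refine (Finset.abs_sum_le_sum_abs _ _).trans (Finset.sum_le_sum fun j _ => ?_)
    rw [← mul_sub, abs_mul]
    refine (mul_le_mul_of_nonneg_left (hΦ.param p p' u u' z j) (abs_nonneg _)).trans (le_of_eq (by ring))
  · refine abs_Kpow_le h hn (fun z => ?_) m y
    refine (Finset.abs_sum_le_sum_abs _ _).trans (Finset.sum_le_sum fun j _ => ?_)
    rw [abs_mul]
    exact mul_le_mul_of_nonneg_left (hΦ.abs_le p u z j) (abs_nonneg _)

/-- gradient bound per site of an inner product with a propagated factor -/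
noncomputable def dotA (M L τ : ℝ) : ℝ :=
  3 * (G L τ * facA M L * facB M ^ 2 + facA M L * facB M ^ 2 + 4 * (G L τ * facA M L * facA M L))

/-- gradient bound per site of a bilinear conditional mean -/
noncomputable def pairA (M L τ : ℝ) : ℝ :=
  (1 + 2 * τ ^ 2) * G L τ * (dotA M L τ + facA M L * facB M ^ 2) + 16 * (facB M ^ 2) ^ 2

lemma dotA_nonneg : 0 ≤ dotA M L τ := by
  unfold dotA; have := facA_nonneg (M := M) (L := L); have := G_pos (L := L) (τ := τ); positivity

lemma pairA_nonneg : 0 ≤ pairA M L τ := by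
  unfold pairA
  have := facA_nonneg (M := M) (L := L); have := G_pos (L := L) (τ := τ)
  have := dotA_nonneg (M := M) (L := L) (τ := τ)
  positivity

lemma pair_sec (hJ : Tame J L) (hn : 0 < n) {m d : ℕ} (hm : (m : ℝ) ≤ τ * n) (hd : (d : ℝ) ≤ τ * n)
    (hΦ : Fac M L Φ) (hΦ' : Fac M L Φ') :
    Sec (fun p u h y => Kpow J h m (fun z => ∑ j, Φ p u z j * pv J h d (Φ' p u) z j) y)
      (pairA M L τ * n) (n * facB M ^ 2) := by
  have hn' : (0 : ℝ) ≤ n := Nat.cast_nonneg n
  have hτ : 0 ≤ τ := nonneg_of_mul_nonneg_left ((Nat.cast_nonneg m).trans hm) (Nat.cast_pos.2 hn)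
  have hB : 0 ≤ facB M := zero_le_one.trans one_le_facB
  have hG := (G_pos (L := L) (τ := τ)).le
  have hA0 := facA_nonneg (M := M) (L := L)
  have hD0 := dotA_nonneg (M := M) (L := L) (τ := τ)
  have hpv : ∀ p u (h : Fin n → ℝ) z j, |pv J h d (Φ' p u) z j| ≤ facB M := fun p u h z j =>
    abs_Kpow_le h hn (fun w => hΦ'.abs_le p u w j) d z
  have hU : ∀ p u (h : Fin n → ℝ) z,
      gam (fun z => ∑ j, Φ p u z j * pv J h d (Φ' p u) z j) z ≤ dotA M L τ * n := fun p u h z => by
    refine (VB.gam_dot (hΦ.vb p u) ((hΦ'.vb p u).kpow hJ hn h hd) z).trans (le_of_eq ?_)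
    simp only [dotA]; ring
  set S1 := G L τ * (dotA M L τ * n)
  set S2 := G L τ * (facA M L * (n * facB M ^ 2))
  have hS1 : 0 ≤ S1 := by positivity
  have hS2 : 0 ≤ S2 := by positivity
  have hdom : S1 + 2 * τ ^ 2 * (S1 + S2) + 16 * (facB M ^ 2) ^ 2 * n ≤ pairA M L τ * n := by
    simp only [pairA, S1, S2]
    have : 0 ≤ G L τ * (facA M L * (n * facB M ^ 2)) := hS2
    linarith
  refine ⟨fun p y h hh => contDiff_Kpow hh (fun z => ContDiff.sum fun j _ =>
      (hΦ.smooth p z j).mul (contDiff_Kpow hh (fun w => hΦ'.smooth p w j) d z)) m y,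
    fun p u h y => (gam_Kpow_G h hJ hn hm (hU p u h) y).trans ?_, fun p u h h' y => ?_,
    ⟨fun _ => 4 * facB M ^ 2, fun i => by positivity, ?_, fun p p' u u' h y => ?_⟩, fun p u h y => ?_⟩
  · linarith [mul_nonneg (mul_nonneg zero_le_two (sq_nonneg τ)) (add_nonneg hS1 hS2),
      mul_nonneg (sq_nonneg (facB M ^ 2)) hn']
  · set D := nrm (fun i => h i - h' i)
    have hD : 0 ≤ D := nrm_nonneg _
    have h1 : |Kpow J h m (fun z => ∑ j, Φ p u z j * pv J h d (Φ' p u) z j) y -
        Kpow J h' m (fun z => ∑ j, Φ p u z j * pv J h d (Φ' p u) z j) y| ≤ τ * Real.sqrt S1 * D :=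
      Kpow_field_le hJ hn hm (hU p u h) h h' y
    have h2 : |Kpow J h' m (fun z => ∑ j, Φ p u z j * pv J h d (Φ' p u) z j) y -
        Kpow J h' m (fun z => ∑ j, Φ p u z j * pv J h' d (Φ' p u) z j) y| ≤ τ * Real.sqrt S2 * D :=
      Kpow_close h' hn (fun z => by
        rw [← Kpow_sum_eq h d (Φ p u z) (Φ' p u) z, ← Kpow_sum_eq h' d (Φ p u z) (Φ' p u) z]
        exact Kpow_field_le hJ hn hd (fun w => ((hΦ'.gam_le p u _) w).trans
          (mul_le_mul_of_nonneg_left ((hΦ.vb p u).sq_le z) hA0)) h h' z) m y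
    have h3 : τ * Real.sqrt S1 + τ * Real.sqrt S2 ≤ Real.sqrt (pairA M L τ * n) := by
      refine (le_abs_self _).trans (Real.abs_le_sqrt (le_trans ?_ hdom))
      have e1 : (τ * Real.sqrt S1) ^ 2 = τ ^ 2 * S1 := by rw [mul_pow, Real.sq_sqrt hS1]
      have e2 : (τ * Real.sqrt S2) ^ 2 = τ ^ 2 * S2 := by rw [mul_pow, Real.sq_sqrt hS2]
      linarith [sq_nonneg (τ * Real.sqrt S1 - τ * Real.sqrt S2), mul_nonneg (sq_nonneg (facB M ^ 2)) hn']
    calc _ ≤ _ := abs_sub_le _ (Kpow J h' m (fun z => ∑ j, Φ p u z j * pv J h d (Φ' p u) z j) y) _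
      _ ≤ τ * Real.sqrt S1 * D + τ * Real.sqrt S2 * D := add_le_add h1 h2
      _ = (τ * Real.sqrt S1 + τ * Real.sqrt S2) * D := by ring
      _ ≤ _ := mul_le_mul_of_nonneg_right h3 hD
  · simp only [mul_pow, Finset.sum_const, Finset.card_univ, Fintype.card_fin, nsmul_eq_mul]
    linarith [mul_nonneg (mul_nonneg zero_le_two (sq_nonneg τ)) (add_nonneg hS1 hS2)]
  · refine Kpow_close h hn (fun z => ?_) m y
    rw [← Finset.sum_sub_distrib]
    refine (Finset.abs_sum_le_sum_abs _ _).trans (Finset.sum_le_sum fun j _ => ?_)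
    set E : ℝ := (if p j = p' j then 0 else 1) + |u j - u' j|
    have d1 : |Φ p u z j - Φ p' u' z j| ≤ 2 * facB M * E := hΦ.param p p' u u' z j
    have d2 : |pv J h d (Φ' p u) z j - pv J h d (Φ' p' u') z j| ≤ 2 * facB M * E :=
      Kpow_close h hn (fun w => hΦ'.param p p' u u' w j) d z
    rw [show Φ p u z j * pv J h d (Φ' p u) z j - Φ p' u' z j * pv J h d (Φ' p' u') z j =
      (Φ p u z j - Φ p' u' z j) * pv J h d (Φ' p u) z j +
        Φ p' u' z j * (pv J h d (Φ' p u) z j - pv J h d (Φ' p' u') z j) by ring]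
    refine (abs_add_le _ _).trans ?_
    rw [abs_mul, abs_mul]
    have hE : 0 ≤ 2 * facB M * E := (abs_nonneg _).trans d1
    have q1 := mul_le_mul d1 (hpv p u h z j) (abs_nonneg _) hE
    have q2 := mul_le_mul (hΦ.abs_le p' u' z j) d2 (abs_nonneg _) hB
    linarith
  · refine abs_Kpow_le h hn (fun z => ?_) m y
    refine (Finset.abs_sum_le_sum_abs _ _).trans ((Finset.sum_le_card_nsmul _ _ (facB M ^ 2) fun j _ => ?_).trans_eq
      (by simp))
    rw [abs_mul, pow_two]
    exact mul_le_mul (hΦ.abs_le p u z j) (hpv p u h z j) (abs_nonneg _) hB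

variable {S : Sched} {b : Fin n → ℝ} {F : Cfg n}

lemma cpos_low {a : Copy S n} {k : ℕ} (hk : k ≤ S.D) : cpos S F a k = st F a.2.1 k := by
  simp [cpos, hk]

lemma cpos_high {a : Copy S n} {k : ℕ} (hk : S.D ≤ k) :
    cpos S F a k = st (st F a.2.1 S.D) a.2.2 (k - S.D) := by
  rcases eq_or_lt_of_le hk with rfl | h
  · simp [cpos, st]
  · simp [cpos, not_le.2 h]

lemma continuous_pex {N : ℕ} (x : Cfg n) {h : (Fin n → ℝ) → Fin n → ℝ} (hh : Continuous h)
    {X : (Fin n → ℝ) → Path n N → ℝ} (hX : ∀ l, Continuous fun u => X u l) :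
    Continuous fun u => pex J (h u) x (X u) := by
  unfold pex pw sp mag fld
  have ht : Continuous fun s : ℝ => Real.tanh s := contDiff_tanh.continuous
  refine continuous_finsetSum _ fun l _ => (continuous_finsetProd _ fun k _ => ?_).mul (hX l)
  exact ((continuous_const.add ((ht.comp (continuous_const.add ((continuous_apply _).comp hh))).mul
    continuous_const)).div_const 2).div_const (n : ℝ)

lemma lex_eq (hn : 0 < n) {X : Copy S n → ℝ} (hc : ∀ l, Continuous fun u => X (u, l)) {B : ℝ}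
    (hb : ∀ a, |X a| ≤ B) :
    lex S J b F X = pex J b F (fun l1 : Path n S.D => ∫ u, pex J (hf b S.t (st F l1 S.D) u)
      (st F l1 S.D) (fun l2 : Path n S.R => X (u, (l1, l2))) ∂gauss (Fin n)) := by
  have hi : ∀ l1 : Path n S.D, Integrable (fun u => pex J (hf b S.t (st F l1 S.D) u)
      (st F l1 S.D) (fun l2 : Path n S.R => X (u, (l1, l2)))) (gauss (Fin n)) := fun l1 =>
    integrable_bdd (continuous_pex _ (contDiff_hf b S.t _).continuous fun l2 => hc (l1, l2)) (B := B)
      fun u => abs_pex_le_const _ hn _ fun _ => hb _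
  simp only [lex, pex, Fintype.sum_prod_type]
  rw [← integral_congr_ae (Filter.Eventually.of_forall fun u => ?_), integral_finsetSum _
    fun l1 _ => (hi l1).const_mul (pw J b F l1)]
  · exact Finset.sum_congr rfl fun l1 _ => integral_const_mul _ _
  · refine Finset.sum_congr rfl fun l1 _ => ?_
    rw [pex, Finset.mul_sum]
    exact Finset.sum_congr rfl fun l2 _ => by unfold hf; ring

/-- the law of total variance along the three stages -/
lemma decomp (hn : 0 < n) {X : Copy S n → ℝ} (hc : ∀ l, Continuous fun u => X (u, l)) {B : ℝ}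
    (hb : ∀ a, |X a| ≤ B) {g : Path n S.D → (Fin n → ℝ) → ℝ}
    (hg : ∀ l1 u, pex J (hf b S.t (st F l1 S.D) u) (st F l1 S.D) (fun l2 => X (u, (l1, l2))) = g l1 u)
    {V1 V2 V3 : ℝ}
    (h2 : ∀ (l1 : Path n S.D) u, pex J (hf b S.t (st F l1 S.D) u) (st F l1 S.D)
      (fun l2 => X (u, (l1, l2)) ^ 2) - g l1 u ^ 2 ≤ V2)
    (h3 : ∀ l1, ∫ u, g l1 u ^ 2 ∂gauss (Fin n) - (∫ u, g l1 u ∂gauss (Fin n)) ^ 2 ≤ V3)
    (h1 : pex J b F (fun l1 : Path n S.D => (∫ u, g l1 u ∂gauss (Fin n)) ^ 2) -
      pex J b F (fun l1 : Path n S.D => ∫ u, g l1 u ∂gauss (Fin n)) ^ 2 ≤ V1) :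
    lvar S J b F X ≤ V1 + V2 + V3 := by
  have hb2 : ∀ a, |X a ^ 2| ≤ B ^ 2 := fun a => by
    rw [abs_pow]; exact pow_le_pow_left₀ (abs_nonneg _) (hb a) 2
  unfold lvar
  rw [lex_eq hn hc hb, lex_eq hn (X := fun a => X a ^ 2) (fun l => (hc l).pow 2) hb2]
  simp only [hg]
  have hq : ∀ l1 : Path n S.D, ∫ u, pex J (hf b S.t (st F l1 S.D) u) (st F l1 S.D)
      (fun l2 => X (u, (l1, l2)) ^ 2) ∂gauss (Fin n) ≤ (∫ u, g l1 u ∂gauss (Fin n)) ^ 2 + (V2 + V3) := by
    intro l1
    have cg : Continuous fun u => g l1 u := by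
      simp only [← hg]
      exact continuous_pex _ (contDiff_hf b S.t _).continuous fun l2 => hc (l1, l2)
    have bgl : ∀ u, |g l1 u| ≤ B := fun u => by rw [← hg]; exact abs_pex_le_const _ hn _ fun _ => hb _
    have ig2 : Integrable (fun u => g l1 u ^ 2) (gauss (Fin n)) := integrable_bdd (cg.pow 2) (B := B ^ 2)
      fun u => by rw [abs_pow]; exact pow_le_pow_left₀ (abs_nonneg _) (bgl u) 2
    refine (integral_mono (g := fun u => g l1 u ^ 2 + V2) (integrable_bdd (continuous_pex _
      (contDiff_hf b S.t _).continuous fun l2 => (hc (l1, l2)).pow 2) (B := B ^ 2)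
        fun u => abs_pex_le_const _ hn _ fun _ => hb2 _) (ig2.add (integrable_const V2))
      fun u => by have := h2 l1 u; simp only [Pi.pow_apply]; linarith).trans ?_
    rw [integral_add ig2 (integrable_const V2)]
    simp only [integral_const, probReal_univ, one_smul]
    linarith [h3 l1]
  have := (pex_mono J b F hq).trans_eq ((pex_add J b F _ _).trans (congrArg _ (pex_const J b hn F (V2 + V3))))
  linarith

end LegVar

open LegVar

/-- the constant of the variance bounds -/
noncomputable def legC (M L τ : ℝ) : ℝ :=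
  twoC L τ (facA M L) (facA M L) (facB M ^ 2) +
    (4 * τ * G L τ * (facA M L * facB M ^ 2) + (1 + Real.sqrt τ) ^ 2 * (linA M L τ * facB M ^ 2) +
      twoC L τ (facA M L) (meanC τ * linA M L τ) (facB M ^ 2)) +
    ((1 + Real.sqrt τ) ^ 2 * pairA M L τ + 4 * τ * G L τ * (meanC τ * pairA M L τ))

namespace LegVar

variable {J : Fin n → Fin n → ℝ} {L M τ : ℝ} {Φ Φ' : Cfg n → (Fin n → ℝ) → Cfg n → Fin n → ℝ}
  {S : Sched} {b : Fin n → ℝ} {F : Cfg n}

lemma twoC_nonneg {A A' V : ℝ} (hτ : 0 ≤ τ) (hA : 0 ≤ A) (hA' : 0 ≤ A') (hV : 0 ≤ V) :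
    0 ≤ twoC L τ A A' V := by
  unfold twoC; have := G_pos (L := L) (τ := τ); positivity

/-- variance of an inner product of two factors -/
lemma pair_var (hJ : Tame J L) (hτ : (S.D : ℝ) + S.R ≤ τ * n) (ht0 : 0 ≤ S.t) (ht : S.t ≤ τ)
    (hΦ : Fac M L Φ) (hΦ' : Fac M L Φ') {k l : ℕ} (hkl : k ≤ l) (hl : l ≤ S.D + S.R)
    (hk0 : k < S.D → ∀ p p' u u' z, Φ p u z = Φ p' u' z)
    (hl0 : l < S.D → ∀ p p' u u' z, Φ' p u z = Φ' p' u' z) :
    lvar S J b F (fun a => ∑ j, Φ (st F a.2.1 S.D) a.1 (cpos S F a k) j *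
      Φ' (st F a.2.1 S.D) a.1 (cpos S F a l) j) ≤ legC M L τ * n := by
  rcases Nat.eq_zero_or_pos n with rfl | hn
  · simp [lvar, lex]
  have hτ0 : 0 ≤ τ := ht0.trans ht
  have hn' : (0 : ℝ) ≤ n := Nat.cast_nonneg n
  have hG := (G_pos (L := L) (τ := τ)).le
  have hA0 := facA_nonneg (M := M) (L := L)
  have hlA := linA_nonneg (M := M) (L := L) (τ := τ)
  have hpA := pairA_nonneg (M := M) (L := L) (τ := τ)
  have hmC := meanC_nonneg (τ := τ)
  have hV : 0 ≤ facB M ^ 2 := sq_nonneg _
  set T1 := twoC L τ (facA M L) (facA M L) (facB M ^ 2) with hT1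
  set T2 := 4 * τ * G L τ * (facA M L * facB M ^ 2) with hT2
  set T3 := (1 + Real.sqrt τ) ^ 2 * (linA M L τ * facB M ^ 2) with hT3
  set T4 := twoC L τ (facA M L) (meanC τ * linA M L τ) (facB M ^ 2) with hT4
  set T5 := (1 + Real.sqrt τ) ^ 2 * pairA M L τ with hT5
  set T6 := 4 * τ * G L τ * (meanC τ * pairA M L τ) with hT6
  have p1 : 0 ≤ T1 * n := mul_nonneg (twoC_nonneg hτ0 hA0 hA0 hV) hn'
  have p2 : 0 ≤ (T2 + T3 + T4) * n := mul_nonneg (add_nonneg (by positivity)
    (twoC_nonneg hτ0 hA0 (mul_nonneg hmC hlA) hV)) hn'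
  have p3 : 0 ≤ (T5 + T6) * n := mul_nonneg (by positivity) hn'
  have htot : legC M L τ * n = T1 * n + (T2 + T3 + T4) * n + (T5 + T6) * n := by
    simp only [legC, hT1, hT2, hT3, hT4, hT5, hT6]; ring
  have hDτ : (S.D : ℝ) ≤ τ * n := le_trans (le_add_of_nonneg_right (Nat.cast_nonneg _)) hτ
  have hB := zero_le_one.trans (one_le_facB (M := M))
  set X : Copy S n → ℝ := fun a => ∑ j, Φ (st F a.2.1 S.D) a.1 (cpos S F a k) j *
      Φ' (st F a.2.1 S.D) a.1 (cpos S F a l) j with hX
  have hbX : ∀ a, |X a| ≤ n * facB M ^ 2 := fun a => by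
    refine (Finset.abs_sum_le_sum_abs _ _).trans ((Finset.sum_le_card_nsmul _ _ (facB M ^ 2) fun j _ => ?_).trans_eq
      (by simp))
    rw [abs_mul, pow_two]
    exact mul_le_mul (hΦ.abs_le _ _ _ j) (hΦ'.abs_le _ _ _ j) (abs_nonneg _) hB
  have hcX : ∀ q, Continuous fun u => X (u, q) := fun q =>
    continuous_finsetSum _ fun j _ => Continuous.mul (hΦ.smooth (st F q.1 S.D)
      (if k ≤ S.D then st F q.1 k else st (st F q.1 S.D) q.2 (k - S.D)) j).continuous
    (hΦ'.smooth (st F q.1 S.D) (if l ≤ S.D then st F q.1 l else st (st F q.1 S.D) q.2 (l - S.D)) j).continuous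
  have hlτ : ((l - S.D : ℕ) : ℝ) ≤ τ * n :=
    le_trans (by exact_mod_cast (by omega : l - S.D ≤ S.R)) (le_trans (le_add_of_nonneg_left (Nat.cast_nonneg _)) hτ)
  rcases lt_or_ge l S.D with hlD | hlD
  · -- both times in the untilted leg
    have hkD : k < S.D := hkl.trans_lt hlD
    set a0 := Φ F 0
    set b0 := Φ' F 0
    have e : ∀ a : Copy S n, X a = ∑ j, a0 (st F a.2.1 k) j * b0 (st F a.2.1 l) j := fun a => by
      simp only [hX, cpos_low hkD.le, cpos_low hlD.le, hk0 hkD (st F a.2.1 S.D) F a.1 0,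
        hl0 hlD (st F a.2.1 S.D) F a.1 0, a0, b0]
    refine (decomp hn hcX hbX (g := fun l1 _ => ∑ j, a0 (st F l1 k) j * b0 (st F l1 l) j)
      (V1 := T1 * n) (V2 := 0) (V3 := 0) (fun l1 u => ?_) (fun l1 u => ?_) (fun l1 => by simp) ?_).trans
      (by linarith)
    · simp only [e]; exact pex_const J _ hn _ _
    · simp only [e]; rw [pex_const J _ hn]; simp
    · simp only [integral_const, probReal_univ, one_smul]
      exact two_var hJ hn b hkl hlD.le (le_trans (by exact_mod_cast hlD.le) hDτ) (hΦ.vb F 0) (hΦ'.vb F 0) F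
  · set m := l - S.D
    rcases lt_or_ge k S.D with hkD | hkD
    · -- one time in each leg
      set a0 := Φ F 0
      have e : ∀ a : Copy S n, X a = ∑ j, a0 (st F a.2.1 k) j *
          Φ' (st F a.2.1 S.D) a.1 (st (st F a.2.1 S.D) a.2.2 m) j := fun a => by
        simp only [hX, cpos_low hkD.le, cpos_high hlD, hk0 hkD (st F a.2.1 S.D) F a.1 0, a0, m]
      set hb' : Cfg n → Fin n → ℝ := fun y j =>
        ∫ u, pv J (hf b S.t y u) m (Φ' y u) y j ∂gauss (Fin n) with hhb
      have hint : ∀ y j, Integrable (fun u => pv J (hf b S.t y u) m (Φ' y u) y j) (gauss (Fin n)) := fun y j =>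
        integrable_bdd (contDiff_Kpow (contDiff_hf b S.t y) (fun z => hΦ'.smooth y z j) m y).continuous
          fun u => abs_Kpow_le _ hn (fun z => hΦ'.abs_le y u z j) m y
      have hlin : ∀ (w : Fin n → ℝ) y, ∫ u, Kpow J (hf b S.t y u) m (fun z => ∑ j, w j * Φ' y u z j) y
          ∂gauss (Fin n) = ∑ j, w j * hb' y j := fun w y => by
        simp only [Kpow_sum_eq, hhb]
        rw [integral_finsetSum _ fun j _ => (hint y j).const_mul _]
        exact Finset.sum_congr rfl fun j _ => integral_const_mul _ _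
      have hvb : VB hb' (meanC τ * linA M L τ) (n * facB M ^ 2) := by
        refine ⟨mul_nonneg hmC hlA, fun v y => ?_, fun y => sum_sq_le_of_abs fun j => ?_⟩
        · simp only [← hlin]
          rw [mul_assoc]
          exact (lin_sec hJ hn hlτ hΦ' v).gam_mean b ht0 ht y
        · refine abs_integral_le_integral_abs.trans ((integral_mono_of_nonneg
            (Filter.Eventually.of_forall fun u => abs_nonneg _) (integrable_const (facB M))
            (Filter.Eventually.of_forall fun u =>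
              abs_Kpow_le _ hn (fun z => hΦ'.abs_le y u z j) m y)).trans_eq (by simp))
      refine (decomp hn hcX hbX (g := fun l1 u => Kpow J (hf b S.t (st F l1 S.D) u) m
        (fun z => ∑ j, a0 (st F l1 k) j * Φ' (st F l1 S.D) u z j) (st F l1 S.D))
        (V1 := T4 * n) (V2 := T2 * n) (V3 := T3 * n) (fun l1 u => ?_) (fun l1 u => ?_) (fun l1 => ?_) ?_).trans
        (by linarith)
      · simp only [e]
        exact pex_st J _ hn (fun z => ∑ j, a0 (st F l1 k) j * Φ' (st F l1 S.D) u z j) (by omega) _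
      · simp only [e]
        rw [pex_st J _ hn (fun z => (∑ j, a0 (st F l1 k) j * Φ' (st F l1 S.D) u z j) ^ 2) (by omega)]
        refine (var_Kpow_G _ hJ hn hlτ (fun z => (hΦ'.gam_le _ u _ z).trans
          (mul_le_mul_of_nonneg_left ((hΦ.vb F 0).sq_le _) hA0)) _).trans (le_of_eq ?_)
        rw [hT2]; ring
      · refine ((lin_sec hJ hn hlτ hΦ' (a0 (st F l1 k))).var b ht _).trans ?_
        have := mul_le_mul_of_nonneg_left ((hΦ.vb F 0).sq_le (st F l1 k)) hlA
        rw [hT3, mul_assoc, mul_assoc (linA M L τ), mul_comm (facB M ^ 2)]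
        exact mul_le_mul_of_nonneg_left this (sq_nonneg _)
      · simp only [hlin]
        exact two_var hJ hn b hkD.le le_rfl hDτ (hΦ.vb F 0) hvb F
    · -- both times in the tilted leg
      set d := l - k
      have hkτ : ((k - S.D : ℕ) : ℝ) ≤ τ * n := le_trans (by exact_mod_cast (by omega : k - S.D ≤ m)) hlτ
      have hdτ : (d : ℝ) ≤ τ * n := le_trans (by exact_mod_cast (by omega : d ≤ m)) hlτ
      have hsub : m - (k - S.D) = d := by omega
      have e : ∀ a : Copy S n, X a = ∑ j, Φ (st F a.2.1 S.D) a.1 (st (st F a.2.1 S.D) a.2.2 (k - S.D)) j *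
          Φ' (st F a.2.1 S.D) a.1 (st (st F a.2.1 S.D) a.2.2 m) j := fun a => by
        simp only [hX, cpos_high hkD, cpos_high hlD, m]
      set Ψ := fun p u h y => Kpow J h (k - S.D) (fun z => ∑ j, Φ p u z j * pv J h d (Φ' p u) z j) y with hΨ
      have hsec : Sec Ψ (pairA M L τ * n) (n * facB M ^ 2) := pair_sec hJ hn hkτ hdτ hΦ hΦ'
      refine (decomp hn hcX hbX (g := fun l1 u => Ψ (st F l1 S.D) u (hf b S.t (st F l1 S.D) u) (st F l1 S.D))
        (V1 := T6 * n) (V2 := T1 * n) (V3 := T5 * n) (fun l1 u => ?_) (fun l1 u => ?_) (fun l1 => ?_) ?_).trans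
        (by linarith)
      · simp only [e]
        rw [pex_two _ hn (by omega : k - S.D ≤ m) (by omega) _
          (fun y z => ∑ j, Φ (st F l1 S.D) u y j * Φ' (st F l1 S.D) u z j), hsub]
        simp only [hΨ, Kpow_sum_eq]
      · have hv := two_var hJ hn (hf b S.t (st F l1 S.D) u) (by omega : k - S.D ≤ m) (by omega : m ≤ S.R)
          hlτ (hΦ.vb (st F l1 S.D) u) (hΦ'.vb (st F l1 S.D) u) (st F l1 S.D)
        rw [pex_two _ hn (by omega : k - S.D ≤ m) (by omega) _
          (fun y z => ∑ j, Φ (st F l1 S.D) u y j * Φ' (st F l1 S.D) u z j), hsub] at hv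
        simp only [Kpow_sum_eq] at hv
        simpa only [e, hΨ] using hv
      · exact (hsec.var b ht _).trans (le_of_eq (by rw [hT5]; ring))
      · rw [pex_st J b hn (fun y => (∫ u, Ψ y u (hf b S.t y u) y ∂gauss (Fin n)) ^ 2) le_rfl,
          pex_st J b hn (fun y => ∫ u, Ψ y u (hf b S.t y u) y ∂gauss (Fin n)) le_rfl]
        exact (var_Kpow_G b hJ hn hDτ (fun y => hsec.gam_mean b ht0 ht y) F).trans (le_of_eq (by rw [hT6]; ring))

end LegVar

variable {J : Fin n → Fin n → ℝ} {L M τ : ℝ} {S : Sched} {b : Fin n → ℝ} {F : Cfg n}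

lemma legC_nonneg (hτ : 0 ≤ τ) : 0 ≤ legC M L τ := by
  have := facA_nonneg (M := M) (L := L)
  have := linA_nonneg (M := M) (L := L) (τ := τ)
  have := pairA_nonneg (M := M) (L := L) (τ := τ)
  have := meanC_nonneg (τ := τ)
  have := (G_pos (L := L) (τ := τ)).le
  have := twoC_nonneg (L := L) (A := facA M L) (A' := facA M L) (V := facB M ^ 2) hτ (by assumption)
    (by assumption) (sq_nonneg _)
  have := twoC_nonneg (L := L) (A := facA M L) (A' := meanC τ * linA M L τ) (V := facB M ^ 2) hτ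
    (by assumption) (by positivity) (sq_nonneg _)
  unfold legC
  positivity

theorem lvar_spin (hJ : Tame J L) (hτ : (S.D : ℝ) + S.R ≤ τ * n) (ht0 : 0 ≤ S.t) (ht : S.t ≤ τ)
    {w : Fin n → ℝ} (hw : ∀ j, |w j| ≤ 1) {k : ℕ} (hk : k ≤ S.D + S.R) :
    lvar S J b F (fun a => ∑ j, w j * spin (cpos S F a k j)) ≤ legC M L τ * n :=
  pair_var hJ hτ ht0 ht (Fac.ofConst hw) Fac.ofSpin (Nat.zero_le k) hk (fun _ _ _ _ _ _ => rfl)
    fun _ _ _ _ _ _ => rfl

theorem lvar_spin_spin (hJ : Tame J L) (hτ : (S.D : ℝ) + S.R ≤ τ * n) (ht0 : 0 ≤ S.t) (ht : S.t ≤ τ)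
    {k l : ℕ} (hk : k ≤ S.D + S.R) (hl : l ≤ S.D + S.R) :
    lvar S J b F (fun a => ∑ j, spin (cpos S F a k j) * spin (cpos S F a l j)) ≤ legC M L τ * n := by
  rcases le_total k l with h | h
  · exact pair_var hJ hτ ht0 ht Fac.ofSpin Fac.ofSpin h hl (fun _ _ _ _ _ _ => rfl) fun _ _ _ _ _ _ => rfl
  · simp only [mul_comm (spin (cpos S F _ k _))]
    exact pair_var hJ hτ ht0 ht Fac.ofSpin Fac.ofSpin h hk (fun _ _ _ _ _ _ => rfl) fun _ _ _ _ _ _ => rfl

variable {φ : Test n}

theorem lvar_cval (hJ : Tame J L) (hτ : (S.D : ℝ) + S.R ≤ τ * n) (ht0 : 0 ≤ S.t) (ht : S.t ≤ τ)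
    (hr : S.r ≤ S.R) (hφ : φ.Bdd M) (hu : ∀ i h c, ContDiff ℝ 1 fun u => φ.fn i h u c)
    {w : Fin n → ℝ} (hw : ∀ j, |w j| ≤ 1) :
    lvar S J b F (fun a => ∑ j, w j * cval S J φ F a j) ≤ legC M L τ * n :=
  pair_var hJ hτ ht0 ht (Fac.ofConst hw) (Fac.test hJ hφ hu) (Nat.zero_le (S.D + S.r)) (by omega)
    (fun _ _ _ _ _ _ => rfl) fun h => absurd h (by omega)

theorem lvar_spin_cval (hJ : Tame J L) (hτ : (S.D : ℝ) + S.R ≤ τ * n) (ht0 : 0 ≤ S.t) (ht : S.t ≤ τ)
    (hr : S.r ≤ S.R) (hφ : φ.Bdd M) (hu : ∀ i h c, ContDiff ℝ 1 fun u => φ.fn i h u c)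
    {k : ℕ} (hk : k ≤ S.D + S.R) :
    lvar S J b F (fun a => ∑ j, spin (cpos S F a k j) * cval S J φ F a j) ≤ legC M L τ * n := by
  rcases le_total k (S.D + S.r) with h | h
  · exact pair_var hJ hτ ht0 ht Fac.ofSpin (Fac.test hJ hφ hu) h (by omega) (fun _ _ _ _ _ _ => rfl)
      fun h' => absurd h' (by omega)
  · simp only [mul_comm (spin (cpos S F _ k _))]
    exact pair_var hJ hτ ht0 ht (Fac.test hJ hφ hu) Fac.ofSpin h hk (fun h' => absurd h' (by omega))
      fun _ _ _ _ _ _ => rfl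

end Vale.Agent.P150.PA
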