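import Vale.Agent.P150.PA.TreeQuadExp
import Vale.Agent.P150.PA.LegVar

/-! The quadratic part of the branching experiment: in the direction `σ² shiftDir` it is at most a
constant times the number of attempts in expectation, and the centred spins of distinct periods are
nearly orthogonal with probability `1 - O(1/n)`. -/

open MeasureTheory

namespace Vale.Agent.P150.PA

open Ising Finset

variable {n : ℕ} (S : Sched) (J : Fin n → Fin n → ℝ) (b : Fin n → ℝ) (φ : Test n) (x : Cfg n)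

/-- the variance bound of one copy applies to the endpoint spins -/
theorem varLe_endSpin {L M τ : ℝ} (hJ : Tame J L) (hτ : (S.D : ℝ) + S.R ≤ τ * n) (ht0 : 0 ≤ S.t)
    (ht : S.t ≤ τ) : VarLe S J b (endSpin S) (legC M L τ) :=
  fun _ _ hw => lvar_spin hJ hτ ht0 ht hw le_rfl

/-- the variance bound of one copy applies to the test -/
theorem varLe_cval {L M τ : ℝ} (hJ : Tame J L) (hτ : (S.D : ℝ) + S.R ≤ τ * n) (ht0 : 0 ≤ S.t)
    (ht : S.t ≤ τ) (hr : S.r ≤ S.R) (hφ : φ.Bdd M) (hu : ∀ i h c, ContDiff ℝ 1 fun u => φ.fn i h u c) :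
    VarLe S J b (cval S J φ) (legC M L τ) :=
  fun _ _ hw => lvar_cval hJ hτ ht0 ht hr hφ hu hw

/-- the coefficient of the number of attempts -/
def quadCoef (β M : ℝ) : ℝ := 640 * β ^ 4 * (M ^ 2 + 1)

/-- the remainder, bounded as `n` grows -/
def quadRest (β M C τ : ℝ) (P : ℕ) : ℝ :=
  β ^ 4 * P * τ * (4096 * (M + 1) ^ 4 * C * P ^ 6 + 256 * (M ^ 2 + 1) * C * P ^ 2 + 256 * M ^ 2 * P ^ 2)

variable {φ}

lemma fld_scale (σ : ℝ) (W : Fin n → Fin n → ℝ) (i : Fin n) (y : Cfg n) :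
    fld (fun i k => σ * W i k) 0 i y = σ * fld W 0 i y := by
  simp [fld, mul_sum, mul_assoc]

/-- the squared field of the shift at one attempt of a copy -/
theorem tex_attempt_le (hn : 0 < n) {C M : ℝ} (hC : 0 ≤ C) (hM : 0 ≤ M) (hφ : φ.Bdd M)
    (hS : VarLe S J b (endSpin S) C) (hT : VarLe S J b (cval S J φ) C) (q : Fin S.P) (c : Bool)
    (k : Fin (S.D + S.R)) :
    tex S J b x (fun z ω => fld (shiftDir S J φ x z ω) 0 (csite S (copy S z ω q c) k)
        (cpos S (origin S x ω q) (copy S z ω q c) k) ^ 2) ≤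
      80 * (4 * M ^ 2 + 1) * n ^ 2 + 256 * M ^ 2 * n ^ 2 + 4096 * M ^ 2 * (M + 1) ^ 2 * C * S.P ^ 6 * n
      + 128 * (M ^ 2 + 1) * C * S.P ^ 2 * n + 256 * M ^ 2 * S.P ^ 2 := by
  classical
  set s := univ.filter (· < q) with hs
  set y : Out S n → Cfg n := fun ω => cpos S (origin S x ω q) ((0 : Fin n → ℝ), ω q c) k
  set i₀ : Out S n → Fin n := fun ω => csite S ((0 : Fin n → ℝ), ω q c) k
  have hy : ∀ z ω, cpos S (origin S x ω q) (copy S z ω q c) k = y ω := fun z ω => rfl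
  have hi : ∀ z ω, csite S (copy S z ω q c) k = i₀ ω := fun z ω => rfl
  have hpast := tex_past_field_le S J b x hn hφ q c k
  simp only [hy, hi] at hpast ⊢
  have bA : Bd (fun z ω => if OrthOn S J φ x z ω s M then partField S J φ x z ω s (i₀ ω) (y ω) ^ 2 else 0) :=
    fun ω => bd_orth_partField S J x hφ s (i₀ ω) (y ω) ω
  have bc : ∀ p p', Bd (fun z ω => crossSq S J φ x z ω p p') := fun p p' => by
    have b1 := Bd.sum (s := univ) fun i _ => (bd_dpsi S J x hφ p i).mul (bd_dpsi S J x hφ p' i)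
    simp only [crossSq, pow_two]
    exact (b1.mul b1).add (Bd.discrete _)
  have bp : ∀ p, Bd (fun z ω => projSq S J φ x z ω p (y ω)) := fun p => bd_projSq S J x hφ p y
  set A := fun z ω => if OrthOn S J φ x z ω s M then partField S J φ x z ω s (i₀ ω) (y ω) ^ 2 else 0 with hA
  set X := fun z ω => ∑ p : Fin S.P, ∑ p' ∈ univ.erase p, crossSq S J φ x z ω p p'
  set Q := fun z ω => ∑ p ∈ univ.filter (fun p => q < p), projSq S J φ x z ω p (y ω)
  have bX : Bd X := Bd.sum fun p _ => Bd.sum fun p' _ => bc p p'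
  have bQ : Bd Q := Bd.sum fun p _ => bp p
  have bL : Bd (fun z ω => fld (shiftDir S J φ x z ω) 0 (i₀ ω) (y ω) ^ 2) := by
    have h : ∀ i (v : Cfg n), Bd (fun z ω => fld (shiftDir S J φ x z ω) 0 i v ^ 2) := fun i v => by
      simp only [fld_shiftDir, pow_two]
      have h1 := ((bd_partField S J x hφ univ i v).sub
        (((Bd.sum (s := univ) fun p _ => (bd_dpsi S J x hφ p i).mul (bd_dspin S x p i)).const_mul 2).mul
          (Bd.const (spin (v i)))))
      exact h1.mul h1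
    exact fun ω => h (i₀ ω) (y ω) ω
  set c₁ : ℝ := 256 * M ^ 2 * S.P ^ 4
  set c₂ : ℝ := 32 * (M ^ 2 + 1) * S.P
  have hpt : ∀ z ω, fld (shiftDir S J φ x z ω) 0 (i₀ ω) (y ω) ^ 2 ≤
      4 * A z ω + c₁ * X z ω + c₂ * Q z ω + (256 * M ^ 2 * n ^ 2 + 256 * M ^ 2 * S.P ^ 2) := by
    intro z ω
    have h1 := shiftField_sq_le S J x z ω hφ q (i₀ ω) (y ω)
    have h2 := partField_sq_le S J x z ω hφ s (i₀ ω) (y ω)
    simp only [hA, X, Q, c₁, c₂, ← hs] at h1 ⊢
    linarith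
  have bR := ((((bA.const_mul 4).add (bX.const_mul c₁)).add (bQ.const_mul c₂)).add
    (Bd.const (256 * M ^ 2 * (n:ℝ) ^ 2 + 256 * M ^ 2 * (S.P:ℝ) ^ 2)))
  refine (tex_mono S J b x hn bL bR hpt).trans ?_
  rw [tex_add S J b x hn (((bA.const_mul 4).add (bX.const_mul c₁)).add (bQ.const_mul c₂)) (Bd.const _),
    tex_add S J b x hn ((bA.const_mul 4).add (bX.const_mul c₁)) (bQ.const_mul c₂),
    tex_add S J b x hn (bA.const_mul 4) (bX.const_mul c₁), tex_const S J b x hn,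
    tex_const_mul, tex_const_mul, tex_const_mul]
  have hX : tex S J b x X ≤ (S.P:ℝ) ^ 2 * (16 * (M + 1) ^ 2 * C * n) := by
    rw [tex_sum S J b x hn univ fun p _ => Bd.sum fun p' _ => bc p p']
    refine (sum_le_sum fun p _ => ?_).trans_eq (by simp; ring :
      ∑ _p : Fin S.P, (S.P:ℝ) * (16 * (M + 1) ^ 2 * C * n) = _)
    rw [tex_sum S J b x hn (univ.erase p) fun p' _ => bc p p']
    refine (sum_le_sum fun p' hp' =>
      tex_crossSq_le S J b x hn hC hM hφ hS hT (ne_of_mem_erase hp').symm).trans ?_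
    rw [sum_const, nsmul_eq_mul]
    refine mul_le_mul_of_nonneg_right ?_ (by positivity)
    exact_mod_cast (card_le_univ _).trans_eq (Fintype.card_fin _)
  have hQ : tex S J b x Q ≤ (S.P:ℝ) * (4 * C * n) := by
    rw [tex_sum S J b x hn _ fun p _ => bp p]
    refine le_trans (b := ∑ p ∈ univ.filter (fun p => q < p), 4 * C * (n:ℝ)) (sum_le_sum fun p hp => ?_) ?_
    · simpa only [hy] using tex_projSq_le S J b x hn hφ hS hT (mem_filter.1 hp).2 c k
    · rw [sum_const, nsmul_eq_mul]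
      refine mul_le_mul_of_nonneg_right ?_ (by positivity)
      exact_mod_cast (card_le_univ _).trans_eq (Fintype.card_fin _)
  have h1 := mul_le_mul_of_nonneg_left hX (show 0 ≤ c₁ by positivity)
  have h2 := mul_le_mul_of_nonneg_left hQ (show 0 ≤ c₂ by positivity)
  have h3 := mul_le_mul_of_nonneg_left hpast (show (0:ℝ) ≤ 4 by norm_num)
  simp only [hA, c₁, c₂, hs] at h1 h2 h3 ⊢
  linarith

/-- **the quadratic part in the shift direction** -/
theorem tex_quad_le (hn : 0 < n) {β C M τ : ℝ} (hC : 0 ≤ C) (hM : 0 ≤ M) (hφ : φ.Bdd M)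
    (hS : VarLe S J b (endSpin S) C) (hT : VarLe S J b (cval S J φ) C)
    (hτ : (S.D:ℝ) + S.R ≤ τ * n) :
    tex S J b x (fun z ω => quad S x ω (fun i k => (β / Real.sqrt n) ^ 2 * shiftDir S J φ x z ω i k)) ≤
      quadCoef β M * (S.P * ((S.D:ℝ) + S.R)) + quadRest β M C τ S.P := by
  have hn0 : (0:ℝ) < n := by exact_mod_cast hn
  have hσ : ((β / Real.sqrt n) ^ 2) ^ 2 / 2 = β ^ 4 / (2 * (n:ℝ) ^ 2) := by
    rw [div_pow, Real.sq_sqrt hn0.le]; ring
  set T : Fin S.P → Bool → Fin (S.D + S.R) → Noise S n → Out S n → ℝ := fun q c k z ω =>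
    fld (shiftDir S J φ x z ω) 0 (csite S (copy S z ω q c) k)
      (cpos S (origin S x ω q) (copy S z ω q c) k) ^ 2 with hT'
  have e : (fun z ω => quad S x ω (fun i k => (β / Real.sqrt n) ^ 2 * shiftDir S J φ x z ω i k)) =
      fun z ω => ∑ q, ∑ c, ∑ k, β ^ 4 / (2 * (n:ℝ) ^ 2) * T q c k z ω := by
    funext z ω
    rw [quad_eq S x z ω]
    refine sum_congr rfl fun q _ => sum_congr rfl fun c _ => sum_congr rfl fun k _ => ?_
    rw [fld_scale, mul_pow, ← hσ]; ring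
  have bT : ∀ q c k, Bd (T q c k) := fun q c k ω => by
    have h : ∀ i (v : Cfg n), Bd (fun z ω => fld (shiftDir S J φ x z ω) 0 i v ^ 2) := fun i v => by
      simp only [fld_shiftDir, pow_two]
      have h1 := ((bd_partField S J x hφ univ i v).sub
        (((Bd.sum (s := univ) fun p _ => (bd_dpsi S J x hφ p i).mul (bd_dspin S x p i)).const_mul 2).mul
          (Bd.const (spin (v i)))))
      exact h1.mul h1
    exact h (csite S ((0 : Fin n → ℝ), ω q c) k) (cpos S (origin S x ω q) ((0 : Fin n → ℝ), ω q c) k) ω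
  rw [e, tex_sum S J b x hn univ fun q _ => Bd.sum fun c _ => Bd.sum fun k _ => (bT q c k).const_mul _]
  simp only [tex_sum S J b x hn univ fun c _ => Bd.sum (s := univ) fun k _ =>
    (bT _ c k).const_mul (β ^ 4 / (2 * (n:ℝ) ^ 2)),
    tex_sum S J b x hn univ fun k _ => (bT _ _ k).const_mul (β ^ 4 / (2 * (n:ℝ) ^ 2)), tex_const_mul]
  refine (sum_le_sum fun q _ => sum_le_sum fun c _ => sum_le_sum fun k _ =>
    mul_le_mul_of_nonneg_left (tex_attempt_le S J b x hn hC hM hφ hS hT q c k) (by positivity)).trans ?_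
  simp only [sum_const, card_univ, Fintype.card_fin, Fintype.card_bool, nsmul_eq_mul, Nat.cast_add]
  set N : ℝ := (S.D:ℝ) + S.R
  have hN : 0 ≤ N := by positivity
  set a₁ : ℝ := 4096 * M ^ 2 * (M + 1) ^ 2 * C * S.P ^ 6 + 128 * (M ^ 2 + 1) * C * S.P ^ 2
  set a₀ : ℝ := 256 * M ^ 2 * S.P ^ 2
  have ha₁ : 0 ≤ a₁ := by positivity
  have ha₀ : 0 ≤ a₀ := by positivity
  have hq : N / n ≤ τ := by rw [div_le_iff₀ hn0]; exact hτ
  have hτ0 : 0 ≤ τ := (div_nonneg hN hn0.le).trans hq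
  have h1 : a₀ / n ≤ a₀ := div_le_self ha₀ (by exact_mod_cast hn)
  have hrest : N / n * (a₁ + a₀ / n) ≤ τ * (a₁ + a₀) :=
    mul_le_mul hq (by linarith) (by positivity) hτ0
  have hP : (0:ℝ) ≤ S.P := Nat.cast_nonneg _
  have h2 := mul_le_mul_of_nonneg_left hrest (mul_nonneg (by positivity : (0:ℝ) ≤ β ^ 4) hP)
  have hlead : β ^ 4 * S.P * N * (80 * (4 * M ^ 2 + 1) + 256 * M ^ 2) ≤ quadCoef β M * (S.P * N) := by
    unfold quadCoef
    have : 0 ≤ β ^ 4 * S.P * N := by positivity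
    nlinarith [mul_nonneg this (sq_nonneg M)]
  have hr : β ^ 4 * S.P * (τ * (a₁ + a₀)) ≤ quadRest β M C τ S.P := by
    unfold quadRest
    have hb : 0 ≤ β ^ 4 * S.P * τ := by positivity
    have h6 : M ^ 2 * (M + 1) ^ 2 ≤ (M + 1) ^ 4 := by
      rw [show (M + 1) ^ 4 = (M + 1) ^ 2 * (M + 1) ^ 2 by ring]
      exact mul_le_mul_of_nonneg_right (by nlinarith) (sq_nonneg _)
    rw [mul_assoc (β ^ 4) (S.P:ℝ) (τ * _), ← mul_assoc (S.P:ℝ), ← mul_assoc (β ^ 4),
      ← mul_assoc (β ^ 4) (S.P:ℝ) τ]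
    refine mul_le_mul_of_nonneg_left ?_ hb
    have h7 := mul_le_mul_of_nonneg_left h6 (by positivity : 0 ≤ 4096 * C * (S.P:ℝ) ^ 6)
    have h8 : 0 ≤ (M ^ 2 + 1) * C * (S.P:ℝ) ^ 2 := by positivity
    simp only [a₁, a₀]
    nlinarith
  have e2 : (S.P:ℝ) * (2 * (N * (β ^ 4 / (2 * (n:ℝ) ^ 2) * (80 * (4 * M ^ 2 + 1) * n ^ 2 + 256 * M ^ 2 * n ^ 2
      + 4096 * M ^ 2 * (M + 1) ^ 2 * C * S.P ^ 6 * n + 128 * (M ^ 2 + 1) * C * S.P ^ 2 * n
      + 256 * M ^ 2 * S.P ^ 2)))) =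
      β ^ 4 * S.P * N * (80 * (4 * M ^ 2 + 1) + 256 * M ^ 2) + β ^ 4 * S.P * (N / n * (a₁ + a₀ / n)) := by
    simp only [a₁, a₀]
    field_simp
    ring
  push_cast
  linarith

/-- **the orthogonality event** -/
theorem tex_not_orth_le (hn : 0 < n) {C : ℝ} (hC : 0 ≤ C) (hS : VarLe S J b (endSpin S) C) :
    tex S J b x (fun _ ω => Set.indicator {ω | ¬ Orth S x ω} (fun _ => (1:ℝ)) ω) ≤
      8 * C * (S.P:ℝ) ^ 4 / n := by
  classical
  have hn0 : (0:ℝ) < n := by exact_mod_cast hn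
  set Z : Fin S.P → Fin S.P → Out S n → ℝ := fun p p' ω =>
    (∑ i, dspin S x ω p i * dspin S x ω p' i) ^ 2
  have hpt : ∀ ω, Set.indicator {ω | ¬ Orth S x ω} (fun _ => (1:ℝ)) ω ≤
      ((S.P:ℝ) / n) ^ 2 * ∑ p, ∑ p' ∈ univ.erase p, Z p p' ω := by
    intro ω
    have h0 : ∀ p p', 0 ≤ Z p p' ω := fun p p' => sq_nonneg _
    rw [Set.indicator_apply]
    split_ifs with h
    · simp only [Set.mem_ofPred_eq, Orth, not_forall, not_le, exists_prop] at h
      obtain ⟨p, q, hne, hlt⟩ := h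
      have hP : (0:ℝ) < S.P := by exact_mod_cast p.pos
      have h1 : ((n:ℝ) / S.P) ^ 2 ≤ Z p q ω := by
        show _ ≤ (∑ i, dspin S x ω p i * dspin S x ω q i) ^ 2
        rw [← sq_abs (∑ i, _)]
        exact pow_le_pow_left₀ (by positivity) hlt.le 2
      have h2 := h1.trans ((single_le_sum (f := fun r => Z p r ω) (fun r _ => h0 p r)
        (mem_erase.2 ⟨hne.symm, mem_univ q⟩)).trans (single_le_sum
          (f := fun r => ∑ r' ∈ univ.erase r, Z r r' ω)
          (fun r _ => sum_nonneg fun r' _ => h0 r r') (mem_univ p)))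
      calc (1:ℝ) = ((S.P:ℝ) / n) ^ 2 * ((n:ℝ) / S.P) ^ 2 := by field_simp
        _ ≤ _ := mul_le_mul_of_nonneg_left h2 (sq_nonneg _)
    · exact mul_nonneg (sq_nonneg _) (sum_nonneg fun p _ => sum_nonneg fun p' _ => h0 p p')
  refine (tex_mono S J b x hn (Bd.discrete _)
    ((Bd.discrete fun ω => ∑ p, ∑ p' ∈ univ.erase p, Z p p' ω).const_mul _) fun z ω => hpt ω).trans ?_
  rw [tex_const_mul, tex_sum S J b x hn univ fun p _ => Bd.discrete _]
  have h1 : ∀ p, tex S J b x (fun _ ω => ∑ p' ∈ univ.erase p, Z p p' ω) ≤ (S.P:ℝ) * (8 * C * n) := by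
    intro p
    rw [tex_sum S J b x hn (univ.erase p) fun p' _ => Bd.discrete _]
    refine (sum_le_sum fun p' hp' =>
      tex_dspin_cross_le S J b x hn hS (ne_of_mem_erase hp').symm).trans ?_
    rw [sum_const, nsmul_eq_mul]
    refine mul_le_mul_of_nonneg_right ?_ (by positivity)
    exact_mod_cast (card_le_univ _).trans_eq (Fintype.card_fin _)
  refine (mul_le_mul_of_nonneg_left (sum_le_sum fun p _ => h1 p) (sq_nonneg _)).trans_eq ?_
  simp only [sum_const, card_univ, Fintype.card_fin, nsmul_eq_mul]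
  field_simp

end Vale.Agent.P150.PA
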