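import Vale.Agent.P150.PA.TreeValuePeriod
import Vale.Agent.P150.PA.TreePath
import Vale.Agent.P150.PA.LegVar

/-! The mean of the linear functional `Λ` of the branching experiment is the sum of the period values. -/

open MeasureTheory

namespace Vale.Agent.P150.PA.TV

open Ising

variable {n : ℕ} {S : Sched} {J : Fin n → Fin n → ℝ} {φ : Test n} {b : Fin n → ℝ}

lemma Nice.cbd {X : Copy S n → ℝ} (h : Nice X) : CBd S X := fun l =>
  ⟨(h.1 l).measurable, h.2.choose, fun u => h.2.choose_spec (u, l)⟩

lemma Nice2.cbd2 {X : Copy S n → Copy S n → ℝ} (h : Nice2 X) : CBd2 S X := fun l =>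
  ⟨(h.1 l.1 l.2).measurable, h.2.choose, fun u => h.2.choose_spec (u.1, l.1) (u.2, l.2)⟩

/-- the pair weight at two sites of a period -/
noncomputable def siteH (S : Sched) (J : Fin n → Fin n → ℝ) (φ : Test n) (i j : Fin n) (F : Cfg n)
    (a a' : Copy S n) : ℝ :=
  (cval S J φ F a i - cval S J φ F a' i) * (cspin S F (S.D + S.R) a j - cspin S F (S.D + S.R) a' j) +
  (cval S J φ F a j - cval S J φ F a' j) * (cspin S F (S.D + S.R) a i - cspin S F (S.D + S.R) a' i)

lemma pairTerm_eq (F : Cfg n) (c y : Fin n → ℝ) (a a' : Copy S n) :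
    pairTerm S J φ F c y a a' = ∑ i, ∑ j ∈ Finset.univ.erase i, (c i * y j) * siteH S J φ i j F a a' :=
  Finset.sum_congr rfl fun i _ => Finset.sum_congr rfl fun j _ => by rw [siteH]; ring

lemma pairTerm_swap (F : Cfg n) (c y : Fin n → ℝ) (a a' : Copy S n) :
    pairTerm S J φ F c y a' a = pairTerm S J φ F c y a a' :=
  Finset.sum_congr rfl fun i _ => Finset.sum_congr rfl fun j _ => by ring

lemma nice2_siteH {M : ℝ} (hφ : φ.Bdd M) (i j : Fin n) (F : Cfg n) : Nice2 (S := S) (siteH S J φ i j F) := by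
  refine ⟨fun l l' => ?_, (M + M) * 2 + (M + M) * 2, fun a a' => ?_⟩
  · exact (((((nice_cval hφ i).1 l).comp continuous_fst).sub (((nice_cval hφ i).1 l').comp continuous_snd)).mul
        ((((nice_cspin _ j).1 l).comp continuous_fst).sub (((nice_cspin _ j).1 l').comp continuous_snd))).add
      (((((nice_cval hφ j).1 l).comp continuous_fst).sub (((nice_cval hφ j).1 l').comp continuous_snd)).mul
        ((((nice_cspin _ i).1 l).comp continuous_fst).sub (((nice_cspin _ i).1 l').comp continuous_snd)))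
  have hM : 0 ≤ M := (abs_nonneg _).trans (hφ.fn_le i 0 0 true)
  have a1 : ∀ i, |cval S J φ F a i - cval S J φ F a' i| ≤ M + M := fun i =>
    (abs_sub _ _).trans (add_le_add (hφ.fn_le _ _ _ _) (hφ.fn_le _ _ _ _))
  have a2 : ∀ i, |cspin S F (S.D + S.R) a i - cspin S F (S.D + S.R) a' i| ≤ 2 := fun i =>
    (abs_sub _ _).trans (by simp [cspin, abs_spin']; norm_num)
  refine (abs_add_le _ _).trans (add_le_add ?_ ?_) <;>
  · rw [abs_mul]; exact mul_le_mul (a1 _) (a2 _) (abs_nonneg _) (by positivity)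

/-- the product of an increment and a spin of the copy selected by `c` -/
noncomputable def incSpin (S : Sched) (J : Fin n → Fin n → ℝ) (b : Fin n → ℝ) (c : Bool) (k : Fin (S.D + S.R))
    (i j : Fin n) (F : Cfg n) (a a' : Copy S n) : ℝ :=
  cinc S J b F (if c then a else a') k i * cspin S F k (if c then a else a') j

lemma nice2_incSpin (c : Bool) (k : Fin (S.D + S.R)) (i j : Fin n) (F : Cfg n) :
    Nice2 (incSpin S J b c k i j F) := by
  have h : Nice fun a : Copy S n => cinc S J b F a k i * cspin S F k a j := (nice_cinc k i).mul (nice_cspin k j)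
  obtain ⟨hc, C, hC⟩ := h
  cases c
  · exact ⟨fun _ l' => (hc l').comp continuous_snd, C, fun _ a' => hC a'⟩
  · exact ⟨fun l _ => (hc l).comp continuous_fst, C, fun a _ => hC a⟩

lemma lex2_incSpin (hn : 0 < n) (c : Bool) (k : Fin (S.D + S.R)) (i j : Fin n) (F : Cfg n) :
    lex2 S J b F (incSpin S J b c k i j F) = 0 := by
  have h : lex S J b F (fun a => cinc S J b F a k i * cspin S F k a j) = 0 :=
    TV.lex_cinc_zero hn k i fun y => spin (y j)
  cases c <;> simp only [lex2, incSpin, Bool.false_eq_true, if_false, if_true, h, TV.lex_const hn]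

variable (x : Cfg n)

/-- the score term of copy `(p, c)`, attempt `k`, against the shift of period `q` -/
noncomputable def crossTerm (S : Sched) (J : Fin n → Fin n → ℝ) (φ : Test n) (b : Fin n → ℝ) (x : Cfg n)
    (p q : Fin S.P) (c : Bool) (k : Fin (S.D + S.R)) (z : Noise S n) (ω : Out S n) : ℝ :=
  pairTerm S J φ (origin S x ω q) (cinc S J b (origin S x ω p) (copy S z ω p c) k)
    (cspin S (origin S x ω p) k (copy S z ω p c)) (copy S z ω q true) (copy S z ω q false)

lemma crossTerm_eq (p q : Fin S.P) (c : Bool) (k : Fin (S.D + S.R)) (z : Noise S n) (ω : Out S n) :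
    crossTerm S J φ b x p q c k z ω = ∑ i, ∑ j ∈ Finset.univ.erase i,
      incSpin S J b c k i j (origin S x ω p) (copy S z ω p true) (copy S z ω p false) *
        siteH S J φ i j (origin S x ω q) (copy S z ω q true) (copy S z ω q false) := by
  rw [crossTerm, pairTerm_eq]
  cases c <;> rfl

lemma leaf_eq (z : Noise S n) (ω : Out S n) (p : Fin S.P) (c : Bool) (k : ℕ) :
    leaf S x ω p c k = cpos S (origin S x ω p) (copy S z ω p c) (S.D + k) := by
  rcases Nat.eq_zero_or_pos k with rfl | h
  · simp [leaf, mid, cpos, copy, st]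
  · simp [leaf, mid, cpos, copy, Nat.not_le.2 (by omega : S.D < S.D + k)]

/-- the score of one copy as a sum over its attempts -/
lemma copy_score (W : Fin n → Fin n → ℝ) (z : Noise S n) (ω : Out S n) (p : Fin S.P) (c : Bool) :
    segScore J b W (origin S x ω p) (ω p c).1 + segScore J (tfield S b x ω z p c) W (mid S x ω p c) (ω p c).2 =
      ∑ k : Fin (S.D + S.R), ∑ i, cinc S J b (origin S x ω p) (copy S z ω p c) k i *
        fld W 0 i (cpos S (origin S x ω p) (copy S z ω p c) k) := by
  rw [Fin.sum_univ_add]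
  congr 1
  · refine Finset.sum_congr rfl fun k _ => ?_
    have hk : ((Fin.castAdd S.R k : Fin (S.D + S.R)) : ℕ) = k := rfl
    simp only [cinc, cpos, hk, dif_pos k.2, if_pos k.2.le, Fin.eta, copy]
    rw [Finset.sum_eq_single ((ω p c).1 k).1 (fun i _ hi => by simp [inc, Ne.symm hi]) (by simp)]
  · refine Finset.sum_congr rfl fun k _ => ?_
    have hk : ((Fin.natAdd S.D k : Fin (S.D + S.R)) : ℕ) = S.D + k := rfl
    rw [hk, ← leaf_eq x z ω p c k]
    simp only [cinc, hk, dif_neg (show ¬ S.D + (k:ℕ) < S.D by omega), Nat.add_sub_cancel_left, Fin.eta, copy]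
    rw [Finset.sum_eq_single ((ω p c).2 k).1 (fun i _ hi => by simp [inc, Ne.symm hi]) (by simp)]
    rfl

/-- `Λ` as period terms plus cross terms -/
lemma lam_eq (hn : 0 < n) (β : ℝ) (z : Noise S n) (ω : Out S n) :
    lam S J φ x z ω b (β / Real.sqrt n) =
      (∑ p : Fin S.P, periodX S J φ b (origin S x ω p) β (copy S z ω p true) (copy S z ω p false)) +
      β ^ 2 / n * ∑ p : Fin S.P, ∑ q ∈ Finset.univ.erase p, ∑ k : Fin (S.D + S.R),
        (crossTerm S J φ b x p q true k z ω + crossTerm S J φ b x p q false k z ω) := by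
  have hσ : (β / Real.sqrt n) ^ 2 = β ^ 2 / n := by rw [div_pow, Real.sq_sqrt (Nat.cast_nonneg n)]
  have hd : ∀ p i, dpsi S J φ x z ω p i = cval S J φ (origin S x ω p) (copy S z ω p true) i -
      cval S J φ (origin S x ω p) (copy S z ω p false) i := fun p i => by
    simp only [dpsi, val, cval, leaf_eq x z ω]; rfl
  have hdd : ∀ p c i, dval S J φ x z ω p c i = cdval S J φ (origin S x ω p) (copy S z ω p c) i := fun p c i => by
    simp only [dval, cdval, leaf_eq x z ω]; rfl
  have hl : ∀ p c k i, spin (leaf S x ω p c k i) = cspin S (origin S x ω p) (S.D + k) (copy S z ω p c) i :=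
    fun p c k i => by rw [leaf_eq x z ω]; rfl
  have hb : ∀ p i, dspin S x ω p i = cspin S (origin S x ω p) (S.D + S.R) (copy S z ω p true) i -
      cspin S (origin S x ω p) (S.D + S.R) (copy S z ω p false) i := fun p i => by simp only [dspin, hl]
  have hscore : score S J x z ω b (shiftDir S J φ x z ω) = ∑ p : Fin S.P, ∑ q : Fin S.P, ∑ k : Fin (S.D + S.R),
      (crossTerm S J φ b x p q true k z ω + crossTerm S J φ b x p q false k z ω) := by
    have hW : ∀ (p : Fin S.P) (c : Bool) (k : Fin (S.D + S.R)), ∑ i, cinc S J b (origin S x ω p) (copy S z ω p c) k i *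
        fld (shiftDir S J φ x z ω) 0 i (cpos S (origin S x ω p) (copy S z ω p c) k) =
        ∑ q, crossTerm S J φ b x p q c k z ω := by
      intro p c k
      simp only [crossTerm, pairTerm]
      conv_rhs => rw [Finset.sum_comm]
      refine Finset.sum_congr rfl fun i _ => ?_
      conv_rhs => rw [Finset.sum_comm]
      rw [fld, Pi.zero_apply, add_zero, Finset.mul_sum,
        ← Finset.add_sum_erase _ _ (Finset.mem_univ i)]
      simp only [shiftDir, if_true, zero_mul, mul_zero, zero_add]
      refine Finset.sum_congr rfl fun j hj => ?_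
      rw [if_neg (Ne.symm (Finset.ne_of_mem_erase hj)), Finset.sum_mul, Finset.mul_sum]
      refine Finset.sum_congr rfl fun q _ => ?_
      rw [hd, hd, hb, hb]
      simp only [cspin]
      ring
    simp only [score, Fintype.sum_bool, copy_score, hW]
    refine Finset.sum_congr rfl fun p _ => ?_
    rw [← Finset.sum_add_distrib]
    simp only [← Finset.sum_add_distrib]
    exact Finset.sum_comm
  rw [lam, hσ, hscore, divDir]
  simp only [periodX, fieldTerm, divTerm, hd, hb, hdd, leaf_eq x z ω]
  rw [Finset.sum_add_distrib, Finset.sum_add_distrib, ← Finset.sum_neg_distrib, ← Finset.mul_sum, ← Finset.mul_sum]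
  have hown : ∀ p : Fin S.P, ∑ q : Fin S.P, ∑ k : Fin (S.D + S.R),
      (crossTerm S J φ b x p q true k z ω + crossTerm S J φ b x p q false k z ω) =
      (∑ k : Fin (S.D + S.R),
        (pairTerm S J φ (origin S x ω p) (cinc S J b (origin S x ω p) (copy S z ω p true) k)
          (cspin S (origin S x ω p) k (copy S z ω p true)) (copy S z ω p true) (copy S z ω p false) +
         pairTerm S J φ (origin S x ω p) (cinc S J b (origin S x ω p) (copy S z ω p false) k)
          (cspin S (origin S x ω p) k (copy S z ω p false)) (copy S z ω p false) (copy S z ω p true))) +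
      ∑ q ∈ Finset.univ.erase p, ∑ k : Fin (S.D + S.R),
        (crossTerm S J φ b x p q true k z ω + crossTerm S J φ b x p q false k z ω) := fun p => by
    rw [← Finset.add_sum_erase _ _ (Finset.mem_univ p)]
    congr 1
    refine Finset.sum_congr rfl fun k _ => ?_
    simp only [crossTerm]
    rw [pairTerm_swap _ _ _ (copy S z ω p true) (copy S z ω p false)]
  rw [Finset.sum_congr rfl fun p _ => hown p, Finset.sum_add_distrib, mul_add]
  simp only [cspin]
  ring

section
variable (hn : 0 < n) {M V : ℝ} (hφ : φ.Bdd M) (hM : 1 ≤ M) (hV0 : 0 ≤ V) (hV : CopyVar S J φ b V)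
include hn hφ hM hV0 hV

omit hn hM hV0 hV in
lemma bd_crossTerm (p q : Fin S.P) (c : Bool) (k : Fin (S.D + S.R)) : Bd (crossTerm S J φ b x p q c k) := by
  have e : crossTerm S J φ b x p q c k = fun z ω => ∑ i, ∑ j ∈ Finset.univ.erase i,
      incSpin S J b c k i j (origin S x ω p) (copy S z ω p true) (copy S z ω p false) *
        siteH S J φ i j (origin S x ω q) (copy S z ω q true) (copy S z ω q false) := by
    funext z ω; exact crossTerm_eq x p q c k z ω
  rw [e]
  exact Bd.sum fun i _ => Bd.sum fun j _ => (bd_origin S x (fun F => (nice2_incSpin c k i j F).cbd2) p).mul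
    (bd_origin S x (fun F => (nice2_siteH hφ i j F).cbd2) q)

lemma tex_crossTerm (p q : Fin S.P) (hpq : q ≠ p) (c : Bool) (k : Fin (S.D + S.R)) :
    |tex S J b x (crossTerm S J φ b x p q c k)| ≤ M * (8 * Real.sqrt V + 16) := by
  set g := fun i j (z : Noise S n) ω => incSpin S J b c k i j (origin S x ω p) (copy S z ω p true) (copy S z ω p false)
  set h := fun i j (z : Noise S n) ω => siteH S J φ i j (origin S x ω q) (copy S z ω q true) (copy S z ω q false)
  have hg : ∀ i j, Bd (g i j) := fun i j => bd_origin S x (fun F => (nice2_incSpin c k i j F).cbd2) p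
  have hh : ∀ i j, Bd (h i j) := fun i j => bd_origin S x (fun F => (nice2_siteH hφ i j F).cbd2) q
  have e : tex S J b x (crossTerm S J φ b x p q c k) =
      ∑ i, ∑ j ∈ Finset.univ.erase i, tex S J b x (fun z ω => g i j z ω * h i j z ω) := by
    rw [show crossTerm S J φ b x p q c k = fun z ω => ∑ i, ∑ j ∈ Finset.univ.erase i, g i j z ω * h i j z ω by
      funext z ω; exact crossTerm_eq x p q c k z ω,
      tex_sum S J b x hn _ fun i _ => Bd.sum fun j _ => (hg i j).mul (hh i j)]
    exact Finset.sum_congr rfl fun i _ => tex_sum S J b x hn _ fun j _ => (hg i j).mul (hh i j)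
  have hB : 0 ≤ M * (8 * Real.sqrt V + 16) := by positivity
  rcases lt_or_gt_of_ne hpq with hlt | hlt
  · -- the shift precedes the increment
    have : ∀ i j, tex S J b x (fun z ω => g i j z ω * h i j z ω) = 0 := fun i j => by
      simp only [mul_comm (g i j _ _)]
      rw [tex_past S J b x hn p (hh i j) (past_at x (siteH S J φ i j) hlt) (X := incSpin S J b c k i j)
        fun F => (nice2_incSpin c k i j F).cbd2]
      simp only [lex2_incSpin hn, mul_zero, tex_const S J b x hn]
    rw [e]; simpa [this] using hB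
  · -- the shift follows the increment
    have h2 : ∀ i j, tex S J b x (fun z ω => g i j z ω * h i j z ω) =
        tex S J b x (fun z ω => g i j z ω * lex2 S J b (origin S x ω q) (siteH S J φ i j (origin S x ω q))) := fun i j =>
      tex_past S J b x hn q (hg i j) (past_at x (incSpin S J b c k i j) hlt) fun F => (nice2_siteH hφ i j F).cbd2
    have hl : ∀ i j, Bd (fun (_ : Noise S n) ω => lex2 S J b (origin S x ω q) (siteH S J φ i j (origin S x ω q))) :=
      fun i j => Bd.discrete _
    rw [e, Finset.sum_congr rfl fun i _ => Finset.sum_congr rfl fun j _ => h2 i j]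
    rw [← Finset.sum_congr rfl fun i _ => tex_sum S J b x hn _ fun j _ => (hg i j).mul (hl i j),
      ← tex_sum S J b x hn _ fun i _ => Bd.sum fun j _ => (hg i j).mul (hl i j)]
    have hbd : Bd (fun z ω => ∑ i, ∑ j ∈ Finset.univ.erase i,
        g i j z ω * lex2 S J b (origin S x ω q) (siteH S J φ i j (origin S x ω q))) :=
      Bd.sum fun i _ => Bd.sum fun j _ => (hg i j).mul (hl i j)
    refine (abs_tex_le S J b x hn hbd).trans ((tex_mono S J b x hn hbd.abs (Bd.const (M * (8 * Real.sqrt V + 16)))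
      fun z ω => ?_).trans (tex_const S J b x hn _).le)
    set F := origin S x ω q
    set a := copy S z ω p c
    have e3 : ∑ i, ∑ j ∈ Finset.univ.erase i, g i j z ω * lex2 S J b F (siteH S J φ i j F) =
        lex2 S J b F (pairTerm S J φ F (cinc S J b (origin S x ω p) a k) (cspin S (origin S x ω p) k a)) := by
      rw [show pairTerm S J φ F (cinc S J b (origin S x ω p) a k) (cspin S (origin S x ω p) k a) = fun a₁ a₂ =>
        ∑ i, ∑ j ∈ Finset.univ.erase i, (cinc S J b (origin S x ω p) a k i * cspin S (origin S x ω p) k a j) *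
          siteH S J φ i j F a₁ a₂ from funext fun a₁ => funext fun a₂ => pairTerm_eq F _ _ a₁ a₂,
        lex2_fsum hn _ fun i _ => Nice2.sum _ fun j _ => (nice2_siteH hφ i j F).smul _]
      refine Finset.sum_congr rfl fun i _ => ?_
      rw [lex2_fsum hn _ fun j _ => (nice2_siteH hφ i j F).smul _]
      refine Finset.sum_congr rfl fun j _ => ?_
      rw [lex2_smul]
      simp only [g, incSpin, a]
      cases c <;> rfl
    rw [e3]
    exact pairTerm_outer (F := F) hn hφ hM hV0 hV _ _ (sum_abs_cinc_le a k) fun j => (abs_spin' _).le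

lemma tex_periodX (hr : S.r ≤ S.R) (β : ℝ) (p : Fin S.P) :
    |tex S J b x (fun z ω => periodX S J φ b (origin S x ω p) β (copy S z ω p true) (copy S z ω p false)) -
      Kpow J b (p * S.D) (periodValue S J φ b β) x| ≤
      β ^ 2 / n * (n * M * (4 * Real.sqrt V + 4) + (S.D + S.R : ℕ) * (2 * (M * (20 * Real.sqrt V + 16)))) := by
  rw [tex_copy S J b x hn p (X := fun F => periodX S J φ b F β) fun F => (nice2_periodX hn hφ hM β).cbd2]
  set k := (p : ℕ) * S.D
  rw [← pex_st J b hn _ (le_refl k) x, ← pex_st J b hn (periodValue S J φ b β) (le_refl k) x, pex, pex,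
    ← Finset.sum_sub_distrib]
  refine (Finset.abs_sum_le_sum_abs _ _).trans ((Finset.sum_le_sum
    (g := fun ω : Path n k => pw J b x ω * (β ^ 2 / n * (n * M * (4 * Real.sqrt V + 4) +
      (S.D + S.R : ℕ) * (2 * (M * (20 * Real.sqrt V + 16)))))) fun ω _ => ?_).trans_eq
    (by rw [← Finset.sum_mul, pw_sum J b hn, one_mul]))
  rw [← mul_sub, abs_mul, abs_of_nonneg (pw_nonneg J b x ω)]
  exact mul_le_mul_of_nonneg_left (period_value hn hφ hM hV0 hV hr β) (pw_nonneg J b x ω)

/-- mean of `Λ` in terms of a variance bound -/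
theorem tree_value_aux (hr : S.r ≤ S.R) (β : ℝ) :
    |tex S J b x (fun z ω => lam S J φ x z ω b (β / Real.sqrt n)) -
      ∑ p : Fin S.P, Kpow J b (p * S.D) (periodValue S J φ b β) x| ≤
      S.P * (β ^ 2 / n * (n * M * (4 * Real.sqrt V + 4) + (S.D + S.R : ℕ) * (2 * (M * (20 * Real.sqrt V + 16))))) +
      β ^ 2 / n * (S.P * (S.P * ((S.D + S.R : ℕ) * (2 * (M * (8 * Real.sqrt V + 16)))))) := by
  have hP : ∀ p : Fin S.P, Bd (fun (z : Noise S n) ω =>
      periodX S J φ b (origin S x ω p) β (copy S z ω p true) (copy S z ω p false)) := fun p =>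
    bd_origin S x (p := (p : ℕ)) (X := fun F => periodX S J φ b F β) (fun F => (nice2_periodX hn hφ hM β).cbd2) p
  have hC : ∀ p q k, Bd (fun z ω => crossTerm S J φ b x p q true k z ω + crossTerm S J φ b x p q false k z ω) :=
    fun p q k => (bd_crossTerm x hφ p q true k).add (bd_crossTerm x hφ p q false k)
  simp only [lam_eq x hn β]
  rw [tex_add S J b x hn (Bd.sum fun p _ => hP p) ((Bd.sum fun p _ => Bd.sum fun q _ => Bd.sum fun k _ => hC p q k).const_mul _),
    tex_sum S J b x hn _ fun p _ => hP p, tex_const_mul,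
    tex_sum S J b x hn _ fun p _ => Bd.sum fun q _ => Bd.sum fun k _ => hC p q k, add_sub_right_comm, ← Finset.sum_sub_distrib]
  refine (abs_add_le _ _).trans (add_le_add ?_ ?_)
  · refine (Finset.abs_sum_le_sum_abs _ _).trans
      ((Finset.sum_le_card_nsmul _ _ _ fun p _ => tex_periodX x hn hφ hM hV0 hV hr β p).trans_eq ?_)
    simp
  rw [abs_mul, abs_of_nonneg (by positivity : (0:ℝ) ≤ β ^ 2 / n)]
  refine mul_le_mul_of_nonneg_left ((Finset.abs_sum_le_sum_abs _ _).trans
    ((Finset.sum_le_card_nsmul _ _ ((S.P : ℝ) * ((S.D + S.R : ℕ) * (2 * (M * (8 * Real.sqrt V + 16))))) fun p _ => ?_).trans_eq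
      (by simp))) (by positivity)
  rw [tex_sum S J b x hn _ fun q _ => Bd.sum fun k _ => hC p q k]
  refine (Finset.abs_sum_le_sum_abs _ _).trans
    ((Finset.sum_le_card_nsmul _ _ ((S.D + S.R : ℕ) * (2 * (M * (8 * Real.sqrt V + 16)))) fun q hq => ?_).trans ?_)
  · rw [tex_sum S J b x hn _ fun k _ => hC p q k]
    refine (Finset.abs_sum_le_sum_abs _ _).trans
      ((Finset.sum_le_card_nsmul _ _ (2 * (M * (8 * Real.sqrt V + 16))) fun k _ => ?_).trans_eq (by simp))
    rw [tex_add S J b x hn (bd_crossTerm x hφ p q true k) (bd_crossTerm x hφ p q false k)]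
    refine (abs_add_le _ _).trans ?_
    have hne := Finset.ne_of_mem_erase hq
    linarith [tex_crossTerm x hn hφ hM hV0 hV p q hne true k, tex_crossTerm x hn hφ hM hV0 hV p q hne false k]
  · rw [nsmul_eq_mul]
    refine mul_le_mul_of_nonneg_right ?_ (by positivity)
    exact_mod_cast Finset.card_erase_le.trans_eq (by simp)

end

end Vale.Agent.P150.PA.TV

namespace Vale.Agent.P150.PA

open Ising

variable {n : ℕ}

/-- the constant of `tree_value` -/
noncomputable def valC (β M L τ : ℝ) (P : ℕ) : ℝ :=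
  β ^ 2 * M * (P * (4 * Real.sqrt (legC M L τ) + 4 + τ * (40 * Real.sqrt (legC M L τ) + 32)) +
    (P : ℝ) ^ 2 * τ * (16 * Real.sqrt (legC M L τ) + 32))

/-- the mean of `Λ` is the sum of the period values, up to `O(√n)` -/
theorem tree_value (S : Sched) {J : Fin n → Fin n → ℝ} {φ : Test n} {b : Fin n → ℝ} (x : Cfg n) {β M L τ : ℝ}
    (hn : 0 < n) (hJ : Tame J L) (hτ : (S.D : ℝ) + S.R ≤ τ * n) (ht0 : 0 ≤ S.t) (ht : S.t ≤ τ)
    (hr : S.r ≤ S.R) (hφ : φ.Bdd M) (hu : ∀ i h c, ContDiff ℝ 1 fun u => φ.fn i h u c) (hM : 1 ≤ M) :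
    |tex S J b x (fun z ω => lam S J φ x z ω b (β / Real.sqrt n)) -
      ∑ p : Fin S.P, Kpow J b (p * S.D) (periodValue S J φ b β) x| ≤ valC β M L τ S.P * Real.sqrt n := by
  have hn' : (0:ℝ) < n := by exact_mod_cast hn
  have hτ0 : 0 ≤ τ := ht0.trans ht
  have hV : TV.CopyVar S J φ b (legC M L τ * n) := {
    spin := fun F w hw k hk => lvar_spin hJ hτ ht0 ht hw hk
    cval := fun F w hw => lvar_cval hJ hτ ht0 ht hr hφ hu hw
    spin_spin := fun F k hk l hl => lvar_spin_spin hJ hτ ht0 ht hk hl
    spin_cval := fun F k hk => lvar_spin_cval hJ hτ ht0 ht hr hφ hu hk }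
  have hC := legC_nonneg (M := M) (L := L) hτ0
  refine (TV.tree_value_aux (S := S) x hn hφ hM (by positivity) hV hr β).trans ?_
  rw [Real.sqrt_mul hC]
  set s := Real.sqrt (legC M L τ)
  set r := Real.sqrt (n:ℝ)
  have hs : 0 ≤ s := Real.sqrt_nonneg _
  have hr1 : 1 ≤ r := Real.one_le_sqrt.2 (by exact_mod_cast hn)
  have hDR : ((S.D + S.R : ℕ) : ℝ) ≤ τ * n := by push_cast; exact hτ
  have h1 : β ^ 2 / n * (n * M * (4 * (s * r) + 4) + (S.D + S.R : ℕ) * (2 * (M * (20 * (s * r) + 16)))) ≤
      β ^ 2 * M * ((4 * s + 4) * r + τ * ((40 * s + 32) * r)) := by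
    refine (mul_le_mul_of_nonneg_left (add_le_add_right (mul_le_mul_of_nonneg_right hDR (by positivity)) _) (by positivity)).trans ?_
    rw [div_mul_eq_mul_div, div_le_iff₀ hn']
    have a1 : 4 ≤ 4 * r := by linarith
    have a2 : 32 ≤ 32 * r := by linarith
    have b1 := mul_le_mul_of_nonneg_left a1 (by positivity : (0:ℝ) ≤ β ^ 2 * M * n)
    have b2 := mul_le_mul_of_nonneg_left a2 (by positivity : (0:ℝ) ≤ β ^ 2 * M * (τ * n))
    linarith
  have h2 : β ^ 2 / n * (S.P * (S.P * ((S.D + S.R : ℕ) * (2 * (M * (8 * (s * r) + 16)))))) ≤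
      β ^ 2 * M * ((S.P : ℝ) ^ 2 * τ * ((16 * s + 32) * r)) := by
    refine (mul_le_mul_of_nonneg_left (mul_le_mul_of_nonneg_left (mul_le_mul_of_nonneg_left
      (mul_le_mul_of_nonneg_right hDR (by positivity)) (by positivity)) (by positivity)) (by positivity)).trans ?_
    rw [div_mul_eq_mul_div, div_le_iff₀ hn']
    have b2 := mul_le_mul_of_nonneg_left (by linarith : (32:ℝ) ≤ 32 * r)
      (by positivity : (0:ℝ) ≤ β ^ 2 * M * ((S.P : ℝ) ^ 2 * τ * n))
    linarith
  refine (add_le_add (mul_le_mul_of_nonneg_left h1 (Nat.cast_nonneg _)) h2).trans_eq ?_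
  rw [valC]; ring

end Vale.Agent.P150.PA
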