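import Vale.Agent.P150.PA.TreeAnnealed
import Vale.Agent.P150.PA.TreeQuad
import Vale.Agent.P150.PA.TreeValue
import Vale.Agent.P150.Gauss

/-! The inequality of the branching experiment: outside an exceptional set of disorders, the mean of the
value of the periods is small for all tests of a finite family, all starts and all fields on average. -/

open MeasureTheory

namespace Vale.Agent.P150.PA

open Ising

variable {n : ℕ} (S : Sched)

/-- the negated test -/
noncomputable def Test.neg (φ : Test n) : Test n where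
  fn i h u c := -φ.fn i h u c
  dfn i h u c := -φ.dfn i h u c
  hasDeriv i h u c := (φ.hasDeriv i h u c).fun_neg

lemma Test.Bdd.neg {φ : Test n} {M : ℝ} (h : φ.Bdd M) : φ.neg.Bdd M where
  fn_le i x u c := by simp only [Test.neg, abs_neg]; exact h.fn_le i x u c
  dfn_le i x u c := by simp only [Test.neg, abs_neg]; exact h.dfn_le i x u c
  dfn_lip i x y u c := by
    simp only [Test.neg, neg_sub_neg]; rw [abs_sub_comm]; exact h.dfn_lip i x y u c
  noise_lip i x u v c := by
    simp only [Test.neg, neg_sub_neg]; rw [abs_sub_comm]; exact h.noise_lip i x u v c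
  cont i c := by simp only [Test.neg]; exact ⟨(h.cont i c).1.neg, (h.cont i c).2.neg⟩

lemma Test.Bdd.mono {φ : Test n} {M M' : ℝ} (h : φ.Bdd M) (hM : M ≤ M') : φ.Bdd M' where
  fn_le i x u c := (h.fn_le i x u c).trans hM
  dfn_le i x u c := (h.dfn_le i x u c).trans hM
  dfn_lip i x y u c := (h.dfn_lip i x y u c).trans (mul_le_mul_of_nonneg_right hM (abs_nonneg _))
  noise_lip i x u v c := (h.noise_lip i x u v c).trans (mul_le_mul_of_nonneg_right hM (abs_nonneg _))
  cont := h.cont

lemma Test.neg_contDiff {φ : Test n} (hu : ∀ i h c, ContDiff ℝ 1 fun u => φ.fn i h u c) :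
    ∀ i h c, ContDiff ℝ 1 fun u => φ.neg.fn i h u c := fun i h c => (hu i h c).neg

lemma lam_neg (J : Fin n → Fin n → ℝ) (φ : Test n) (x : Cfg n) (z : Noise S n) (ω : Out S n)
    (b : Fin n → ℝ) (σ : ℝ) : lam S J φ.neg x z ω b σ = -lam S J φ x z ω b σ := by
  have h1 : ∀ p i, dpsi S J φ.neg x z ω p i = -dpsi S J φ x z ω p i := fun p i => by
    simp only [dpsi, val, Test.neg]; ring
  have h2 : ∀ p c i, dval S J φ.neg x z ω p c i = -dval S J φ x z ω p c i := fun p c i => rfl
  have h3 : shiftDir S J φ.neg x z ω = fun i k => (-1 : ℝ) * shiftDir S J φ x z ω i k := by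
    funext i k
    simp only [shiftDir, h1]
    split_ifs
    · simp
    · rw [Finset.mul_sum]; exact Finset.sum_congr rfl fun p _ => by ring
  have h4 : divDir S J φ.neg x z ω = -divDir S J φ x z ω := by
    simp only [divDir, h2, ← Finset.sum_neg_distrib]
    exact Finset.sum_congr rfl fun p _ => Finset.sum_congr rfl fun i _ => Finset.sum_congr rfl fun k _ => by ring
  unfold lam
  rw [h3, h4, (score_const_mul S b x z ω J (shiftDir S J φ x z ω) (-1)).1]
  simp only [h1, neg_mul, Finset.sum_neg_distrib]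
  ring

/-- the value of the experiment: the sum over its periods -/
noncomputable def treeVal (β : ℝ) (g : Edge n → ℝ) (φ : Test n) (b : Fin n → ℝ) (x : Cfg n) : ℝ :=
  ∑ p : Fin S.P, Kpow (cpl β g) b (p * S.D) (periodValue S (cpl β g) φ b β) x

section

attribute [local irreducible] tw' lam qTot Phi tex

variable {ι : Type*} [Fintype ι] (β M ε : ℝ) (φ : ι → Test n)

/-- sum of the exponential moments over all starts, all tests of the family and both signs -/
noncomputable def famSum (g : Edge n → ℝ) (b : Fin n → ℝ) : ℝ :=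
  ∑ x : Cfg n, ∑ i, (Phi S β M ε g (φ i) b x + Phi S β M ε g (φ i).neg b x)

/-- its logarithm -/
noncomputable def famLog (g : Edge n → ℝ) (b : Fin n → ℝ) : ℝ := Real.log (1 + famSum S β M ε φ g b)

lemma famSum_nonneg (g : Edge n → ℝ) (b : Fin n → ℝ) : 0 ≤ famSum S β M ε φ g b :=
  Finset.sum_nonneg fun _ _ => Finset.sum_nonneg fun _ _ =>
    add_nonneg (Phi_nonneg ..) (Phi_nonneg ..)

lemma famLog_nonneg (g : Edge n → ℝ) (b : Fin n → ℝ) : 0 ≤ famLog S β M ε φ g b :=
  Real.log_nonneg (by linarith [famSum_nonneg S β M ε φ g b])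

lemma log_max_Phi_le (g : Edge n → ℝ) (b : Fin n → ℝ) (x : Cfg n) (i : ι) (s : Bool) :
    Real.log (max (Phi S β M ε g (if s then φ i else (φ i).neg) b x) 1) ≤ famLog S β M ε φ g b := by
  refine Real.log_le_log (lt_of_lt_of_le one_pos (le_max_right _ _)) (max_le ?_ ?_)
  · have h1 : Phi S β M ε g (φ i) b x + Phi S β M ε g (φ i).neg b x ≤ famSum S β M ε φ g b :=
      le_trans (Finset.single_le_sum (f := fun i => Phi S β M ε g (φ i) b x + Phi S β M ε g (φ i).neg b x)
        (fun _ _ => add_nonneg (Phi_nonneg ..) (Phi_nonneg ..)) (Finset.mem_univ i))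
        (Finset.single_le_sum (f := fun x => ∑ i, (Phi S β M ε g (φ i) b x + Phi S β M ε g (φ i).neg b x))
          (fun _ _ => Finset.sum_nonneg fun _ _ => add_nonneg (Phi_nonneg ..) (Phi_nonneg ..)) (Finset.mem_univ x))
    have := Phi_nonneg S β M ε (φ i) b x g
    have := Phi_nonneg S β M ε (φ i).neg b x g
    cases s <;> simp only [if_true, Bool.false_eq_true, if_false] <;> linarith
  · linarith [famSum_nonneg S β M ε φ g b]

variable (hφ : ∀ i, (φ i).Bdd M)
include hφ

lemma measurable_famSum : Measurable fun q : (Edge n → ℝ) × (Fin n → ℝ) => famSum S β M ε φ q.1 q.2 :=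
  Finset.measurable_sum _ fun x _ => Finset.measurable_sum _ fun i _ =>
    (measurable_Phi S β ε x (hφ i)).add (measurable_Phi S β ε x (hφ i).neg)

lemma measurable_famLog : Measurable fun q : (Edge n → ℝ) × (Fin n → ℝ) => famLog S β M ε φ q.1 q.2 :=
  Real.measurable_log.comp (measurable_const.add (measurable_famSum S β M ε φ hφ))

/-- the annealed bound for the whole family -/
lemma lintegral_famSum_le (hn : 0 < n) (hε : |ε| * β ^ 2 * |M| * 9 * Real.sqrt S.P ≤ 1 / 2) (b : Fin n → ℝ) :
    ∫⁻ g, ENNReal.ofReal (1 + famSum S β M ε φ g b) ∂disorder n ≤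
      ENNReal.ofReal (1 + 2 * 2 ^ n * Fintype.card ι) := by
  have hm : ∀ (x : Cfg n) (ψ : Test n), ψ.Bdd M → Measurable fun g => ENNReal.ofReal (Phi S β M ε g ψ b x) :=
    fun x ψ h => ENNReal.measurable_ofReal.comp ((measurable_Phi S β ε x h).comp
      (measurable_id.prodMk measurable_const))
  have e : ∀ g, ENNReal.ofReal (1 + famSum S β M ε φ g b) = 1 + ∑ x : Cfg n, ∑ i,
      (ENNReal.ofReal (Phi S β M ε g (φ i) b x) + ENNReal.ofReal (Phi S β M ε g (φ i).neg b x)) := fun g => by
    rw [ENNReal.ofReal_add zero_le_one (famSum_nonneg ..), ENNReal.ofReal_one, famSum,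
      ENNReal.ofReal_sum_of_nonneg fun x _ => Finset.sum_nonneg fun i _ => add_nonneg (Phi_nonneg ..) (Phi_nonneg ..)]
    congr 1
    refine Finset.sum_congr rfl fun x _ => ?_
    rw [ENNReal.ofReal_sum_of_nonneg fun i _ => add_nonneg (Phi_nonneg ..) (Phi_nonneg ..)]
    exact Finset.sum_congr rfl fun i _ => ENNReal.ofReal_add (Phi_nonneg ..) (Phi_nonneg ..)
  simp only [e]
  have hm2 : ∀ x i, Measurable fun g => ENNReal.ofReal (Phi S β M ε g (φ i) b x) +
      ENNReal.ofReal (Phi S β M ε g (φ i).neg b x) := fun x i => (hm x _ (hφ i)).add (hm x _ (hφ i).neg)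
  rw [lintegral_add_left measurable_const, lintegral_const, measure_univ, mul_one,
    lintegral_finsetSum _ fun x _ => Finset.measurable_sum _ fun i _ => hm2 x i]
  refine (add_le_add le_rfl (Finset.sum_le_sum fun x _ => ?_)).trans_eq
    (show 1 + ∑ _x : Cfg n, ∑ _i : ι, (1 + 1 : ENNReal) = _ from ?_)
  · rw [lintegral_finsetSum _ fun i _ => hm2 x i]
    refine Finset.sum_le_sum fun i _ => ?_
    rw [lintegral_add_left (hm x _ (hφ i))]
    exact add_le_add (tree_annealed S β ε b x (hφ i) hn hε) (tree_annealed S β ε b x (hφ i).neg hn hε)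
  · rw [ENNReal.ofReal_add zero_le_one (by positivity), ENNReal.ofReal_one]
    simp [Finset.sum_const, Finset.card_univ, nsmul_eq_mul, ENNReal.ofReal_mul, ENNReal.ofReal_pow]
    ring

/-- the disorders on which the logarithm averages to at most `a` under each of the random fields -/
theorem tree_union (hn : 0 < n) (hε : |ε| * β ^ 2 * |M| * 9 * Real.sqrt S.P ≤ 1 / 2) {κ : Type*} [Fintype κ]
    (ν : κ → Measure (Fin n → ℝ)) [∀ o, IsProbabilityMeasure (ν o)] (a : ℝ) :
    ∃ Good : Set (Edge n → ℝ), MeasurableSet Good ∧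
      (disorder n).real Goodᶜ ≤ Fintype.card κ * (1 + 2 * 2 ^ n * Fintype.card ι) * Real.exp (-a) ∧
      ∀ g ∈ Good, ∀ o, Integrable (famLog S β M ε φ g) (ν o) ∧ ∫ b, famLog S β M ε φ g b ∂ν o ≤ a := by
  set N : ℝ := 1 + 2 * 2 ^ n * Fintype.card ι
  have hN : 0 ≤ N := by positivity
  set Z := fun o g => ∫⁻ b, ENNReal.ofReal (1 + famSum S β M ε φ g b) ∂ν o
  have hm : Measurable fun q : (Edge n → ℝ) × (Fin n → ℝ) => ENNReal.ofReal (1 + famSum S β M ε φ q.1 q.2) :=
    ENNReal.measurable_ofReal.comp (measurable_const.add (measurable_famSum S β M ε φ hφ))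
  have hZ : ∀ o, Measurable (Z o) := fun o => hm.lintegral_prod_right'
  refine ⟨⋂ o, {g | Z o g < ENNReal.ofReal (Real.exp a)}, MeasurableSet.iInter fun o =>
    measurableSet_lt (hZ o) measurable_const, ?_, fun g hg o => ?_⟩
  · have hM : ∀ o, (disorder n) {g | ENNReal.ofReal (Real.exp a) ≤ Z o g} ≤ ENNReal.ofReal (N * Real.exp (-a)) := by
      intro o
      have h1 : ∫⁻ g, Z o g ∂disorder n ≤ ENNReal.ofReal N := by
        simp only [Z]
        rw [lintegral_lintegral_swap hm.aemeasurable]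
        refine (lintegral_mono fun b => lintegral_famSum_le S β M ε φ hφ hn hε b).trans_eq ?_
        rw [lintegral_const, measure_univ, mul_one]
      refine (meas_ge_le_lintegral_div (hZ o).aemeasurable (by simp [Real.exp_pos])
        ENNReal.ofReal_ne_top).trans ((ENNReal.div_le_div_right h1 _).trans_eq ?_)
      rw [← ENNReal.ofReal_div_of_pos (Real.exp_pos a), Real.exp_neg, div_eq_mul_inv]
    rw [Set.compl_iInter]
    refine (measureReal_iUnion_fintype_le _).trans ((Finset.sum_le_sum fun o _ => ?_).trans_eq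
      (by simp; ring : ∑ _o : κ, N * Real.exp (-a) = _))
    rw [measureReal_def]
    refine ENNReal.toReal_le_of_le_ofReal (by positivity) ?_
    simpa only [Set.compl_def, Set.mem_ofPred_eq, not_lt] using hM o
  · rw [Set.mem_iInter] at hg
    have hlt : Z o g < ENNReal.ofReal (Real.exp a) := hg o
    have hs : Measurable fun b => famSum S β M ε φ g b :=
      (measurable_famSum S β M ε φ hφ).comp (measurable_const.prodMk measurable_id)
    have h1 : ∀ b, 1 ≤ 1 + famSum S β M ε φ g b := fun b => by linarith [famSum_nonneg S β M ε φ g b]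
    have hi : Integrable (fun b => 1 + famSum S β M ε φ g b) (ν o) := by
      refine ⟨(measurable_const.add hs).aestronglyMeasurable, ?_⟩
      rw [hasFiniteIntegral_iff_ofReal (Filter.Eventually.of_forall fun b => zero_le_one.trans (h1 b))]
      exact hlt.trans ENNReal.ofReal_lt_top
    have hI : ∫ b, (1 + famSum S β M ε φ g b) ∂ν o ≤ Real.exp a := by
      rw [integral_eq_lintegral_of_nonneg_ae (Filter.Eventually.of_forall fun b => zero_le_one.trans (h1 b))
        hi.aestronglyMeasurable]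
      exact ENNReal.toReal_le_of_le_ofReal (Real.exp_pos a).le hlt.le
    have hle : ∀ b, famLog S β M ε φ g b ≤ a + ((1 + famSum S β M ε φ g b) / Real.exp a - 1) := fun b => by
      have hpos : 0 < (1 + famSum S β M ε φ g b) / Real.exp a := by
        have := h1 b; have := Real.exp_pos a; positivity
      have := Real.log_le_sub_one_of_pos hpos
      rw [Real.log_div (by linarith [h1 b]) (Real.exp_pos a).ne', Real.log_exp] at this
      unfold famLog; linarith
    have hiR : Integrable (fun b => a + ((1 + famSum S β M ε φ g b) / Real.exp a - 1)) (ν o) :=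
      (integrable_const a).add ((hi.div_const _).sub (integrable_const 1))
    have hiL : Integrable (famLog S β M ε φ g) (ν o) :=
      hiR.mono' ((measurable_famLog S β M ε φ hφ).comp (measurable_const.prodMk measurable_id)).aestronglyMeasurable
        (Filter.Eventually.of_forall fun b => by
          rw [Real.norm_eq_abs, abs_of_nonneg (famLog_nonneg ..)]; exact hle b)
    refine ⟨hiL, (integral_mono hiL hiR hle).trans ?_⟩
    have e : ∫ b, a + ((1 + famSum S β M ε φ g b) / Real.exp a - 1) ∂ν o =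
        a + ((∫ b, (1 + famSum S β M ε φ g b) ∂ν o) / Real.exp a - 1) := by
      have h2 : Integrable (fun b => (1 + famSum S β M ε φ g b) / Real.exp a - 1) (ν o) :=
        (hi.div_const _).sub (integrable_const 1)
      rw [integral_add (integrable_const a) h2,
        integral_sub (hi.div_const _) (integrable_const 1), integral_div]
      simp
    rw [e]
    linarith [(div_le_one (Real.exp_pos a)).2 hI]

end

/-- the deterministic bound on `Λ` per spin -/
noncomputable def lamC (β M L τ : ℝ) (P : ℕ) : ℝ :=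
  4 * M * L * P + 4 * β ^ 2 * M * P + 32 * β ^ 2 * M * (P : ℝ) ^ 2 * τ

lemma lamC_nonneg {β M L τ : ℝ} (hM : 0 ≤ M) (hL : 0 ≤ L) (hτ : 0 ≤ τ) (P : ℕ) :
    0 ≤ lamC β M L τ P := by unfold lamC; positivity

/-- the combination of Jensen, the value and given bounds on the quadratic part and on the outcomes
that are not nearly orthogonal -/
theorem tree_ineq_of {ι : Type*} [Fintype ι] {β M ε L τ : ℝ} {φ : ι → Test n} (hφ : ∀ i, (φ i).Bdd M)
    (hu : ∀ i j h c, ContDiff ℝ 1 fun u => (φ i).fn j h u c) (hM : 1 ≤ M) (hn : 0 < n) (hε : 0 ≤ ε)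
    {g : Edge n → ℝ} (hT : Tame (cpl β g) L) (hL : 0 ≤ L) (hτ : (S.D : ℝ) + S.R ≤ τ * n)
    (ht0 : 0 ≤ S.t) (ht : S.t ≤ τ) (hr : S.r ≤ S.R) (b : Fin n → ℝ) (x : Cfg n) {Q O : ℝ}
    (hQ : ∀ ψ : Test n, ψ.Bdd M → (∀ j h c, ContDiff ℝ 1 fun u => ψ.fn j h u c) →
      tex S (cpl β g) b x (fun z ω => qTot S β M (cpl β g) ψ x z ω) ≤ Q)
    (hO : tex S (cpl β g) b x (fun _ ω => Set.indicator {ω | ¬ Orth S x ω} (fun _ => (1:ℝ)) ω) ≤ O)
    (i : ι) :
    ε * |treeVal S β g (φ i) b x| ≤ famLog S β M ε φ g b + 1 + ε ^ 2 * Q +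
      ε * (lamC β M L τ S.P * n * O + valC β M L τ S.P * Real.sqrt n) := by
  have hτ0 : 0 ≤ τ := ht0.trans ht
  have hC : 0 ≤ lamC β M L τ S.P * n := mul_nonneg (lamC_nonneg (zero_le_one.trans hM) hL hτ0 _) n.cast_nonneg
  set Λ := fun ψ : Test n => tex S (cpl β g) b x (fun z ω => lam S (cpl β g) ψ x z ω b (β / Real.sqrt n))
  have key : ∀ s : Bool, ε * Λ (if s then φ i else (φ i).neg) ≤ famLog S β M ε φ g b + 1 + ε ^ 2 * Q +
      ε * (lamC β M L τ S.P * n * O) := fun s => by
    set ψ := if s then φ i else (φ i).neg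
    have hb : ψ.Bdd M := by cases s <;> [exact (hφ i).neg; exact hφ i]
    have hc : ∀ j h c, ContDiff ℝ 1 fun u => ψ.fn j h u c := by
      cases s <;> [exact Test.neg_contDiff (hu i); exact hu i]
    have h := tree_jensen S β ε b x g hb hn hε hT hL (τ := τ) (by push_cast; exact hτ)
    have h1 := log_max_Phi_le S β M ε φ g b x i s
    have h2 := mul_le_mul_of_nonneg_left (hQ ψ hb hc) (sq_nonneg ε)
    have h3 := mul_le_mul_of_nonneg_left hO (mul_nonneg hε hC)
    simp only [lamC] at h3 ⊢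
    simp only [Λ]
    linarith
  have hneg : Λ (φ i).neg = -Λ (φ i) := by
    simp only [Λ, lam_neg]
    exact tex_neg S (cpl β g) b x _
  have hp := key true
  have hm := key false
  simp only [if_true, Bool.false_eq_true, if_false, hneg] at hp hm
  have habs : ε * |Λ (φ i)| ≤ famLog S β M ε φ g b + 1 + ε ^ 2 * Q + ε * (lamC β M L τ S.P * n * O) := by
    rcases abs_cases (Λ (φ i)) with ⟨e, _⟩ | ⟨e, _⟩ <;> rw [e] <;> linarith
  have hv := tree_value S x (β := β) (b := b) hn hT hτ ht0 ht hr (hφ i) (hu i) hM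
  have h4 : |treeVal S β g (φ i) b x| ≤ |Λ (φ i)| + valC β M L τ S.P * Real.sqrt n := by
    have := abs_sub_abs_le_abs_sub (treeVal S β g (φ i) b x) (Λ (φ i))
    rw [abs_sub_comm (treeVal S β g (φ i) b x)] at this
    simp only [Λ, treeVal] at this ⊢
    linarith
  have := mul_le_mul_of_nonneg_left h4 hε
  linarith

/-- the coefficient of the leading quadratic part, free of the schedule -/
noncomputable def treeCq (β M : ℝ) : ℝ := quadCoef β M + (20 * β ^ 2 + 80 * β ^ 4) * M ^ 2

/-- the bounded part of the quadratic error -/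
noncomputable def treeRest (β M L τ : ℝ) (P : ℕ) : ℝ := quadRest β M (legC M L τ) τ P

/-- the coefficient of the error of order `√n` -/
noncomputable def treeErr (β M L τ : ℝ) (P : ℕ) : ℝ :=
  lamC β M L τ P * (8 * legC M L τ * (P : ℝ) ^ 4) + valC β M L τ P

lemma treeCq_nonneg (β M : ℝ) : 0 ≤ treeCq β M := by unfold treeCq quadCoef; positivity

lemma treeRest_nonneg {β M L τ : ℝ} (hM : 0 ≤ M) (hτ : 0 ≤ τ) (P : ℕ) : 0 ≤ treeRest β M L τ P := by
  have := legC_nonneg (M := M) (L := L) hτ
  unfold treeRest quadRest; positivity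

lemma treeErr_nonneg {β M L τ : ℝ} (hM : 0 ≤ M) (hL : 0 ≤ L) (hτ : 0 ≤ τ) (P : ℕ) :
    0 ≤ treeErr β M L τ P := by
  have := legC_nonneg (M := M) (L := L) hτ
  have := lamC_nonneg (β := β) hM hL hτ P
  unfold treeErr valC; positivity

attribute [local irreducible] tw' lam qTot

lemma bd_qTot {β M : ℝ} {φ : Test n} (hφ : φ.Bdd M) (g : Edge n → ℝ) (x : Cfg n) :
    Bd (fun z ω => qTot S β M (cpl β g) φ x z ω) := fun ω => by
  have hm : Continuous fun z : Noise S n => ((z, g, (0 : Fin n → ℝ)) : Vars S n) := by fun_prop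
  have h : Continuous fun z => yExp S β M 1 g φ 0 x z ω := (continuous_yExp S β 1 x ω hφ).comp hm
  have h' : Continuous fun z => yExp S β M (-1) g φ 0 x z ω := (continuous_yExp S β (-1) x ω hφ).comp hm
  refine ⟨(((h.add h').div_const (-2)).congr fun z => ?_).measurable,
    S.P * (2 * ((S.D + S.R) * ((n * ((β / Real.sqrt n) ^ 2 * (8 * M * S.P))) ^ 2)))
      + (20 * β ^ 2 + 80 * β ^ 4) * M ^ 2 * n * S.P, fun z => ?_⟩
  · simp only [yExp, Pi.add_apply]; ring
  · rw [abs_of_nonneg (qTot_mem S β x z ω hφ (cpl β g)).1]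
    exact (qTot_mem S β x z ω hφ (cpl β g)).2

/-- **The inequality of the branching experiment.** -/
theorem tree_ineq {ι : Type*} [Fintype ι] {β M ε L τ : ℝ} {φ : ι → Test n} (hφ : ∀ i, (φ i).Bdd M)
    (hu : ∀ i j h c, ContDiff ℝ 1 fun u => (φ i).fn j h u c) (hM : 1 ≤ M) (hn : 0 < n) (hε : 0 ≤ ε)
    {g : Edge n → ℝ} (hT : Tame (cpl β g) L) (hL : 0 ≤ L) (hτ : (S.D : ℝ) + S.R ≤ τ * n)
    (ht0 : 0 ≤ S.t) (ht : S.t ≤ τ) (hr : S.r ≤ S.R) (b : Fin n → ℝ) (x : Cfg n) (i : ι) :
    ε * |treeVal S β g (φ i) b x| ≤ famLog S β M ε φ g b + 1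
      + ε ^ 2 * (treeCq β M * (n * S.P + S.P * ((S.D : ℝ) + S.R)) + treeRest β M L τ S.P)
      + ε * (treeErr β M L τ S.P * Real.sqrt n) := by
  have hτ0 : 0 ≤ τ := ht0.trans ht
  have hM0 : 0 ≤ M := zero_le_one.trans hM
  have hn0 : (0 : ℝ) < n := Nat.cast_pos.2 hn
  set C := legC M L τ
  have hC : 0 ≤ C := legC_nonneg hτ0
  have hS : VarLe S (cpl β g) b (endSpin S) C := varLe_endSpin S (cpl β g) b hT hτ ht0 ht
  have hsn : 1 ≤ Real.sqrt n := Real.one_le_sqrt.2 (by exact_mod_cast hn)
  refine (tree_ineq_of S hφ hu hM hn hε hT hL hτ ht0 ht hr b x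
    (Q := treeCq β M * (n * S.P + S.P * ((S.D : ℝ) + S.R)) + treeRest β M L τ S.P)
    (O := 8 * C * (S.P : ℝ) ^ 4 / n) (fun ψ hψ hψu => ?_) (tex_not_orth_le S (cpl β g) b x hn hC hS) i).trans ?_
  · have hq := tex_quad_le S (cpl β g) b (φ := ψ) x hn (β := β) hC hM0 hψ hS
      (varLe_cval S (cpl β g) b ψ hT hτ ht0 ht hr hψ hψu) hτ
    have hb := bd_qTot (β := β) S hψ g x
    have e : (fun z ω => quad S x ω (fun i k => (β / Real.sqrt n) ^ 2 * shiftDir S (cpl β g) ψ x z ω i k)) =
        fun z ω => qTot S β M (cpl β g) ψ x z ω + -((20 * β ^ 2 + 80 * β ^ 4) * M ^ 2 * n * S.P) := by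
      funext z ω; unfold qTot; ring
    rw [e, tex_add S (cpl β g) b x hn hb (Bd.const _), tex_const S (cpl β g) b x hn] at hq
    simp only [treeCq, treeRest]
    have h1 : 0 ≤ quadCoef β M * ((n : ℝ) * S.P) := by unfold quadCoef; positivity
    have h2 : 0 ≤ (20 * β ^ 2 + 80 * β ^ 4) * M ^ 2 * (S.P * ((S.D : ℝ) + S.R)) := by positivity
    linarith
  · have e : lamC β M L τ S.P * n * (8 * C * (S.P : ℝ) ^ 4 / n) =
        lamC β M L τ S.P * (8 * C * (S.P : ℝ) ^ 4) := by field_simp
    rw [e]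
    have h0 : 0 ≤ lamC β M L τ S.P * (8 * C * (S.P : ℝ) ^ 4) :=
      mul_nonneg (lamC_nonneg hM0 hL hτ0 _) (by positivity)
    have h1 := mul_le_mul_of_nonneg_left hsn h0
    simp only [treeErr]
    refine add_le_add le_rfl (mul_le_mul_of_nonneg_left ?_ hε)
    rw [add_mul]
    linarith

end Vale.Agent.P150.PA
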