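import Vale.Agent.P150.PA.ChanShape
import Vale.Agent.P150.PA.TreeIneq
import Vale.Agent.P150.PA.AvgDir
import Vale.Agent.P150.PA.Whp

/-! The channel identity from the evaluation of one period, the slow variation of the defect in the
origin time and the inequality of the branching experiment. -/

open MeasureTheory Filter
open scoped Topology

namespace Vale.Agent.P150.PA

open Ising

variable {n : ℕ}

/-- the defect of the channel identity varies slowly in the origin time -/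
def ChanSlow (β : ℝ) : Prop :=
  ∀ (ψ : ChanTest) (t τ L ε : ℝ), 0 < t → 0 < ε → ∃ C : ℝ, 0 ≤ C ∧
    ∀ (n : ℕ), 0 < n → ∀ (J : Fin n → Fin n → ℝ), Tame J L → ∀ (S : Sched), S.t = t → S.r ≤ S.R →
      (S.R : ℝ) ≤ τ * n → ∀ (u k : ℕ), (k : ℝ) ≤ τ * n → ∀ x : Cfg n,
        |chanErr S J β ψ (u + k) x - chanErr S J β ψ u x| ≤ n * (ε + C * eAt J 0 (u + S.D) x)

namespace ChanTop

lemma chanTest_bdd (ψ : ChanTest) : (chanTest n ψ).Bdd (max ψ.M 1) := by
  have hm : ψ.M ≤ max ψ.M 1 := le_max_left _ _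
  have hM : 0 ≤ ψ.M := (abs_nonneg _).trans (ψ.bdd 0 0 true).1
  refine ⟨fun _ h u c => (ψ.bdd h u c).1.trans hm, fun _ h u c => (ψ.bdd h u c).2.1.trans hm,
    fun _ h h' u c => ?_, fun _ h u u' c => ?_, fun _ c => ⟨?_, ?_⟩⟩
  · refine ((ψ.lip h h' u u c).2).trans ?_
    simp only [sub_self, abs_zero, add_zero]
    exact mul_le_mul_of_nonneg_right hm (abs_nonneg _)
  · refine ((ψ.lip h h u u' c).1).trans ?_
    simp only [sub_self, abs_zero, zero_add]
    exact mul_le_mul_of_nonneg_right hm (abs_nonneg _)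
  · refine (LipschitzWith.of_dist_le_mul (K := (2 * ψ.M).toNNReal) fun a b => ?_).continuous
    rw [Real.dist_eq, Prod.dist_eq, Real.dist_eq, Real.dist_eq, Real.coe_toNNReal _ (by positivity)]
    refine ((ψ.lip a.1 b.1 a.2 b.2 c).1).trans ?_
    have h1 := le_max_left |a.1 - b.1| |a.2 - b.2|
    have h2 := le_max_right |a.1 - b.1| |a.2 - b.2|
    calc ψ.M * (|a.1 - b.1| + |a.2 - b.2|) ≤ ψ.M * (2 * max |a.1 - b.1| |a.2 - b.2|) :=
          mul_le_mul_of_nonneg_left (by linarith) hM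
      _ = _ := by ring
  · refine (LipschitzWith.of_dist_le_mul (K := (2 * ψ.M).toNNReal) fun a b => ?_).continuous
    rw [Real.dist_eq, Prod.dist_eq, Real.dist_eq, Real.dist_eq, Real.coe_toNNReal _ (by positivity)]
    refine ((ψ.lip a.1 b.1 a.2 b.2 c).2).trans ?_
    have h1 := le_max_left |a.1 - b.1| |a.2 - b.2|
    have h2 := le_max_right |a.1 - b.1| |a.2 - b.2|
    calc ψ.M * (|a.1 - b.1| + |a.2 - b.2|) ≤ ψ.M * (2 * max |a.1 - b.1| |a.2 - b.2|) :=
          mul_le_mul_of_nonneg_left (by linarith) hM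
      _ = _ := by ring

lemma chanTest_smooth (ψ : ChanTest) : ∀ (i : Fin n) (h : ℝ) (c : Bool),
    ContDiff ℝ 1 fun u => (chanTest n ψ).fn i h u c := fun _ h c => by
  refine contDiff_one_iff_deriv.2 ⟨fun u => (ψ.hasDerivZ h u c).differentiableAt, ?_⟩
  have e : deriv (fun u => ψ.fn h u c) = fun u => ψ.zfn h u c := funext fun u => (ψ.hasDerivZ h u c).deriv
  exact e ▸ ψ.contZ h c

lemma le_att (n : ℕ) (τ : ℝ) : τ * n ≤ att n τ := by
  have h := Nat.le_ceil (τ * n / 2)
  rw [att, Nat.cast_mul]; push_cast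
  linarith

lemma att_le {n : ℕ} (hn : 2 ≤ n) {τ : ℝ} (hτ : 0 ≤ τ) : (att n τ : ℝ) ≤ (τ + 1) * n := by
  have h := Nat.ceil_lt_add_one (show 0 ≤ τ * n / 2 by positivity)
  have hn' : (2 : ℝ) ≤ n := by exact_mod_cast hn
  rw [att, Nat.cast_mul]; push_cast
  linarith

lemma Kpow_abs_le (hn : 0 < n) {J : Fin n → Fin n → ℝ} {h : Fin n → ℝ} {f : Cfg n → ℝ} {B : ℝ}
    (hf : ∀ y, |f y| ≤ B) (m : ℕ) (x : Cfg n) : |Kpow J h m f x| ≤ B := LegVar.abs_Kpow_le h hn hf m x

lemma Kpow_add {J : Fin n → Fin n → ℝ} {h : Fin n → ℝ} (a b : ℕ) (f : Cfg n → ℝ) :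
    Kpow J h (a + b) f = Kpow J h a (Kpow J h b f) := Function.iterate_add_apply _ _ _ _

/-- periods in a window around each time, and a final stretch compared with the one before it -/
lemma window_avg {T s P d : ℕ} {B γ : ℝ} {c f e : ℕ → ℝ} (hP : 0 < P) (hs : P * d ≤ s) (hT : 2 * s ≤ T)
    (hT0 : 0 < T) (hB : 0 ≤ B) (hγ : 0 ≤ γ) (hc : ∀ v, 0 ≤ c v) (hf : ∀ v, 0 ≤ f v) (he : ∀ v, 0 ≤ e v)
    (hwin : ∀ v ∈ Finset.Ico T (2 * T - s), c v ≤ B + (∑ p ∈ Finset.range P, f (v + p * d)) / P + γ * e v)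
    (htail : ∀ v ∈ Finset.Ico (2 * T - s) (2 * T), c v ≤ c (v - s) + B + γ * e (v - s)) :
    blockAvg T c ≤ 3 * (B + blockAvg T f + γ * blockAvg T e) := by
  set U := Finset.Ico T (2 * T)
  have hTR : (0 : ℝ) < T := Nat.cast_pos.2 hT0
  have hsub : ∀ a b : ℕ, T ≤ a → b ≤ 2 * T → Finset.Ico a b ⊆ U := fun a b ha hb v hv => by
    simp only [U, Finset.mem_Ico] at hv ⊢; omega
  have hle : ∀ (g : ℕ → ℝ), (∀ v, 0 ≤ g v) → ∀ a b : ℕ, T ≤ a → b ≤ 2 * T →
      ∑ v ∈ Finset.Ico a b, g v ≤ ∑ v ∈ U, g v := fun g hg a b ha hb =>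
    Finset.sum_le_sum_of_subset_of_nonneg (hsub a b ha hb) fun v _ _ => hg v
  have hcard : ∀ a b : ℕ, T ≤ a → b ≤ 2 * T → ((Finset.Ico a b).card : ℝ) * B ≤ T * B := fun a b ha hb => by
    refine mul_le_mul_of_nonneg_right (Nat.cast_le.2 ?_) hB
    rw [Nat.card_Ico]; omega
  -- the body
  have h1 : ∑ v ∈ Finset.Ico T (2 * T - s), c v ≤ T * B + ∑ v ∈ U, f v + γ * ∑ v ∈ U, e v := by
    refine (Finset.sum_le_sum hwin).trans ?_
    rw [Finset.sum_add_distrib, Finset.sum_add_distrib, Finset.sum_const, nsmul_eq_mul, ← Finset.mul_sum,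
      ← Finset.sum_div, Finset.sum_comm]
    refine add_le_add (add_le_add (hcard _ _ le_rfl (by omega)) ?_)
      (mul_le_mul_of_nonneg_left (hle e he _ _ le_rfl (by omega)) hγ)
    rw [div_le_iff₀ (Nat.cast_pos.2 hP)]
    refine (Finset.sum_le_card_nsmul _ _ (∑ v ∈ U, f v) fun p hp => ?_).trans_eq ?_
    · have hpd : p * d ≤ s := (Nat.mul_le_mul_right d (Finset.mem_range.1 hp).le).trans hs
      rw [Finset.sum_Ico_add' f T (2 * T - s) (p * d)]
      exact hle f hf _ _ (by omega) (by omega)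
    · rw [Finset.card_range, nsmul_eq_mul, mul_comm]
  -- the tail
  have h2 : ∑ v ∈ Finset.Ico (2 * T - s) (2 * T), c v ≤
      ∑ v ∈ Finset.Ico T (2 * T - s), c v + T * B + γ * ∑ v ∈ U, e v := by
    refine (Finset.sum_le_sum htail).trans ?_
    have ea : ∀ g : ℕ → ℝ, ∑ v ∈ Finset.Ico (2 * T - s) (2 * T), g (v - s) =
        ∑ v ∈ Finset.Ico (2 * T - s - s) (2 * T - s), g v := fun g => by
      have := Finset.sum_Ico_add' (fun v => g (v - s)) (2 * T - s - s) (2 * T - s) s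
      simp only [Nat.add_sub_cancel, show 2 * T - s - s + s = 2 * T - s by omega,
        show 2 * T - s + s = 2 * T by omega] at this
      exact this.symm
    rw [Finset.sum_add_distrib, Finset.sum_add_distrib, Finset.sum_const, nsmul_eq_mul, ← Finset.mul_sum,
      ea c, ea e]
    refine add_le_add (add_le_add ?_ (hcard _ _ (by omega) le_rfl))
      (mul_le_mul_of_nonneg_left (hle e he _ _ (by omega) (by omega)) hγ)
    exact Finset.sum_le_sum_of_subset_of_nonneg
      (fun v hv => by simp only [Finset.mem_Ico] at hv ⊢; omega) fun v _ _ => hc v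
  have h3 : ∑ v ∈ U, c v ≤ 3 * (T * B + ∑ v ∈ U, f v + γ * ∑ v ∈ U, e v) := by
    have := Finset.sum_Ico_consecutive c (show T ≤ 2 * T - s by omega) (show 2 * T - s ≤ 2 * T by omega)
    have hf0 : 0 ≤ ∑ v ∈ U, f v := Finset.sum_nonneg fun v _ => hf v
    have he0 : 0 ≤ γ * ∑ v ∈ U, e v := mul_nonneg hγ (Finset.sum_nonneg fun v _ => he v)
    have hTB : 0 ≤ (T : ℝ) * B := mul_nonneg hTR.le hB
    simp only [U] at *
    linarith
  simp only [blockAvg]
  rw [div_le_iff₀ hTR]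
  refine h3.trans (le_of_eq ?_)
  field_simp
  ring

/-- the average over the copies with the time innermost -/
lemma comm4 (T D J W : ℕ) (F : ℕ → ℕ → ℕ → ℕ → ℝ) :
    blockAvg T (fun v => blockAvg D fun d => blockAvg J fun j => blockAvg W fun r => F v d j r) =
      blockAvg D fun d => blockAvg J fun j => blockAvg W fun r => blockAvg T fun v => F v d j r := by
  rw [BlockAvg.comm]
  refine BlockAvg.ext fun d _ => ?_
  rw [BlockAvg.comm]
  exact BlockAvg.ext fun j _ => BlockAvg.comm _ _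

/-- one time: the defect against the periods of the experiment -/
lemma defect_le {J : Fin n → Fin n → ℝ} {β τ L C εs E : ℝ} {ψ : ChanTest} {t : ℝ} {W d j r P u : ℕ} (x : Cfg n)
    (hn : 0 < n) (hJ : Tame J L) (hP : 0 < P) (ht0 : 0 ≤ t) (ht : t ≤ τ) (hr : r ≤ 2 * j * W)
    (hu : ((u + P * d : ℕ) : ℝ) ≤ τ * n) (hlen : (d : ℝ) + (2 * j * W : ℕ) ≤ τ * n)
    (hslow : ∀ k : ℕ, k ≤ P * d → |chanErr (chanSched 1 t W d j r) J β ψ (u + k) x -
      chanErr (chanSched 1 t W d j r) J β ψ u x| ≤ n * (εs + C * eAt J 0 (u + d) x))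
    (htree : ∀ y, |∑ p : Fin P, Kpow J 0 (p * d)
      (periodValue (chanSched P t W d j r) J (chanTest n ψ) 0 β) y| ≤ E) :
    |chanErr (chanSched 1 t W d j r) J β ψ u x| ≤
      E / (2 * P) + meansC β (max ψ.M 1) L τ * Real.sqrt n / 2 + n * εs
        + (∑ p ∈ Finset.range P, evalErr (chanSched 1 t W d j r) J β ψ (u + p * d) x) / P
        + n * C * eAt J 0 (u + d) x := by
  set S := chanSched 1 t W d j r with hS
  set V := periodValue S J (chanTest n ψ) 0 β with hV
  have hPV : periodValue (chanSched P t W d j r) J (chanTest n ψ) 0 β = V := rfl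
  have hPR : (0 : ℝ) < P := Nat.cast_pos.2 hP
  have hsum : |∑ p ∈ Finset.range P, Kpow J 0 (u + p * d) V x| ≤ E := by
    have e : ∑ p ∈ Finset.range P, Kpow J 0 (u + p * d) V x =
        Kpow J 0 u (fun y => ∑ p : Fin P, Kpow J 0 (p * d) V y) x := by
      rw [Block.Kpow_sum, ← Fin.sum_univ_eq_sum_range fun p => Kpow J 0 (u + p * d) V x]
      exact Finset.sum_congr rfl fun p _ => by rw [Kpow_add]
    rw [e]
    exact Kpow_abs_le hn (fun y => by rw [← hPV]; exact htree y) u x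
  have hper : ∀ p ∈ Finset.range P, |chanErr S J β ψ u x + Kpow J 0 (u + p * d) V x / 2| ≤
      meansC β (max ψ.M 1) L τ * Real.sqrt n / 2 + n * εs + n * C * eAt J 0 (u + d) x
        + evalErr S J β ψ (u + p * d) x := by
    intro p hp
    have hpd : p * d ≤ P * d := Nat.mul_le_mul_right d (Finset.mem_range.1 hp).le
    have hm := period_means (β := β) (S := S) (φ := chanTest n ψ) (b := 0) hJ (chanTest_bdd ψ)
      (chanTest_smooth ψ) hr ht0 ht (u := u + p * d)
      (le_trans (Nat.cast_le.2 (Nat.add_le_add_left hpd u)) hu) hlen x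
    have hs := hslow (p * d) hpd
    simp only [evalErr, ← hV] at hm ⊢
    rw [abs_le] at hm hs ⊢
    obtain ⟨e1, e2⟩ := abs_le.1 (le_refl |periodMeans S J (chanTest n ψ) 0 β (u + p * d) x / 2 +
      chanErr S J β ψ (u + p * d) x|)
    rw [mul_add] at hs
    constructor <;> linarith [hm.1, hm.2, hs.1, hs.2, mul_assoc (n : ℝ) C (eAt J 0 (u + d) x)]
  have h := (Finset.abs_sum_le_sum_abs _ _).trans (Finset.sum_le_sum hper)
  rw [Finset.sum_add_distrib, ← Finset.sum_div, Finset.sum_const, Finset.card_range, nsmul_eq_mul,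
    Finset.sum_add_distrib, Finset.sum_const, Finset.card_range, nsmul_eq_mul] at h
  have h' : (P : ℝ) * |chanErr S J β ψ u x| ≤ E / 2 + (P * (meansC β (max ψ.M 1) L τ * Real.sqrt n / 2
      + n * εs + n * C * eAt J 0 (u + d) x) + ∑ p ∈ Finset.range P, evalErr S J β ψ (u + p * d) x) := by
    refine le_trans ?_ (add_le_add (div_le_div_of_nonneg_right hsum zero_le_two) h)
    have h1 := abs_sub ((P : ℝ) * chanErr S J β ψ u x + (∑ p ∈ Finset.range P, Kpow J 0 (u + p * d) V x) / 2)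
      ((∑ p ∈ Finset.range P, Kpow J 0 (u + p * d) V x) / 2)
    rw [add_sub_cancel_right, abs_mul, Nat.abs_cast, abs_div, abs_two] at h1
    linarith
  rw [← le_div_iff₀' hPR] at h'
  refine h'.trans (le_of_eq ?_)
  field_simp
  ring

/-- one schedule: the average over the times of the defect -/
lemma sched_le {J : Fin n → Fin n → ℝ} {β τ C δ : ℝ} {ψ : ChanTest} {t : ℝ} {W d j r P T : ℕ} (x : Cfg n)
    (hn : 0 < n) (hJ : Tame J 3) (hP : 0 < P) (hC : 0 ≤ C) (hδ : 0 ≤ δ) (ht0 : 0 ≤ t) (ht : t ≤ τ)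
    (hr : r ≤ 2 * j * W) (hT : ((2 * T : ℕ) : ℝ) ≤ τ * n) (h2s : 2 * (P * d) ≤ T) (hT0 : 0 < T)
    (hlen : (d : ℝ) + (2 * j * W : ℕ) ≤ τ * n)
    (hmean : meansC β (max ψ.M 1) 3 τ * Real.sqrt n ≤ n * δ)
    (hslow : ∀ u k : ℕ, k ≤ P * d → |chanErr (chanSched 1 t W d j r) J β ψ (u + k) x -
      chanErr (chanSched 1 t W d j r) J β ψ u x| ≤ n * (δ + C * eAt J 0 (u + d) x))
    (htree : ∀ y, |∑ p : Fin P, Kpow J 0 (p * d)
      (periodValue (chanSched P t W d j r) J (chanTest n ψ) 0 β) y| ≤ 2 * P * (n * δ)) :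
    blockAvg T (fun v => |chanErr (chanSched 1 t W d j r) J β ψ (v - d) x|) ≤
      3 * (3 * (n * δ) + blockAvg T (fun v => evalErr (chanSched 1 t W d j r) J β ψ (v - d) x)
        + n * C * blockAvg T (fun v => eAt J 0 v x)) := by
  have hnR : (0 : ℝ) < n := Nat.cast_pos.2 hn
  have hnδ : 0 ≤ (n : ℝ) * δ := mul_nonneg hnR.le hδ
  have hPR : (0 : ℝ) < P := Nat.cast_pos.2 hP
  have hdP : d ≤ P * d := Nat.le_mul_of_pos_left d hP
  refine window_avg (s := P * d) hP le_rfl h2s hT0 (by linarith) (mul_nonneg hnR.le hC) (fun v => abs_nonneg _)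
    (fun v => abs_nonneg _) (fun v => AvgDir.eAt_nonneg _ _) (fun v hv => ?_) (fun v hv => ?_)
  · rw [Finset.mem_Ico] at hv
    have hdv : d ≤ v := by omega
    have h := defect_le (u := v - d) (τ := τ) (L := 3) (C := C) (εs := δ) x hn hJ hP ht0 ht hr
      (le_trans (Nat.cast_le.2 (by omega)) hT) hlen (fun k hk => hslow (v - d) k hk) htree
    have hes : v - d + d = v := Nat.sub_add_cancel hdv
    simp only [hes] at h
    have hsum : (∑ p ∈ Finset.range P, evalErr (chanSched 1 t W d j r) J β ψ (v - d + p * d) x) =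
        ∑ p ∈ Finset.range P, evalErr (chanSched 1 t W d j r) J β ψ (v + p * d - d) x :=
      Finset.sum_congr rfl fun p _ => by rw [Nat.sub_add_comm hdv]
    rw [hsum, show 2 * (P : ℝ) * (n * δ) / (2 * P) = n * δ by field_simp] at h
    refine h.trans ?_
    linarith
  · rw [Finset.mem_Ico] at hv
    have h := hslow (v - P * d - d) (P * d) le_rfl
    rw [show v - P * d - d + P * d = v - d by omega, show v - P * d - d + d = v - P * d by omega] at h
    have := (abs_sub_abs_le_abs_sub _ _).trans h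
    linarith [mul_assoc (n : ℝ) C (eAt J 0 (v - P * d) x)]

/-- the inequality of the experiment for one schedule -/
lemma tree_le {g : Edge n → ℝ} {β τ εa a : ℝ} {ψ : ChanTest} {t : ℝ} {W d j r P : ℕ} (hn : 0 < n)
    (hε : 0 < εa) (hJ : Tame (cpl β g) 3) (hlen : (d : ℝ) + (2 * j * W : ℕ) ≤ τ * n) (ht0 : 0 ≤ t) (ht : t ≤ τ)
    (hr : r ≤ 2 * j * W)
    (hlog : famLog (chanSched P t W d j r) β (max ψ.M 1) εa (fun _ : Unit => chanTest n ψ) g 0 ≤ a) (y : Cfg n) :
    |∑ p : Fin P, Kpow (cpl β g) 0 (p * d)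
      (periodValue (chanSched P t W d j r) (cpl β g) (chanTest n ψ) 0 β) y| ≤
      (a + 1) / εa + εa * (treeCq β (max ψ.M 1) * (P * n * (1 + τ)) + treeRest β (max ψ.M 1) 3 τ P)
        + treeErr β (max ψ.M 1) 3 τ P * Real.sqrt n := by
  have h := tree_ineq (chanSched P t W d j r) (fun _ : Unit => chanTest_bdd ψ)
    (fun _ : Unit => chanTest_smooth ψ) (le_max_right _ _) hn hε.le hJ (by norm_num) hlen ht0 ht hr 0 y ()
  have hP : (0 : ℝ) ≤ P := Nat.cast_nonneg P
  have h2 : εa * |treeVal (chanSched P t W d j r) β g (chanTest n ψ) 0 y| ≤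
      a + 1 + εa ^ 2 * (treeCq β (max ψ.M 1) * (P * n * (1 + τ)) + treeRest β (max ψ.M 1) 3 τ P)
        + εa * (treeErr β (max ψ.M 1) 3 τ P * Real.sqrt n) := by
    refine h.trans (add_le_add (add_le_add (add_le_add hlog le_rfl) (mul_le_mul_of_nonneg_left
      (add_le_add (mul_le_mul_of_nonneg_left ?_ (treeCq_nonneg _ _)) le_rfl) (sq_nonneg _))) le_rfl)
    refine (add_le_add le_rfl (mul_le_mul_of_nonneg_left hlen hP)).trans (le_of_eq ?_)
    show (n : ℝ) * P + P * (τ * n) = _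
    ring
  rw [← le_div_iff₀' hε] at h2
  refine h2.trans (le_of_eq ?_)
  field_simp

end ChanTop

open ChanTop in
/-- the channel identity from the evaluation of one period and slow variation -/
theorem channelIdentity_of {β : ℝ} (h0 : 0 ≤ β) (h1 : β < 1) (hE : ChannelEval β) (hS : ChanSlow β) :
    ChannelIdentity β := by
  intro ψ t ε ht hε
  obtain ⟨Kc, hKc⟩ := hE ψ t (ε / 8) ht (by linarith)
  refine ⟨3 * Kc, fun W hW => ?_⟩
  obtain ⟨Jn, hJn, D₀, hD₀⟩ := hKc W hW
  refine ⟨Jn, hJn, max D₀ 1, fun D hD => ?_⟩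
  have hD1 : (1 : ℝ) ≤ D := (le_max_right _ _).trans hD
  obtain ⟨T₀, hT₀⟩ := hD₀ D ((le_max_left _ _).trans hD)
  set M := max ψ.M 1 with hMdef
  have hM : 1 ≤ M := le_max_right _ _
  have hM0 : 0 ≤ M := zero_le_one.trans hM
  set τ := t + 2 * (D + 1) + 4 * Jn * (W + 1) with hτdef
  have hJW : 0 ≤ 4 * (Jn : ℝ) * (W + 1) := by positivity
  have hτ0 : 0 ≤ τ := by rw [hτdef]; linarith
  -- the strength of the test field and the number of periods
  set c := 1 / (18 * (β ^ 2 * M + 1)) with hcdef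
  have hc : 0 < c := by positivity
  set K0 := 3 / c + c * (treeCq β M * (1 + τ)) with hK0
  have hK0' : 0 < K0 := by have := treeCq_nonneg β M; positivity
  obtain ⟨P, hP, hPge⟩ : ∃ P : ℕ, 0 < P ∧ (32 * K0 / ε) ^ 2 ≤ P :=
    ⟨⌈(32 * K0 / ε) ^ 2⌉₊ + 1, Nat.succ_pos _, by push_cast; linarith [Nat.le_ceil ((32 * K0 / ε) ^ 2)]⟩
  have hPR : (0 : ℝ) < P := Nat.cast_pos.2 hP
  set εa := c / Real.sqrt P with hεa
  have hsP : 0 < Real.sqrt P := Real.sqrt_pos.2 hPR
  have hεa0 : 0 < εa := div_pos hc hsP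
  have hεcond : |εa| * β ^ 2 * |M| * 9 * Real.sqrt P ≤ 1 / 2 := by
    rw [abs_of_pos hεa0, abs_of_nonneg hM0, hεa,
      show c / Real.sqrt P * β ^ 2 * M * 9 * Real.sqrt P = c * β ^ 2 * M * 9 by field_simp, hcdef,
      div_mul_eq_mul_div, div_mul_eq_mul_div, div_mul_eq_mul_div, div_le_iff₀ (by positivity)]
    linarith
  have hKP : K0 / Real.sqrt P ≤ ε / 32 := by
    have : 32 * K0 / ε ≤ Real.sqrt P := Real.le_sqrt_of_sq_le hPge
    rw [div_le_iff₀ hsP]
    rw [div_le_iff₀ hε] at this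
    linarith
  set τ₁ := τ + P * (2 * (D + 1)) with hτ₁
  obtain ⟨C, hC, hslow⟩ := hS ψ t τ₁ 3 (ε / 32) ht (by linarith)
  refine ⟨max T₀ (max (4 * P * (D + 1)) (4 * (32 * C / ε) ^ 2 + 1)), fun T hT => ?_⟩
  have hT1 : 4 * P * (D + 1) ≤ T := ((le_max_left _ _).trans (le_max_right _ _)).trans hT
  have hT2 : 4 * (32 * C / ε) ^ 2 + 1 ≤ T := ((le_max_right _ _).trans (le_max_right _ _)).trans hT
  have hTpos : 0 < T := lt_of_lt_of_le (by positivity) hT2
  have hCT : C * Real.sqrt (4 / T) ≤ ε / 32 := by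
    rw [← Real.sqrt_sq hC, ← Real.sqrt_mul (sq_nonneg C), ← Real.sqrt_sq (show 0 ≤ ε / 32 by linarith)]
    refine Real.sqrt_le_sqrt ?_
    have h4 : 4 * (32 * C / ε) ^ 2 * ε ^ 2 ≤ T * ε ^ 2 := mul_le_mul_of_nonneg_right (by linarith) (sq_nonneg ε)
    rw [show 4 * (32 * C / ε) ^ 2 * ε ^ 2 = 4096 * C ^ 2 by field_simp; ring] at h4
    rw [mul_div_assoc', div_le_iff₀ hTpos]
    linarith
  set τT := τ₁ + 2 * (T + 1) with hτT
  -- the exceptional sets
  set bad := fun n : ℕ => (disorder n).real {g | ∃ x : Cfg n, (ε / 8 + Kc * Real.sqrt (max 0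
    (blockAvg (att n T) fun v => tiltLag (cpl β g) t v (att n (W / 2)) x
      - tiltLag (cpl β g) t v (8 * Jn * att n W) x))) * n <
      schedAvg t (att n T) (att n D) (att n W) Jn fun S u => evalErr S (cpl β g) β ψ u x}
    + (disorder n).real {g | ¬ Tame (cpl β g) 3}
    + (Jn * (D + 1) * (W + 1)) * 3 * ((n : ℝ) ^ 2 * Real.exp (-((2 - Real.log 2) * n)))
  have hl2 : 0 < 2 - Real.log 2 := by
    have := Real.log_lt_sub_one_of_pos two_pos (by norm_num)
    linarith
  have hbad : Tendsto bad atTop (𝓝 0) := by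
    simpa [bad] using ((hT₀ T ((le_max_left _ _).trans hT)).add (tame_whp h0 h1)).add
      ((tendsto_pow_exp_nat 2 hl2).const_mul ((Jn * (D + 1) * (W + 1)) * 3 : ℝ))
  set E1 := meansC β M 3 τT with hE1
  set E2 := εa * treeRest β M 3 τ P / P + 1 / (εa * P)
  set E3 := treeErr β M 3 τ P / P
  have hsmall : ∀ᶠ n : ℕ in atTop, 2 ≤ n ∧ E1 / Real.sqrt n ≤ ε / 32 ∧
      E2 / n + E3 / Real.sqrt n ≤ ε / 32 := by
    have hs : Tendsto (fun n : ℕ => Real.sqrt n) atTop atTop :=
      Real.tendsto_sqrt_atTop.comp tendsto_natCast_atTop_atTop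
    have ha : Tendsto (fun n : ℕ => E1 / Real.sqrt n) atTop (𝓝 0) := tendsto_const_nhds.div_atTop hs
    have hb : Tendsto (fun n : ℕ => E2 / n + E3 / Real.sqrt n) atTop (𝓝 0) := by
      simpa using ((tendsto_const_nhds (x := E2)).div_atTop tendsto_natCast_atTop_atTop).add
        ((tendsto_const_nhds (x := E3)).div_atTop hs)
    filter_upwards [eventually_ge_atTop 2, ha.eventually (ge_mem_nhds (show (0:ℝ) < ε / 32 by linarith)),
      hb.eventually (ge_mem_nhds (show (0:ℝ) < ε / 32 by linarith))] with n a b c using ⟨a, b, c⟩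
  refine squeeze_zero' (Eventually.of_forall fun n => measureReal_nonneg) ?_ hbad
  filter_upwards [hsmall] with n hn
  obtain ⟨hn2, hnE1, hnE23⟩ := hn
  have hn0 : 0 < n := by omega
  have hnR : (0 : ℝ) < n := Nat.cast_pos.2 hn0
  -- the schedules
  set I := Finset.Ico (att n D) (2 * att n D) ×ˢ Finset.Ico Jn (2 * Jn) ×ˢ
    Finset.Ico (att n W) (2 * att n W) with hI
  have hu' : ∀ i : ℕ × ℕ × ℕ, ∃ Good : Set (Edge n → ℝ), MeasurableSet Good ∧
      (disorder n).real Goodᶜ ≤ Fintype.card Unit * (1 + 2 * 2 ^ n * Fintype.card Unit) *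
          Real.exp (-(2 * n : ℝ)) ∧
      ∀ g ∈ Good, ∀ o : Unit, Integrable (famLog (chanSched P t (att n W) i.1 i.2.1 i.2.2) β M εa
          (fun _ : Unit => chanTest n ψ) g) (Measure.dirac (0 : Fin n → ℝ)) ∧
        ∫ b, famLog (chanSched P t (att n W) i.1 i.2.1 i.2.2) β M εa (fun _ : Unit => chanTest n ψ) g b
          ∂(Measure.dirac (0 : Fin n → ℝ)) ≤ 2 * n := fun i =>
    tree_union (chanSched P t (att n W) i.1 i.2.1 i.2.2) β M εa (fun _ : Unit => chanTest n ψ)
      (fun _ : Unit => chanTest_bdd ψ) hn0 hεcond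
      (fun _ : Unit => Measure.dirac (0 : Fin n → ℝ)) (2 * n)
  choose Good _ hGbad hGood using hu'
  have hattD : (att n D : ℝ) ≤ (D + 1) * n := att_le hn2 (by linarith)
  have hattW : (att n W : ℝ) ≤ (W + 1) * n := att_le hn2 (by linarith)
  have hunion : (disorder n).real (⋃ i ∈ I, (Good i)ᶜ) ≤
      (Jn * (D + 1) * (W + 1)) * 3 * ((n : ℝ) ^ 2 * Real.exp (-((2 - Real.log 2) * n))) := by
    refine (measureReal_biUnion_finset_le _ _).trans
      ((Finset.sum_le_card_nsmul _ _ _ fun i _ => hGbad i).trans ?_)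
    rw [nsmul_eq_mul, hI, Finset.card_product, Finset.card_product, Nat.card_Ico, Nat.card_Ico, Nat.card_Ico,
      show 2 * att n D - att n D = att n D by omega, show 2 * Jn - Jn = Jn by omega,
      show 2 * att n W - att n W = att n W by omega, Fintype.card_unit]
    push_cast
    have hexp : (1 + 2 * 2 ^ n) * Real.exp (-(2 * n : ℝ)) ≤ 3 * Real.exp (-((2 - Real.log 2) * n)) := by
      have e2 : (2 : ℝ) ^ n = Real.exp (Real.log 2 * n) := by
        rw [← Real.rpow_natCast, Real.rpow_def_of_pos two_pos]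
      have h1 : (1 : ℝ) ≤ 2 ^ n := one_le_pow₀ one_le_two
      refine (mul_le_mul_of_nonneg_right (show 1 + 2 * (2 : ℝ) ^ n ≤ 3 * 2 ^ n by linarith)
        (Real.exp_pos _).le).trans (le_of_eq ?_)
      rw [e2, mul_assoc, ← Real.exp_add]
      congr 2; ring
    have hcnt : (att n D : ℝ) * (Jn * att n W) ≤ Jn * (D + 1) * (W + 1) * (n : ℝ) ^ 2 := by
      refine (mul_le_mul hattD (mul_le_mul_of_nonneg_left hattW (Nat.cast_nonneg _)) (by positivity)
        (by positivity)).trans (le_of_eq ?_)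
      ring
    refine le_trans ?_ (le_of_eq (show Jn * (D + 1) * (W + 1) * (n : ℝ) ^ 2 *
      (3 * Real.exp (-((2 - Real.log 2) * n))) = _ by ring))
    exact mul_le_mul hcnt (by simpa using hexp) (by positivity) (by positivity)
  refine le_trans (le_trans (measureReal_mono ?_) (measureReal_union_le _ _))
    (add_le_add (le_trans (measureReal_union_le _ _) (le_refl _)) hunion)
  intro g hg
  by_contra hgn
  simp only [Set.mem_union, Set.mem_iUnion, Set.mem_ofPred_eq, Set.mem_compl_iff, not_or, not_exists,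
    not_lt, not_not] at hgn
  obtain ⟨⟨hev, hJ⟩, hgood⟩ := hgn
  obtain ⟨x, hx⟩ := hg
  refine not_le.2 hx ?_
  set J := cpl β g
  set T' := att n T with hT'
  have hT'R : T * n ≤ (T' : ℝ) := le_att n T
  have hT'U : (T' : ℝ) ≤ (T + 1) * n := att_le hn2 hTpos.le
  have hTn : 0 < T * n := mul_pos hTpos hnR
  have hT'0 : 0 < T' := by exact_mod_cast hTn.trans_le hT'R
  set B := 3 * ((n : ℝ) * (ε / 32)) with hB
  have hEn : meansC β M 3 τT * Real.sqrt n ≤ n * (ε / 32) := by
    rw [div_le_iff₀ (Real.sqrt_pos.2 hnR)] at hnE1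
    refine (mul_le_mul_of_nonneg_right hnE1 (Real.sqrt_nonneg _)).trans_eq ?_
    rw [mul_assoc, Real.mul_self_sqrt hnR.le]; ring
  have hττ₁ : τ ≤ τ₁ := le_add_of_nonneg_right (by positivity)
  have hτ₁T : τ₁ ≤ τT := le_add_of_nonneg_right (by positivity)
  have htτ : t ≤ τ := by linarith
  have hper : ∀ d ∈ Finset.Ico (att n D) (2 * att n D), ∀ j ∈ Finset.Ico Jn (2 * Jn),
      ∀ r ∈ Finset.Ico (att n W) (2 * att n W),
      blockAvg T' (fun v => |chanErr (chanSched 1 t (att n W) d j r) J β ψ (v - d) x|) ≤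
        3 * (B + blockAvg T' (fun v => evalErr (chanSched 1 t (att n W) d j r) J β ψ (v - d) x)
          + n * C * blockAvg T' (fun v => eAt J 0 v x)) := by
    intro d hd j hj r hr
    have hgd := hgood (d, j, r) (Finset.mem_product.2 ⟨hd, Finset.mem_product.2 ⟨hj, hr⟩⟩)
    rw [Finset.mem_Ico] at hd hj hr
    have hdR : (d : ℝ) ≤ 2 * (D + 1) * n := by
      have : (d : ℝ) ≤ 2 * att n D := by exact_mod_cast hd.2.le
      linarith
    have hRR : ((2 * j * att n W : ℕ) : ℝ) ≤ 4 * Jn * (W + 1) * n := by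
      have hj' : (j : ℝ) ≤ 2 * Jn := by exact_mod_cast hj.2.le
      push_cast
      refine (mul_le_mul (mul_le_mul_of_nonneg_left hj' zero_le_two) hattW (Nat.cast_nonneg _)
        (by positivity)).trans (le_of_eq ?_)
      ring
    have hrR : r ≤ 2 * j * att n W := hr.2.le.trans (Nat.mul_le_mul_right _ (by omega))
    have hlen : (d : ℝ) + (2 * j * att n W : ℕ) ≤ τ * n := by
      have := mul_nonneg ht.le hnR.le
      rw [hτdef, add_mul, add_mul]
      linarith
    have hPd : ((P * d : ℕ) : ℝ) ≤ P * (2 * (D + 1)) * n := by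
      push_cast
      exact (mul_le_mul_of_nonneg_left hdR hPR.le).trans_eq (by ring)
    have hk1 : ((P * d : ℕ) : ℝ) ≤ τ₁ * n :=
      hPd.trans (mul_le_mul_of_nonneg_right (le_add_of_nonneg_left hτ0) hnR.le)
    have h2s : 2 * (P * d) ≤ T' := by
      have h' : ((2 * (P * d) : ℕ) : ℝ) ≤ T' := by
        have := mul_le_mul_of_nonneg_right hT1 hnR.le
        push_cast at hPd ⊢
        linarith
      exact_mod_cast h'
    have hslow' : ∀ u k : ℕ, k ≤ P * d → |chanErr (chanSched 1 t (att n W) d j r) J β ψ (u + k) x -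
        chanErr (chanSched 1 t (att n W) d j r) J β ψ u x| ≤ n * (ε / 32 + C * eAt J 0 (u + d) x) := by
      intro u k hk
      exact hslow n hn0 J hJ (chanSched 1 t (att n W) d j r) rfl hrR
        ((le_add_of_nonneg_left (Nat.cast_nonneg d)).trans hlen |>.trans
          (mul_le_mul_of_nonneg_right hττ₁ hnR.le))
        u k ((Nat.cast_le.2 hk).trans hk1) x
    have hlog : famLog (chanSched P t (att n W) d j r) β M εa (fun _ : Unit => chanTest n ψ) g 0 ≤ 2 * n := by
      have := (hGood (d, j, r) g hgd ()).2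
      rwa [integral_dirac] at this
    refine sched_le x hn0 hJ hP hC (by linarith) ht.le (htτ.trans (hττ₁.trans hτ₁T)) hrR ?_ h2s hT'0
      (hlen.trans (mul_le_mul_of_nonneg_right (hττ₁.trans hτ₁T) hnR.le)) hEn hslow' fun y => ?_
    · push_cast
      rw [hτT, add_mul]
      linarith [mul_nonneg (hτ0.trans hττ₁) hnR.le]
    · refine (tree_le hn0 hεa0 hJ hlen ht.le htτ hrR hlog y).trans ?_
      have hsn : 0 < Real.sqrt n := Real.sqrt_pos.2 hnR
      have e : (2 * (n : ℝ) + 1) / εa + εa * (treeCq β M * (P * n * (1 + τ)) + treeRest β M 3 τ P)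
          + treeErr β M 3 τ P * Real.sqrt n =
          P * n * ((2 / c + c * (treeCq β M * (1 + τ))) / Real.sqrt P + (E2 / n + E3 / Real.sqrt n)) := by
        obtain ⟨sP, hsP0, hsP2, hsPe⟩ : ∃ s : ℝ, 0 < s ∧ (P : ℝ) = s ^ 2 ∧ Real.sqrt P = s :=
          ⟨_, hsP, (Real.sq_sqrt hPR.le).symm, rfl⟩
        obtain ⟨sn, hsn0, hsn2, hsne⟩ : ∃ s : ℝ, 0 < s ∧ (n : ℝ) = s ^ 2 ∧ Real.sqrt n = s :=
          ⟨_, hsn, (Real.sq_sqrt hnR.le).symm, rfl⟩
        simp only [E2, E3, hεa]
        rw [hsPe, hsne, hsP2, hsn2]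
        field_simp
        ring
      rw [← hMdef, e]
      have hK : (2 / c + c * (treeCq β M * (1 + τ))) / Real.sqrt P ≤ K0 / Real.sqrt P :=
        div_le_div_of_nonneg_right (by
          have := div_le_div_of_nonneg_right (show (2:ℝ) ≤ 3 by norm_num) hc.le
          rw [hK0]; linarith) hsP.le
      refine (mul_le_mul_of_nonneg_left (show _ ≤ ε / 16 by linarith) (by positivity)).trans (le_of_eq ?_)
      ring
  have hAD : 0 < att n D := by exact_mod_cast (mul_pos (lt_of_lt_of_le one_pos hD1) hnR).trans_le (le_att n D)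
  have hAW : 0 < att n W := by exact_mod_cast (mul_pos (lt_of_lt_of_le one_pos hW) hnR).trans_le (le_att n W)
  have havg : chanAvgErr J β t ψ T' (att n D) (att n W) Jn x ≤
      3 * (B + schedAvg t T' (att n D) (att n W) Jn (fun S u => evalErr S J β ψ u x)
        + n * C * blockAvg T' (fun v => eAt J 0 v x)) := by
    have e := comm4 T' (att n D) Jn (att n W)
      fun v d j r => evalErr (chanSched 1 t (att n W) d j r) J β ψ (v - d) x
    have e' := comm4 T' (att n D) Jn (att n W)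
      fun v d j r => |chanErr (chanSched 1 t (att n W) d j r) J β ψ (v - d) x|
    show blockAvg T' (fun v => blockAvg (att n D) fun d => blockAvg Jn fun j => blockAvg (att n W) fun r =>
        |chanErr (chanSched 1 t (att n W) d j r) J β ψ (v - d) x|) ≤
      3 * (B + blockAvg T' (fun v => blockAvg (att n D) fun d => blockAvg Jn fun j => blockAvg (att n W) fun r =>
        evalErr (chanSched 1 t (att n W) d j r) J β ψ (v - d) x) + n * C * blockAvg T' (fun v => eAt J 0 v x))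
    rw [e, e']
    refine (BlockAvg.mono fun d hd => BlockAvg.mono fun j hj => BlockAvg.mono fun r hr =>
      hper d hd j hj r hr).trans (le_of_eq ?_)
    simp only [BlockAvg.smul, BlockAvg.add, BlockAvg.const hAD, BlockAvg.const (show 0 < Jn by omega),
      BlockAvg.const hAW]
  have he : n * C * blockAvg T' (fun v => eAt J 0 v x) ≤ n * (ε / 32) := by
    have h := AvgDir.avg_eAt (b := (0 : Fin n → ℝ)) hJ.symm hJ.diag hJ.op hn0 x T'
    rw [mul_assoc]
    refine mul_le_mul_of_nonneg_left ((mul_le_mul_of_nonneg_left (h.trans (Real.sqrt_le_sqrt ?_)) hC).trans hCT)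
      hnR.le
    simp only [Pi.zero_apply, abs_zero, Finset.sum_const_zero, mul_zero, zero_div, add_zero]
    rw [div_le_div_iff₀ (Nat.cast_pos.2 hT'0) hTpos]
    have hlog2 := Real.log_lt_sub_one_of_pos two_pos (by norm_num)
    refine le_trans ?_ (mul_le_mul_of_nonneg_left hT'R (by norm_num : (0:ℝ) ≤ 4))
    calc (Real.log 2 + 3) * n * T ≤ 4 * n * T :=
          mul_le_mul_of_nonneg_right (mul_le_mul_of_nonneg_right (by linarith) hnR.le) hTpos.le
      _ = _ := by ring
  refine havg.trans ?_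
  rw [hB]
  linarith [hev x, mul_nonneg hnR.le hε.le]

end Vale.Agent.P150.PA
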