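import Vale.Agent.P150.PA.ChannelEval
import Vale.Agent.P150.PA.ChannelTop
import Vale.Agent.P150.PA.ChanStat

/-! The channel identity. -/

namespace Vale.Agent.P150.PA

/-- the channel identity holds given that the mean magnetisation dies out and the defect varies slowly -/
theorem channelIdentity_of_slow {β : ℝ} (h0 : 0 ≤ β) (h1 : β < 1) (hQ : QSmall β) (hS : ChanSlow β) :
    ChannelIdentity β :=
  channelIdentity_of h0 h1 (channelEval h0 h1 hQ) hS

/-- the defect of the channel identity varies slowly in the origin time -/
theorem chanSlow (β : ℝ) : ChanSlow β :=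
  fun ψ t τ L _ ht hε => chanErr_shift β ψ t τ L _ ht hε

/-- the channel identity holds once the mean magnetisation dies out -/
theorem channelIdentity {β : ℝ} (h0 : 0 ≤ β) (h1 : β < 1) (hQ : QSmall β) : ChannelIdentity β :=
  channelIdentity_of_slow h0 h1 hQ (chanSlow β)

end Vale.Agent.P150.PA
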