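import Vale.Agent.P150.PA.MmseLawSite
import Vale.Agent.P150.PA.Whp

/-! The bound on the posterior overlap: among finitely many scales one is flat on average over times, and
there the block and channel identities make the tilted overlap an approximate fixed point. -/

open MeasureTheory Filter
open scoped Topology

namespace Vale.Agent.P150.PA

open Ising

namespace Mmse

variable {n : ℕ}

/-- the scales: the next one is a multiple of the horizon of the present one -/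
noncomputable def scales (Gs : ℝ) (Wf Jm : ℝ → ℝ) : ℕ → ℝ
  | 0 => Gs
  | k + 1 => 64 * Jm (Wf (scales Gs Wf Jm k)) * Wf (scales Gs Wf Jm k)

/-- among consecutive levels one has a small drop on average -/
lemma exists_level {J : Fin n → Fin n → ℝ} (hJ : Tame J 3) (hn : 0 < n) {t : ℝ} (ht : 0 ≤ t) {x : Cfg n}
    {Tn K H : ℕ} (hTn : 0 < Tn) (hK : 0 < K) (lo hi : ℕ → ℕ) (h1 : ∀ k < K, hi k ≤ lo (k + 1))
    (h2 : ∀ k ≤ K, lo k ≤ H) :
    ∃ k < K, blockAvg Tn (fun v => tiltLag J t v (lo k) x - tiltLag J t v (hi k) x) ≤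
      1 / K + H * blockAvg Tn (fun v => vErr J 3 v x (4 * H)) := by
  have hp : ∀ v, ∑ k ∈ Finset.range K, (tiltLag J t v (lo k) x - tiltLag J t v (hi k) x) ≤
      1 + K * (H * vErr J 3 v x (4 * H)) := by
    intro v
    have h : ∀ m ≤ K, ∑ k ∈ Finset.range m, (tiltLag J t v (lo k) x - tiltLag J t v (hi k) x) ≤
        1 - tiltLag J t v (lo m) x + m * (H * vErr J 3 v x (4 * H)) := by
      intro m
      induction m with
      | zero => intro _; simp; linarith [(tiltLag_mem (J := J) (t := t) (v := v) (x := x) hJ hn (lo 0)).2]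
      | succ m ih =>
        intro hm
        have h := ih (by omega)
        have h' := h1 m (by omega)
        have h'' := h2 (m + 1) hm
        have h3 := (slack_aux (v := v) (x := x) hJ hn ht le_rfl h'' h').2.1
        rw [Finset.sum_range_succ]
        push_cast
        linarith
    linarith [h K le_rfl, (tiltLag_mem (J := J) (t := t) (v := v) (x := x) hJ hn (lo K)).1]
  have hs : ∑ k ∈ Finset.range K, blockAvg Tn (fun v => tiltLag J t v (lo k) x - tiltLag J t v (hi k) x) ≤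
      ∑ _k ∈ Finset.range K, (1 / (K : ℝ) + H * blockAvg Tn (fun v => vErr J 3 v x (4 * H))) := by
    rw [← BlockAvg.sum]
    refine (BlockAvg.mono fun v _ => hp v).trans (le_of_eq ?_)
    simp only [BlockAvg.add, BlockAvg.const hTn, BlockAvg.smul, Finset.sum_const, Finset.card_range, nsmul_eq_mul]
    field_simp
  obtain ⟨k, hk, h⟩ := Finset.exists_le_of_sum_le (Finset.nonempty_range_iff.2 hK.ne') hs
  exact ⟨k, Finset.mem_range.1 hk, h⟩

/-- the defect of stationarity at the longest lag is small for long times -/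
lemma lag_err {J : Fin n → Fin n → ℝ} (hJ : Tame J 3) (hn : 0 < n) (x : Cfg n) {Tn H : ℕ} {T g : ℝ} (hT : 0 < T)
    (hg : 0 ≤ g) (hTn : T * n ≤ Tn) (hH : (H : ℝ) ≤ g * n) :
    H * blockAvg Tn (fun v => vErr J 3 v x (4 * H)) ≤
      20 * g * LegVar.G 3 (4 * g) * Real.sqrt (Real.log 2 + 3) / Real.sqrt T := by
  have hn' : (0 : ℝ) < n := Nat.cast_pos.2 hn
  have hp : (1 + gradC 3 / n) ^ (4 * H) ≤ LegVar.G 3 (4 * g) := LegVar.pow_le_G hn (by push_cast; linarith)
  have hq : (0 : ℝ) ≤ (1 + gradC 3 / n) ^ (4 * H) := pow_nonneg (zero_le_one.trans Corr.one_le_base) _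
  have hd : Real.sqrt T * n ≤ Real.sqrt (n * Tn) := by
    rw [← Real.sqrt_mul_self hn'.le, ← Real.sqrt_mul hT.le, Real.sqrt_mul_self hn'.le]
    exact Real.sqrt_le_sqrt (by nlinarith)
  have hsT := Real.sqrt_pos.2 hT
  refine (mul_le_mul_of_nonneg_left (blockAvg_vErr hJ hn x Tn (4 * H)) (Nat.cast_nonneg H)).trans ?_
  have hE : (0 : ℝ) ≤ LegVar.G 3 (4 * g) := LegVar.G_pos.le
  refine (mul_le_mul hH (div_le_div₀ (mul_nonneg (mul_nonneg (by norm_num) hE) (Real.sqrt_nonneg _))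
    (mul_le_mul_of_nonneg_right (mul_le_mul_of_nonneg_left hp (by norm_num)) (Real.sqrt_nonneg _))
    (by positivity) hd) (by positivity) (by positivity)).trans_eq ?_
  field_simp

/-- one scale in the units of sweeps -/
lemma scale_det {β t ε δ L : ℝ} (hβ0 : 0 ≤ β) (hβ : β < 1) (ht : 0 < t) (hδ : 0 < δ) (hL : 0 ≤ L)
    {N N' : ℕ} {Ψ : Fin N → Kern} {ψ : Fin N' → ChanTest} (hlaw : LawSite β t δ ((1 - β ^ 2) * ε) L Ψ ψ)
    {η ε₁ Kc : ℝ} {Kψ : Fin N' → ℝ} (hη : 0 < η) (hη1 : η ≤ 1) (hε : 0 ≤ ε) (hε₁ : 0 ≤ ε₁)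
    (hn : 2 ≤ n) {J : Fin n → Fin n → ℝ} (hJ : Tame J 3) (x : Cfg n) {G W D T g₀ : ℝ} {Jn : Fin N' → ℕ} {Jm : ℕ}
    (hG : 8 ≤ G) (hGW : G ≤ W) (hWη : 4 / η ≤ W) (hD : 1 ≤ D) (hDT : 2 * D + 2 ≤ T) (hJm : 1 ≤ Jm)
    (hJn : ∀ j, 1 ≤ Jn j ∧ Jn j ≤ Jm)
    (hhi : ((8 * Jm * att n W : ℕ) : ℝ) ≤ g₀ * n) {τ : ℝ} (htτ : t ≤ τ) (hgτ : g₀ ≤ τ)
    (hconc : |concC 3 τ (2 * T + 4)| / η ^ 2 ≤ n)
    (hblk : ∀ (p : Cfg n) (θ : (Fin n → ℝ) → ℕ → Fin n → Fin 3 → ℝ), (∀ w, Continuous fun u => θ u w) →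
      (∀ u w i l, |θ u w i l| ≤ max L 1 + 10 * N) →
      ∫ u, blockAvg (att n W) (fun w => |fieldErr β J (obsField t p u) (bundle Ψ) (θ u w) w p|) ∂gauss (Fin n) ≤
        (ε₁ + Kc * Real.sqrt (∫ u, defect J (obsField t p u) (att n G) (att n W) p ∂gauss (Fin n))) * n)
    (hchan : ∀ j, chanAvgErr J β t (ψ j) (att n T) (att n D) (att n W) (Jn j) x ≤
      (ε₁ + Kψ j * Real.sqrt (max 0 (blockAvg (att n T) fun v =>
        tiltLag J t v (att n (W / 2)) x - tiltLag J t v (8 * Jn j * att n W) x))) * n)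
    {s : ℝ} (hs : blockAvg (att n T) (fun v => slack J t v x (att n (G / 4)) (8 * Jm * att n W)) ≤ s) :
    blockAvg (att n T) (fun v => msq t (lawAt J 0 v x)) ≤
      n * (qstar β t + ε + (2 * (N' + 1) * ε₁ + totK t Kc Ψ ψ Kψ * (η + s / η)) / δ + s) := by
  have hn0 : 0 < n := by omega
  have hn' : (2 : ℝ) ≤ n := by exact_mod_cast hn
  have hA2 : 2 ∣ att n W := Dvd.intro _ rfl
  have hA0 : 2 ≤ att n W := by
    have := QS.att_pos hn0 (show 0 < W by linarith)
    obtain ⟨m, hm⟩ := hA2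
    omega
  have hloA : att n (G / 4) ≤ att n W / 2 := by
    have h1 := QS.att_le n (show (0 : ℝ) ≤ G / 4 by linarith)
    have h2 := QS.att_ge n W
    have e : ((att n W / 2 : ℕ) : ℝ) * 2 = att n W := by exact_mod_cast Nat.div_mul_cancel hA2
    have h3 : (8 : ℝ) ≤ G * n := by nlinarith
    have h4 : G * n ≤ W * n := mul_le_mul_of_nonneg_right hGW (Nat.cast_nonneg _)
    refine Nat.cast_le (α := ℝ).1 ?_
    linarith
  refine one_scale (Dn := att n D) (G := att n G) (a₀ := att n (W / 2)) hβ0 hβ ht hδ hL hlaw hη hη1 hε hε₁ hJ hn0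
    hA2 ((mul_le_mul_of_nonneg_right hWη (Nat.cast_nonneg _)).trans (QS.att_ge n _)) hA0 hloA
    (QS.att_mono n (by linarith)) (QS.att_mono n hGW) (QS.att_pos hn0 (by linarith)) ?_ hJm hJn
    (QS.att_mono n (by linarith)) (QS.att_mono n (by linarith)) hblk hchan ?_ hs
  · refine Nat.cast_le (α := ℝ).1 ?_
    push_cast
    have h1 := QS.att_le n (show (0 : ℝ) ≤ D by linarith)
    have h2 := QS.att_ge n T
    nlinarith
  · intro v hv
    have hM : ((4 * Jm * att n W : ℕ) : ℝ) ≤ g₀ * n :=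
      (Nat.cast_le.2 (Nat.mul_le_mul_right _ (Nat.mul_le_mul_right _ (by norm_num)))).trans hhi
    have hv' : (v : ℝ) ≤ (2 * T + 4) * n := by
      have h1 : (v : ℝ) ≤ 2 * att n T := by exact_mod_cast (Finset.mem_Ico.1 hv).2.le
      have h2 := QS.att_le n (show (0 : ℝ) ≤ T by linarith)
      linarith
    refine (stat_conc hJ hn0 ht.le htτ (hM.trans (mul_le_mul_of_nonneg_right hgτ (Nat.cast_nonneg _))) hv').trans ?_
    refine Real.sqrt_le_iff.2 ⟨hη.le, ?_⟩
    have h' := (div_le_iff₀ (pow_pos hη 2)).1 hconc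
    rw [div_le_iff₀ (by linarith)]
    linarith [le_abs_self (concC 3 τ (2 * T + 4))]

/-- the errors fit into the budget -/
lemma budget {ε δ η s K₀ : ℝ} (hδ : 0 < δ) (hη : 0 < η) (hK : 0 < K₀) (hηK : η ≤ δ * ε / (16 * K₀))
    (hs : s ≤ η * (δ * ε / (16 * K₀))) (hs' : s ≤ ε / 16) (hε : 0 < ε) {m ε₁ : ℝ} (hm : 0 ≤ m)
    (hε₁ : ε₁ = δ * ε / (16 * (m + 1))) (q : ℝ) :
    q + ε / 2 + (2 * (m + 1) * ε₁ + K₀ * (η + s / η)) / δ + s ≤ q + ε := by
  have h1 : 2 * (m + 1) * ε₁ = δ * ε / 8 := by rw [hε₁]; field_simp; ring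
  have h2 : s / η ≤ δ * ε / (16 * K₀) := by rwa [div_le_iff₀ hη, mul_comm _ η]
  have h3 := mul_le_mul_of_nonneg_left (add_le_add hηK h2) hK.le
  have h4 : K₀ * (δ * ε / (16 * K₀) + δ * ε / (16 * K₀)) = δ * ε / 8 := by field_simp; ring
  have h5 : (2 * (m + 1) * ε₁ + K₀ * (η + s / η)) / δ ≤ ε / 4 := by
    rw [div_le_iff₀ hδ]; linarith
  linarith

end Mmse

open Mmse in
/-- The posterior overlap is at most that of equilibrium, on average over times. -/
theorem mmse_of {β : ℝ} (hβ0 : 0 ≤ β) (hβ : β < 1) (hB : BlockIdentity β) (hC : ChannelIdentity β) :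
    MmseBound β := by
  intro t ε ht hε
  have hb2 : 0 < 1 - β ^ 2 := by nlinarith
  obtain ⟨δ, hδ, L, hL, N, Ψ, N', ψ, hlaw⟩ :=
    lawSite_of hβ0 hβ ht (mul_pos hb2 (half_pos hε))
  set ε₁ := δ * ε / (16 * (N' + 1)) with hε₁d
  have hε₁ : 0 < ε₁ := by positivity
  obtain ⟨Kc, G₀, hblk⟩ := hB (bundle Ψ) t (max L 1 + 10 * N) ε₁ ht.le hε₁
  choose Kψ hKψ using fun j => hC (ψ j) t ε₁ ht hε₁
  choose! Wf hGW hWlim using hblk
  choose! Jn hJn1 D₀ hD₀ using hKψ
  set K₀ := totK t Kc Ψ ψ Kψ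
  have hMΨ : 0 ≤ (bundle Ψ).M := (abs_nonneg _).trans ((bundle Ψ).bdd (fun _ => 0) 0).1
  have hK₀ : 2 ≤ K₀ := by
    have hsum : 0 ≤ ∑ j, ((17 + 2 / Real.sqrt t) * (ψ j).M + 2 * |Kψ j|) := Finset.sum_nonneg fun j _ => by
      have : 0 ≤ (ψ j).M := (abs_nonneg _).trans ((ψ j).bdd 0 0 true).1
      positivity
    simp only [K₀, totK]
    linarith [abs_nonneg Kc]
  have hK₀' : 0 < K₀ := by linarith
  set η := min 1 (δ * ε / (16 * K₀))
  have hη : 0 < η := lt_min one_pos (by positivity)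
  set s := min (ε / 16) (η * (δ * ε / (16 * K₀)))
  have hs : 0 < s := lt_min (by linarith) (by positivity)
  set Jm := fun W : ℝ => 1 + ∑ j, Jn j W
  set Gs := max (max G₀ 8) (4 / η)
  set Gk := scales Gs Wf fun W => (Jm W : ℝ)
  have hJm : ∀ W, (1 : ℝ) ≤ (Jm W : ℝ) := fun W => by
    exact_mod_cast (show 1 ≤ Jm W from Nat.le_add_right _ _)
  have hgs : ∀ k, Gs ≤ Gk k := by
    intro k
    induction k with
    | zero => exact le_rfl
    | succ k ih =>
      show Gs ≤ 64 * (Jm (Wf (Gk k)) : ℝ) * Wf (Gk k)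
      have h8 : (8 : ℝ) ≤ Gs := (le_max_right _ _).trans (le_max_left _ _)
      have := hGW (Gk k) (((le_max_left _ _).trans (le_max_left _ _)).trans ih)
      nlinarith [hJm (Wf (Gk k))]
  have hG0 : ∀ k, G₀ ≤ Gk k := fun k => ((le_max_left _ _).trans (le_max_left _ _)).trans (hgs k)
  have hG8 : ∀ k, 8 ≤ Gk k := fun k => ((le_max_right _ _).trans (le_max_left _ _)).trans (hgs k)
  have hW : ∀ k, Gk k ≤ Wf (Gk k) := fun k => hGW _ (hG0 k)
  have hW1 : ∀ k, 1 ≤ Wf (Gk k) := fun k => by linarith [hW k, hG8 k]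
  have hmono : Monotone Gk := monotone_nat_of_le_succ fun k => by
    show Gk k ≤ 64 * (Jm (Wf (Gk k)) : ℝ) * Wf (Gk k)
    nlinarith [hW k, hJm (Wf (Gk k)), hW1 k]
  set K := ⌈4 / s⌉₊ + 1
  have hK : 0 < K := Nat.succ_pos _
  have hKs : 1 / (K : ℝ) ≤ s / 4 := by
    rw [← one_div_div 4 s]
    exact one_div_le_one_div_of_le (by positivity) ((Nat.le_ceil _).trans (by simp [K]))
  set D := 1 + ∑ k ∈ Finset.range K, ∑ j, |D₀ j (Wf (Gk k))|
  have hD1 : 1 ≤ D := le_add_of_nonneg_right (Finset.sum_nonneg fun k _ => Finset.sum_nonneg fun j _ => abs_nonneg _)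
  have hDge : ∀ k < K, ∀ j, D₀ j (Wf (Gk k)) ≤ D := fun k hk j => by
    have h1 := Finset.single_le_sum (f := fun j => |D₀ j (Wf (Gk k))|) (fun j _ => abs_nonneg _) (Finset.mem_univ j)
    have h2 := Finset.single_le_sum (f := fun k => ∑ j, |D₀ j (Wf (Gk k))|)
      (fun k _ => Finset.sum_nonneg fun j _ => abs_nonneg _) (Finset.mem_range.2 hk)
    have h3 := le_abs_self (D₀ j (Wf (Gk k)))
    simp only [D]; linarith
  have hT₀ : ∀ (k : Fin K) (j : Fin N'), ∃ T₀ : ℝ, ∀ T : ℝ, T₀ ≤ T → Tendsto (fun n : ℕ => (disorder n).real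
      {g | ∃ x, (ε₁ + Kψ j * Real.sqrt (max 0 (blockAvg (att n T) fun v =>
          tiltLag (cpl β g) t v (att n (Wf (Gk k) / 2)) x -
            tiltLag (cpl β g) t v (8 * Jn j (Wf (Gk k)) * att n (Wf (Gk k))) x))) * n <
        chanAvgErr (cpl β g) β t (ψ j) (att n T) (att n D) (att n (Wf (Gk k))) (Jn j (Wf (Gk k))) x}) atTop (𝓝 0) :=
    fun k j => hD₀ j _ (hW1 k) D (hDge k k.2 j)
  choose T₁ hT₁ using hT₀
  set g₀ := Gk K + 2
  have hg₀ : 0 ≤ g₀ := by linarith [hG8 K]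
  set C := 20 * g₀ * LegVar.G 3 (4 * g₀) * Real.sqrt (Real.log 2 + 3)
  have hC0 : 0 ≤ C := by have := LegVar.G_pos (L := 3) (τ := 4 * g₀); positivity
  refine ⟨qstar β t, max (max (2 * D + 2) ((36 * C / s) ^ 2)) (∑ k, ∑ j, |T₁ k j|), (qstar_spec ht.le).1, ?_,
    fun T hT => ?_⟩
  · have e := (qstar_spec (β := β) ht.le).2.2
    show |qstar β t - Fq (t + β ^ 2 * qstar β t)| ≤ ε
    rw [← e, sub_self, abs_zero]
    exact hε.le
  have hTD : 2 * D + 2 ≤ T := ((le_max_left _ _).trans (le_max_left _ _)).trans hT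
  have hT0 : 0 < T := by linarith
  have hTC : 36 * C / s ≤ Real.sqrt T :=
    Real.le_sqrt_of_sq_le (((le_max_right _ _).trans (le_max_left _ _)).trans hT)
  have hTT : ∀ k j, T₁ k j ≤ T := fun k j => by
    have h1 := Finset.single_le_sum (f := fun j => |T₁ k j|) (fun j _ => abs_nonneg _) (Finset.mem_univ j)
    have h2 := Finset.single_le_sum (f := fun k => ∑ j, |T₁ k j|)
      (fun k _ => Finset.sum_nonneg fun j _ => abs_nonneg _) (Finset.mem_univ k)
    have h3 := (le_max_right _ _).trans hT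
    linarith [le_abs_self (T₁ k j)]
  set bB := fun (k : Fin K) (n : ℕ) => {g : Edge n → ℝ | ∃ (x : Cfg n) (θ : (Fin n → ℝ) → ℕ → Fin n → Fin 3 → ℝ),
      (∀ v, Continuous fun u => θ u v) ∧ (∀ u v i l, |θ u v i l| ≤ max L 1 + 10 * N) ∧
      (ε₁ + Kc * Real.sqrt (∫ u, defect (cpl β g) (obsField t x u) (att n (Gk k)) (att n (Wf (Gk k))) x
        ∂gauss (Fin n))) * n <
        ∫ u, blockAvg (att n (Wf (Gk k))) (fun v => |fieldErr β (cpl β g) (obsField t x u) (bundle Ψ) (θ u v) v x|)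
          ∂gauss (Fin n)}
  set bC := fun (k : Fin K) (j : Fin N') (n : ℕ) =>
    {g : Edge n → ℝ | ∃ x, (ε₁ + Kψ j * Real.sqrt (max 0 (blockAvg (att n T) fun v =>
          tiltLag (cpl β g) t v (att n (Wf (Gk k) / 2)) x -
            tiltLag (cpl β g) t v (8 * Jn j (Wf (Gk k)) * att n (Wf (Gk k))) x))) * n <
        chanAvgErr (cpl β g) β t (ψ j) (att n T) (att n D) (att n (Wf (Gk k))) (Jn j (Wf (Gk k))) x}
  have hbad : Tendsto (fun n : ℕ => (disorder n).real {g | ¬ Tame (cpl β g) 3} +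
      (∑ k, (disorder n).real (bB k n) + ∑ k, ∑ j, (disorder n).real (bC k j n))) atTop (𝓝 0) := by
    have h1 : ∀ k : Fin K, Tendsto (fun n : ℕ => (disorder n).real (bB k n)) atTop (𝓝 0) :=
      fun k => hWlim _ (hG0 k)
    have h2 : ∀ (k : Fin K) j, Tendsto (fun n : ℕ => (disorder n).real (bC k j n)) atTop (𝓝 0) :=
      fun k j => hT₁ k j T (hTT k j)
    simpa using (tame_whp hβ0 hβ).add ((tendsto_finsetSum _ fun k _ => h1 k).add
      (tendsto_finsetSum _ fun k _ => tendsto_finsetSum _ fun j _ => h2 k j))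
  refine tendsto_of_tendsto_of_tendsto_of_le_of_le' tendsto_const_nhds hbad
    (Eventually.of_forall fun _ => measureReal_nonneg) ?_
  set τ := max t g₀
  filter_upwards [eventually_ge_atTop 2,
    eventually_ge_atTop ⌈16 / s + |concC 3 τ (2 * T + 4)| / η ^ 2⌉₊] with n hn hnb
  have hn0 : 0 < n := by omega
  have hn' : (2 : ℝ) ≤ n := by exact_mod_cast hn
  have hnb' : 16 / s + |concC 3 τ (2 * T + 4)| / η ^ 2 ≤ n := (Nat.le_ceil _).trans (by exact_mod_cast hnb)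
  refine le_trans (measureReal_mono (s₂ := {g | ¬ Tame (cpl β g) 3} ∪ ((⋃ k, bB k n) ∪ ⋃ k, ⋃ j, bC k j n)) ?_
    (measure_ne_top _ _)) ((measureReal_union_le _ _).trans (add_le_add le_rfl
      ((measureReal_union_le _ _).trans (add_le_add (measureReal_iUnion_fintype_le _)
        ((measureReal_iUnion_fintype_le _).trans (Finset.sum_le_sum fun k _ => measureReal_iUnion_fintype_le _))))))
  rintro g ⟨x, hx⟩
  by_contra hcon
  simp only [bB, bC, Set.mem_union, Set.mem_iUnion, not_or, not_exists, not_and, Set.mem_ofPred_eq, not_not,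
    not_lt] at hcon
  obtain ⟨hJ, hgB, hgC⟩ := hcon
  set J := cpl β g
  set lo := fun k => att n (Gk k / 4)
  set hi := fun k => 8 * Jm (Wf (Gk k)) * att n (Wf (Gk k))
  set H := att n (Gk K)
  have hloH : ∀ k ≤ K, lo k ≤ H := fun k hk => QS.att_mono n (by linarith [hmono hk, hG8 k])
  have hhl : ∀ k, hi k ≤ lo (k + 1) := fun k => by
    have h1 := QS.att_le n (show (0 : ℝ) ≤ Wf (Gk k) by linarith [hW1 k])
    have h2 := QS.att_ge n (Gk (k + 1) / 4)
    rw [show Gk (k + 1) = 64 * (Jm (Wf (Gk k)) : ℝ) * Wf (Gk k) from rfl] at h2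
    have h3 : (2 : ℝ) ≤ Wf (Gk k) * n := by nlinarith [hW1 k]
    have h4 : 0 ≤ (Jm (Wf (Gk k)) : ℝ) := Nat.cast_nonneg _
    refine Nat.cast_le (α := ℝ).1 ?_
    simp only [hi, lo]
    rw [show Gk (k + 1) = 64 * (Jm (Wf (Gk k)) : ℝ) * Wf (Gk k) from rfl]
    push_cast
    nlinarith
  have hTn : 0 < att n T := QS.att_pos hn0 hT0
  obtain ⟨k, hk, hdrop⟩ := exists_level (x := x) hJ hn0 ht.le hTn hK lo hi (fun k _ => hhl k) hloH
  have hHn : (H : ℝ) ≤ g₀ * n := (QS.att_le n (by linarith [hG8 K])).trans (by simp only [g₀]; nlinarith)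
  have hsT := Real.sqrt_pos.2 hT0
  have hHe : (H : ℝ) * blockAvg (att n T) (fun v => vErr J 3 v x (4 * H)) ≤ s / 36 := by
    refine (lag_err hJ hn0 x hT0 hg₀ (QS.att_ge n T) hHn).trans ?_
    show C / Real.sqrt T ≤ _
    rw [div_le_iff₀ hsT]
    rw [div_le_iff₀ hs] at hTC
    linarith
  have hhiH : hi k ≤ H := (hhl k).trans (hloH _ hk)
  have hslack : blockAvg (att n T) (fun v => slack J t v x (lo k) (hi k)) ≤ s := by
    refine (BlockAvg.mono (g := fun v => (tiltLag J t v (lo k) x - tiltLag J t v (hi k) x)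
      + (8 * (H : ℝ) * vErr J 3 v x (4 * H) + 4 / n)) fun v _ => ?_).trans ?_
    · simp only [slack, add_assoc]
      refine add_le_add le_rfl (add_le_add ?_ le_rfl)
      exact mul_le_mul (by gcongr) (corErr_mono (by omega)) (corErr_nonneg _) (by positivity)
    · simp only [BlockAvg.add, BlockAvg.const hTn, mul_assoc (8 : ℝ), BlockAvg.smul]
      have h4 : 4 / (n : ℝ) ≤ s / 4 := by
        have h := le_add_of_nonneg_right (a := 16 / s)
          (show 0 ≤ |concC 3 τ (2 * T + 4)| / η ^ 2 by positivity)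
        rw [div_le_div_iff₀ (by linarith) (by norm_num)]
        have := (div_le_iff₀ hs).1 (h.trans hnb')
        linarith
      linarith
  have hconc : |concC 3 τ (2 * T + 4)| / η ^ 2 ≤ (n : ℝ) :=
    (le_add_of_nonneg_left (by positivity)).trans hnb'
  have hJnm : ∀ j, 1 ≤ Jn j (Wf (Gk k)) ∧ Jn j (Wf (Gk k)) ≤ Jm (Wf (Gk k)) := fun j =>
    ⟨hJn1 j _ (hW1 k), (Finset.single_le_sum (f := fun j => Jn j (Wf (Gk k)))
      (fun _ _ => Nat.zero_le _) (Finset.mem_univ j)).trans (Nat.le_add_left _ _)⟩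
  have hmain := scale_det (x := x) (G := Gk k) (W := Wf (Gk k)) (D := D) (T := T) (g₀ := g₀) (τ := τ) (s := s)
    hβ0 hβ ht hδ hL hlaw hη (min_le_left _ _) (half_pos hε).le hε₁.le hn hJ (hG8 k) (hW k)
    (((le_max_right _ _).trans (hgs k)).trans (hW k)) hD1 hTD (Nat.le_add_right _ _) hJnm
    ((Nat.cast_le.2 hhiH).trans hHn) (le_max_left t g₀) (le_max_right t g₀) hconc
    (hgB ⟨k, hk⟩) (fun j => hgC ⟨k, hk⟩ j x) hslack
  refine hx.not_ge (hmain.trans ?_)
  rw [mul_comm (qstar β t + ε)]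
  exact mul_le_mul_of_nonneg_left (budget hδ hη hK₀' (min_le_right _ _) (min_le_right _ _) (min_le_left _ _) hε
    (Nat.cast_nonneg N') hε₁d (qstar β t)) (Nat.cast_nonneg _)

end Vale.Agent.P150.PA
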