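import Vale.Agent.P150.PA.Translate

/-! Part A: the annealed exponential inequality, the union bound over starts and test parameters, and
Jensen's inequality in the form used to turn it into a bound on a mean. -/

open MeasureTheory ProbabilityTheory Matrix

namespace Vale.Agent.P150.PA

open Fast.OpNorm Ising

variable {ι : Type*} [Fintype ι] [DecidableEq ι] {Ω : Type*}

/-- the exponent of the annealed inequality: likelihood part `L`, then the Gaussian and Jacobian parts of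
the translation `g ↦ g + V g` -/
noncomputable def aexp (L : (ι → ℝ) → ℝ) (V : (ι → ℝ) → ι → ℝ) (A : (ι → ℝ) → Matrix ι ι ℝ) (g : ι → ℝ) : ℝ :=
  L g + (-dot g (V g) - nsq (V g) / 2 + trace (A g) - fsq (A g))

omit [DecidableEq ι] in
lemma exp_aexp (L : (ι → ℝ) → ℝ) (V : (ι → ℝ) → ι → ℝ) (A : (ι → ℝ) → Matrix ι ι ℝ) (g : ι → ℝ) :
    Real.exp (aexp L V A g) = Real.exp (L g) * tw V A g := by rw [aexp, Real.exp_add, tw]

section Annealed
variable {p : (ι → ℝ) → Ω → ℝ} {O : Finset Ω} {V : Ω → (ι → ℝ) → ι → ℝ}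
  {A : Ω → (ι → ℝ) → Matrix ι ι ℝ} {L : Ω → (ι → ℝ) → ℝ}

/-- annealed inequality: if `p · exp L` is a lower bound for the translated likelihood, the expectation of
`∑_{ω ∈ O} p exp (aexp)` is at most one -/
theorem annealed_lintegral (hm : ∀ ω ∈ O, Measurable fun g => p g ω) (hp0 : ∀ g, ∀ ω ∈ O, 0 ≤ p g ω)
    (hp1 : ∀ g, ∑ ω ∈ O, p g ω ≤ 1)
    (hV : ∀ ω ∈ O, ∀ g, HasFDerivAt (V ω) (LinearMap.toContinuousLinearMap (toLin' (A ω g))) g)
    (hA : ∀ ω ∈ O, ∀ g w, nsq (A ω g *ᵥ w) ≤ 1 / 4 * nsq w)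
    (hL : ∀ ω ∈ O, ∀ g, p g ω * Real.exp (L ω g) ≤ p (g + V ω g) ω) :
    ∫⁻ g, ∑ ω ∈ O, ENNReal.ofReal (p g ω * Real.exp (aexp (L ω) (V ω) (A ω) g)) ∂gauss ι ≤ 1 := by
  calc ∫⁻ g, ∑ ω ∈ O, ENNReal.ofReal (p g ω * Real.exp (aexp (L ω) (V ω) (A ω) g)) ∂gauss ι
      ≤ ∫⁻ g, ∑ ω ∈ O, ENNReal.ofReal (tw (V ω) (A ω) g) * ENNReal.ofReal (p (g + V ω g) ω) ∂gauss ι := ?_
    _ = ∑ ω ∈ O, ∫⁻ g, ENNReal.ofReal (tw (V ω) (A ω) g) * ENNReal.ofReal (p (g + V ω g) ω) ∂gauss ι := ?_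
    _ ≤ ∑ ω ∈ O, ∫⁻ g, ENNReal.ofReal (p g ω) ∂gauss ι := Finset.sum_le_sum fun ω hω =>
        translate_lintegral (hV ω hω) (hA ω hω) fun g => ENNReal.ofReal (p g ω)
    _ = ∫⁻ g, ENNReal.ofReal (∑ ω ∈ O, p g ω) ∂gauss ι := by
        rw [← lintegral_finsetSum _ fun ω hω => (hm ω hω).ennreal_ofReal]
        exact lintegral_congr fun g => (ENNReal.ofReal_sum_of_nonneg fun ω hω => hp0 g ω hω).symm
    _ ≤ ∫⁻ _, 1 ∂gauss ι := lintegral_mono fun g =>
        (ENNReal.ofReal_le_ofReal (hp1 g)).trans_eq ENNReal.ofReal_one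
    _ = 1 := by simp
  · refine lintegral_mono fun g => Finset.sum_le_sum fun ω hω => ?_
    rw [← ENNReal.ofReal_mul (show 0 ≤ tw (V ω) (A ω) g from (Real.exp_pos _).le)]
    refine ENNReal.ofReal_le_ofReal ?_
    rw [exp_aexp, ← mul_assoc, mul_comm (tw _ _ _)]
    exact mul_le_mul_of_nonneg_right (hL ω hω g) (Real.exp_pos _).le
  · refine lintegral_finsetSum' _ fun ω hω => ?_
    have hc : Continuous (V ω) := continuous_iff_continuousAt.2 fun g => (hV ω hω g).continuousAt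
    have hA' : ∀ i j, Measurable fun g => A ω g i j := fun i j => by
      have h := measurable_pi_iff.1 (measurable_fderiv_apply_const ℝ (V ω) (Pi.single j (1:ℝ))) i
      simpa [fun g => (hV ω hω g).fderiv] using h
    refine (Measurable.aemeasurable ?_)
    refine Measurable.mul ?_ ((hm ω hω).comp (measurable_id.add hc.measurable)).ennreal_ofReal
    unfold tw dot nsq fsq trace
    simp only [diag_apply]
    fun_prop

/-- the same for Bochner integrals -/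
theorem annealed_le (hm : ∀ ω ∈ O, Measurable fun g => p g ω) (hp0 : ∀ g, ∀ ω ∈ O, 0 ≤ p g ω)
    (hp1 : ∀ g, ∑ ω ∈ O, p g ω ≤ 1)
    (hV : ∀ ω ∈ O, ∀ g, HasFDerivAt (V ω) (LinearMap.toContinuousLinearMap (toLin' (A ω g))) g)
    (hA : ∀ ω ∈ O, ∀ g w, nsq (A ω g *ᵥ w) ≤ 1 / 4 * nsq w)
    (hL : ∀ ω ∈ O, ∀ g, p g ω * Real.exp (L ω g) ≤ p (g + V ω g) ω) :
    ∫ g, ∑ ω ∈ O, p g ω * Real.exp (aexp (L ω) (V ω) (A ω) g) ∂gauss ι ≤ 1 := by
  have h0 : ∀ g, ∀ ω ∈ O, 0 ≤ p g ω * Real.exp (aexp (L ω) (V ω) (A ω) g) := fun g ω hω =>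
    mul_nonneg (hp0 g ω hω) (Real.exp_pos _).le
  by_cases h : Integrable (fun g => ∑ ω ∈ O, p g ω * Real.exp (aexp (L ω) (V ω) (A ω) g)) (gauss ι)
  · rw [← ENNReal.ofReal_le_one, ofReal_integral_eq_lintegral_ofReal h
      (Filter.Eventually.of_forall fun g => Finset.sum_nonneg (h0 g))]
    refine le_trans (le_of_eq (lintegral_congr fun g => ?_)) (annealed_lintegral hm hp0 hp1 hV hA hL)
    exact ENNReal.ofReal_sum_of_nonneg (h0 g)
  · rw [integral_undef h]; exact zero_le_one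

end Annealed

/-! ### union bound -/

/-- Markov's inequality and a union bound -/
theorem union_markov {G : Type*} [MeasurableSpace G] (μ : Measure G) {α : Type*} (I : Finset α)
    {X : α → G → ENNReal} (hX : ∀ a ∈ I, AEMeasurable (X a) μ) (h1 : ∀ a ∈ I, ∫⁻ g, X a g ∂μ ≤ 1)
    (u : ℝ) : μ {g | ∃ a ∈ I, ENNReal.ofReal (Real.exp u) ≤ X a g}
      ≤ ENNReal.ofReal (I.card * Real.exp (-u)) := by
  have e : {g | ∃ a ∈ I, ENNReal.ofReal (Real.exp u) ≤ X a g} =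
      ⋃ a ∈ I, {g | ENNReal.ofReal (Real.exp u) ≤ X a g} := by ext g; simp
  rw [e]
  calc μ (⋃ a ∈ I, {g | ENNReal.ofReal (Real.exp u) ≤ X a g})
      ≤ ∑ a ∈ I, μ {g | ENNReal.ofReal (Real.exp u) ≤ X a g} := measure_biUnion_finset_le _ _
    _ ≤ ∑ _a ∈ I, ENNReal.ofReal (Real.exp (-u)) := Finset.sum_le_sum fun a ha => by
        have h := (mul_meas_ge_le_lintegral₀ (hX a ha) (ENNReal.ofReal (Real.exp u))).trans (h1 a ha)
        rw [Real.exp_neg, ENNReal.ofReal_inv_of_pos (Real.exp_pos u), ← one_div,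
          ENNReal.le_div_iff_mul_le (Or.inl (by simp [Real.exp_pos])) (Or.inl ENNReal.ofReal_ne_top),
          mul_comm]
        exact h
    _ = ENNReal.ofReal (I.card * Real.exp (-u)) := by
        rw [Finset.sum_const, ENNReal.ofReal_mul (Nat.cast_nonneg _), ENNReal.ofReal_natCast,
          nsmul_eq_mul]

/-- annealed inequality with outer randomness `ξ`, and a union over a finite family of parameters -/
theorem annealed_union {Ξ : Type*} [MeasurableSpace Ξ] (ν : Measure Ξ) [IsProbabilityMeasure ν]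
    {α : Type*} (I : Finset α) {p : α → Ξ → (ι → ℝ) → Ω → ℝ} {O : α → Ξ → Finset Ω}
    {V : α → Ξ → Ω → (ι → ℝ) → ι → ℝ} {A : α → Ξ → Ω → (ι → ℝ) → Matrix ι ι ℝ}
    {L : α → Ξ → Ω → (ι → ℝ) → ℝ}
    (hmeas : ∀ a ∈ I, Measurable fun q : Ξ × (ι → ℝ) => ∑ ω ∈ O a q.1,
      ENNReal.ofReal (p a q.1 q.2 ω * Real.exp (aexp (L a q.1 ω) (V a q.1 ω) (A a q.1 ω) q.2)))
    (hm : ∀ a ∈ I, ∀ ξ, ∀ ω ∈ O a ξ, Measurable fun g => p a ξ g ω)
    (hp0 : ∀ a ∈ I, ∀ ξ g, ∀ ω ∈ O a ξ, 0 ≤ p a ξ g ω) (hp1 : ∀ a ∈ I, ∀ ξ g, ∑ ω ∈ O a ξ, p a ξ g ω ≤ 1)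
    (hV : ∀ a ∈ I, ∀ ξ, ∀ ω ∈ O a ξ, ∀ g,
      HasFDerivAt (V a ξ ω) (LinearMap.toContinuousLinearMap (toLin' (A a ξ ω g))) g)
    (hA : ∀ a ∈ I, ∀ ξ, ∀ ω ∈ O a ξ, ∀ g w, nsq (A a ξ ω g *ᵥ w) ≤ 1 / 4 * nsq w)
    (hL : ∀ a ∈ I, ∀ ξ, ∀ ω ∈ O a ξ, ∀ g,
      p a ξ g ω * Real.exp (L a ξ ω g) ≤ p a ξ (g + V a ξ ω g) ω) (u : ℝ) :
    gauss ι {g | ∃ a ∈ I, ENNReal.ofReal (Real.exp u) ≤ ∫⁻ ξ, ∑ ω ∈ O a ξ,
      ENNReal.ofReal (p a ξ g ω * Real.exp (aexp (L a ξ ω) (V a ξ ω) (A a ξ ω) g)) ∂ν}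
      ≤ ENNReal.ofReal (I.card * Real.exp (-u)) := by
  refine union_markov (gauss ι) I (fun a ha => ((hmeas a ha).lintegral_prod_left').aemeasurable)
    (fun a ha => ?_) u
  rw [← lintegral_lintegral_swap (hmeas a ha).aemeasurable]
  exact (lintegral_mono fun ξ => annealed_lintegral (hm a ha ξ) (hp0 a ha ξ) (hp1 a ha ξ) (hV a ha ξ)
    (hA a ha ξ) (hL a ha ξ)).trans_eq (by simp)

/-! ### Jensen -/

/-- the linearised Jensen inequality -/
lemma mul_le_exp_lin {p X : ℝ} (hp : 0 ≤ p) (c : ℝ) :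
    p * X ≤ p * Real.exp X * Real.exp (-c) + p * (c - 1) := by
  have h := mul_le_mul_of_nonneg_left (Real.add_one_le_exp (X - c)) hp
  rw [sub_eq_add_neg, Real.exp_add] at h
  linarith

lemma neg_mul_log_le {M : ℝ} (h0 : 0 ≤ M) : -(M * Real.log M) ≤ 1 := by
  rcases h0.eq_or_lt with rfl | h
  · simp
  · have := Real.one_sub_inv_le_log_of_pos h
    have h2 : M * M⁻¹ = 1 := mul_inv_cancel₀ h.ne'
    nlinarith [mul_le_mul_of_nonneg_left this h.le]

/-- Jensen: `∑ p X ≤ P (log ∑ p e^X - log P)` -/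
theorem jensen_le {O : Finset Ω} {p X : Ω → ℝ} (hp : ∀ ω ∈ O, 0 ≤ p ω) :
    ∑ ω ∈ O, p ω * X ω ≤
      (∑ ω ∈ O, p ω) * (Real.log (∑ ω ∈ O, p ω * Real.exp (X ω)) - Real.log (∑ ω ∈ O, p ω)) := by
  set M := ∑ ω ∈ O, p ω with hM
  set E := ∑ ω ∈ O, p ω * Real.exp (X ω) with hE
  rcases (Finset.sum_nonneg hp).eq_or_lt with h | h
  · have h' : ∀ ω ∈ O, p ω = 0 := (Finset.sum_eq_zero_iff_of_nonneg hp).1 h.symm
    rw [show M = 0 from h.symm, Finset.sum_eq_zero fun ω hω => by rw [h' ω hω, zero_mul]]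
    simp
  · obtain ⟨ω₀, hω₀, hne⟩ := Finset.exists_ne_zero_of_sum_ne_zero (ne_of_gt h)
    have hE0 : 0 < E := lt_of_lt_of_le
      (mul_pos (lt_of_le_of_ne (hp ω₀ hω₀) (Ne.symm hne)) (Real.exp_pos (X ω₀)))
      (Finset.single_le_sum (f := fun ω => p ω * Real.exp (X ω))
        (fun ω hω => mul_nonneg (hp ω hω) (Real.exp_pos _).le) hω₀)
    refine (Finset.sum_le_sum fun ω hω =>
      mul_le_exp_lin (hp ω hω) (Real.log E - Real.log M)).trans (le_of_eq ?_)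
    rw [Finset.sum_add_distrib, ← Finset.sum_mul, ← Finset.sum_mul, ← hE, ← hM, neg_sub, Real.exp_sub,
      Real.exp_log h, Real.exp_log hE0]
    field_simp
    ring

/-- Jensen for an integral: `∫ p X ≤ P (log ∫ p e^X - log P)` -/
theorem jensen_integral_le {G : Type*} [MeasurableSpace G] {ν : Measure G} {p X : G → ℝ}
    (hp : ∀ x, 0 ≤ p x) (hi : Integrable p ν) (hiX : Integrable (fun x => p x * X x) ν)
    (hiE : Integrable (fun x => p x * Real.exp (X x)) ν) :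
    ∫ x, p x * X x ∂ν ≤ (∫ x, p x ∂ν) * (Real.log (∫ x, p x * Real.exp (X x) ∂ν) - Real.log (∫ x, p x ∂ν)) := by
  set M := ∫ x, p x ∂ν with hM
  set E := ∫ x, p x * Real.exp (X x) ∂ν with hE
  rcases (show 0 ≤ M from integral_nonneg hp).eq_or_lt with h | h
  · have h' := (integral_eq_zero_iff_of_nonneg hp hi).1 h.symm
    rw [show M = 0 from h.symm, integral_eq_zero_of_ae (h'.mono fun x hx => by simp [show p x = 0 from hx])]
    simp
  · have hE0 : 0 < E := by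
      refine (integral_nonneg fun x => mul_nonneg (hp x) (Real.exp_pos _).le).lt_of_ne fun h0 => ?_
      have h1 := (integral_eq_zero_iff_of_nonneg
        (fun x => mul_nonneg (hp x) (Real.exp_pos _).le) hiE).1 h0.symm
      refine h.ne' (integral_eq_zero_of_ae (h1.mono fun x hx => ?_))
      simpa [(Real.exp_pos (X x)).ne'] using hx
    refine (integral_mono hiX ((hiE.mul_const _).add (hi.mul_const _)) fun x =>
      mul_le_exp_lin (hp x) (Real.log E - Real.log M)).trans (le_of_eq ?_)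
    rw [Pi.add_def, integral_add (hiE.mul_const _) (hi.mul_const _), integral_mul_const,
      integral_mul_const, ← hE, ← hM, neg_sub, Real.exp_sub, Real.exp_log h, Real.exp_log hE0]
    field_simp
    ring

/-- what is used: a mass at most one and exponential mean at most `exp a` bound the mean by `a + 1` -/
lemma jensen_bound {M E a : ℝ} (hM0 : 0 ≤ M) (hM1 : M ≤ 1) (hE0 : 0 ≤ E) (hE : E ≤ Real.exp a)
    (ha : 0 ≤ a) : M * (Real.log E - Real.log M) ≤ a + 1 := by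
  have h1 : Real.log E ≤ a := by
    rcases hE0.eq_or_lt with rfl | h
    · simpa using ha
    · exact (Real.log_le_iff_le_exp h).2 hE
  nlinarith [neg_mul_log_le hM0]

/-! ### the shift of couplings in coordinates -/

variable {n : ℕ}

lemma cpl_add (β : ℝ) (g v : Edge n → ℝ) (i j : Fin n) :
    cpl β (g + v) i j = cpl β g i j + cpl β v i j := by
  simp only [cpl, coupling]
  split_ifs <;> simp [mul_add]

lemma fld_cpl_shift (β : ℝ) (g v : Edge n → ℝ) (b : Fin n → ℝ) (i : Fin n) (x : Cfg n) :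
    fld (cpl β (g + v)) b i x - fld (cpl β g) b i x = ∑ j, cpl β v i j * spin (x j) := by
  simp only [fld, cpl_add, add_mul, Finset.sum_add_distrib]
  ring

lemma measurable_pw {N : ℕ} (β : ℝ) (x : Cfg n) (ω : Path n N) :
    Measurable fun q : (Edge n → ℝ) × (Fin n → ℝ) => pw (cpl β q.1) q.2 x ω := by
  unfold pw sp mag fld
  refine Finset.measurable_prod _ fun k _ => ?_
  have hc : ∀ a c : Fin n, Measurable fun q : (Edge n → ℝ) × (Fin n → ℝ) => cpl β q.1 a c := fun a c => by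
    unfold cpl coupling
    split_ifs <;> fun_prop
  have ht : Measurable Real.tanh :=
    (continuous_iff_continuousAt.2 fun a => (hasDerivAt_tanh' a).continuousAt).measurable
  fun_prop

end Vale.Agent.P150.PA
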