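import Vale.Agent.P150.PA.BlockVal
import Vale.Agent.P150.PA.BlockDrop

/-! In the untilted experiment each product of two overlaps in the value of a period may be replaced by
the product of their means over the start, at cost of order `√n`. -/

open MeasureTheory

namespace Vale.Agent.P150.PA

open Ising

variable {n : ℕ}

namespace BlockMeans

variable {J : Fin n → Fin n → ℝ} {b : Fin n → ℝ}

/-- a functional of the untilted segment of a copy is a path functional -/
lemma lex_path (S : Sched) (hn : 0 < n) (F : Cfg n) (G : Path n S.D → ℝ) :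
    lex S J b F (fun a => G a.2.1) = pex J b F G := by
  simp only [lex, pex, Fintype.sum_prod_type]
  simp only [mul_comm (pw J b F _) (pw J _ _ _), mul_assoc, ← Finset.sum_mul, pw_sum J _ hn, one_mul]
  simp

lemma lex_cpos (S : Sched) (hn : 0 < n) {k : ℕ} (hk : k ≤ S.D) (f : Cfg n → ℝ) (F : Cfg n) :
    lex S J b F (fun a => f (cpos S F a k)) = Kpow J b k f F := by
  rw [← pex_st J b hn f hk F, ← lex_path S hn F (fun ω => f (st F ω k))]
  congr 1
  funext a
  rw [cpos, if_pos hk]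

lemma lex_two (S : Sched) (hn : 0 < n) {k : ℕ} (hk : k ≤ S.D) (f g : Cfg n → ℝ) (F : Cfg n) :
    lex S J b F (fun a => f (cpos S F a k) * g (cpos S F a S.D)) =
      Kpow J b k (fun y => f y * Kpow J b (S.D - k) g y) F := by
  rw [← pex_st J b hn (fun y => f y * Kpow J b (S.D - k) g y) hk F,
    ← pex_markov J b hn g hk le_rfl F (fun ω => f (st F ω k)) (before_st F f k),
    ← lex_path S hn F (fun ω => f (st F ω k) * g (st F ω S.D))]
  congr 1
  funext a
  rw [cpos, if_pos hk, cpos, if_pos le_rfl]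

lemma lex_resp (S : Sched) (hn : 0 < n) (k : Fin (S.D + S.R)) (hk : (k : ℕ) < S.D)
    (g : Cfg n → ℝ) (i : Fin n) (F : Cfg n) :
    lex S J b F (fun a => g (cpos S F a S.D) * cinc S J b F a k i) =
      Kpow J b k (fun z => (1 - mag J b i z ^ 2) * dd i (Kpow J b (S.D - k - 1) g) z / n) F := by
  rw [← pex_response J b hn i g hk hk le_rfl F,
    ← lex_path S hn F (fun ω => inc J b (st F ω k) (ω ⟨k, hk⟩) i * g (st F ω S.D))]
  congr 1
  funext a
  rw [cpos, if_pos le_rfl, cinc, dif_pos hk, mul_comm]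

/-- the value of a period, written with powers of one attempt -/
lemma periodValue_eq (hn : 0 < n) (P D : ℕ) (Ψ : Kern) (θ : Fin n → Fin 3 → ℝ) (β : ℝ) (F : Cfg n) :
    periodValue (blockSched P D) J (kernTest Ψ θ) b β F =
      2 * (-(∑ i, (Kpow J b D (fun y => ksi J Ψ θ i y * fld J 0 i y) F
            - Kpow J b D (ksi J Ψ θ i) F * Kpow J b D (fld J 0 i) F))
        + β ^ 2 / n * (∑ i, Kpow J b D (dksi J Ψ θ i) F) * ccov J b D D (fun i y => spin (y i)) F
        + β ^ 2 / n * ∑ k : Fin D,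
            (cresp J b D k (ksi J Ψ θ) F * ccov J b D k (fun i y => spin (y i)) F
              + cresp J b D k (fun i y => spin (y i)) F * ccov J b D k (ksi J Ψ θ) F)) := by
  have hval : ∀ a i, cval (blockSched P D) J (kernTest Ψ θ) F a i =
      ksi J Ψ θ i (cpos (blockSched P D) F a D) := fun a i => rfl
  have hdval : ∀ a i, cdval (blockSched P D) J (kernTest Ψ θ) F a i =
      dksi J Ψ θ i (cpos (blockSched P D) F a D) := fun a i => rfl
  have hDR : (blockSched P D).D + (blockSched P D).R = D := rfl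
  have hDr : (blockSched P D).D + (blockSched P D).r = D := rfl
  have h1 : ∀ i k, k ≤ D → lex (blockSched P D) J b F
      (fun a => spin (cpos (blockSched P D) F a k i)) = mean J b k F i :=
    fun i k hk => lex_cpos (blockSched P D) hn hk (fun y => spin (y i)) F
  have hC1 : ∀ k, k ≤ D → ∀ i, lex (blockSched P D) J b F
      (fun a => spin (cpos (blockSched P D) F a k i) * spin (cpos (blockSched P D) F a D i)) =
      Kpow J b k (fun y => spin (y i) * Kpow J b (D - k) (fun y => spin (y i)) y) F :=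
    fun k hk i => lex_two (blockSched P D) hn hk (fun y => spin (y i)) (fun y => spin (y i)) F
  have hC2 : ∀ k, k ≤ D → ∀ i, lex (blockSched P D) J b F
      (fun a => ksi J Ψ θ i (cpos (blockSched P D) F a D) * spin (cpos (blockSched P D) F a k i)) =
      Kpow J b k (fun y => spin (y i) * Kpow J b (D - k) (ksi J Ψ θ i) y) F := fun k hk i => by
    exact (congrArg (lex (blockSched P D) J b F) (funext fun a => mul_comm _ _)).trans
      (lex_two (blockSched P D) hn (k := k) hk (fun y => spin (y i)) (ksi J Ψ θ i) F)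
  simp only [periodValue, hval, hdval, hDR, hDr]
  congr 1
  congr 1
  congr 1
  · congr 1
    refine Finset.sum_congr rfl fun i _ => ?_
    rw [lex_cpos (blockSched P D) hn (k := D) le_rfl (fun y => ksi J Ψ θ i y * fld J 0 i y), lex_cpos (blockSched P D) hn (k := D) le_rfl (ksi J Ψ θ i),
      lex_cpos (blockSched P D) hn (k := D) le_rfl (fld J 0 i)]
  · congr 1
    · congr 1
      exact Finset.sum_congr rfl fun i _ => lex_cpos (blockSched P D) hn (k := D) le_rfl (dksi J Ψ θ i) F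
    · refine Finset.sum_congr rfl fun i _ => ?_
      rw [hC1 D le_rfl i, h1 i D le_rfl]
      rfl
  · congr 1
    refine Finset.sum_congr rfl fun k _ => ?_
    have hk : (k : ℕ) ≤ D := k.2.le
    congr 1
    · congr 1
      · exact Finset.sum_congr rfl fun i _ => lex_resp (blockSched P D) hn k k.2 (ksi J Ψ θ i) i F
      · refine Finset.sum_congr rfl fun i _ => ?_
        rw [hC1 k hk i, h1 i k hk, h1 i D le_rfl]
        rfl
    · congr 1
      · exact Finset.sum_congr rfl fun i _ => lex_resp (blockSched P D) hn k k.2 (fun y => spin (y i)) i F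
      · refine Finset.sum_congr rfl fun i _ => ?_
        rw [hC2 k hk i, lex_cpos (blockSched P D) hn (k := D) le_rfl (ksi J Ψ θ i), h1 i k hk, mul_comm (Kpow J b D (ksi J Ψ θ i) F)]

lemma abs_Kpow_le {φ : Cfg n → ℝ} {c : ℝ} (h : ∀ y, |φ y| ≤ c) (k : ℕ) (x : Cfg n) :
    |Kpow J b k φ x| ≤ c := by
  induction k generalizing x with
  | zero => exact h x
  | succ k ih =>
    rw [Pair.Kpow_succ, K]
    rcases Nat.eq_zero_or_pos n with rfl | hn
    · simpa using (abs_nonneg _).trans (h x)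
    have hn' : (0 : ℝ) < n := Nat.cast_pos.2 hn
    rw [abs_div, Nat.abs_cast, div_le_iff₀ hn']
    refine (Finset.abs_sum_le_sum_abs _ _).trans
      ((Finset.sum_le_card_nsmul _ _ c fun i _ => ?_).trans_eq ?_)
    · have h1 := qb_mono b (J := J) (fun y => (abs_le.1 (ih y)).2) i x
      have h2 := qb_mono b (J := J) (fun y => (abs_le.1 (ih y)).1) i x
      rw [qb_const] at h1 h2
      exact abs_le.2 ⟨h2, h1⟩
    · simp [mul_comm]

lemma abs_dd_le {φ : Cfg n → ℝ} {c : ℝ} (h : ∀ y, |φ y| ≤ c) (i : Fin n) (y : Cfg n) :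
    |dd i φ y| ≤ c := by
  have h1 := abs_le.1 (h (Function.update y i true))
  have h2 := abs_le.1 (h (Function.update y i false))
  rw [dd, abs_le]
  constructor <;> linarith

/-- responses are of order one -/
lemma abs_cresp_le (D k : ℕ) {f : Fin n → Cfg n → ℝ} {c : ℝ} (hc : 0 ≤ c) (hf : ∀ i y, |f i y| ≤ c)
    (F : Cfg n) : |cresp J b D k f F| ≤ c := by
  rcases Nat.eq_zero_or_pos n with rfl | hn
  · simpa [cresp] using hc
  have hn' : (0 : ℝ) < n := Nat.cast_pos.2 hn
  refine (Finset.abs_sum_le_sum_abs _ _).trans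
    ((Finset.sum_le_card_nsmul _ _ (c / n) fun i _ => abs_Kpow_le (fun z => ?_) k F).trans_eq ?_)
  · obtain ⟨p0, p1⟩ := mag_sq J b i z
    rw [abs_div, abs_mul, Nat.abs_cast, abs_of_nonneg p0]
    refine div_le_div_of_nonneg_right ?_ hn'.le
    exact (mul_le_of_le_one_left (abs_nonneg _) p1).trans
      (abs_dd_le (fun y => abs_Kpow_le (hf i) _ y) i z)
  · simp; field_simp

lemma gam_sub_le (f g : Cfg n → ℝ) (x : Cfg n) :
    gam (fun y => f y - g y) x ≤ 2 * gam f x + 2 * gam g x := by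
  simp only [gam, Finset.mul_sum, ← Finset.sum_add_distrib]
  refine Finset.sum_le_sum fun i _ => ?_
  have e : dd i (fun y => f y - g y) x = dd i f x - dd i g x := by simp only [dd]; ring
  rw [e]
  linarith [sq_nonneg (dd i f x + dd i g x), add_sq (dd i f x) (dd i g x), sub_sq (dd i f x) (dd i g x)]

/-- first-order expansion of the kernel at the local field under one flip -/
lemma dd_ksi (Ψ : Kern) (θ : Fin n → Fin 3 → ℝ) (l j : Fin n) (y : Cfg n) :
    |dd j (ksi J Ψ θ l) y - J l j * dksi J Ψ θ l y| ≤ 2 * Ψ.M * J l j ^ 2 := by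
  set p := θ l with hp
  set h0 := fld J 0 l y with hh0
  set K := J l j with hKdef
  set d := Ψ.dfn p h0 with hd
  have hM : 0 ≤ Ψ.M := (abs_nonneg _).trans (Ψ.bdd p h0).1
  set hi := fld J 0 l (Function.update y j true) with hhi
  set lo := fld J 0 l (Function.update y j false) with hlo
  have eh : hi = h0 + K * (1 - spin (y j)) := by rw [hhi, fld_update]; simp [spin, hh0, hKdef]
  have el : lo = h0 + K * (-1 - spin (y j)) := by rw [hlo, fld_update]; simp [spin, hh0, hKdef]
  have hmem : ∀ c : ℝ, |c| ≤ 2 → h0 + K * c ∈ Metric.closedBall h0 (2 * |K|) := fun c hc => by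
    rw [Metric.mem_closedBall, Real.dist_eq, add_sub_cancel_left, abs_mul, mul_comm (2 : ℝ)]
    exact mul_le_mul_of_nonneg_left hc (abs_nonneg K)
  have h := (convex_closedBall h0 (2 * |K|)).norm_image_sub_le_of_norm_hasDerivWithin_le
    (f := fun s => Ψ.fn p s - d * s) (f' := fun s => Ψ.dfn p s - d) (C := Ψ.M * (2 * |K|))
    (fun s _ => ((Ψ.hasDeriv p s).sub ((hasDerivAt_id s).const_mul d |>.congr_deriv (mul_one d))).hasDerivWithinAt)
    (fun s hs => by
      have := (Ψ.lip p p s h0).2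
      simp only [sub_self, abs_zero, Finset.sum_const_zero, zero_add] at this
      rw [Metric.mem_closedBall, Real.dist_eq] at hs
      exact this.trans (mul_le_mul_of_nonneg_left hs hM))
    (hmem (-1 - spin (y j)) (by cases y j <;> norm_num [spin]))
    (hmem (1 - spin (y j)) (by cases y j <;> norm_num [spin]))
  rw [← eh, ← el, Real.norm_eq_abs, Real.norm_eq_abs] at h
  have e : dd j (ksi J Ψ θ l) y - K * dksi J Ψ θ l y = (Ψ.fn p hi - d * hi - (Ψ.fn p lo - d * lo)) / 2 := by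
    simp only [dd, ksi, dksi, ← hp, ← hh0, ← hhi, ← hlo, ← hd]
    rw [eh, el]
    ring
  rw [e, abs_div, abs_two, div_le_iff₀ two_pos]
  refine h.trans (le_of_eq ?_)
  rw [show hi - lo = 2 * K by rw [eh, el]; ring, abs_mul, abs_two, ← sq_abs K]
  ring

/-- gradient bound for a linear form of the kernel at the local fields -/
lemma gam_ksi {L M : ℝ} (hJ : Tame J L) (Ψ : Kern) (θ : Fin n → Fin 3 → ℝ) (hM : Ψ.M ≤ M)
    (v : Fin n → ℝ) (y : Cfg n) :
    gam (fun z => ∑ l, v l * ksi J Ψ θ l z) y ≤ (4 * max L 1 * M) ^ 2 * ∑ l, v l ^ 2 := by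
  rcases Nat.eq_zero_or_pos n with rfl | hn
  · simp [gam]
  set Λ := max L 1
  have hL1 : 1 ≤ Λ := le_max_right _ _
  have hL : L ≤ Λ := le_max_left _ _
  have hM0 : 0 ≤ M := ((abs_nonneg _).trans (Ψ.bdd (θ ⟨0, hn⟩) 0).1).trans hM
  set S := ∑ l, v l ^ 2
  have hS : 0 ≤ S := Finset.sum_nonneg fun _ _ => sq_nonneg _
  set w := fun l => v l * dksi J Ψ θ l y
  have hw : ∑ l, w l ^ 2 ≤ M ^ 2 * S := by
    rw [Finset.mul_sum]
    refine Finset.sum_le_sum fun l _ => ?_
    rw [mul_pow, mul_comm]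
    refine mul_le_mul_of_nonneg_right ?_ (sq_nonneg _)
    rw [← sq_abs]
    exact pow_le_pow_left₀ (abs_nonneg _) (((Ψ.bdd _ _).2).trans hM) 2
  set X := fun j => ∑ l, J l j * w l
  have hX : ∑ j, X j ^ 2 ≤ Λ ^ 2 * ∑ l, w l ^ 2 := by
    have h := bilin_le hJ (fun j => X j) (fun l => Λ * w l)
    have e : ∑ j, ∑ l, J l j * (X j * (Λ * w l)) = Λ * ∑ j, X j ^ 2 := by
      rw [Finset.mul_sum]
      refine Finset.sum_congr rfl fun j _ => ?_
      rw [sq, show Λ * (X j * X j) = (Λ * X j) * ∑ l, J l j * w l by ring, Finset.mul_sum]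
      exact Finset.sum_congr rfl fun l _ => by ring
    have e2 : ∑ l, (Λ * w l) ^ 2 = Λ ^ 2 * ∑ l, w l ^ 2 := by
      rw [Finset.mul_sum]; exact Finset.sum_congr rfl fun l _ => by ring
    rw [e, e2] at h
    have h0 : 0 ≤ ∑ j, X j ^ 2 + Λ ^ 2 * ∑ l, w l ^ 2 := by positivity
    have h2 : Λ * ∑ j, X j ^ 2 ≤ Λ * (Λ ^ 2 * ∑ l, w l ^ 2) := by
      linarith [mul_le_mul_of_nonneg_right hL h0]
    exact le_of_mul_le_mul_left h2 (by linarith)
  set e := fun j => ∑ l, v l * (dd j (ksi J Ψ θ l) y - J l j * dksi J Ψ θ l y)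
  have he : ∑ j, e j ^ 2 ≤ 4 * M ^ 2 * Λ ^ 2 * S := by
    have hcol : ∀ j, ∑ l, J l j ^ 2 ≤ Λ := fun j =>
      (le_of_eq (Finset.sum_congr rfl fun l _ => by rw [hJ.symm l j])).trans ((hJ.row2 j).trans hL)
    have hej : ∀ j, e j ^ 2 ≤ 4 * M ^ 2 * Λ * ∑ l, J l j ^ 2 * v l ^ 2 := fun j => by
      have h1 : |e j| ≤ 2 * M * ∑ l, J l j ^ 2 * |v l| := by
        rw [Finset.mul_sum]
        refine (Finset.abs_sum_le_sum_abs _ _).trans (Finset.sum_le_sum fun l _ => ?_)
        rw [abs_mul, show 2 * M * (J l j ^ 2 * |v l|) = |v l| * (2 * M * J l j ^ 2) by ring]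
        refine mul_le_mul_of_nonneg_left ((dd_ksi Ψ θ l j y).trans ?_) (abs_nonneg _)
        exact mul_le_mul_of_nonneg_right (by linarith) (sq_nonneg _)
      have h2 := Finset.sum_sq_le_sum_mul_sum_of_sq_le_mul Finset.univ
        (r := fun l => J l j ^ 2 * |v l|) (f := fun l => J l j ^ 2) (g := fun l => J l j ^ 2 * v l ^ 2)
        (fun l _ => sq_nonneg _) (fun l _ => by positivity)
        (fun l _ => le_of_eq (by rw [mul_pow, sq_abs]; ring))
      rw [← sq_abs]
      refine (pow_le_pow_left₀ (abs_nonneg _) h1 2).trans ?_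
      rw [mul_pow, show (2 * M) ^ 2 = 4 * M ^ 2 by ring, mul_assoc (4 * M ^ 2) Λ]
      refine mul_le_mul_of_nonneg_left (h2.trans ?_) (by positivity)
      exact mul_le_mul_of_nonneg_right (hcol j) (Finset.sum_nonneg fun _ _ => by positivity)
    refine (Finset.sum_le_sum fun j _ => hej j).trans ?_
    rw [← Finset.mul_sum, Finset.sum_comm, show 4 * M ^ 2 * Λ ^ 2 * S = 4 * M ^ 2 * Λ * (Λ * S) by ring]
    refine mul_le_mul_of_nonneg_left ?_ (by positivity)
    rw [Finset.mul_sum]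
    refine Finset.sum_le_sum fun l _ => ?_
    rw [← Finset.sum_mul]
    exact mul_le_mul_of_nonneg_right ((hJ.row2 l).trans hL) (sq_nonneg _)
  have hdd : ∀ j, dd j (fun z => ∑ l, v l * ksi J Ψ θ l z) y = X j + e j := fun j => by
    simp only [dd, X, e, w, ← Finset.sum_sub_distrib, Finset.sum_div, ← Finset.sum_add_distrib]
    exact Finset.sum_congr rfl fun l _ => by ring
  calc gam (fun z => ∑ l, v l * ksi J Ψ θ l z) y ≤ ∑ j, (2 * X j ^ 2 + 2 * e j ^ 2) :=
        Finset.sum_le_sum fun j _ => by rw [hdd]; linarith [sq_nonneg (X j - e j), add_sq (X j) (e j), sub_sq (X j) (e j)]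
    _ = 2 * ∑ j, X j ^ 2 + 2 * ∑ j, e j ^ 2 := by rw [Finset.sum_add_distrib, Finset.mul_sum, Finset.mul_sum]
    _ ≤ _ := by
      have : 0 ≤ M ^ 2 * Λ ^ 2 * S := by positivity
      linarith [mul_le_mul_of_nonneg_left hw (sq_nonneg Λ)]

/-- gradient bound for a covariance with a bounded vector field of bounded gradient -/
lemma gam_ccov {L A H E : ℝ} (hJ : Tame J L) {D k : ℕ} (hk : k ≤ D) (hE : (1 + gradC L / n) ^ D ≤ E)
    {f : Fin n → Cfg n → ℝ}
    (hgf : ∀ (v : Fin n → ℝ) y, gam (fun z => ∑ l, v l * f l z) y ≤ A ^ 2 * ∑ l, v l ^ 2)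
    (hf : ∀ y, ∑ l, f l y ^ 2 ≤ n * H ^ 2) (F : Cfg n) :
    gam (ccov J b D k f) F ≤ n * (12 * E * (5 * E * A ^ 2 + H ^ 2)) := by
  set r := 1 + gradC L / (n : ℝ) with hr
  have hr1 : 1 ≤ r := Corr.one_le_base
  have hr0 : 0 ≤ r := zero_le_one.trans hr1
  have hE1 : 1 ≤ E := (one_le_pow₀ hr1).trans hE
  have hE0 : 0 ≤ E := zero_le_one.trans hE1
  have hp : ∀ m, m ≤ D → r ^ m ≤ E := fun m hm => (pow_le_pow_right₀ hr1 hm).trans hE
  have hn : (0 : ℝ) ≤ n := Nat.cast_nonneg n
  have hspin : ∀ y : Cfg n, ∑ i, spin (y i) ^ 2 ≤ (n : ℝ) := fun y => le_of_eq (by simp [sq, spin_mul_self])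
  set φ := fun y => ∑ i, spin (y i) * Kpow J b (D - k) (f i) y
  set ψ := fun y => ∑ i, mean J b k y i * Kpow J b D (f i) y
  have e : ccov J b D k f = fun y => Kpow J b k φ y - ψ y := by
    funext y
    simp only [ccov, φ, ψ, Finset.sum_sub_distrib]
    rw [congrFun (Block.Kpow_sum (J := J) (b := b) k fun i z => spin (z i) * Kpow J b (D - k) (f i) z) y]
  have hA2 : ∀ m, m ≤ D → (Real.sqrt (r ^ m) * A) ^ 2 ≤ E * A ^ 2 := fun m hm => by
    rw [mul_pow, Real.sq_sqrt (pow_nonneg hr0 m)]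
    exact mul_le_mul_of_nonneg_right (hp m hm) (sq_nonneg A)
  set B := 3 * n * (5 * E * A ^ 2 + H ^ 2) with hB
  have hφ : ∀ y, gam φ y ≤ B := fun y => by
    refine (Corr.gam_inner (fun i (z : Cfg n) => spin (z i)) (fun i => Kpow J b (D - k) (f i))
      (Corr.gam_Kpow_lin hJ hgf (D - k)) Corr.gam_lin_spin hspin (Corr.sum_sq_Kpow_le hf (D - k)) y).trans ?_
    have h := hA2 (D - k) (Nat.sub_le _ _)
    rw [hB, one_pow, one_mul, mul_one]
    linarith [mul_le_mul_of_nonneg_right h hn]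
  have hψ : ∀ y, gam ψ y ≤ E * B := fun y => by
    refine (Corr.gam_inner (fun i z => mean J b k z i) (fun i => Kpow J b D (f i))
      (Corr.gam_Kpow_lin hJ hgf D) (fun v z => Corr.gam_mean hJ k v z) (fun z => Corr.sum_sq_mean_le k z)
      (Corr.sum_sq_Kpow_le hf D) y).trans ?_
    rw [hB, Real.sq_sqrt (pow_nonneg hr0 k)]
    have h := hA2 D le_rfl
    have h0 : 0 ≤ E * A ^ 2 * (n : ℝ) := by positivity
    have h1 := mul_le_mul_of_nonneg_right h hn
    have h2 := mul_le_mul_of_nonneg_left hE1 h0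
    have h3 := mul_le_mul_of_nonneg_left (hp k hk) (by positivity : (0 : ℝ) ≤ n * H ^ 2)
    have h4 := mul_le_mul (hA2 D le_rfl) (hp k hk) (pow_nonneg hr0 k) (by positivity)
    have h5 := mul_le_mul_of_nonneg_left h4 hn
    linarith
  have hφ' : gam (Kpow J b k φ) F ≤ E * B :=
    (gam_Kpow_le b hJ hφ k F).trans (mul_le_mul_of_nonneg_right (hp k hk) (by positivity))
  rw [e]
  refine (gam_sub_le _ _ F).trans ?_
  rw [hB] at hφ'
  have h := hψ F
  rw [hB] at h
  linarith

/-- a bounded factor decorrelates from one with a small gradient -/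
lemma cov_le {L A c : ℝ} (hJ : Tame J L) (hn : 0 < n) (u : ℕ) {f g : Cfg n → ℝ}
    (hf : ∀ y, |f y| ≤ c) (hg : ∀ y, gam g y ≤ A) (x : Cfg n) :
    |Kpow J b u (fun y => f y * g y) x - Kpow J b u f x * Kpow J b u g x| ≤
      c * Real.sqrt (4 * u / n * (1 + gradC L / n) ^ u * A) := by
  have h := pex_prod J b hn x (N := u) (F := fun ω => f (st x ω u)) (G := fun ω => g (st x ω u))
    (fun ω => hf _)
  rw [pex_st J b hn (fun y => f y * g y) le_rfl, pex_st J b hn f le_rfl, pex_st J b hn g le_rfl,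
    pex_var J b hn le_rfl] at h
  exact h.trans (mul_le_mul_of_nonneg_left (Real.sqrt_le_sqrt (var_Kpow_le b hJ hg u x))
    ((abs_nonneg _).trans (hf x)))

end BlockMeans

open BlockMeans

/-- the products of overlaps in the value of a period may be replaced by the products of their means -/
theorem blockMeans (L τ M : ℝ) : ∃ Cst, 0 ≤ Cst ∧ ∀ (n : ℕ) (J : Fin n → Fin n → ℝ) (b : Fin n → ℝ)
    (Ψ : Kern) (θ : Fin n → Fin 3 → ℝ) (β : ℝ) (P D u : ℕ) (x : Cfg n), 0 < n → Tame J L → Ψ.M ≤ M →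
      (D : ℝ) ≤ τ * n → (u : ℝ) ≤ τ * n →
        |Kpow J b u (periodValue (blockSched P D) J (kernTest Ψ θ) b β) x - blockVal J b Ψ θ β D u x| ≤
          Cst * β ^ 2 * Real.sqrt n := by
  set M' := max M 0
  set τ' := max τ 0
  set E := Real.exp (gradC L * τ')
  set A := 12 * E * (5 * E * (4 * max L 1 * M') ^ 2 + M' ^ 2) + 12 * E * (5 * E + 1) with hA
  set Q := Real.sqrt (4 * τ' * E * A) with hQ
  have hM' : 0 ≤ M' := le_max_right _ _
  have hτ' : 0 ≤ τ' := le_max_right _ _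
  have hE : 0 < E := Real.exp_pos _
  have hA0 : 0 ≤ A := by positivity
  refine ⟨2 * (M' + τ' * (M' + 1)) * Q, by positivity, fun n J b Ψ θ β P D u x hn hJ hΨ hD hu => ?_⟩
  have hn' : (0 : ℝ) < n := Nat.cast_pos.2 hn
  have hle : τ * n ≤ τ' * n := mul_le_mul_of_nonneg_right (le_max_left _ _) hn'.le
  have hD' : (D : ℝ) ≤ τ' * n := hD.trans hle
  have hu' : (u : ℝ) ≤ τ' * n := hu.trans hle
  have hpow : ∀ m : ℕ, (m : ℝ) ≤ τ' * n → (1 + gradC L / n) ^ m ≤ E := fun m hm => by
    have h1 : 1 + gradC L / (n : ℝ) ≤ Real.exp (gradC L / n) := by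
      rw [add_comm]; exact Real.add_one_le_exp _
    refine (pow_le_pow_left₀ (zero_le_one.trans Corr.one_le_base) h1 m).trans ?_
    rw [← Real.exp_nat_mul]
    refine Real.exp_le_exp.2 ?_
    rw [← mul_div_assoc, div_le_iff₀ hn']
    calc (m : ℝ) * gradC L ≤ τ' * n * gradC L := mul_le_mul_of_nonneg_right hm (gradC_nonneg L)
      _ = _ := by ring
  have hksi : ∀ i y, |ksi J Ψ θ i y| ≤ M' := fun i y => ((Ψ.bdd _ _).1).trans (hΨ.trans (le_max_left _ _))
  have hspin : ∀ i (y : Cfg n), |spin (y i)| ≤ 1 := fun i y => by cases y i <;> simp [spin]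
  have hB : ∀ F, |∑ i, Kpow J b D (dksi J Ψ θ i) F| ≤ M' * n := fun F => by
    refine (Finset.abs_sum_le_sum_abs _ _).trans ((Finset.sum_le_card_nsmul _ _ M' fun i _ =>
      abs_Kpow_le (fun y => ((Ψ.bdd _ _).2).trans (hΨ.trans (le_max_left _ _))) D F).trans_eq ?_)
    simp [mul_comm]
  have hgs : ∀ k, k ≤ D → ∀ F, gam (ccov J b D k fun i y => spin (y i)) F ≤ n * A := fun k hk F => by
    refine (gam_ccov hJ hk (hpow D hD') (A := 1) (H := 1) Corr.gam_lin_spin
      (fun y => le_of_eq (by simp [sq, spin_mul_self])) F).trans (mul_le_mul_of_nonneg_left ?_ hn'.le)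
    rw [hA, one_pow, mul_one]
    exact le_add_of_nonneg_left (by positivity)
  have hgk : ∀ k, k ≤ D → ∀ F, gam (ccov J b D k (ksi J Ψ θ)) F ≤ n * A := fun k hk F => by
    refine (gam_ccov hJ hk (hpow D hD') (A := 4 * max L 1 * M') (H := M')
      (gam_ksi hJ Ψ θ (hΨ.trans (le_max_left _ _))) (fun y => ?_) F).trans
      (mul_le_mul_of_nonneg_left ?_ hn'.le)
    · refine (Finset.sum_le_card_nsmul _ _ (M' ^ 2) fun i _ => ?_).trans_eq (by simp)
      rw [← sq_abs]
      exact pow_le_pow_left₀ (abs_nonneg _) (hksi i y) 2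
    · rw [hA]
      exact le_add_of_nonneg_right (by positivity)
  have hcov : ∀ (f g : Cfg n → ℝ) (c : ℝ), 0 ≤ c → (∀ y, |f y| ≤ c) → (∀ y, gam g y ≤ n * A) →
      |Kpow J b u (fun y => f y * g y) x - Kpow J b u f x * Kpow J b u g x| ≤ c * (Q * Real.sqrt n) :=
    fun f g c hc hf hg => by
    refine (cov_le hJ hn u hf hg x).trans (mul_le_mul_of_nonneg_left ?_ hc)
    rw [hQ, ← Real.sqrt_mul (by positivity)]
    refine Real.sqrt_le_sqrt ?_
    rw [show 4 * (u : ℝ) / n * (1 + gradC L / n) ^ u * (n * A) = 4 * (u * (1 + gradC L / n) ^ u) * A by field_simp,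
      show 4 * τ' * E * A * n = 4 * (τ' * n * E) * A by ring]
    exact mul_le_mul_of_nonneg_right (mul_le_mul_of_nonneg_left
      (mul_le_mul hu' (hpow u hu') (pow_nonneg (zero_le_one.trans Corr.one_le_base) _) (by positivity))
      (by norm_num)) hA0
  set S := Q * Real.sqrt n with hS
  set F0 := fun F => ∑ i, (Kpow J b D (fun y => ksi J Ψ θ i y * fld J 0 i y) F
    - Kpow J b D (ksi J Ψ θ i) F * Kpow J b D (fld J 0 i) F)
  set F1 := fun F => ∑ i, Kpow J b D (dksi J Ψ θ i) F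
  set C1 := fun (k : ℕ) => ccov J b D k (fun i (y : Cfg n) => spin (y i))
  set C2 := fun (k : ℕ) => ccov J b D k (ksi J Ψ θ)
  set R1 := fun (k : ℕ) => cresp J b D k (ksi J Ψ θ)
  set R2 := fun (k : ℕ) => cresp J b D k (fun i (y : Cfg n) => spin (y i))
  have hsplit : periodValue (blockSched P D) J (kernTest Ψ θ) b β = fun F => 2 * ((-1) * F0 F
      + β ^ 2 / n * (F1 F * C1 D F) + β ^ 2 / n * ∑ k : Fin D, (R1 k F * C1 k F + R2 k F * C2 k F)) := by
    funext F
    rw [periodValue_eq hn]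
    simp only [F0, F1, C1, C2, R1, R2]
    ring
  have hadd : ∀ f g : Cfg n → ℝ, Kpow J b u (fun y => f y + g y) =
      fun y => Kpow J b u f y + Kpow J b u g y := fun f g => by
    simpa using Block.Kpow_add_mul (J := J) (b := b) u 1 f g
  have hb : blockVal J b Ψ θ β D u x = 2 * (-(Kpow J b u F0 x)
      + β ^ 2 / n * Kpow J b u F1 x * Kpow J b u (C1 D) x + β ^ 2 / n * ∑ k : Fin D,
        (Kpow J b u (R1 k) x * Kpow J b u (C1 k) x + Kpow J b u (R2 k) x * Kpow J b u (C2 k) x)) := by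
    rw [Fin.sum_univ_eq_sum_range
      (fun k => Kpow J b u (R1 k) x * Kpow J b u (C1 k) x + Kpow J b u (R2 k) x * Kpow J b u (C2 k) x)]
    rfl
  rw [hsplit, hb]
  simp only [Block.Kpow_mul_const, hadd, Block.Kpow_sum]
  set c := β ^ 2 / (n : ℝ)
  have hc : 0 ≤ c := by positivity
  have d1 := hcov F1 (C1 D) _ (by positivity) hB (hgs D le_rfl)
  have d2 : |∑ k : Fin D, (Kpow J b u (fun F => R1 k F * C1 k F) x + Kpow J b u (fun F => R2 k F * C2 k F) x)
      - ∑ k : Fin D, (Kpow J b u (R1 k) x * Kpow J b u (C1 k) x + Kpow J b u (R2 k) x * Kpow J b u (C2 k) x)| ≤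
      τ' * n * ((M' + 1) * S) := by
    rw [← Finset.sum_sub_distrib]
    refine ((Finset.abs_sum_le_sum_abs _ _).trans (Finset.sum_le_card_nsmul _ _ ((M' + 1) * S) fun k _ => ?_)).trans ?_
    · have a := hcov (R1 k) (C1 k) M' hM' (fun y => abs_cresp_le D k hM' hksi y) (hgs k k.2.le)
      have b' := hcov (R2 k) (C2 k) 1 zero_le_one (fun y => abs_cresp_le D k zero_le_one hspin y) (hgk k k.2.le)
      rw [add_sub_add_comm]
      exact (abs_add_le _ _).trans ((add_le_add a b').trans_eq (by ring))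
    · simp only [Finset.card_univ, Fintype.card_fin, nsmul_eq_mul]
      exact mul_le_mul_of_nonneg_right hD' (by positivity)
  set X1 := Kpow J b u (fun F => F1 F * C1 D F) x
  set X2 := ∑ k : Fin D, (Kpow J b u (fun F => R1 k F * C1 k F) x + Kpow J b u (fun F => R2 k F * C2 k F) x)
  set Y1 := Kpow J b u F1 x * Kpow J b u (C1 D) x
  set Y2 := ∑ k : Fin D, (Kpow J b u (R1 k) x * Kpow J b u (C1 k) x + Kpow J b u (R2 k) x * Kpow J b u (C2 k) x)
  rw [show 2 * (-1 * Kpow J b u F0 x + c * X1 + c * X2) - 2 * (-Kpow J b u F0 x + c * Kpow J b u F1 x * Kpow J b u (C1 D) x + c * Y2)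
    = 2 * c * ((X1 - Y1) + (X2 - Y2)) by simp only [Y1]; ring, abs_mul, abs_of_nonneg (by positivity : 0 ≤ 2 * c)]
  refine (mul_le_mul_of_nonneg_left ((abs_add_le _ _).trans (add_le_add d1 d2)) (by positivity)).trans (le_of_eq ?_)
  simp only [c, hS]
  field_simp

end Vale.Agent.P150.PA
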