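import Vale.Agent.P150.PA.BlockTools

/-! The correlation sequences of one period: their steps are the responses up to the Dirichlet form,
and the spin correlations follow the lagged overlaps seen from a later time. -/

namespace Vale.Agent.P150.PA.BlockEval

open Ising LegVar

variable {n : ℕ} {J : Fin n → Fin n → ℝ} {b : Fin n → ℝ} {L τ W : ℝ}

/-- correlation of the spins at attempt `k` and a family at attempt `D`, after a start of `u` attempts -/
noncomputable def seqA (J : Fin n → Fin n → ℝ) (b : Fin n → ℝ) (D u : ℕ) (f : Fin n → Cfg n → ℝ) (x : Cfg n)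
    (k : ℕ) : ℝ :=
  Kpow J b (u + k) (fun z => ∑ i, spin (z i) * Kpow J b (D - k) (f i) z) x / n

/-- the same correlation of the conditional means given the start -/
noncomputable def seqa (J : Fin n → Fin n → ℝ) (b : Fin n → ℝ) (D u : ℕ) (f : Fin n → Cfg n → ℝ) (x : Cfg n)
    (k : ℕ) : ℝ :=
  Kpow J b u (fun F => ∑ i, mean J b k F i * Kpow J b D (f i) F) x / n

lemma abs_mag_le (i : Fin n) (z : Cfg n) : |mag J b i z| ≤ 1 := (tanh_abs_lt _).le

lemma abs_mean_le (hn : 0 < n) (k : ℕ) (z : Cfg n) (i : Fin n) : |mean J b k z i| ≤ 1 :=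
  abs_Kpow_le b hn (fun y => abs_spin_le (y i)) k z

lemma abs_sum_fin_le {φ : Fin n → ℝ} {C : ℝ} (h : ∀ i, |φ i| ≤ C) : |∑ i, φ i| ≤ n * C :=
  (Finset.abs_sum_le_sum_abs _ _).trans ((Finset.sum_le_card_nsmul _ _ C fun i _ => h i).trans_eq (by simp))

lemma abs_qb_le {g : Cfg n → ℝ} (hg : ∀ z, |g z| ≤ W) (i : Fin n) (z : Cfg n) : |qb b J i g z| ≤ W := by
  rw [abs_le]
  exact ⟨(qb_const b (-W) i z).symm.le.trans (qb_mono b (fun y => (abs_le.1 (hg y)).1) i z),
    (qb_mono b (fun y => (abs_le.1 (hg y)).2) i z).trans_eq (qb_const b W i z)⟩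

lemma abs_dd_le {g : Cfg n → ℝ} (hg : ∀ z, |g z| ≤ W) (i : Fin n) (z : Cfg n) : |dd i g z| ≤ W := by
  have h1 := abs_le.1 (hg (Function.update z i true))
  have h2 := abs_le.1 (hg (Function.update z i false))
  rw [dd, abs_le]
  constructor <;> linarith [h1.1, h1.2, h2.1, h2.2]

lemma K_spin_mul (g : Cfg n → ℝ) (i : Fin n) (y : Cfg n) :
    K J b (fun z => spin (z i) * g z) y - spin (y i) * K J b g y =
      ((1 - mag J b i y ^ 2) * dd i g y - (spin (y i) - mag J b i y) * qb b J i g y) / n := by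
  have e : ∀ j, qb b J j (fun z => spin (z i) * g z) y - spin (y i) * qb b J j g y =
      if j = i then (1 - mag J b i y ^ 2) * dd i g y - (spin (y i) - mag J b i y) * qb b J i g y else 0 := by
    intro j
    by_cases h : j = i
    · subst h
      rw [if_pos rfl, qb_eq, qb_eq, dd]
      simp only [Function.update_self, spin, if_true, Bool.false_eq_true, if_false]
      ring
    · rw [if_neg h, qb_eq, qb_eq]
      simp only [Function.update_of_ne (Ne.symm h)]
      ring
  simp only [K]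
  rw [← mul_div_assoc, ← sub_div, Finset.mul_sum, ← Finset.sum_sub_distrib,
    Finset.sum_congr rfl fun j _ => e j]
  simp

lemma abs_step_le {g : Cfg n → ℝ} (hg : ∀ z, |g z| ≤ W) (i : Fin n) (y : Cfg n) :
    |K J b (fun z => spin (z i) * g z) y - spin (y i) * K J b g y| ≤ 3 * W / n := by
  rw [K_spin_mul, abs_div, Nat.abs_cast]
  refine div_le_div_of_nonneg_right ((abs_sub _ _).trans ?_) (Nat.cast_nonneg n)
  have hW : 0 ≤ W := (abs_nonneg _).trans (hg y)
  have h1 : |(1 - mag J b i y ^ 2) * dd i g y| ≤ 1 * W := by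
    rw [abs_mul, abs_of_nonneg (mag_sq J b i y).1]
    exact mul_le_mul (mag_sq J b i y).2 (abs_dd_le hg i y) (abs_nonneg _) zero_le_one
  have h2 : |(spin (y i) - mag J b i y) * qb b J i g y| ≤ 2 * W := by
    rw [abs_mul]
    exact mul_le_mul ((abs_sub _ _).trans (by linarith [abs_spin_le (y i), abs_mag_le (J := J) (b := b) i y]))
      (abs_qb_le hg i y) (abs_nonneg _) (by norm_num)
  linarith

lemma abs_mean_step (hn : 0 < n) (k : ℕ) (z : Cfg n) (i : Fin n) :
    |mean J b (k + 1) z i - mean J b k z i| ≤ 2 / n := by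
  rw [mean, mean, Block.Kpow_comm]
  refine Kpow_close b hn (fun y => ?_) k z
  have h := K_spin_mul (J := J) (b := b) (fun _ => (1 : ℝ)) i y
  simp only [mul_one, K, qb_eq, dd, sub_self, zero_div, mul_zero] at h
  have e : (∑ j, qb b J j (fun w => spin (w i)) y) / (n : ℝ) - spin (y i) = (mag J b i y - spin (y i)) / n := by
    simp only [qb_eq]
    have hone : (∑ x : Fin n, ((1 + mag J b x y) + (1 - mag J b x y)) / 2) / (n : ℝ) = 1 := by
      simp [add_add_sub_cancel, hn.ne']
    rw [hone, mul_one] at h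
    refine h.trans ?_
    ring
  rw [K, e, abs_div, Nat.abs_cast]
  exact div_le_div_of_nonneg_right ((abs_sub _ _).trans
    (by linarith [abs_spin_le (y i), abs_mag_le (J := J) (b := b) i y])) (Nat.cast_nonneg n)

variable {f : Fin n → Cfg n → ℝ} {D u : ℕ} {x : Cfg n}

lemma abs_seqA_le (hn : 0 < n) (hf : ∀ i z, |f i z| ≤ W) (k : ℕ) : |seqA J b D u f x k| ≤ W := by
  have hn' : (0 : ℝ) < n := Nat.cast_pos.2 hn
  rw [seqA, abs_div, Nat.abs_cast, div_le_iff₀ hn', mul_comm W]
  refine abs_Kpow_le b hn (fun z => abs_sum_fin_le fun i => ?_) _ _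
  rw [abs_mul]
  exact (mul_le_of_le_one_left (abs_nonneg _) (abs_spin_le _)).trans (abs_Kpow_le b hn (hf i) _ z)

lemma abs_seqa_le (hn : 0 < n) (hf : ∀ i z, |f i z| ≤ W) (k : ℕ) : |seqa J b D u f x k| ≤ W := by
  have hn' : (0 : ℝ) < n := Nat.cast_pos.2 hn
  rw [seqa, abs_div, Nat.abs_cast, div_le_iff₀ hn', mul_comm W]
  refine abs_Kpow_le b hn (fun z => abs_sum_fin_le fun i => ?_) _ _
  rw [abs_mul]
  exact (mul_le_of_le_one_left (abs_nonneg _) (abs_mean_le hn k z i)).trans (abs_Kpow_le b hn (hf i) _ z)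

lemma seqA_step (k : ℕ) (hk : k < D) :
    seqA J b D u f x (k + 1) - seqA J b D u f x k = Kpow J b (u + k) (fun y => ∑ i,
      (K J b (fun z => spin (z i) * Kpow J b (D - k - 1) (f i) z) y
        - spin (y i) * K J b (Kpow J b (D - k - 1) (f i)) y)) x / n := by
  rw [seqA, seqA, ← sub_div, show u + (k + 1) = u + k + 1 by omega, Block.Kpow_comm, ← Kpow_sub_fun,
    show D - k = D - k - 1 + 1 by omega, show D - (k + 1) = D - k - 1 by omega]
  congr 2
  funext y
  simp only [Pair.Kpow_succ, Finset.sum_sub_distrib]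
  rw [Block.K_sum]
  rfl

lemma abs_seqA_step (hn : 0 < n) (hf : ∀ i z, |f i z| ≤ W) {k : ℕ} (hk : k < D) :
    |seqA J b D u f x (k + 1) - seqA J b D u f x k| ≤ 3 * W / n := by
  have hn' : (0 : ℝ) < n := Nat.cast_pos.2 hn
  rw [seqA_step k hk, abs_div, Nat.abs_cast, div_le_iff₀ hn', mul_comm (3 * W / n) (n : ℝ)]
  exact abs_Kpow_le b hn (fun y => abs_sum_fin_le fun i => abs_step_le (abs_Kpow_le b hn (hf i) _) i y) _ _

lemma abs_seqa_step (hn : 0 < n) (hf : ∀ i z, |f i z| ≤ W) (k : ℕ) :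
    |seqa J b D u f x (k + 1) - seqa J b D u f x k| ≤ 2 * W / n := by
  have hn' : (0 : ℝ) < n := Nat.cast_pos.2 hn
  rw [seqa, seqa, ← sub_div, abs_div, Nat.abs_cast, div_le_iff₀ hn', ← Kpow_sub_fun,
    mul_comm (2 * W / n) (n : ℝ)]
  refine abs_Kpow_le b hn (fun y => ?_) _ _
  rw [← Finset.sum_sub_distrib]
  refine abs_sum_fin_le fun i => ?_
  rw [← sub_mul, abs_mul, mul_div_right_comm]
  exact mul_le_mul (abs_mean_step hn k y i) (abs_Kpow_le b hn (hf i) _ y) (abs_nonneg _) (by positivity)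

lemma Kpow_ccov (hn : 0 < n) {k : ℕ} :
    Kpow J b u (ccov J b D k f) x = n * (seqA J b D u f x k - seqa J b D u f x k) := by
  have hn' : (n : ℝ) ≠ 0 := Nat.cast_ne_zero.2 hn.ne'
  rw [seqA, seqa, ← sub_div, mul_div_cancel₀ _ hn', Kpow_add', ← Kpow_sub_fun]
  congr 1
  funext F
  rw [ccov, Finset.sum_sub_distrib, sum_Kpow]

/-- the steps of the correlation are the responses -/
lemma step_resp (hJ : Tame J L) (hn : 0 < n) (hf : ∀ i z, |f i z| ≤ W) {k : ℕ} (hk : k < D) :
    |seqA J b D u f x (k + 1) - seqA J b D u f x k - Kpow J b u (cresp J b D k f) x / n|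
      ≤ 4 * W * estat J b (u + k) x / n := by
  have hn' : (0 : ℝ) < n := Nat.cast_pos.2 hn
  set g := fun i => Kpow J b (D - k - 1) (f i)
  have e2 : Kpow J b u (cresp J b D k f) x =
      Kpow J b (u + k) (fun y => ∑ i, (1 - mag J b i y ^ 2) * dd i (g i) y / n) x := by
    rw [Kpow_add']
    congr 1
    funext F
    rw [sum_Kpow]
    rfl
  rw [seqA_step k hk, e2, ← sub_div, ← Kpow_sub_fun, abs_div, Nat.abs_cast]
  refine div_le_div_of_nonneg_right ?_ hn'.le
  have e : (fun y => (∑ i, (K J b (fun z => spin (z i) * g i z) y - spin (y i) * K J b (g i) y))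
      - ∑ i, (1 - mag J b i y ^ 2) * dd i (g i) y / n) =
      fun y => (-(1 / (n : ℝ))) * ∑ i, (spin (y i) - mag J b i y) * qb b J i (g i) y := by
    funext y
    rw [← Finset.sum_sub_distrib, Finset.mul_sum]
    refine Finset.sum_congr rfl fun i _ => ?_
    rw [K_spin_mul]
    ring
  rw [e, Kpow_smul, abs_mul, abs_neg, abs_div, abs_one, Nat.abs_cast, one_div_mul_eq_div, div_le_iff₀ hn']
  refine (pair_spin hJ hn (fun i y c => qb_update b hJ.diag i (g i) y c)
    (fun i y => abs_qb_le (abs_Kpow_le b hn (hf i) _) i y) (u + k) x).trans (le_of_eq ?_)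
  ring

/-- constant of the gradient of an inner product of means -/
noncomputable def ovA (L τ : ℝ) : ℝ := 3 * (2 * G L τ + 4 * G L τ ^ 2)

/-- constant of `corr_lag` -/
noncomputable def corC (L τ : ℝ) : ℝ := 40 * τ * G L (2 * τ) + mvC L τ (ovA L τ)

lemma corC_nonneg (hτ : 0 ≤ τ) : 0 ≤ corC L τ := by
  have := mvC_nonneg (L := L) hτ (ovA L τ)
  have := G_pos (L := L) (τ := 2 * τ)
  unfold corC; positivity

lemma gam_means (hJ : Tame J L) (hn : 0 < n) {a c : ℕ} (ha : (a : ℝ) ≤ τ * n) (hc : (c : ℝ) ≤ τ * n) (y : Cfg n) :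
    gam (fun z => ∑ i, mean J b a z i * mean J b c z i) y ≤ ovA L τ * n := by
  refine ((VB.kpow vb_spin hJ hn b ha).gam_dot (VB.kpow vb_spin hJ hn b hc) y).trans (le_of_eq ?_)
  rw [ovA]; ring

/-- correlations of means follow the overlap at half their total lag seen from a later time -/
theorem corr_lag (hJ : Tame J L) (hn : 0 < n) {h a c : ℕ} (hh : (h : ℝ) ≤ τ * n) (ha : a ≤ h) (hc : c ≤ h) :
    |Kpow J b u (fun F => ∑ i, mean J b a F i * mean J b c F i) x / n - qlag J b (u + h) ((a + c) / 2) x|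
      ≤ corC L τ * estat J b u x + 2 / n := by
  have hn' : (0 : ℝ) < n := Nat.cast_pos.2 hn
  have hτ : 0 ≤ τ := nonneg_of_mul_nonneg_left ((Nat.cast_nonneg h).trans hh) hn'
  set j := (a + c) / 2 with hj
  have hjh : j ≤ h := by omega
  have hd0 := fun y => dens_nonneg (J := J) (b := b) u x y
  have hd1 := dens_mean (b := b) hJ hn u x
  have h1 := Cor2_near (b := b) hJ hd0 hd1 (a := a) (c := c) (M := a + c) (L := L) le_rfl
  have h2 := Cor2_near (b := b) hJ hd0 hd1 (a := j) (c := j) (M := a + c) (L := L) (by omega)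
  have h3 : |Cor J b (dens J b u x) (a + c) - Cor J b (dens J b u x) (j + j)| ≤ 2 / n := by
    rcases (show a + c = j + j ∨ a + c = j + j + 1 by omega) with e | e <;> rw [e]
    · rw [sub_self, abs_zero]; positivity
    · exact Cor_step hn hd0 hd1 (j + j)
  have hov : ∀ p q, Cor2 J b (dens J b u x) p q =
      Kpow J b u (fun F => ∑ i, mean J b p F i * mean J b q F i) x / n := fun p q => by
    rw [Cor2, ← Kpow_eq_Ef hJ, div_eq_inv_mul, ← Kpow_smul]
    congr 1; funext F
    rw [ov, div_eq_inv_mul]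
  have h4 : |Kpow J b u (fun F => ∑ i, mean J b j F i * mean J b j F i) x / n - qlag J b (u + h) j x|
      ≤ mvC L τ (ovA L τ) * estat J b u x := by
    have hq : qlag J b (u + h) j x =
        Kpow J b (u + (h - j)) (fun F => ∑ i, mean J b j F i * mean J b j F i) x / n := by
      rw [qlag, show u + h - j = u + (h - j) by omega, div_eq_inv_mul _ (n : ℝ), ← Kpow_smul]
      congr 1; funext F
      rw [qmean, div_eq_inv_mul]
      simp only [pow_two]
    have hjτ : (j : ℝ) ≤ τ * n := (Nat.cast_le.2 hjh).trans hh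
    have hm := move (b := b) hJ hn (fun y => gam_means (b := b) hJ hn hjτ hjτ y) u (k := 0) (Nat.zero_le (h - j))
      ((Nat.cast_le.2 (Nat.sub_le h j)).trans hh) x
    rw [hq, ← sub_div, abs_div, Nat.abs_cast, div_le_iff₀ hn']
    exact hm.trans (le_of_eq (by ring))
  have hE : ∀ p : ℕ, p ≤ h → (p : ℝ) * corErr J b (dens J b u x) L (a + c) ≤ 20 * τ * G L (2 * τ) * estat J b u x := by
    intro p hp
    rw [corErr, sqrt_dir_eq hn]
    have hp' : (p : ℝ) / n ≤ τ := (div_le_iff₀ hn').2 ((Nat.cast_le.2 hp).trans hh)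
    have hG : (1 + gradC L / n) ^ (a + c) ≤ G L (2 * τ) := pow_le_G hn (by
      push_cast
      linarith [show (a : ℝ) ≤ τ * n from (Nat.cast_le.2 ha).trans hh,
        show (c : ℝ) ≤ τ * n from (Nat.cast_le.2 hc).trans hh])
    have e : ∀ r : ℝ, (p : ℝ) * (20 * Real.sqrt n / (n : ℝ) ^ 2 * (Real.sqrt n * estat J b u x) * r)
        = 20 * ((p : ℝ) / n) * r * estat J b u x := fun r => by
      calc _ = (p : ℝ) * 20 / (n : ℝ) ^ 2 * (Real.sqrt n * Real.sqrt n) * r * estat J b u x := by ring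
        _ = _ := by rw [Real.mul_self_sqrt hn'.le]; field_simp
    rw [e]
    exact mul_le_mul_of_nonneg_right (mul_le_mul (mul_le_mul_of_nonneg_left hp' (by norm_num)) hG
      (pow_nonneg (zero_le_one.trans Corr.one_le_base) _) (by linarith)) (estat_nonneg u x)
  rw [hov] at h1 h2
  rw [abs_le] at h1 h2 h3 h4 ⊢
  rw [corC]
  constructor <;> linarith [h1.1, h1.2, h2.1, h2.2, h3.1, h3.2, h4.1, h4.2, hE a ha, hE j hjh]

end Vale.Agent.P150.PA.BlockEval
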