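import Vale.Agent.P150.PA.BlockVal
import Vale.Agent.P150.PA.BlockDrop
import Vale.Agent.P150.PA.LegVar

/-! Stationarity along the law of the chain from a start: moving an observable in time and trading a
spin against its conditional mean cost the root of the Dirichlet form of the root density. -/

namespace Vale.Agent.P150.PA.BlockEval

open Ising LegVar

variable {n : ℕ} {J : Fin n → Fin n → ℝ} {b : Fin n → ℝ} {L τ : ℝ}

/-- density of the law after `u` attempts from `x` -/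
noncomputable def dens (J : Fin n → Fin n → ℝ) (b : Fin n → ℝ) (u : ℕ) (x : Cfg n) : Cfg n → ℝ :=
  Kpow J b u (Pi.single x (wt J b x)⁻¹)

/-- root of the Dirichlet form of the root density, per root of `n` -/
noncomputable def estat (J : Fin n → Fin n → ℝ) (b : Fin n → ℝ) (u : ℕ) (x : Cfg n) : ℝ :=
  Real.sqrt (dir J b fun y => Real.sqrt (dens J b u x y)) / Real.sqrt n

lemma estat_nonneg (u : ℕ) (x : Cfg n) : 0 ≤ estat J b u x := by unfold estat; positivity

lemma sqrt_dir_eq (hn : 0 < n) (u : ℕ) (x : Cfg n) :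
    Real.sqrt (dir J b fun y => Real.sqrt (dens J b u x y)) = Real.sqrt n * estat J b u x := by
  rw [estat]; field_simp

lemma dens_nonneg (u : ℕ) (x y : Cfg n) : 0 ≤ dens J b u x y := by
  refine Pair.Kpow_nonneg (fun z => ?_) u y
  by_cases h : z = x
  · subst h; rw [Pi.single_eq_same]; exact (inv_pos.2 (wt_pos J b _)).le
  · rw [Pi.single_eq_of_ne h]

lemma dens_mean (hJ : Tame J L) (hn : 0 < n) (u : ℕ) (x : Cfg n) : ∑ y, wt J b y * dens J b u x y = 1 := by
  rw [dens, Pair.avg_Kpow hJ.symm hJ.diag hn,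
    Finset.sum_eq_single x (fun y _ hy => by simp [hy]) (by simp), Pi.single_eq_same,
    mul_inv_cancel₀ (wt_pos J b x).ne']

lemma Kpow_eq_Ef (hJ : Tame J L) (u : ℕ) (φ : Cfg n → ℝ) (x : Cfg n) :
    Kpow J b u φ x = Ef J b (dens J b u x) φ := start_density hJ.symm hJ.diag u φ x

lemma Kpow_add' (s k : ℕ) (φ : Cfg n → ℝ) (x : Cfg n) :
    Kpow J b (s + k) φ x = Kpow J b s (Kpow J b k φ) x :=
  congrFun (Function.iterate_add_apply (K J b) s k φ) x

lemma Kpow_const (hn : 0 < n) (k : ℕ) (c : ℝ) (x : Cfg n) : Kpow J b k (fun _ => c) x = c := by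
  have hc : K J b (fun _ => c) = fun _ => c := funext fun z => by
    simp only [K, qb_const, Finset.sum_const, Finset.card_univ, Fintype.card_fin, nsmul_eq_mul]
    field_simp
  exact congrFun (Function.iterate_fixed hc k) x

lemma Kpow_wsum {m : ℕ} (v : Fin m → ℝ) (φ : Fin m → Cfg n → ℝ) (k : ℕ) (x : Cfg n) :
    Kpow J b k (fun z => ∑ i, v i * φ i z) x = ∑ i, v i * Kpow J b k (φ i) x :=
  congrFun (Corr.Kpow_lin v φ k) x

lemma sum_Kpow (k : ℕ) (φ : Fin n → Cfg n → ℝ) (x : Cfg n) :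
    Kpow J b k (fun z => ∑ i, φ i z) x = ∑ i, Kpow J b k (φ i) x :=
  congrFun (Block.Kpow_sum k φ) x

lemma Kpow_add_fun (k : ℕ) (φ χ : Cfg n → ℝ) (x : Cfg n) :
    Kpow J b k (fun z => φ z + χ z) x = Kpow J b k φ x + Kpow J b k χ x := by
  simpa using congrFun (Block.Kpow_add_mul (J := J) (b := b) k 1 φ χ) x

lemma Kpow_sub_fun (k : ℕ) (φ χ : Cfg n → ℝ) (x : Cfg n) :
    Kpow J b k (fun z => φ z - χ z) x = Kpow J b k φ x - Kpow J b k χ x :=
  congrFun (Block.Kpow_sub k φ χ) x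

lemma Kpow_smul (k : ℕ) (c : ℝ) (φ : Cfg n → ℝ) (x : Cfg n) :
    Kpow J b k (fun z => c * φ z) x = c * Kpow J b k φ x :=
  congrFun (Block.Kpow_mul_const k c φ) x

/-- constant of `move` -/
noncomputable def mvC (L τ a : ℝ) : ℝ := 4 * τ * Real.sqrt (G L τ * a)

lemma mvC_nonneg (hτ : 0 ≤ τ) (a : ℝ) : 0 ≤ mvC L τ a := by unfold mvC; positivity

/-- an observable with gradient `O(√n)` moves in time at the cost of the Dirichlet form -/
theorem move (hJ : Tame J L) (hn : 0 < n) {φ : Cfg n → ℝ} {a : ℝ} (hφ : ∀ y, gam φ y ≤ a * n) (s : ℕ)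
    {k l : ℕ} (hkl : k ≤ l) (hl : (l : ℝ) ≤ τ * n) (x : Cfg n) :
    |Kpow J b (s + k) φ x - Kpow J b (s + l) φ x| ≤ mvC L τ a * (n * estat J b s x) := by
  have hn' : (0 : ℝ) < n := Nat.cast_pos.2 hn
  have h := stat_iter (b := b) hJ.symm hJ.diag hn (fun y => dens_nonneg (J := J) (b := b) s x y)
    (dens_mean hJ hn s x) (Kpow J b k φ) (k := l - k) (A := G L τ * (a * n)) fun i hi y => by
      rw [show Kpow J b i (Kpow J b k φ) = Kpow J b (i + k) φ from
        funext fun z => (Kpow_add' i k φ z).symm]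
      exact gam_Kpow_G b hJ hn ((Nat.cast_le.2 (by omega : i + k ≤ l)).trans hl) hφ y
  have e : ∑ y, wt J b y * (dens J b s x y * (Kpow J b (l - k) (Kpow J b k φ) y - Kpow J b k φ y)) =
      Kpow J b (s + l) φ x - Kpow J b (s + k) φ x := by
    rw [show Kpow J b (l - k) (Kpow J b k φ) = Kpow J b l φ from
      funext fun z => by rw [← Kpow_add', Nat.sub_add_cancel hkl],
      Kpow_add' s l, Kpow_add' s k, Kpow_eq_Ef hJ, Kpow_eq_Ef hJ, Corr.Ef_sub]
    rfl
  rw [e, sqrt_dir_eq hn, abs_sub_comm] at h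
  refine h.trans ?_
  rw [← mul_assoc (G L τ), Real.sqrt_mul' _ hn'.le, mvC]
  have h1 : 4 * ((l - k : ℕ) : ℝ) / n ≤ 4 * τ := by
    rw [div_le_iff₀ hn']
    linarith [show ((l - k : ℕ) : ℝ) ≤ τ * n from (Nat.cast_le.2 (Nat.sub_le l k)).trans hl]
  calc _ = 4 * ((l - k : ℕ) : ℝ) / n * (Real.sqrt (G L τ * a) * (n * estat J b s x)) := by
        linear_combination (4 * ((l - k : ℕ) : ℝ) / n * Real.sqrt (G L τ * a) * estat J b s x)
          * Real.mul_self_sqrt hn'.le
    _ ≤ 4 * τ * (Real.sqrt (G L τ * a) * (n * estat J b s x)) :=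
        mul_le_mul_of_nonneg_right h1 (by have := estat_nonneg (J := J) (b := b) s x; positivity)
    _ = _ := by ring

/-- a spin may be traded against its conditional mean -/
theorem pair_spin (hJ : Tame J L) (hn : 0 < n) {Gf : Fin n → Cfg n → ℝ} {M : ℝ}
    (hG : ∀ i x c, Gf i (Function.update x i c) = Gf i x) (hM : ∀ i x, |Gf i x| ≤ M) (s : ℕ) (x : Cfg n) :
    |Kpow J b s (fun y => ∑ i, (spin (y i) - mag J b i y) * Gf i y) x| ≤ 4 * M * (n * estat J b s x) := by
  have hn' : (0 : ℝ) < n := Nat.cast_pos.2 hn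
  have hM0 : 0 ≤ M := (abs_nonneg _).trans (hM ⟨0, hn⟩ x)
  have e : Kpow J b s (fun y => ∑ i, (spin (y i) - mag J b i y) * Gf i y) x =
      ∑ y, wt J b y * ∑ i, (1 - mag J b i y ^ 2) * dd i (dens J b s x) y * Gf i y := by
    rw [Kpow_eq_Ef hJ, Ef]
    simp only [Finset.mul_sum]
    rw [Finset.sum_comm]
    conv_rhs => rw [Finset.sum_comm]
    refine Finset.sum_congr rfl fun i _ => ?_
    have hd : ∀ y, dd i (fun z => spin (z i) * Gf i z) y = Gf i y := fun y => by
      simp only [dd, Function.update_self, hG, spin, if_true, Bool.false_eq_true, if_false]; ring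
    have h := site_mul b hJ.symm hJ.diag i (dens J b s x) fun z => spin (z i) * Gf i z
    simp only [proj, hd] at h
    exact h.trans (Finset.sum_congr rfl fun y _ => by ring)
  rw [e]
  refine (pair hJ.symm hJ.diag (fun y => dens_nonneg (J := J) (b := b) s x y) Gf hG).trans ?_
  rw [sqrt_dir_eq hn]
  have h2 : Real.sqrt (∑ y, wt J b y * (dens J b s x y * ∑ i, Gf i y ^ 2)) ≤ Real.sqrt n * M := by
    rw [← Real.sqrt_sq hM0, ← Real.sqrt_mul hn'.le]
    exact Real.sqrt_le_sqrt ((Corr.Ef_mono (fun y => dens_nonneg (J := J) (b := b) s x y)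
      fun y => sum_sq_le_of_abs fun i => hM i y).trans_eq (Corr.Ef_const (dens_mean hJ hn s x) _))
  refine (mul_le_mul_of_nonneg_left h2 (mul_nonneg (by norm_num)
    (mul_nonneg (Real.sqrt_nonneg _) (estat_nonneg s x)))).trans (le_of_eq ?_)
  linear_combination (4 * M * estat J b s x) * Real.mul_self_sqrt hn'.le

/-- Cauchy-Schwarz for a mean of an inner product -/
lemma Kpow_dot {u d : Cfg n → Fin n → ℝ} {U E : ℝ} (hn : 0 < n) (hu : ∀ y, ∑ i, u y i ^ 2 ≤ U)
    (s : ℕ) (x : Cfg n) (hd : Kpow J b s (fun y => ∑ i, d y i ^ 2) x ≤ E) :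
    |Kpow J b s (fun y => ∑ i, u y i * d y i) x| ≤ Real.sqrt U * Real.sqrt E := by
  refine (Block.Kpow_cauchy s (fun y => Finset.sum_nonneg fun i _ => sq_nonneg (u y i))
    (fun y => Finset.sum_nonneg fun i _ => sq_nonneg (d y i))
    (fun y => Finset.sum_mul_sq_le_sq_mul_sq _ _ _) x).trans ?_
  exact mul_le_mul (Real.sqrt_le_sqrt ((Block.Kpow_mono hu s x).trans_eq (Kpow_const hn s U x)))
    (Real.sqrt_le_sqrt hd) (Real.sqrt_nonneg _) (Real.sqrt_nonneg _)

lemma gam_smul (c : ℝ) (φ : Cfg n → ℝ) (y : Cfg n) : gam (fun z => c * φ z) y = c ^ 2 * gam φ y := by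
  simp only [gam, dd, Finset.mul_sum]
  exact Finset.sum_congr rfl fun i _ => by ring

lemma gam_sub_le (φ χ : Cfg n → ℝ) (y : Cfg n) :
    gam (fun z => φ z - χ z) y ≤ 2 * gam φ y + 2 * gam χ y := by
  simp only [gam, dd, Finset.mul_sum, ← Finset.sum_add_distrib]
  refine Finset.sum_le_sum fun i _ => ?_
  set P := φ (Function.update y i true) - φ (Function.update y i false)
  set Q := χ (Function.update y i true) - χ (Function.update y i false)
  rw [show φ (Function.update y i true) - χ (Function.update y i true) -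
    (φ (Function.update y i false) - χ (Function.update y i false)) = P - Q by simp only [P, Q]; ring]
  linarith [sq_nonneg (P + Q)]

lemma tame_mono {L' : ℝ} (hJ : Tame J L) (h : L ≤ L') : Tame J L' :=
  ⟨hJ.symm, hJ.diag, fun v => (hJ.op v).trans (mul_le_mul_of_nonneg_right h
    (Finset.sum_nonneg fun _ _ => sq_nonneg _)), fun i => (hJ.row2 i).trans h, hJ.small⟩

/-- the couplings act boundedly -/
lemma mulJ_sq (hJ : Tame J L) (v : Fin n → ℝ) :
    ∑ i, (∑ j, J i j * v j) ^ 2 ≤ max L 1 ^ 2 * ∑ j, v j ^ 2 := by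
  set L' := max L 1
  have hL : 0 < L' := zero_lt_one.trans_le (le_max_right _ _)
  set P := fun i => ∑ j, J i j * v j
  have h := bilin_le (tame_mono hJ (le_max_left L 1)) (fun i => P i / L') v
  have e : ∑ i, ∑ j, J j i * (P i / L' * v j) = (∑ i, P i ^ 2) / L' := by
    rw [Finset.sum_div]
    refine Finset.sum_congr rfl fun i _ => ?_
    rw [sq, mul_div_right_comm, Finset.mul_sum]
    exact Finset.sum_congr rfl fun j _ => by rw [hJ.symm j i]; ring
  rw [e, div_le_iff₀ hL] at h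
  simp only [div_pow, ← Finset.sum_div] at h
  have e2 : L' / 2 * ((∑ i, P i ^ 2) / L' ^ 2 + ∑ j, v j ^ 2) * L' =
      ((∑ i, P i ^ 2) + L' ^ 2 * ∑ j, v j ^ 2) / 2 := by field_simp
  show ∑ i, P i ^ 2 ≤ _
  linarith

/-- the local fields as a vector field -/
lemma vb_fld (hJ : Tame J L) :
    VB (fun (z : Cfg n) i => fld J 0 i z) (max L 1 ^ 2) (n * max L 1 ^ 2) where
  nonneg := sq_nonneg _
  gam_le v y := by
    have e : (fun z => ∑ i, v i * fld J 0 i z) = fun z => ∑ j, (∑ i, J j i * v i) * spin (z j) := by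
      funext z
      simp only [fld, Pi.zero_apply, add_zero, Finset.mul_sum, Finset.sum_mul]
      rw [Finset.sum_comm]
      exact Finset.sum_congr rfl fun j _ => Finset.sum_congr rfl fun i _ => by rw [hJ.symm j i]; ring
    rw [e]
    refine (Corr.gam_lin_spin _ y).trans ?_
    rw [one_pow, one_mul]
    exact mulJ_sq hJ v
  sq_le y := by
    refine le_trans (le_of_eq (Finset.sum_congr rfl fun i _ => ?_))
      ((mulJ_sq hJ fun j => spin (y j)).trans (le_of_eq ?_))
    · simp [fld]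
    · simp [sq, spin_mul_self]; ring

/-- the kernel shifted in the field -/
noncomputable def shiftKern (Ψ : Kern) (η : ℝ) : Kern where
  fn p h := Ψ.fn p (h + η)
  dfn p h := Ψ.dfn p (h + η)
  hasDeriv p h := (Ψ.hasDeriv p (h + η)).comp_add_const h η
  M := Ψ.M
  bdd p h := Ψ.bdd p (h + η)
  lip p p' h h' := by
    have h1 := Ψ.lip p p' (h + η) (h' + η)
    rwa [add_sub_add_right_eq_sub] at h1

lemma kern_nonneg (Ψ : Kern) : 0 ≤ Ψ.M := (abs_nonneg _).trans (Ψ.bdd 0 0).1

lemma kern_bdd (Ψ : Kern) (θ : Fin n → Fin 3 → ℝ) {M : ℝ} (hM : Ψ.M ≤ M) : (kernTest Ψ θ).Bdd M where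
  fn_le i h _ _ := ((Ψ.bdd (θ i) h).1).trans hM
  dfn_le i h _ _ := ((Ψ.bdd (θ i) h).2).trans hM
  dfn_lip i h h' _ _ := by
    refine ((Ψ.lip (θ i) (θ i) h h').2).trans ?_
    simp only [sub_self, abs_zero, Finset.sum_const_zero, zero_add]
    exact mul_le_mul_of_nonneg_right hM (abs_nonneg _)
  noise_lip i h u u' _ := by
    simp only [kernTest, sub_self, abs_zero]
    exact mul_nonneg ((kern_nonneg Ψ).trans hM) (abs_nonneg _)
  cont i c := by
    have h1 : Continuous (Ψ.fn (θ i)) := continuous_iff_continuousAt.2 fun h => (Ψ.hasDeriv (θ i) h).continuousAt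
    have h2 : Continuous (Ψ.dfn (θ i)) := (LipschitzWith.of_dist_le_mul (K := Ψ.M.toNNReal) fun h h' => by
      rw [Real.dist_eq, Real.dist_eq, Real.coe_toNNReal _ (kern_nonneg Ψ)]
      simpa using (Ψ.lip (θ i) (θ i) h h').2).continuous
    exact ⟨h1.comp continuous_fst, h2.comp continuous_fst⟩

/-- the kernel at the local fields as a vector field -/
lemma vb_ksi (hJ : Tame J L) (Ψ : Kern) (θ : Fin n → Fin 3 → ℝ) {M : ℝ} (hM : Ψ.M ≤ M) :
    VB (fun (z : Cfg n) i => ksi J Ψ θ i z) (facA M L) (n * facB M ^ 2) :=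
  ((Fac.test hJ (kern_bdd Ψ θ hM)) fun i h c => contDiff_const).vb (fun _ => true) 0

lemma abs_ksi (Ψ : Kern) (θ : Fin n → Fin 3 → ℝ) {M : ℝ} (hM : Ψ.M ≤ M) (i : Fin n) (z : Cfg n) :
    |ksi J Ψ θ i z| ≤ facB M :=
  ((Ψ.bdd _ _).1.trans hM).trans (le_max_left _ _)

lemma abs_dksi (Ψ : Kern) (θ : Fin n → Fin 3 → ℝ) {M : ℝ} (hM : Ψ.M ≤ M) (i : Fin n) (z : Cfg n) :
    |dksi J Ψ θ i z| ≤ facB M :=
  ((Ψ.bdd _ _).2.trans hM).trans (le_max_left _ _)

lemma vb_spin : VB (fun (z : Cfg n) i => spin (z i)) 1 n where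
  nonneg := zero_le_one
  gam_le v y := by simpa using Corr.gam_lin_spin v y
  sq_le y := le_of_eq (by simp [sq, spin_mul_self])

lemma abs_spin_le (c : Bool) : |spin c| ≤ 1 := by cases c <;> simp [spin]

end Vale.Agent.P150.PA.BlockEval
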