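import Vale.Agent.P150.PA.TreeIneq
import Vale.Agent.P150.PA.BlockMeans
import Vale.Agent.P150.PA.AvgDir

/-! Tools for the block identity: continuity of the field identity in its parameters, a grid of
parameters, and integrals over the noise of the observation of the start. -/

open MeasureTheory

namespace Vale.Agent.P150.PA.BlockId

open Ising

variable {n : ℕ} {J : Fin n → Fin n → ℝ} {b : Fin n → ℝ}

/-- Jensen for the square root under a probability measure -/
lemma integral_sqrt_le {α : Type*} [MeasurableSpace α] {μ : Measure α} [IsProbabilityMeasure μ] {f : α → ℝ}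
    (hf : Integrable f μ) (h0 : ∀ a, 0 ≤ f a) :
    Integrable (fun a => Real.sqrt (f a)) μ ∧ ∫ a, Real.sqrt (f a) ∂μ ≤ Real.sqrt (∫ a, f a ∂μ) := by
  have hlin : ∀ a s, 0 < s → Real.sqrt (f a) ≤ f a / (2 * s) + s / 2 := fun a s hs => by
    rw [show f a / (2 * s) + s / 2 = (f a + s ^ 2) / (2 * s) by field_simp, le_div_iff₀ (by linarith)]
    nlinarith [sq_nonneg (Real.sqrt (f a) - s), Real.sq_sqrt (h0 a)]
  have hi : Integrable (fun a => Real.sqrt (f a)) μ :=
    ((hf.div_const 2).add (integrable_const (1 / 2 : ℝ))).mono'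
      (Real.continuous_sqrt.comp_aestronglyMeasurable hf.aestronglyMeasurable)
      (Filter.Eventually.of_forall fun a => by
        rw [Real.norm_eq_abs, abs_of_nonneg (Real.sqrt_nonneg _)]
        simpa using hlin a 1 one_pos)
  refine ⟨hi, ?_⟩
  have key : ∀ s, 0 < s → ∫ a, Real.sqrt (f a) ∂μ ≤ (∫ a, f a ∂μ) / (2 * s) + s / 2 := fun s hs => by
    refine (integral_mono hi ((hf.div_const _).fun_add (integrable_const _)) fun a => hlin a s hs).trans_eq ?_
    rw [integral_add (hf.div_const _) (integrable_const _), integral_div]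
    simp
  rcases (integral_nonneg h0 : 0 ≤ ∫ a, f a ∂μ).eq_or_lt with h | h
  · rw [← h, Real.sqrt_zero]
    refine le_of_forall_pos_le_add fun s hs => ?_
    have := key s hs
    rw [← h, zero_div, zero_add] at this
    linarith
  · have hs := Real.sqrt_pos.2 h
    refine (key _ hs).trans (le_of_eq ?_)
    field_simp
    rw [Real.sq_sqrt h.le]
    ring

/-! ### the parameters -/

/-- a point of the grid of step `δ` on `[-N δ, N δ]` -/
noncomputable def gp (δ : ℝ) (N : ℕ) (k : Fin (2 * N + 1)) : ℝ := (((k : ℕ) : ℝ) - N) * δ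

lemma gp_near {δ : ℝ} (hδ : 0 < δ) {N : ℕ} {s : ℝ} (hs : |s| ≤ N * δ) : ∃ k, |s - gp δ N k| ≤ δ := by
  obtain ⟨hl, hu⟩ := abs_le.1 hs
  have h0 : 0 ≤ (s + N * δ) / δ := div_nonneg (by linarith) hδ.le
  have h1 : (⌊(s + N * δ) / δ⌋₊ : ℝ) ≤ (s + N * δ) / δ := Nat.floor_le h0
  have h2 : (s + N * δ) / δ < ⌊(s + N * δ) / δ⌋₊ + 1 := Nat.lt_floor_add_one _
  rw [le_div_iff₀ hδ] at h1
  rw [div_lt_iff₀ hδ] at h2
  refine ⟨⟨⌊(s + N * δ) / δ⌋₊, Nat.lt_succ_of_le (Nat.floor_le_of_le ?_)⟩, abs_le.2 ⟨?_, ?_⟩⟩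
  · push_cast
    rw [div_le_iff₀ hδ]
    linarith
  · simp only [gp]; linarith
  · simp only [gp]; linarith

lemma kern_continuous (Ψ : Kern) (p : Fin 3 → ℝ) : Continuous (Ψ.fn p) ∧ Continuous (Ψ.dfn p) := by
  have hM : 0 ≤ Ψ.M := (abs_nonneg _).trans (Ψ.bdd p 0).1
  have h := fun a c : ℝ => Ψ.lip p p a c
  simp only [sub_self, abs_zero, Finset.sum_const_zero, zero_add] at h
  constructor
  · exact (LipschitzWith.of_dist_le_mul (K := ⟨Ψ.M, hM⟩) fun a c => by
      simp only [Real.dist_eq]; exact (h a c).1).continuous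
  · exact (LipschitzWith.of_dist_le_mul (K := ⟨Ψ.M, hM⟩) fun a c => by
      simp only [Real.dist_eq]; exact (h a c).2).continuous

lemma kernTest_bdd (Ψ : Kern) (θ : Fin n → Fin 3 → ℝ) {M : ℝ} (hM : Ψ.M ≤ M) : (kernTest Ψ θ).Bdd M := by
  refine Test.Bdd.mono ⟨fun i h u c => (Ψ.bdd _ _).1, fun i h u c => (Ψ.bdd _ _).2, fun i h h' u c => ?_,
    fun i h u u' c => ?_, fun i c => ⟨?_, ?_⟩⟩ hM
  · simpa [kernTest] using (Ψ.lip (θ i) (θ i) h h').2
  · have hM : 0 ≤ Ψ.M := (abs_nonneg _).trans (Ψ.bdd (θ i) h).1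
    simp only [kernTest, sub_self, abs_zero]; positivity
  · exact (kern_continuous Ψ (θ i)).1.comp continuous_fst
  · exact (kern_continuous Ψ (θ i)).2.comp continuous_fst

/-! ### bounds along the chain -/

lemma abs_mean_le (k : ℕ) (x : Cfg n) (i : Fin n) : |mean J b k x i| ≤ 1 :=
  BlockMeans.abs_Kpow_le (fun y => by cases y i <;> simp [spin]) k x

lemma qmean_mem (k : ℕ) (x : Cfg n) : 0 ≤ qmean J b k x ∧ qmean J b k x ≤ 1 := by
  refine ⟨div_nonneg (Finset.sum_nonneg fun i _ => sq_nonneg _) n.cast_nonneg,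
    div_le_one_of_le₀ ?_ n.cast_nonneg⟩
  refine (Finset.sum_le_sum (g := fun _ => (1 : ℝ)) fun i _ => ?_).trans (by simp)
  exact (sq_le_one_iff_abs_le_one _).2 (abs_mean_le k x i)

lemma onsager_mem {β : ℝ} (hβ0 : 0 ≤ β) (hβ : β ≤ 1) (k : ℕ) (x : Cfg n) :
    |onsager β J b k x| ≤ 1 := by
  obtain ⟨h0, h1⟩ := qmean_mem (J := J) (b := b) k x
  rw [onsager, abs_of_nonneg (mul_nonneg (sq_nonneg β) (by linarith))]
  exact mul_le_one₀ (pow_le_one₀ hβ0 hβ) (by linarith) (by linarith)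

lemma abs_defect_le (G W : ℕ) (x : Cfg n) : |defect J b G W x| ≤ 2 := by
  refine BlockAvg.abs_avg_le.trans (BlockAvg.le_const zero_le_two fun v _ => (abs_sub _ _).trans ?_)
  have h1 : |qlag J b v G x| ≤ 1 := BlockMeans.abs_Kpow_le
    (fun y => abs_le.2 ⟨by linarith [(qmean_mem (J := J) (b := b) G y).1], (qmean_mem G y).2⟩) _ x
  have h2 := qmean_mem (J := J) (b := b) v x
  rw [abs_of_nonneg h2.1]
  linarith

lemma defect_nonneg {G W : ℕ} (h : G ≤ W) (x : Cfg n) : 0 ≤ defect J b G W x := by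
  refine BlockAvg.nonneg fun v hv => ?_
  have := qlag_anti (J := J) (b := b) (h.trans (Finset.mem_Ico.1 hv).1) le_rfl x
  rw [qlag_self] at this
  linarith

lemma sum_abs_apply_le (hJ : Tame J 3) {v : Fin n → ℝ} (hv : ∀ i, |v i| ≤ 1) :
    ∑ i, |∑ j, J i j * v j| ≤ 3 * n := by
  set p : Fin n → ℝ := fun i => if 0 ≤ ∑ j, J i j * v j then 1 else -1
  have hp : ∀ i, p i ^ 2 = 1 := fun i => by simp only [p]; split_ifs <;> norm_num
  have e : ∀ i, |∑ j, J i j * v j| = ∑ j, J j i * (p i * v j) := fun i => by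
    rw [Finset.sum_congr rfl fun j _ => show J j i * (p i * v j) = p i * (J i j * v j) by
      rw [hJ.symm j i]; ring, ← Finset.mul_sum]
    simp only [p]
    split_ifs with h
    · rw [abs_of_nonneg h, one_mul]
    · rw [abs_of_neg (not_le.1 h)]; ring
  simp only [e]
  refine (bilin_le hJ p v).trans ?_
  have h : ∑ i, v i ^ 2 ≤ n := by
    refine (Finset.sum_le_sum (g := fun _ => (1 : ℝ)) fun i _ => ?_).trans (by simp)
    exact (sq_le_one_iff_abs_le_one _).2 (hv i)
  simp only [hp, Finset.sum_const, Finset.card_univ, Fintype.card_fin, nsmul_eq_mul, mul_one]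
  linarith

/-- the field identity is Lipschitz in its parameters -/
lemma fieldErr_lip (hJ : Tame J 3) {β : ℝ} (hβ0 : 0 ≤ β) (hβ : β ≤ 1) (Ψ : Kern) {M δ : ℝ} (hM : Ψ.M ≤ M)
    (hδ : 0 ≤ δ) {θ θ' : Fin n → Fin 3 → ℝ} (h : ∀ i l, |θ i l - θ' i l| ≤ δ) (v : ℕ) (x : Cfg n) :
    |fieldErr β J b Ψ θ v x - fieldErr β J b Ψ θ' v x| ≤ 3 * M * δ * (9 * n) := by
  unfold fieldErr
  rw [← congrFun (Block.Kpow_sub v _ _) x]
  refine BlockMeans.abs_Kpow_le (fun y => ?_) v x
  set o := onsager β J b v x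
  set m := mean J b v x
  have ho : |o| ≤ 1 := onsager_mem hβ0 hβ v x
  have hd : ∀ i, ∑ l, |θ i l - θ' i l| ≤ 3 * δ := fun i =>
    (Finset.sum_le_sum fun l _ => h i l).trans (by simp)
  rw [← Finset.sum_sub_distrib]
  refine (Finset.abs_sum_le_sum_abs _ _).trans ?_
  refine (Finset.sum_le_sum (g := fun i => 3 * M * δ *
    (|fld J 0 i y| + |∑ j, J i j * m j| + 3)) fun i _ => ?_).trans ?_
  · set H := fld J 0 i y
    set T := Real.tanh (fld J b i y)
    have hM0 : 0 ≤ Ψ.M := (abs_nonneg _).trans (Ψ.bdd (θ i) H).1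
    have hl := Ψ.lip (θ i) (θ' i) H H
    simp only [sub_self, abs_zero, add_zero] at hl
    have hb := mul_le_mul hM (hd i) (Finset.sum_nonneg fun _ _ => abs_nonneg _) (hM0.trans hM)
    have hT : |T| ≤ 1 := (tanh_abs_lt _).le
    have hm : |o * m i| ≤ 1 := by
      rw [abs_mul]; exact mul_le_one₀ ho (abs_nonneg _) (abs_mean_le v x i)
    have hoT : |o * T| ≤ 1 := by rw [abs_mul]; exact mul_le_one₀ ho (abs_nonneg _) hT
    have hA : |H - cav β J b v x i - o * T| ≤ |H| + |∑ j, J i j * m j| + 2 := by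
      refine (abs_sub _ _).trans ((add_le_add ((abs_sub _ _).trans (add_le_add le_rfl (abs_sub _ _))) le_rfl).trans ?_)
      linarith
    rw [show Ψ.fn (θ i) H * (H - cav β J b v x i - o * T) - o * Ψ.dfn (θ i) H -
        (Ψ.fn (θ' i) H * (H - cav β J b v x i - o * T) - o * Ψ.dfn (θ' i) H) =
      (Ψ.fn (θ i) H - Ψ.fn (θ' i) H) * (H - cav β J b v x i - o * T)
        - o * (Ψ.dfn (θ i) H - Ψ.dfn (θ' i) H) by ring]
    refine (abs_sub _ _).trans ?_
    rw [abs_mul, abs_mul]
    have h1 := mul_le_mul (hl.1.trans hb) hA (abs_nonneg _) (le_trans (abs_nonneg _) (hl.1.trans hb))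
    have h2 := mul_le_mul ho (hl.2.trans hb) (abs_nonneg _) zero_le_one
    linarith
  · have h1 := sum_abs_apply_le hJ (v := fun j => spin (y j)) fun i => by cases y i <;> simp [spin]
    have h2 := sum_abs_apply_le hJ (v := m) (abs_mean_le v x)
    have e : ∀ i, fld J 0 i y = ∑ j, J i j * spin (y j) := fun i => by simp [fld]
    rcases Nat.eq_zero_or_pos n with rfl | hn
    · simp
    have hM0 : 0 ≤ 3 * M * δ := by
      have := ((abs_nonneg _).trans (Ψ.bdd (θ ⟨0, hn⟩) 0).1).trans hM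
      positivity
    rw [← Finset.mul_sum]
    refine mul_le_mul_of_nonneg_left ?_ hM0
    simp only [Finset.sum_add_distrib, e, Finset.sum_const, Finset.card_univ, Fintype.card_fin, nsmul_eq_mul]
    linarith

/-! ### integrals over the noise -/

lemma continuous_defect (G W : ℕ) (x : Cfg n) : Continuous fun b => defect J b G W x := by
  have hq : ∀ k y, Continuous fun b => qmean J b k y := fun k y => by
    unfold qmean mean
    have := fun i => AvgDir.continuous_Kpow (J := J) (fun _ z => spin (z i)) (fun _ => continuous_const) k y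
    fun_prop
  have hl : ∀ v, Continuous fun b => qlag J b v G x := fun v =>
    AvgDir.continuous_Kpow (fun b => qmean J b G) (hq G) _ x
  unfold defect blockAvg
  have := fun v => hq v x
  fun_prop

lemma integrable_defect (t : ℝ) (G W : ℕ) (x : Cfg n) :
    Integrable (fun u => defect J (obsField t x u) G W x) (gauss (Fin n)) :=
  Integrable.of_bound ((continuous_defect G W x).comp (AvgDir.continuous_obs t x)).aestronglyMeasurable 2
    (Filter.Eventually.of_forall fun u => by rw [Real.norm_eq_abs]; exact abs_defect_le G W x)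

/-- the stationarity error averaged over the times before the end of a block -/
noncomputable def avgE (J : Fin n → Fin n → ℝ) (b : Fin n → ℝ) (W : ℕ) (x : Cfg n) : ℝ :=
  (∑ u ∈ Finset.range (2 * W), eAt J b u x) / W

lemma avgE_nonneg (W : ℕ) (x : Cfg n) : 0 ≤ avgE J b W x :=
  div_nonneg (Finset.sum_nonneg fun u _ => AvgDir.eAt_nonneg u x) W.cast_nonneg

lemma avgE_obs (hJ : Tame J 3) (hn : 0 < n) (t : ℝ) (x : Cfg n) {W : ℕ} (hW : 0 < W) :
    Integrable (fun u => avgE J (obsField t x u) W x) (gauss (Fin n)) ∧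
      ∫ u, avgE J (obsField t x u) W x ∂gauss (Fin n) ≤
        Real.sqrt (2 * (Real.log 2 + 3 + 2 * |t| + 2 * Real.sqrt t) * n / W) := by
  have hn' : (0 : ℝ) < n := Nat.cast_pos.2 hn
  have hW' : (0 : ℝ) < W := Nat.cast_pos.2 hW
  have hlog := Real.log_pos (show (1 : ℝ) < 2 by norm_num)
  have hi : Integrable (fun u => avgE J (obsField t x u) W x) (gauss (Fin n)) :=
    (integrable_finsetSum _ fun v _ => AvgDir.integrable_eAt hJ.symm hJ.diag hJ.op hn t x x v).div_const _
  refine ⟨hi, ?_⟩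
  set F := fun u : Fin n → ℝ => 2 * (Real.log 2 + 3 + 2 * |t|) * n / W + 4 * Real.sqrt t / W * l1 u with hF
  have hFi : Integrable F (gauss (Fin n)) :=
    (integrable_const _).fun_add (AvgDir.integrable_l1.const_mul _)
  have hF0 : ∀ u, 0 ≤ F u := fun u => by
    have := l1_nonneg u
    simp only [hF]; positivity
  obtain ⟨hsi, hs⟩ := integral_sqrt_le hFi hF0
  refine (integral_mono hi hsi fun u => ?_).trans (hs.trans (Real.sqrt_le_sqrt ?_))
  · rw [avgE, div_le_iff₀ hW']
    refine (AvgDir.sum_le hJ.symm hJ.diag hJ.op hn x (Finset.range (2 * W))).trans ?_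
    rw [Finset.card_range]
    conv_rhs => rw [← Real.sqrt_sq hW'.le, ← Real.sqrt_mul (hF0 u)]
    refine Real.sqrt_le_sqrt ?_
    have h := AvgDir.sum_abs_obs t x u
    simp only [hF]
    rw [Nat.cast_mul, Nat.cast_two,
      show (2 * (Real.log 2 + 3 + 2 * |t|) * n / (W : ℝ) + 4 * Real.sqrt t / (W : ℝ) * l1 u) * (W : ℝ) ^ 2 =
        2 * (W : ℝ) * (n * Real.log 2 + 3 * n + 2 * (n * |t| + Real.sqrt t * l1 u)) by field_simp; ring]
    exact mul_le_mul_of_nonneg_left (by linarith) (by positivity)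
  · simp only [hF]
    rw [integral_add (integrable_const _) (AvgDir.integrable_l1.const_mul _), integral_const_mul]
    simp only [integral_const, probReal_univ, one_smul]
    refine (add_le_add le_rfl (mul_le_mul_of_nonneg_left AvgDir.integral_l1_le (by positivity))).trans_eq ?_
    ring

end Vale.Agent.P150.PA.BlockId
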