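import Vale.Agent.P150.PA.Path
import Vale.Agent.P150.PA.TapDefs

/-! The value of one period of the untilted experiment with every product of two overlaps replaced by
the product of their means over the start. -/

namespace Vale.Agent.P150.PA

open Ising

variable {n : ℕ}

/-- the schedule of the untilted experiment -/
def blockSched (P D : ℕ) : Sched := ⟨P, D, 0, 0, 0⟩

/-- the test of a kernel -/
noncomputable def kernTest (Ψ : Kern) (θ : Fin n → Fin 3 → ℝ) : Test n where
  fn i h _ _ := Ψ.fn (θ i) h
  dfn i h _ _ := Ψ.dfn (θ i) h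
  hasDeriv i h _ _ := Ψ.hasDeriv (θ i) h

variable (J : Fin n → Fin n → ℝ) (b : Fin n → ℝ) (Ψ : Kern) (θ : Fin n → Fin 3 → ℝ)

/-- the kernel at the local field -/
noncomputable def ksi (i : Fin n) (y : Cfg n) : ℝ := Ψ.fn (θ i) (fld J 0 i y)

/-- the derivative of the kernel at the local field -/
noncomputable def dksi (i : Fin n) (y : Cfg n) : ℝ := Ψ.dfn (θ i) (fld J 0 i y)

/-- covariance of the spins at the attempt `k` with a vector field at the attempt `D` -/
noncomputable def ccov (D k : ℕ) (f : Fin n → Cfg n → ℝ) (F : Cfg n) : ℝ :=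
  ∑ i, (Kpow J b k (fun y => spin (y i) * Kpow J b (D - k) (f i) y) F
    - mean J b k F i * Kpow J b D (f i) F)

/-- response of a vector field at the attempt `D` to the attempt `k` -/
noncomputable def cresp (D k : ℕ) (f : Fin n → Cfg n → ℝ) (F : Cfg n) : ℝ :=
  ∑ i, Kpow J b k (fun z => (1 - mag J b i z ^ 2) * dd i (Kpow J b (D - k - 1) (f i)) z / n) F

/-- the period value with the products of overlaps replaced by products of means at time `u` -/
noncomputable def blockVal (β : ℝ) (D u : ℕ) (x : Cfg n) : ℝ :=
  2 * (-(Kpow J b u (fun F => ∑ i, (Kpow J b D (fun y => ksi J Ψ θ i y * fld J 0 i y) F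
          - Kpow J b D (ksi J Ψ θ i) F * Kpow J b D (fld J 0 i) F)) x)
    + β ^ 2 / n * Kpow J b u (fun F => ∑ i, Kpow J b D (dksi J Ψ θ i) F) x
        * Kpow J b u (ccov J b D D (fun i y => spin (y i))) x
    + β ^ 2 / n * ∑ k ∈ Finset.range D,
        (Kpow J b u (cresp J b D k (ksi J Ψ θ)) x
            * Kpow J b u (ccov J b D k (fun i y => spin (y i))) x
          + Kpow J b u (cresp J b D k (fun i y => spin (y i))) x
            * Kpow J b u (ccov J b D k (ksi J Ψ θ)) x))

end Vale.Agent.P150.PA
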