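import Vale.Agent.P150.PA.Defs

/-! Entropy production of the random-scan heat-bath chain, pairing of the discrete gradient with a
density, and the resulting stationarity and fluctuation-dissipation bounds. -/

namespace Vale.Agent.P150.PA

open Ising

variable {n : ℕ} {J : Fin n → Fin n → ℝ} {b : Fin n → ℝ}

namespace Pair

lemma qb_nonneg {f : Cfg n → ℝ} (hf : ∀ x, 0 ≤ f x) (i : Fin n) (x : Cfg n) : 0 ≤ qb b J i f x := by
  rw [qb_eq]
  have := abs_lt.1 (tanh_abs_lt (fld J b i x))
  have h1 : 0 ≤ 1 + mag J b i x := by simp only [mag]; linarith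
  have h2 : 0 ≤ 1 - mag J b i x := by simp only [mag]; linarith
  have := hf (Function.update x i true); have := hf (Function.update x i false)
  positivity

lemma avg_qb (hs : ∀ i j, J i j = J j i) (hd : ∀ i, J i i = 0) (i : Fin n) (f : Cfg n → ℝ) :
    ∑ x, wt J b x * qb b J i f x = ∑ x, wt J b x * f x := by
  simpa using avg_qb_mul b hs hd i (fun _ => 1) f (fun _ _ => rfl)

lemma avg_K (hs : ∀ i j, J i j = J j i) (hd : ∀ i, J i i = 0) (hn : 0 < n) (f : Cfg n → ℝ) :
    ∑ x, wt J b x * K J b f x = ∑ x, wt J b x * f x := by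
  have hn' : (n : ℝ) ≠ 0 := Nat.cast_ne_zero.2 hn.ne'
  simp only [K, ← mul_div_assoc, ← Finset.sum_div, Finset.mul_sum]
  rw [Finset.sum_comm, Finset.sum_congr rfl fun i (_ : i ∈ Finset.univ) => avg_qb hs hd i f]
  simp [hn']

lemma K_nonneg {f : Cfg n → ℝ} (hf : ∀ x, 0 ≤ f x) (x : Cfg n) : 0 ≤ K J b f x :=
  div_nonneg (Finset.sum_nonneg fun i _ => qb_nonneg hf i x) (Nat.cast_nonneg n)

lemma Kpow_succ (k : ℕ) (f : Cfg n → ℝ) : Kpow J b (k + 1) f = K J b (Kpow J b k f) :=
  Function.iterate_succ_apply' _ _ _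

lemma Kpow_nonneg {f : Cfg n → ℝ} (hf : ∀ x, 0 ≤ f x) (k : ℕ) (x : Cfg n) : 0 ≤ Kpow J b k f x := by
  induction k generalizing x with
  | zero => exact hf x
  | succ k ih => rw [Kpow_succ]; exact K_nonneg ih x

lemma avg_Kpow (hs : ∀ i j, J i j = J j i) (hd : ∀ i, J i i = 0) (hn : 0 < n) (f : Cfg n → ℝ) (k : ℕ) :
    ∑ x, wt J b x * Kpow J b k f x = ∑ x, wt J b x * f x := by
  induction k with
  | zero => rfl
  | succ k ih => rw [Kpow_succ, avg_K hs hd hn, ih]

lemma ent_nonneg {f : Cfg n → ℝ} (hf : ∀ x, 0 ≤ f x) : 0 ≤ ent (wt J b) f := by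
  have h := Real.convexOn_mul_log.map_sum_le (t := Finset.univ) (w := wt J b) (p := f)
    (fun x _ => (wt_pos J b x).le) (wt_sum J b) (fun x _ => hf x)
  simp only [smul_eq_mul] at h
  unfold ent
  linarith

/-- one term of the two-point logarithmic Sobolev inequality -/
lemma point_log {u S : ℝ} (hu : 0 ≤ u) (hS : 0 < u → 0 < S) :
    2 * u ^ 2 - 2 * Real.sqrt S * u ≤ u ^ 2 * Real.log (u ^ 2) - u ^ 2 * Real.log S := by
  rcases eq_or_lt_of_le hu with h | h
  · rw [← h]; simp
  · have hs := Real.sqrt_pos.2 (hS h)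
    have h1 := Real.log_le_sub_one_of_pos (div_pos hs h)
    rw [Real.log_div hs.ne' h.ne', Real.log_sqrt (hS h).le] at h1
    rw [Real.log_pow]
    have h2 := mul_le_mul_of_nonneg_left h1 (sq_nonneg u)
    have e : u ^ 2 * (Real.sqrt S / u - 1) = Real.sqrt S * u - u ^ 2 := by field_simp
    rw [e] at h2
    push_cast
    linarith

/-- two-point logarithmic Sobolev inequality -/
lemma two_point {p q u v : ℝ} (hp : 0 < p) (hq : 0 < q) (hpq : p + q = 1) (hu : 0 ≤ u) (hv : 0 ≤ v) :
    p * q * (u - v) ^ 2 ≤ p * (u ^ 2 * Real.log (u ^ 2)) + q * (v ^ 2 * Real.log (v ^ 2))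
      - (p * u ^ 2 + q * v ^ 2) * Real.log (p * u ^ 2 + q * v ^ 2) := by
  set S := p * u ^ 2 + q * v ^ 2 with hS
  have hS0 : 0 ≤ S := by positivity
  have h1 := mul_le_mul_of_nonneg_left (point_log (S := S) hu fun h => by rw [hS]; positivity) hp.le
  have h2 := mul_le_mul_of_nonneg_left (point_log (S := S) hv fun h => by rw [hS]; positivity) hq.le
  have e : p * q * (u - v) ^ 2 = S - (p * u + q * v) ^ 2 := by
    rw [hS, show q = 1 - p by linarith]; ring
  have h3 : 0 ≤ (Real.sqrt S - (p * u + q * v)) ^ 2 := sq_nonneg _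
  rw [sub_sq, Real.sq_sqrt hS0] at h3
  rw [e]
  linarith

lemma site_drop (hs : ∀ i j, J i j = J j i) (hd : ∀ i, J i i = 0) (i : Fin n) {f : Cfg n → ℝ}
    (hf : ∀ x, 0 ≤ f x) :
    ∑ x, wt J b x * ((1 - mag J b i x ^ 2) * dd i (fun y => Real.sqrt (f y)) x ^ 2) ≤
      ∑ x, wt J b x * (f x * Real.log (f x) - qb b J i f x * Real.log (qb b J i f x)) := by
  rw [sum_half i (fun x => wt J b x * ((1 - mag J b i x ^ 2) * dd i (fun y => Real.sqrt (f y)) x ^ 2)),
    sum_half i (fun x => wt J b x * (f x * Real.log (f x) - qb b J i f x * Real.log (qb b J i f x)))]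
  refine div_le_div_of_nonneg_right (Finset.sum_le_sum fun x _ => ?_) two_pos.le
  simp only [wt_update b hs hd, mag_update b hd, dd_update, qb_update b hd]
  set C := wt J b x * Real.exp (-(fld J b i x * spin (x i))) * Real.cosh (fld J b i x)
  have hC : 0 ≤ C := by
    have := wt_pos J b x; have := Real.cosh_pos (fld J b i x); positivity
  have hm := abs_lt.1 (tanh_abs_lt (fld J b i x))
  have h := two_point (p := (1 + mag J b i x) / 2) (q := (1 - mag J b i x) / 2)
    (by simp only [mag]; linarith) (by simp only [mag]; linarith) (by ring)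
    (Real.sqrt_nonneg (f (Function.update x i true))) (Real.sqrt_nonneg (f (Function.update x i false)))
  simp only [Real.sq_sqrt (hf _)] at h
  have e : qb b J i f x = (1 + mag J b i x) / 2 * f (Function.update x i true) +
      (1 - mag J b i x) / 2 * f (Function.update x i false) := by rw [qb_eq]; ring
  rw [← e] at h
  have h2 := mul_le_mul_of_nonneg_left h (by linarith : (0 : ℝ) ≤ 2 * C)
  simp only [dd, spin, if_true, Bool.false_eq_true, if_false]
  linarith

end Pair

open Pair

/-- one attempt lowers the entropy by at least `1/n` times the Dirichlet form of the square root -/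
theorem dir_sqrt_le_drop (hs : ∀ i j, J i j = J j i) (hd : ∀ i, J i i = 0) (hn : 0 < n) {f : Cfg n → ℝ}
    (hf : ∀ x, 0 ≤ f x) :
    dir J b (fun x => Real.sqrt (f x)) ≤ n * (ent (wt J b) f - ent (wt J b) (K J b f)) := by
  have hn' : (0 : ℝ) < n := Nat.cast_pos.2 hn
  have hK : ∀ x, (n : ℝ) * (K J b f x * Real.log (K J b f x)) ≤ ∑ i, qb b J i f x * Real.log (qb b J i f x) := by
    intro x
    have h := Real.convexOn_mul_log.map_sum_le (t := Finset.univ) (w := fun _ : Fin n => (1 : ℝ) / n)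
      (p := fun i => qb b J i f x) (fun i _ => by positivity)
      (by simp [hn'.ne']) (fun i _ => qb_nonneg hf i x)
    simp only [smul_eq_mul, one_div_mul_eq_div, ← Finset.sum_div] at h
    rw [le_div_iff₀ hn', mul_comm] at h
    exact h
  have h1 : dir J b (fun x => Real.sqrt (f x)) ≤
      ∑ x, wt J b x * ((n : ℝ) * (f x * Real.log (f x)) - (n : ℝ) * (K J b f x * Real.log (K J b f x))) := by
    refine (Finset.sum_le_sum fun i _ => site_drop hs hd i hf).trans ?_
    rw [Finset.sum_comm]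
    refine Finset.sum_le_sum fun x _ => ?_
    rw [← Finset.mul_sum, Finset.sum_sub_distrib]
    refine mul_le_mul_of_nonneg_left ?_ (wt_pos J b x).le
    simp only [Finset.sum_const, Finset.card_univ, Fintype.card_fin, nsmul_eq_mul]
    linarith [hK x]
  refine h1.trans (le_of_eq ?_)
  simp only [ent, avg_K hs hd hn, mul_sub, Finset.sum_sub_distrib, Finset.mul_sum, mul_left_comm (wt J b _) (n : ℝ)]
  ring

/-- the Dirichlet forms along the chain are summable -/
theorem sum_dir_sqrt (hs : ∀ i j, J i j = J j i) (hd : ∀ i, J i i = 0) (hn : 0 < n) {f : Cfg n → ℝ}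
    (hf : ∀ x, 0 ≤ f x) (N : ℕ) :
    ∑ k ∈ Finset.range N, dir J b (fun x => Real.sqrt (Kpow J b k f x)) ≤ n * ent (wt J b) f := by
  have h : ∀ k, dir J b (fun x => Real.sqrt (Kpow J b k f x)) ≤
      n * ent (wt J b) (Kpow J b k f) - n * ent (wt J b) (Kpow J b (k + 1) f) := fun k => by
    rw [Kpow_succ, ← mul_sub]; exact dir_sqrt_le_drop hs hd hn (Kpow_nonneg hf k)
  refine (Finset.sum_le_sum fun k _ => h k).trans ?_
  rw [Finset.sum_range_sub' (fun k => (n : ℝ) * ent (wt J b) (Kpow J b k f)) N]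
  have := mul_nonneg (Nat.cast_nonneg (α := ℝ) n) (ent_nonneg (J := J) (b := b) (Kpow_nonneg (J := J) (b := b) hf N))
  simp only [Kpow, Function.iterate_zero, id_eq] at this ⊢
  linarith

/-- entropy of a point mass -/
theorem ent_point {L : ℝ} (hop : ∀ v : Fin n → ℝ, |∑ i, ∑ j, J i j * (v i * v j)| ≤ L * ∑ i, v i ^ 2)
    (x : Cfg n) :
    ent (wt J b) (Pi.single x (wt J b x)⁻¹) ≤ n * Real.log 2 + L * n + 2 * ∑ i, |b i| := by
  have hw := wt_pos J b x
  have e : ent (wt J b) (Pi.single x (wt J b x)⁻¹) = -Real.log (wt J b x) := by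
    have h1 : ∑ y, wt J b y * (Pi.single x (wt J b x)⁻¹ : Cfg n → ℝ) y = 1 := by
      rw [Finset.sum_eq_single x (fun y _ hy => by simp [hy]) (by simp), Pi.single_eq_same, mul_inv_cancel₀ hw.ne']
    rw [ent, h1, Real.log_one, mul_zero, sub_zero,
      Finset.sum_eq_single x (fun y _ hy => by simp [hy]) (by simp), Pi.single_eq_same, Real.log_inv,
      ← mul_assoc, mul_inv_cancel₀ hw.ne', one_mul]
  have hq : ∀ y : Cfg n, |qE J b y| ≤ L * n / 2 + ∑ i, |b i| := by
    intro y
    refine (abs_add_le _ _).trans (add_le_add ?_ ((Finset.abs_sum_le_sum_abs _ _).trans (le_of_eq ?_)))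
    · rw [abs_div, abs_two]
      refine div_le_div_of_nonneg_right ((hop fun i => spin (y i)).trans_eq ?_) two_pos.le
      simp [sq, spin_mul_self]
    · refine Finset.sum_congr rfl fun i _ => ?_
      rw [abs_mul]; cases y i <;> simp [spin]
  have hZ : (0 : ℝ) < ∑ y : Cfg n, Real.exp (qE J b y) :=
    Finset.sum_pos (fun _ _ => Real.exp_pos _) Finset.univ_nonempty
  have hZle : Real.log (∑ y : Cfg n, Real.exp (qE J b y)) ≤ n * Real.log 2 + (L * n / 2 + ∑ i, |b i|) := by
    rw [← Real.log_pow, ← Real.log_exp (L * n / 2 + ∑ i, |b i|),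
      ← Real.log_mul (by positivity) (Real.exp_ne_zero _)]
    refine Real.log_le_log hZ ((Finset.sum_le_card_nsmul _ _ (Real.exp (L * n / 2 + ∑ i, |b i|))
      fun y _ => Real.exp_le_exp.2 ((le_abs_self _).trans (hq y))).trans_eq ?_)
    simp
  rw [e, wt, Real.log_div (Real.exp_ne_zero _) hZ.ne', Real.log_exp]
  linarith [neg_le_of_abs_le (hq x)]

/-- the gradient of a density tested against fields that do not depend on their own site -/
theorem pair (hs : ∀ i j, J i j = J j i) (hd : ∀ i, J i i = 0) {f : Cfg n → ℝ} (hf : ∀ x, 0 ≤ f x)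
    (G : Fin n → Cfg n → ℝ) (hG : ∀ i x c, G i (Function.update x i c) = G i x) :
    |∑ x, wt J b x * ∑ i, (1 - mag J b i x ^ 2) * dd i f x * G i x| ≤
      4 * Real.sqrt (dir J b fun x => Real.sqrt (f x)) * Real.sqrt (∑ x, wt J b x * (f x * ∑ i, G i x ^ 2)) := by
  set g := fun y => Real.sqrt (f y) with hg
  set gp := fun (i : Fin n) x => g (Function.update x i true) + g (Function.update x i false) with hgp
  set w := fun (s : Fin n × Cfg n) => wt J b s.2 * (1 - mag J b s.1 s.2 ^ 2) with hwdef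
  have hw : ∀ s, 0 ≤ w s := fun s => mul_nonneg (wt_pos J b s.2).le (mag_sq J b s.1 s.2).1
  have hdd : ∀ i x, dd i f x = dd i g x * gp i x := fun i x => by
    have h1 := Real.mul_self_sqrt (hf (Function.update x i true))
    have h2 := Real.mul_self_sqrt (hf (Function.update x i false))
    simp only [dd, hgp, hg]
    linear_combination (-1 / 2 : ℝ) * h1 + (1 / 2 : ℝ) * h2
  have hmain : |∑ x, wt J b x * ∑ i, (1 - mag J b i x ^ 2) * dd i f x * G i x| ≤
      Real.sqrt (∑ s : Fin n × Cfg n, w s * dd s.1 g s.2 ^ 2) *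
        Real.sqrt (∑ s : Fin n × Cfg n, w s * (gp s.1 s.2 * G s.1 s.2) ^ 2) := by
    rw [← Real.sqrt_mul (Finset.sum_nonneg fun s _ => mul_nonneg (hw s) (sq_nonneg _))]
    refine Real.abs_le_sqrt (le_of_eq_of_le ?_ (Finset.sum_sq_le_sum_mul_sum_of_sq_le_mul Finset.univ
      (r := fun s : Fin n × Cfg n => w s * dd s.1 g s.2 * (gp s.1 s.2 * G s.1 s.2))
      (fun s _ => mul_nonneg (hw s) (sq_nonneg _)) (fun s _ => mul_nonneg (hw s) (sq_nonneg _))
      (fun s _ => le_of_eq (by ring))))
    congr 1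
    rw [Fintype.sum_prod_type_right]
    refine Finset.sum_congr rfl fun x _ => ?_
    rw [Finset.mul_sum]
    exact Finset.sum_congr rfl fun i _ => by simp only [hwdef, hdd]; ring
  have hdir : ∑ s : Fin n × Cfg n, w s * dd s.1 g s.2 ^ 2 = dir J b g := by
    rw [Fintype.sum_prod_type, dir]
    exact Finset.sum_congr rfl fun i _ => Finset.sum_congr rfl fun x _ => by simp only [hwdef]; ring
  have hsec : ∑ s : Fin n × Cfg n, w s * (gp s.1 s.2 * G s.1 s.2) ^ 2 ≤
      4 ^ 2 * ∑ x, wt J b x * (f x * ∑ i, G i x ^ 2) := by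
    rw [Fintype.sum_prod_type]
    have h8 : ∀ i x, w (i, x) * (gp i x * G i x) ^ 2 ≤ 4 ^ 2 * (wt J b x * (G i x ^ 2 * qb b J i f x)) := by
      intro i x
      have hq : (1 - mag J b i x ^ 2) * gp i x ^ 2 ≤ 8 * qb b J i f x := by
        have h1 := Real.mul_self_sqrt (hf (Function.update x i true))
        have h2 := Real.mul_self_sqrt (hf (Function.update x i false))
        have hm := abs_lt.1 (tanh_abs_lt (fld J b i x))
        have hp : 0 ≤ 1 + mag J b i x := by simp only [mag]; linarith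
        have hq' : 0 ≤ 1 - mag J b i x := by simp only [mag]; linarith
        have := hf (Function.update x i true); have := hf (Function.update x i false)
        have hgp2 : gp i x ^ 2 ≤ 2 * f (Function.update x i true) + 2 * f (Function.update x i false) := by
          simp only [hgp, hg]
          nlinarith [sq_nonneg (Real.sqrt (f (Function.update x i true)) - Real.sqrt (f (Function.update x i false)))]
        rw [qb_eq]
        refine (mul_le_mul_of_nonneg_left hgp2 (mag_sq J b i x).1).trans ?_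
        nlinarith [mul_nonneg (mul_nonneg hp (by linarith : (0:ℝ) ≤ 4 - 2 * (1 - mag J b i x))) (hf (Function.update x i true)),
          mul_nonneg (mul_nonneg hq' (by linarith : (0:ℝ) ≤ 4 - 2 * (1 + mag J b i x))) (hf (Function.update x i false))]
      have h := mul_le_mul_of_nonneg_left hq (mul_nonneg (wt_pos J b x).le (sq_nonneg (G i x)))
      have h0 := mul_nonneg (mul_nonneg (wt_pos J b x).le (sq_nonneg (G i x))) (qb_nonneg (b := b) (J := J) hf i x)
      simp only [hwdef]
      linarith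
    refine (Finset.sum_le_sum fun i _ => Finset.sum_le_sum fun x _ => h8 i x).trans (le_of_eq ?_)
    simp only [← Finset.mul_sum]
    rw [Finset.sum_congr rfl fun i (_ : i ∈ Finset.univ) =>
      avg_qb_mul b hs hd i (fun x => G i x ^ 2) f (fun x v => by simp only [hG])]
    simp only [Finset.mul_sum]
    rw [Finset.sum_comm]
    exact Finset.sum_congr rfl fun x _ => Finset.sum_congr rfl fun i _ => by ring
  refine hmain.trans ?_
  rw [hdir, mul_comm (4 : ℝ), mul_assoc]
  refine mul_le_mul_of_nonneg_left ((Real.sqrt_le_sqrt hsec).trans (le_of_eq ?_)) (Real.sqrt_nonneg _)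
  rw [Real.sqrt_mul (by norm_num), Real.sqrt_sq (by norm_num)]

/-- approximate stationarity -/
theorem stat (hs : ∀ i j, J i j = J j i) (hd : ∀ i, J i i = 0) (hn : 0 < n) {f : Cfg n → ℝ} (hf : ∀ x, 0 ≤ f x)
    (h : Cfg n → ℝ) :
    |∑ x, wt J b x * (f x * (K J b h x - h x))| ≤
      4 / n * Real.sqrt (dir J b fun x => Real.sqrt (f x)) * Real.sqrt (∑ x, wt J b x * (f x * gam h x)) := by
  have hn' : (0 : ℝ) < n := Nat.cast_pos.2 hn
  have e : ∑ x, wt J b x * (f x * (K J b h x - h x)) =
      -((∑ x, wt J b x * ∑ i, (1 - mag J b i x ^ 2) * dd i f x * dd i h x) / n) := by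
    have e1 : ∀ x, K J b h x - h x = -((∑ i, proj J b i h x) / n) := fun x => by
      simp only [K, qb, Finset.sum_sub_distrib, Finset.sum_const, Finset.card_univ, Fintype.card_fin, nsmul_eq_mul]
      field_simp
      ring
    simp only [e1, mul_neg, Finset.sum_neg_distrib, ← mul_div_assoc, ← Finset.sum_div, Finset.mul_sum]
    rw [Finset.sum_comm, Finset.sum_congr rfl fun i (_ : i ∈ Finset.univ) => site_mul b hs hd i f h, Finset.sum_comm]
    congr 2
    exact Finset.sum_congr rfl fun x _ => Finset.sum_congr rfl fun i _ => by ring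
  rw [e, abs_neg, abs_div, abs_of_pos hn', div_le_iff₀ hn']
  refine (pair hs hd hf (fun i x => dd i h x) (fun i x c => dd_update i h x c)).trans (le_of_eq ?_)
  simp only [gam]
  field_simp

/-- approximate stationarity over `k` attempts -/
theorem stat_iter (hs : ∀ i j, J i j = J j i) (hd : ∀ i, J i i = 0) (hn : 0 < n) {f : Cfg n → ℝ} (hf : ∀ x, 0 ≤ f x)
    (hmean : ∑ x, wt J b x * f x = 1) (h : Cfg n → ℝ) {k : ℕ} {A : ℝ}
    (hA : ∀ l < k, ∀ y, gam (Kpow J b l h) y ≤ A) :
    |∑ x, wt J b x * (f x * (Kpow J b k h x - h x))| ≤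
      4 * k / n * Real.sqrt (dir J b fun x => Real.sqrt (f x)) * Real.sqrt A := by
  induction k with
  | zero => simp [Kpow]
  | succ k ih =>
    have h1 := ih fun l hl => hA l (Nat.lt_succ_of_lt hl)
    have h2 := stat hs hd hn hf (Kpow J b k h) (b := b)
    have h3 : ∑ x, wt J b x * (f x * gam (Kpow J b k h) x) ≤ A := by
      calc ∑ x, wt J b x * (f x * gam (Kpow J b k h) x) ≤ ∑ x, wt J b x * (f x * A) :=
            Finset.sum_le_sum fun x _ => mul_le_mul_of_nonneg_left
              (mul_le_mul_of_nonneg_left (hA k (Nat.lt_succ_self k) x) (hf x)) (wt_pos J b x).le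
        _ = A := by simp only [← mul_assoc, ← Finset.sum_mul, hmean, one_mul]
    have h4 : 4 / (n : ℝ) * Real.sqrt (dir J b fun x => Real.sqrt (f x)) *
          Real.sqrt (∑ x, wt J b x * (f x * gam (Kpow J b k h) x)) ≤
        4 / (n : ℝ) * Real.sqrt (dir J b fun x => Real.sqrt (f x)) * Real.sqrt A :=
      mul_le_mul_of_nonneg_left (Real.sqrt_le_sqrt h3) (by positivity)
    have e : ∑ x, wt J b x * (f x * (Kpow J b (k + 1) h x - h x)) =
        (∑ x, wt J b x * (f x * (K J b (Kpow J b k h) x - Kpow J b k h x))) +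
          ∑ x, wt J b x * (f x * (Kpow J b k h x - h x)) := by
      rw [← Finset.sum_add_distrib, Kpow_succ]
      exact Finset.sum_congr rfl fun x _ => by ring
    rw [e]
    refine (abs_add_le _ _).trans ((add_le_add (h2.trans h4) h1).trans (le_of_eq ?_))
    push_cast
    ring

/-- approximate symmetry of the response -/
theorem fdt (hs : ∀ i j, J i j = J j i) (hd : ∀ i, J i i = 0) {f : Cfg n → ℝ} (hf : ∀ x, 0 ≤ f x)
    (hmean : ∑ x, wt J b x * f x = 1) {m : ℕ} (u h : Fin m → Cfg n → ℝ) {A B U H : ℝ} (hA : 0 ≤ A) (hB : 0 ≤ B)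
    (hgh : ∀ (v : Fin m → ℝ) y, gam (fun z => ∑ l, v l * h l z) y ≤ A ^ 2 * ∑ l, v l ^ 2)
    (hgu : ∀ (v : Fin m → ℝ) y, gam (fun z => ∑ l, v l * u l z) y ≤ B ^ 2 * ∑ l, v l ^ 2)
    (hU : ∀ y, ∑ l, u l y ^ 2 ≤ U) (hH : ∀ y, ∑ l, h l y ^ 2 ≤ H) :
    |∑ x, wt J b x * (f x * ∑ l, (u l x * K J b (h l) x - h l x * K J b (u l) x))| ≤
      4 / n * Real.sqrt (dir J b fun x => Real.sqrt (f x)) * (A * Real.sqrt U + B * Real.sqrt H) := by
  classical
  set P := fun (i : Fin n) (φ : Cfg n → ℝ) x => (φ (Function.update x i true) + φ (Function.update x i false)) / 2 with hP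
  set G := fun (i : Fin n) x => ∑ l, (P i (u l) x * dd i (h l) x - P i (h l) x * dd i (u l) x) with hG
  have hGi : ∀ i x c, G i (Function.update x i c) = G i x := fun i x c => by simp [hG, hP, dd]
  have hGe : ∀ i x, G i x = ∑ l, u l x * dd i (h l) x - ∑ l, h l x * dd i (u l) x := fun i x => by
    rw [← Finset.sum_sub_distrib]
    refine Finset.sum_congr rfl fun l _ => ?_
    cases hx : x i
    · have e : Function.update x i false = x := by rw [← hx, Function.update_eq_self]
      simp only [hP, dd, e]; ring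
    · have e : Function.update x i true = x := by rw [← hx, Function.update_eq_self]
      simp only [hP, dd, e]; ring
  have hsite : ∀ i l, ∑ x, wt J b x * (f x * (u l x * qb b J i (h l) x - h l x * qb b J i (u l) x)) =
      -∑ x, wt J b x * ((1 - mag J b i x ^ 2) * dd i f x *
        (P i (u l) x * dd i (h l) x - P i (h l) x * dd i (u l) x)) := fun i l => by
    have e1 : ∀ x, f x * (u l x * qb b J i (h l) x - h l x * qb b J i (u l) x) =
        (f x * h l x) * proj J b i (u l) x - (f x * u l x) * proj J b i (h l) x := fun x => by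
      simp only [qb]; ring
    simp only [e1, mul_sub (wt J b _), Finset.sum_sub_distrib, site_mul b hs hd]
    rw [← Finset.sum_sub_distrib, ← Finset.sum_neg_distrib]
    exact Finset.sum_congr rfl fun x _ => by simp only [hP, dd]; ring
  have e : ∑ x, wt J b x * (f x * ∑ l, (u l x * K J b (h l) x - h l x * K J b (u l) x)) =
      -((∑ x, wt J b x * ∑ i, (1 - mag J b i x ^ 2) * dd i f x * G i x) / n) := by
    calc ∑ x, wt J b x * (f x * ∑ l, (u l x * K J b (h l) x - h l x * K J b (u l) x))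
        = (∑ i, ∑ l, ∑ x, wt J b x * (f x * (u l x * qb b J i (h l) x - h l x * qb b J i (u l) x))) / n := by
          simp only [K, ← mul_div_assoc, ← sub_div, ← Finset.sum_div, Finset.mul_sum, ← Finset.sum_sub_distrib]
          congr 1
          rw [Finset.sum_comm, Finset.sum_congr rfl fun l (_ : l ∈ Finset.univ) => Finset.sum_comm, Finset.sum_comm]
      _ = _ := by
          simp only [hsite, Finset.sum_neg_distrib, neg_div, hG, Finset.mul_sum]
          rw [Finset.sum_congr rfl fun i (_ : i ∈ Finset.univ) => Finset.sum_comm, Finset.sum_comm]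
  rw [e, abs_neg, abs_div, Nat.abs_cast, mul_assoc (4 / (n : ℝ)), div_mul_eq_mul_div]
  refine div_le_div_of_nonneg_right ((pair hs hd hf G hGi).trans ?_) (Nat.cast_nonneg n)
  rw [mul_assoc]
  refine mul_le_mul_of_nonneg_left (mul_le_mul_of_nonneg_left ?_ (Real.sqrt_nonneg _)) (by norm_num)
  set R := A * Real.sqrt U + B * Real.sqrt H
  have hR : 0 ≤ R := by positivity
  have hGsq : ∀ x, ∑ i, G i x ^ 2 ≤ R ^ 2 := by
    intro x
    set X := fun i => ∑ l, u l x * dd i (h l) x
    set Y := fun i => ∑ l, h l x * dd i (u l) x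
    have hlin : ∀ (v : Fin m → ℝ) (φ : Fin m → Cfg n → ℝ) i, ∑ l, v l * dd i (φ l) x = dd i (fun z => ∑ l, v l * φ l z) x :=
      fun v φ i => by
        simp only [dd, ← Finset.sum_sub_distrib, Finset.sum_div]
        exact Finset.sum_congr rfl fun l _ => by ring
    have hX : ∑ i, X i ^ 2 ≤ (A * Real.sqrt U) ^ 2 := by
      have hU0 : 0 ≤ U := (Finset.sum_nonneg fun l _ => sq_nonneg _).trans (hU x)
      rw [mul_pow, Real.sq_sqrt hU0]
      refine le_trans (le_of_eq ?_) ((hgh (fun l => u l x) x).trans (mul_le_mul_of_nonneg_left (hU x) (sq_nonneg A)))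
      exact Finset.sum_congr rfl fun i _ => by simp only [X, hlin]
    have hY : ∑ i, Y i ^ 2 ≤ (B * Real.sqrt H) ^ 2 := by
      have hH0 : 0 ≤ H := (Finset.sum_nonneg fun l _ => sq_nonneg _).trans (hH x)
      rw [mul_pow, Real.sq_sqrt hH0]
      refine le_trans (le_of_eq ?_) ((hgu (fun l => h l x) x).trans (mul_le_mul_of_nonneg_left (hH x) (sq_nonneg B)))
      exact Finset.sum_congr rfl fun i _ => by simp only [Y, hlin]
    have hcs := Real.sum_mul_le_sqrt_mul_sqrt Finset.univ X fun i => -Y i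
    simp only [neg_sq, mul_neg, Finset.sum_neg_distrib] at hcs
    have hsX : Real.sqrt (∑ i, X i ^ 2) ≤ A * Real.sqrt U :=
      (Real.sqrt_le_sqrt hX).trans_eq (Real.sqrt_sq (by positivity))
    have hsY : Real.sqrt (∑ i, Y i ^ 2) ≤ B * Real.sqrt H :=
      (Real.sqrt_le_sqrt hY).trans_eq (Real.sqrt_sq (by positivity))
    have hprod := hcs.trans (mul_le_mul hsX hsY (Real.sqrt_nonneg _) (by positivity))
    calc ∑ i, G i x ^ 2 = ∑ i, X i ^ 2 + ∑ i, Y i ^ 2 + 2 * -∑ i, X i * Y i := by
          rw [← Finset.sum_neg_distrib, Finset.mul_sum, ← Finset.sum_add_distrib, ← Finset.sum_add_distrib]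
          exact Finset.sum_congr rfl fun i _ => by rw [hGe]; ring
      _ ≤ (A * Real.sqrt U) ^ 2 + (B * Real.sqrt H) ^ 2 + 2 * (A * Real.sqrt U * (B * Real.sqrt H)) := by linarith
      _ = R ^ 2 := by ring
  calc Real.sqrt (∑ x, wt J b x * (f x * ∑ i, G i x ^ 2)) ≤ Real.sqrt (∑ x, wt J b x * (f x * R ^ 2)) :=
        Real.sqrt_le_sqrt (Finset.sum_le_sum fun x _ =>
          mul_le_mul_of_nonneg_left (mul_le_mul_of_nonneg_left (hGsq x) (hf x)) (wt_pos J b x).le)
    _ = R := by simp only [← mul_assoc, ← Finset.sum_mul, hmean, one_mul, Real.sqrt_sq hR]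

end Vale.Agent.P150.PA
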