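import Vale.Agent.P150.PA.Entropy
import Vale.Agent.P150.PA.Pair
import Vale.Agent.P150.PA.Scalar
import Vale.Agent.P150.Slow
import Vale.Agent.P150.Fast

/-! Assembly of the burn-in of Part A: the energy limit and the bound on the posterior means leave at
most `ε n` of relative entropy after linearly many attempts. -/

open MeasureTheory Filter
open scoped Topology

namespace Vale.Agent.P150.PA

open Ising

variable {n : ℕ}

namespace Burn

variable {J : Fin n → Fin n → ℝ} {b : Fin n → ℝ}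

lemma K_symm (hs : ∀ i j, J i j = J j i) (hd : ∀ i, J i i = 0) (f g : Cfg n → ℝ) :
    ∑ x, wt J b x * (g x * K J b f x) = ∑ x, wt J b x * (f x * K J b g x) := by
  have h : ∀ i, ∑ x, wt J b x * (g x * qb b J i f x) = ∑ x, wt J b x * (f x * qb b J i g x) := fun i => by
    have h1 := avg_qb_mul b hs hd i (qb b J i f) g fun x v => qb_update b hd i f x v
    have h2 := avg_qb_mul b hs hd i (qb b J i g) f fun x v => qb_update b hd i g x v
    simp only [mul_comm (qb b J i f _)] at h1
    simp only [mul_comm (qb b J i g _) (f _)] at h2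
    rw [← h1, h2]
  simp only [K, ← mul_div_assoc, ← Finset.sum_div, Finset.mul_sum]
  rw [Finset.sum_comm, Finset.sum_congr rfl fun i (_ : i ∈ Finset.univ) => h i, Finset.sum_comm]

lemma Kpow_symm (hs : ∀ i j, J i j = J j i) (hd : ∀ i, J i i = 0) :
    ∀ (k : ℕ) (f g : Cfg n → ℝ),
      ∑ x, wt J b x * (g x * Kpow J b k f x) = ∑ x, wt J b x * (f x * Kpow J b k g x)
  | 0, f, g => Finset.sum_congr rfl fun x _ => by simp [Kpow, mul_comm]
  | k + 1, f, g => by
    have e : Kpow J b k (K J b g) = Kpow J b (k + 1) g := (Function.iterate_succ_apply _ k g).symm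
    rw [Pair.Kpow_succ, K_symm hs hd, ← e, ← Kpow_symm hs hd k f (K J b g)]
    exact Finset.sum_congr rfl fun x _ => by rw [mul_comm (Kpow J b k f x)]

lemma sum_single (x : Cfg n) (c : ℝ) (F : Cfg n → ℝ) :
    ∑ y, wt J b y * ((Pi.single x c : Cfg n → ℝ) y * F y) = wt J b x * (c * F x) := by
  rw [Finset.sum_eq_single x (fun y _ hy => by simp [hy]) (by simp), Pi.single_eq_same]

/-- pairing with the density of the law at time `v` -/
lemma avg_density (hs : ∀ i j, J i j = J j i) (hd : ∀ i, J i i = 0) (v : ℕ) (x : Cfg n) (h : Cfg n → ℝ) :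
    ∑ y, wt J b y * (h y * Kpow J b v (Pi.single x (wt J b x)⁻¹) y) = Kpow J b v h x := by
  rw [Kpow_symm hs hd, sum_single, ← mul_assoc, mul_inv_cancel₀ (wt_pos J b x).ne', one_mul]

lemma lawAt_eq (hs : ∀ i j, J i j = J j i) (hd : ∀ i, J i i = 0) (v : ℕ) (x y : Cfg n) :
    lawAt J b v x y = wt J b y * Kpow J b v (Pi.single x (wt J b x)⁻¹) y := by
  rw [lawAt, ← avg_density hs hd v x, sum_single, one_mul]

lemma single_inv_nonneg (x y : Cfg n) : 0 ≤ (Pi.single x (wt J b x)⁻¹ : Cfg n → ℝ) y := by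
  by_cases h : y = x
  · subst h; rw [Pi.single_eq_same]; exact (inv_pos.2 (wt_pos J b y)).le
  · simp [h]

lemma lawAt_nonneg (v : ℕ) (x y : Cfg n) : 0 ≤ lawAt J b v x y :=
  Pair.Kpow_nonneg (fun z => by by_cases h : z = y <;> simp [h]) v x

lemma lawAt_sum (hs : ∀ i j, J i j = J j i) (hd : ∀ i, J i i = 0) (hn : 0 < n) (v : ℕ) (x : Cfg n) :
    ∑ y, lawAt J b v x y = 1 := by
  simp only [lawAt_eq hs hd]
  rw [Pair.avg_Kpow hs hd hn, Finset.sum_eq_single x (fun y _ hy => by simp [hy]) (by simp),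
    Pi.single_eq_same, mul_inv_cancel₀ (wt_pos J b x).ne']

/-- relative entropy of the law at time `v` through its entropy and its mean energy -/
lemma ent_law (hs : ∀ i j, J i j = J j i) (hd : ∀ i, J i i = 0) (hn : 0 < n) (v : ℕ) (x : Cfg n) :
    ent (wt J b) (Kpow J b v (Pi.single x (wt J b x)⁻¹)) =
      (∑ y, lawAt J b v x y * Real.log (lawAt J b v x y)) - Kpow J b v (qE J b) x +
        Real.log (∑ y, Real.exp (qE J b y)) := by
  have hsum : ∑ y, wt J b y * Kpow J b v (Pi.single x (wt J b x)⁻¹) y = 1 := by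
    simpa only [← lawAt_eq hs hd] using lawAt_sum hs hd hn v x
  rw [kl_eq (Pair.Kpow_nonneg (single_inv_nonneg x) v) hsum, ← avg_density hs hd v x (qE J b)]
  simp only [lawAt_eq hs hd]
  congr 2
  exact Finset.sum_congr rfl fun y _ => by ring

lemma ent_anti (hs : ∀ i j, J i j = J j i) (hd : ∀ i, J i i = 0) (hn : 0 < n) {f : Cfg n → ℝ}
    (hf : ∀ x, 0 ≤ f x) : Antitone fun k => ent (wt J b) (Kpow J b k f) := by
  refine antitone_nat_of_succ_le fun k => ?_
  have h := dir_sqrt_le_drop hs hd hn (b := b) (Pair.Kpow_nonneg (J := J) (b := b) hf k)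
  have h0 : 0 ≤ dir J b fun x => Real.sqrt (Kpow J b k f x) :=
    Finset.sum_nonneg fun i _ => Finset.sum_nonneg fun x _ =>
      mul_nonneg (wt_pos J b x).le (mul_nonneg (mag_sq J b i x).1 (sq_nonneg _))
  have h1 := nonneg_of_mul_nonneg_right (h0.trans h) (Nat.cast_pos.2 hn)
  rw [Pair.Kpow_succ]
  linarith

/-- the deterministic step: a block of times bounds the entropy at every later time -/
lemma ent_le (hs : ∀ i j, J i j = J j i) (hd : ∀ i, J i i = 0) (hn : 0 < n)
    (x : Cfg n) {W N K : ℕ} (hW : 0 < W) (hN : 2 * W ≤ N) {t : ℕ → ℝ} (ht0 : t 0 = 0) (htm : Monotone t)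
    {u : ℕ → ℝ} (hu : ∀ k < K, blockAvg W (fun v => msq (t (k + 1)) (lawAt J b v x)) ≤ u k)
    {E L : ℝ} (hE : E ≤ blockAvg W fun v => Kpow J b v (qE J b) x)
    (hL : Real.log (∑ y, Real.exp (qE J b y)) ≤ L) :
    ent (wt J b) (Kpow J b N (Pi.single x (wt J b x)⁻¹)) ≤
      L - E - 1 / 2 * ∑ k ∈ Finset.range K, (t (k + 1) - t k) * (n - u k) := by
  set c := ent (wt J b) (Kpow J b N (Pi.single x (wt J b x)⁻¹))
  set m := fun k v => msq (t (k + 1)) (lawAt J b v x)
  have hW' : (0 : ℝ) < W := Nat.cast_pos.2 hW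
  have hv : ∀ v ∈ Finset.Ico W (2 * W),
      c ≤ L - Kpow J b v (qE J b) x - 1 / 2 * ∑ k ∈ Finset.range K, (t (k + 1) - t k) * (n - m k v) := by
    intro v hv
    have h1 : c ≤ ent (wt J b) (Kpow J b v (Pi.single x (wt J b x)⁻¹)) :=
      ent_anti hs hd hn (single_inv_nonneg x) ((Finset.mem_Ico.1 hv).2.le.trans hN)
    have hn' : (0 : ℝ) < n := Nat.cast_pos.2 hn
    have h2 := entropy_ge (lawAt_nonneg (J := J) (b := b) v x) (lawAt_sum hs hd hn v x) K t
      (fun k => msq (t k) (lawAt J b v x) / n) ht0 (fun k _ => htm k.le_succ)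
      fun k _ => by rw [mul_div_cancel₀ _ hn'.ne']
    have e : ∀ k, (n : ℝ) / 2 * ((t (k + 1) - t k) * (1 - m k v / n)) =
        1 / 2 * ((t (k + 1) - t k) * (n - m k v)) := fun k => by field_simp
    rw [Finset.mul_sum] at h2
    simp only [show ∀ k, msq (t (k + 1)) (lawAt J b v x) = m k v from fun k => rfl, e, ← Finset.mul_sum] at h2
    rw [ent_law hs hd hn] at h1
    linarith
  have h := Finset.sum_le_sum hv
  simp only [Finset.sum_sub_distrib, ← Finset.mul_sum, Finset.sum_const, Nat.card_Ico,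
    show 2 * W - W = W by omega, nsmul_eq_mul] at h
  rw [Finset.sum_comm] at h
  have h3 : (W : ℝ) * ∑ k ∈ Finset.range K, (t (k + 1) - t k) * (n - u k) ≤
      ∑ k ∈ Finset.range K, ∑ v ∈ Finset.Ico W (2 * W), (t (k + 1) - t k) * (n - m k v) := by
    rw [Finset.mul_sum]
    refine Finset.sum_le_sum fun k hk => ?_
    rw [← Finset.mul_sum, Finset.sum_sub_distrib, Finset.sum_const, Nat.card_Ico,
      show 2 * W - W = W by omega, nsmul_eq_mul, mul_left_comm (W : ℝ)]
    refine mul_le_mul_of_nonneg_left ?_ (sub_nonneg.2 (htm k.le_succ))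
    have := hu k (Finset.mem_range.1 hk)
    rw [blockAvg, div_le_iff₀ hW'] at this
    linarith
  rw [blockAvg, le_div_iff₀ hW'] at hE
  refine le_of_mul_le_mul_left ?_ hW'
  linarith

/-- the partition function is at most its mean up to `e^{εn}` -/
theorem logZ_upper (β : ℝ) {ε : ℝ} (hε : 0 < ε) :
    Tendsto (fun n : ℕ => (disorder n).real {g | (Real.log 2 + β ^ 2 / 4 + ε) * n <
      Real.log (∑ y, Real.exp (qE (cpl β g) 0 y))}) atTop (𝓝 0) := by
  refine squeeze_zero' (Eventually.of_forall fun _ => measureReal_nonneg) ?_ (tendsto_exp_nat hε)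
  filter_upwards [eventually_gt_atTop 0] with n hn
  set a := (Real.log 2 + β ^ 2 / 4 + ε) * n
  set F := fun g : Edge n → ℝ => ∑ x : Cfg n, Real.exp (β * energy g x)
  have hF : ∀ g, 0 < F g := partition_pos β
  have hi : Integrable F (disorder n) := integrable_finsetSum _ fun x _ => (mgf_energy hn β x).2
  have hI : ∫ g, F g ∂disorder n ≤ Real.exp ((Real.log 2 + β ^ 2 / 4) * n) := by
    rw [integral_finsetSum _ fun x _ => (mgf_energy hn β x).2]
    simp only [fun x => (mgf_energy hn β x).1, Finset.sum_const, Finset.card_univ, Fintype.card_fun,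
      Fintype.card_bool, Fintype.card_fin, nsmul_eq_mul, Nat.cast_pow, Nat.cast_ofNat]
    rw [add_mul, Real.exp_add, mul_comm (Real.log 2), Real.exp_nat_mul, Real.exp_log two_pos]
    exact mul_le_mul_of_nonneg_left (Real.exp_le_exp.2 (by linarith [sq_nonneg β])) (by positivity)
  have hM := mul_meas_ge_le_integral_of_nonneg (Eventually.of_forall fun g => (hF g).le) hi (Real.exp a)
  have hsub : {g : Edge n → ℝ | a < Real.log (∑ y, Real.exp (qE (cpl β g) 0 y))} ⊆
      {g | Real.exp a ≤ F g} := fun g hg => by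
    simp only [Set.mem_ofPred_eq, qE_cpl] at hg ⊢
    exact ((Real.lt_log_iff_exp_lt (hF g)).1 hg).le
  refine le_of_mul_le_mul_left ?_ (Real.exp_pos a)
  refine (mul_le_mul_of_nonneg_left (measureReal_mono hsub) (Real.exp_pos a).le).trans
    ((hM.trans hI).trans (le_of_eq ?_))
  rw [← Real.exp_add]; congr 1
  simp only [a]; ring

end Burn

open Burn in
/-- the energy limit and the bound on the posterior means give burn-in of the discrete chain -/
theorem discreteBurnIn_of {β : ℝ} (hβ0 : 0 ≤ β) (hβ : β < 1)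
    (hE : EnergyLimit β) (hM : MmseBound β) : DiscreteBurnIn β := by
  intro ε hε
  have hb : β ^ 2 < 1 := by nlinarith
  obtain ⟨T0, δ, hT0, hδ, hR⟩ := entropy_riemann hb (show 0 < ε / 6 by linarith)
  set K := ⌈T0 / δ⌉₊ + 1 with hK
  set C := 1 + 1 / (1 - β ^ 2)
  have hC : 0 < C := by have : 0 < 1 - β ^ 2 := by linarith
                        positivity
  have hKδ : 0 < (K : ℝ) * δ := by positivity
  set ε₁ := ε / (K * δ * C)
  have hε₁ : 0 < ε₁ := by positivity
  choose q Tq hq0 hqf hTq using fun k : ℕ => hM ((k + 1 : ℕ) * δ) ε₁ (by positivity) hε₁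
  obtain ⟨TE, hTE⟩ := hE (ε / 6) (by linarith)
  set T := max TE 1 + ∑ k ∈ Finset.range K, |Tq k|
  have hT1 : 1 ≤ T := le_add_of_le_of_nonneg (le_max_right _ _) (Finset.sum_nonneg fun k _ => abs_nonneg _)
  have hT2 : TE ≤ T := le_add_of_le_of_nonneg (le_max_left _ _) (Finset.sum_nonneg fun k _ => abs_nonneg _)
  have hT3 : ∀ k ∈ Finset.range K, Tq k ≤ T := fun k hk =>
    le_add_of_nonneg_of_le (zero_le_one.trans (le_max_right _ _))
      ((le_abs_self _).trans (Finset.single_le_sum (fun j _ => abs_nonneg (Tq j)) hk))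
  refine ⟨3 * T, by linarith, ?_⟩
  have hlim := ((hTE T hT2).add (tendsto_finsetSum (Finset.range K) fun k hk => hTq k T (hT3 k hk))).add
    (logZ_upper β (show 0 < ε / 6 by linarith))
  simp only [Finset.sum_const_zero, add_zero] at hlim
  refine squeeze_zero' (Eventually.of_forall fun _ => measureReal_nonneg) ?_ hlim
  filter_upwards [eventually_ge_atTop 4] with n hn
  refine le_trans (measureReal_mono (fun g hg => ?_)) ((measureReal_union_le _ _).trans
    (add_le_add ((measureReal_union_le _ _).trans (add_le_add le_rfl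
      (measureReal_biUnion_finset_le _ _))) le_rfl))
  by_contra hno
  simp only [Set.mem_union, Set.mem_iUnion, Set.mem_ofPred_eq, not_or, not_exists, not_lt] at hno
  obtain ⟨⟨hE', hM'⟩, hZ'⟩ := hno
  obtain ⟨x, hx⟩ := hg
  refine absurd hx (not_lt.2 ?_)
  have hn0 : 0 < n := by omega
  have hn4 : (4 : ℝ) ≤ n := by exact_mod_cast hn
  have hW : 0 < att n T := Nat.mul_pos two_pos (Nat.ceil_pos.2 (by positivity))
  have hN : 2 * att n T ≤ ⌈3 * T * n⌉₊ := by
    have h1 := Nat.ceil_lt_add_one (show 0 ≤ T * n / 2 by positivity)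
    have h2 := Nat.le_ceil (3 * T * n)
    have h3 : (1:ℝ) * 4 ≤ T * n := mul_le_mul hT1 hn4 (by norm_num) (by linarith)
    have : ((2 * att n T : ℕ) : ℝ) ≤ (⌈3 * T * n⌉₊ : ℝ) := by
      simp only [att, Nat.cast_mul, Nat.cast_ofNat]; linarith
    exact_mod_cast this
  set t := fun k : ℕ => (k : ℝ) * δ with ht
  have hstep : ∀ k, t (k + 1) - t k = δ := fun k => by simp only [ht]; push_cast; ring
  have hr := hR K t (by simp [ht]) (by
    have := (div_le_iff₀ hδ).1 (Nat.le_ceil (T0 / δ))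
    simp only [ht, hK, Nat.cast_add, Nat.cast_one]; linarith) fun k _ => by rw [hstep]; exact ⟨hδ.le, le_rfl⟩
  have h := ent_le (fun i j => by simp only [cpl, coupling_symm g i j])
    (fun i => by simp [cpl, coupling_self]) hn0 x hW hN (t := t) (b := 0) (by simp [ht])
    (fun a c hac => mul_le_mul_of_nonneg_right (Nat.cast_le.2 hac) hδ.le)
    (u := fun k => (q k + ε₁) * n) (fun k hk => hM' k (Finset.mem_range.2 hk) x) (hE' x) hZ'
  refine h.trans ?_
  simp only [hstep, ← Finset.mul_sum, show ∀ k, (n : ℝ) - (q k + ε₁) * n = (1 - q k - ε₁) * n from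
    fun k => by ring, ← Finset.sum_mul] at hr ⊢
  have hq : ∀ k ∈ Finset.range K, 1 - qstar β (t (k + 1)) - C * ε₁ ≤ 1 - q k - ε₁ := fun k _ => by
    have h1 := (le_abs_self _).trans (abs_sub_qstar_le hb (show 0 ≤ t (k + 1) by positivity) (hq0 k) (hqf k))
    have e : C * ε₁ = ε₁ + ε₁ / (1 - β ^ 2) := by ring
    linarith
  have hs := mul_le_mul_of_nonneg_left (Finset.sum_le_sum hq) hδ.le
  rw [Finset.sum_sub_distrib, mul_sub, Finset.sum_const, Finset.card_range, nsmul_eq_mul] at hs
  have e : δ * ((K : ℝ) * (C * ε₁)) = ε := by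
    have hKC : (K : ℝ) * δ * C ≠ 0 := by positivity
    rw [show δ * ((K : ℝ) * (C * ε₁)) = (K : ℝ) * δ * C * ε₁ by ring, mul_div_cancel₀ _ hKC]
  rw [e] at hs
  have hm := mul_le_mul_of_nonneg_right
    (show Real.log 2 - β ^ 2 / 4 - ε / 6 - ε / 2 ≤ 1 / 2 * (δ * ∑ k ∈ Finset.range K, (1 - q k - ε₁)) by
      linarith) (Nat.cast_nonneg n)
  linarith

end Vale.Agent.P150.PA
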