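import Vale.Agent.P150.PA.Targets

/-! Statement of the channel identity of Part A: the relation between the local field at a time inside
a tilted leg and the magnetisation at its far end. -/

open MeasureTheory Filter
open scoped Topology

namespace Vale.Agent.P150.PA

open Ising

variable {n : ℕ} (S : Sched) (J : Fin n → Fin n → ℝ)

/-- mean over one copy started at time `u` of the chain from `x` -/
noncomputable def gmean (u : ℕ) (x : Cfg n) (X : Cfg n → Copy S n → ℝ) : ℝ :=
  Kpow J 0 u (fun F => lex S J 0 F (X F)) x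

/-- overlap of the observed spins and the spins at the end of the copy -/
noncomputable def chanQ (u : ℕ) (x : Cfg n) : ℝ :=
  gmean S J u x (fun F a => ∑ i, spin (st F a.2.1 S.D i) * spin (cpos S F a (S.D + S.R) i)) / n

/-- a site-independent test with its derivatives in the field and in the noise -/
structure ChanTest where
  /-- the test -/
  fn : ℝ → ℝ → Bool → ℝ
  /-- derivative in the field -/
  dfn : ℝ → ℝ → Bool → ℝ
  /-- derivative in the noise -/
  zfn : ℝ → ℝ → Bool → ℝ
  hasDeriv : ∀ h u c, HasDerivAt (fun s => fn s u c) (dfn h u c) h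
  hasDerivZ : ∀ h u c, HasDerivAt (fun s => fn h s c) (zfn h u c) u
  contZ : ∀ h c, Continuous (fun u => zfn h u c)
  /-- a bound -/
  M : ℝ
  bdd : ∀ h u c, |fn h u c| ≤ M ∧ |dfn h u c| ≤ M ∧ |zfn h u c| ≤ M
  lip : ∀ h h' u u' c, |fn h u c - fn h' u' c| ≤ M * (|h - h'| + |u - u'|) ∧
    |dfn h u c - dfn h' u' c| ≤ M * (|h - h'| + |u - u'|)

/-- defect of the channel identity for the schedule `S` and the origin time `u` -/
noncomputable def chanErr (β : ℝ) (ψ : ChanTest) (u : ℕ) (x : Cfg n) : ℝ :=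
  let q := chanQ S J u x
  let g := fun (X : (Fin n → ℝ) → Cfg n → Cfg n → Cfg n → Fin n → ℝ) =>
    gmean S J u x fun F a => ∑ i, X a.1 (st F a.2.1 S.D) (cpos S F a (S.D + S.r)) (cpos S F a (S.D + S.R)) i
  g (fun z p y e i => ψ.fn (fld J 0 i y) (z i) (p i) * fld J 0 i e)
    - β ^ 2 * (q * g (fun z p y _ i => ψ.fn (fld J 0 i y) (z i) (p i) * spin (p i))
      + q * g (fun z p y _ i => ψ.dfn (fld J 0 i y) (z i) (p i))
      + q / Real.sqrt S.t * g (fun z p y _ i =>
          z i * ψ.fn (fld J 0 i y) (z i) (p i) - ψ.zfn (fld J 0 i y) (z i) (p i))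
      + (1 - q) * g (fun z p y e i => ψ.fn (fld J 0 i y) (z i) (p i) * spin (e i)))

/-- overlap of the mean of the tilted chain after `a` attempts from the configuration at time `v` -/
noncomputable def tiltLag (t : ℝ) (v a : ℕ) (x : Cfg n) : ℝ :=
  Kpow J 0 v (fun p => ∫ z, qmean J (obsField t p z) a p ∂gauss (Fin n)) x

/-- the schedule with `d` attempts before the observation, the test at `r` and the end at `2 j W` -/
def chanSched (P : ℕ) (t : ℝ) (W d j r : ℕ) : Sched := ⟨P, d, 2 * j * W, r, t⟩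

/-- average over the copies used by the channel identity -/
noncomputable def chanAvgErr (β t : ℝ) (ψ : ChanTest) (T D W Jn : ℕ) (x : Cfg n) : ℝ :=
  blockAvg T fun v => blockAvg D fun d => blockAvg Jn fun j => blockAvg W fun r =>
    |chanErr (chanSched 1 t W d j r) J β ψ (v - d) x|

/-- The channel identity: on average the defect is at most `ε n` plus a multiple, independent of the
scales, of the root of the drop of the tilted overlap between the scales `W / 2` and `8 J W`. -/
def ChannelIdentity (β : ℝ) : Prop :=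
  ∀ (ψ : ChanTest) (t ε : ℝ), 0 < t → 0 < ε → ∃ Kc : ℝ, ∀ W : ℝ, 1 ≤ W → ∃ Jn : ℕ, 1 ≤ Jn ∧ ∃ D₀ : ℝ,
    ∀ D : ℝ, D₀ ≤ D → ∃ T₀ : ℝ, ∀ T : ℝ, T₀ ≤ T → Tendsto (fun n : ℕ => (disorder n).real
      {g | ∃ x, (ε + Kc * Real.sqrt (max 0 (blockAvg (att n T) fun v =>
          tiltLag (cpl β g) t v (att n (W / 2)) x - tiltLag (cpl β g) t v (8 * Jn * att n W) x))) * n <
        chanAvgErr (cpl β g) β t ψ (att n T) (att n D) (att n W) Jn x}) atTop (𝓝 0)

end Vale.Agent.P150.PA
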