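import Vale.Agent.P150.PA.LegVar
import Vale.Agent.P150.PA.TreePath

/-! Global means: inside the average over the start of a period, every factor of the period value
that is an overlap is replaced by its mean. -/

namespace Vale.Agent.P150.PA

open Ising MeasureTheory

variable {n : ℕ}

/-- spins of a copy after `k` attempts -/
def xsp (S : Sched) (k : ℕ) (F : Cfg n) (a : Copy S n) (i : Fin n) : ℝ := spin (cpos S F a k i)

/-- mean over the start of the sum of the means of `X` under one copy -/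
noncomputable def meanSum (S : Sched) (J : Fin n → Fin n → ℝ) (b : Fin n → ℝ) (u : ℕ) (x : Cfg n)
    (X : Cfg n → Copy S n → Fin n → ℝ) : ℝ :=
  Kpow J b u (fun F => ∑ i, lex S J b F (fun a => X F a i)) x

/-- mean over the start of the sum of the covariances of `X` and `Y` under one copy -/
noncomputable def meanCov (S : Sched) (J : Fin n → Fin n → ℝ) (b : Fin n → ℝ) (u : ℕ) (x : Cfg n)
    (X Y : Cfg n → Copy S n → Fin n → ℝ) : ℝ :=
  Kpow J b u (fun F => ∑ i, (lex S J b F (fun a => X F a i * Y F a i)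
    - lex S J b F (fun a => X F a i) * lex S J b F (fun a => Y F a i))) x

/-- the period value with each product of two sums replaced by the product of their means over the
start, the start being reached after `u` attempts from `x` -/
noncomputable def periodMeans (S : Sched) (J : Fin n → Fin n → ℝ) (φ : Test n) (b : Fin n → ℝ) (β : ℝ)
    (u : ℕ) (x : Cfg n) : ℝ :=
  let m := meanSum S J b u x
  let c := meanCov S J b u x
  2 * (-c (cval S J φ) (fun F a i => fld J 0 i (cpos S F a (S.D + S.R)))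
    + β ^ 2 / n * m (cdval S J φ) * c (xsp S (S.D + S.r)) (xsp S (S.D + S.R))
    + β ^ 2 / n * ∑ k : Fin (S.D + S.R),
        (m (fun F a i => cval S J φ F a i * cinc S J b F a k i) * c (xsp S k) (xsp S (S.D + S.R))
          + m (fun F a i => xsp S (S.D + S.R) F a i * cinc S J b F a k i) * c (cval S J φ) (xsp S k)))

namespace ChanMeans

open LegVar

variable {J : Fin n → Fin n → ℝ} {L M τ t : ℝ} {S : Sched} {b : Fin n → ℝ}
  {Φ Φ' : Cfg n → (Fin n → ℝ) → Cfg n → Fin n → ℝ}

/-- an observable of one time of a copy -/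
def obs (S : Sched) (Φ : Cfg n → (Fin n → ℝ) → Cfg n → Fin n → ℝ) (k : ℕ) (F : Cfg n) (a : Copy S n)
    (j : Fin n) : ℝ := Φ (st F a.2.1 S.D) a.1 (cpos S F a k) j

lemma continuous_obs (hΦ : Fac M L Φ) (k : ℕ) (F : Cfg n) (l : Leg S n) (j : Fin n) :
    Continuous fun u => obs S Φ k F (u, l) j :=
  (hΦ.smooth (st F l.1 S.D) (if k ≤ S.D then st F l.1 k else st (st F l.1 S.D) l.2 (k - S.D)) j).continuous

lemma bd_obs (hΦ : Fac M L Φ) (k : ℕ) (F : Cfg n) (j : Fin n) : CBd S (fun a => obs S Φ k F a j) :=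
  .of_bound (fun l => (continuous_obs hΦ k F l j).measurable) fun _ _ => hΦ.abs_le _ _ _ j

/-- the mean over the noise of an observable of a tilted time -/
noncomputable def nmean (J : Fin n → Fin n → ℝ) (b : Fin n → ℝ) (t : ℝ) (m : ℕ)
    (Φ : Cfg n → (Fin n → ℝ) → Cfg n → Fin n → ℝ) (y : Cfg n) (j : Fin n) : ℝ :=
  ∫ u, pv J (hf b t y u) m (Φ y u) y j ∂gauss (Fin n)

lemma nmean_lin (hn : 0 < n) (hΦ : Fac M L Φ) (m : ℕ) (w : Fin n → ℝ) (y : Cfg n) :
    ∫ u, Kpow J (hf b t y u) m (fun z => ∑ j, w j * Φ y u z j) y ∂gauss (Fin n) =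
      ∑ j, w j * nmean J b t m Φ y j := by
  have hint : ∀ j, Integrable (fun u => pv J (hf b t y u) m (Φ y u) y j) (gauss (Fin n)) := fun j =>
    integrable_bdd (contDiff_Kpow (contDiff_hf b t y) (fun z => hΦ.smooth y z j) m y).continuous
      fun u => abs_Kpow_le _ hn (fun z => hΦ.abs_le y u z j) m y
  simp only [Kpow_sum_eq, nmean]
  rw [integral_finsetSum _ fun j _ => (hint j).const_mul _]
  exact Finset.sum_congr rfl fun j _ => integral_const_mul _ _

lemma nmean_vb (hJ : Tame J L) (hn : 0 < n) {m : ℕ} (hm : (m : ℝ) ≤ τ * n) (ht0 : 0 ≤ t) (ht : t ≤ τ)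
    (hΦ : Fac M L Φ) : VB (nmean J b t m Φ) (meanC τ * linA M L τ) (n * facB M ^ 2) := by
  refine ⟨mul_nonneg meanC_nonneg linA_nonneg, fun v y => ?_, fun y => sum_sq_le_of_abs fun j => ?_⟩
  · simp only [← nmean_lin hn hΦ]
    rw [mul_assoc]
    exact (lin_sec hJ hn hm hΦ v).gam_mean b ht0 ht y
  · refine abs_integral_le_integral_abs.trans ((integral_mono_of_nonneg
      (Filter.Eventually.of_forall fun u => abs_nonneg _) (integrable_const (facB M))
      (Filter.Eventually.of_forall fun u =>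
        abs_Kpow_le _ hn (fun z => hΦ.abs_le y u z j) m y)).trans_eq (by simp))

/-- the mean of an observable under one copy, as a function of the start -/
noncomputable def emean (S : Sched) (J : Fin n → Fin n → ℝ) (b : Fin n → ℝ)
    (Φ : Cfg n → (Fin n → ℝ) → Cfg n → Fin n → ℝ) (k : ℕ) (F : Cfg n) (j : Fin n) : ℝ :=
  lex S J b F (fun a => obs S Φ k F a j)

/-- gradient bound of the mean of an observable -/
noncomputable def meanA (M L τ : ℝ) : ℝ := G L τ * (facA M L + meanC τ * linA M L τ)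

lemma meanA_nonneg : 0 ≤ meanA M L τ :=
  mul_nonneg G_pos.le (add_nonneg facA_nonneg (mul_nonneg meanC_nonneg linA_nonneg))

lemma emean_vb (hJ : Tame J L) (hn : 0 < n) (hτ : (S.D : ℝ) + S.R ≤ τ * n) (ht0 : 0 ≤ S.t)
    (ht : S.t ≤ τ) (hΦ : Fac M L Φ) {k : ℕ} (hk : k ≤ S.D + S.R)
    (hk0 : k < S.D → ∀ p p' u u' z, Φ p u z = Φ p' u' z) :
    VB (emean S J b Φ k) (meanA M L τ) (n * facB M ^ 2) := by
  have hD : (S.D : ℝ) ≤ τ * n := le_trans (le_add_of_nonneg_right (Nat.cast_nonneg _)) hτ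
  have hG := (G_pos (L := L) (τ := τ)).le
  refine ⟨meanA_nonneg, fun v y => ?_,
    fun y => sum_sq_le_of_abs fun j => abs_lex_le_bound S J b hn y fun a => hΦ.abs_le _ _ _ j⟩
  rcases lt_or_ge k S.D with hkD | hkD
  · set a0 := Φ (fun _ => true) 0
    have e : ∀ F j, emean S J b Φ k F j = pv J b k a0 F j := fun F j => by
      have e1 : (fun a : Copy S n => obs S Φ k F a j) = fun a => a0 (st F a.2.1 k) j := funext fun a => by
        simp only [obs, cpos_low hkD.le, hk0 hkD (st F a.2.1 S.D) (fun _ => true) a.1 0, a0]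
      rw [emean, e1, lex_fst S J b hn F fun l => a0 (st F l k) j, pv,
        pex_st J b hn (fun z => a0 z j) hkD.le]
    have hv := ((hΦ.vb (fun _ => true) 0).kpow hJ hn b
      (le_trans (by exact_mod_cast hkD.le) hD : (k : ℝ) ≤ τ * n)).gam_le v y
    simp only [e]
    exact hv.trans (mul_le_mul_of_nonneg_right (mul_le_mul_of_nonneg_left
      (le_add_of_nonneg_right (mul_nonneg meanC_nonneg linA_nonneg)) hG)
      (Finset.sum_nonneg fun _ _ => sq_nonneg _))
  · set m := k - S.D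
    have hm : (m : ℝ) ≤ τ * n := le_trans (by exact_mod_cast (by omega : m ≤ S.R))
      (le_trans (le_add_of_nonneg_left (Nat.cast_nonneg _)) hτ)
    have e : ∀ F j, emean S J b Φ k F j = pv J b S.D (nmean J b S.t m Φ) F j := fun F j => by
      rw [emean, lex_eq hn (X := fun a => obs S Φ k F a j) (fun l => continuous_obs hΦ k F l j)
        (fun a => hΦ.abs_le _ _ _ j), pv,
        ← pex_st J b hn (fun y => nmean J b S.t m Φ y j) le_rfl]
      refine congrArg (pex J b F) (funext fun l1 => ?_)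
      refine integral_congr_ae (Filter.Eventually.of_forall fun u => ?_)
      simp only [obs, cpos_high hkD, pv]
      exact pex_st J _ hn (fun z => Φ (st F l1 S.D) u z j) (by omega) _
    have hv := ((nmean_vb (b := b) hJ hn hm ht0 ht hΦ).kpow hJ hn b hD).gam_le v y
    simp only [e]
    exact hv.trans (mul_le_mul_of_nonneg_right (mul_le_mul_of_nonneg_left
      (le_add_of_nonneg_left facA_nonneg) hG) (Finset.sum_nonneg fun _ _ => sq_nonneg _))

/-- the mean of an inner product of two observables, as a function of the start -/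
noncomputable def pmean (S : Sched) (J : Fin n → Fin n → ℝ) (b : Fin n → ℝ)
    (Φ Φ' : Cfg n → (Fin n → ℝ) → Cfg n → Fin n → ℝ) (k l : ℕ) (F : Cfg n) : ℝ :=
  lex S J b F (fun a => ∑ j, obs S Φ k F a j * obs S Φ' l F a j)

/-- gradient bound per site of a mixed inner product -/
noncomputable def mixA (M L τ : ℝ) : ℝ :=
  3 * (G L τ * (meanC τ * linA M L τ) * facB M ^ 2 + facA M L * facB M ^ 2 +
    4 * (G L τ * (meanC τ * linA M L τ) * facA M L))

lemma mixA_nonneg : 0 ≤ mixA M L τ := by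
  unfold mixA
  have := facA_nonneg (M := M) (L := L); have := (G_pos (L := L) (τ := τ)).le
  have := meanC_nonneg (τ := τ); have := linA_nonneg (M := M) (L := L) (τ := τ)
  positivity

/-- gradient bound per site of the mean of an inner product -/
noncomputable def prodA (M L τ : ℝ) : ℝ :=
  G L τ * (dotA M L τ + mixA M L τ + meanC τ * pairA M L τ)

lemma pmean_gam (hJ : Tame J L) (hn : 0 < n) (hτ : (S.D : ℝ) + S.R ≤ τ * n) (ht0 : 0 ≤ S.t)
    (ht : S.t ≤ τ) (hΦ : Fac M L Φ) (hΦ' : Fac M L Φ') {k l : ℕ} (hkl : k ≤ l) (hl : l ≤ S.D + S.R)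
    (hk0 : k < S.D → ∀ p p' u u' z, Φ p u z = Φ p' u' z)
    (hl0 : l < S.D → ∀ p p' u u' z, Φ' p u z = Φ' p' u' z) (y : Cfg n) :
    gam (pmean S J b Φ Φ' k l) y ≤ prodA M L τ * n := by
  have hD : (S.D : ℝ) ≤ τ * n := le_trans (le_add_of_nonneg_right (Nat.cast_nonneg _)) hτ
  have hG := (G_pos (L := L) (τ := τ)).le
  have hn' : (0 : ℝ) ≤ n := Nat.cast_nonneg n
  have hdot := mul_nonneg (dotA_nonneg (M := M) (L := L) (τ := τ)) hn'
  have hmix := mul_nonneg (mixA_nonneg (M := M) (L := L) (τ := τ)) hn'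
  have hpair := mul_nonneg (mul_nonneg (meanC_nonneg (τ := τ)) (pairA_nonneg (M := M) (L := L) (τ := τ))) hn'
  have hB := zero_le_one.trans (one_le_facB (M := M))
  have fin : ∀ {f : Cfg n → ℝ} {B' : ℝ} {m : ℕ}, (∀ z, gam f z ≤ B') → (m : ℝ) ≤ τ * n →
      B' ≤ dotA M L τ * n + mixA M L τ * n + meanC τ * pairA M L τ * n →
      gam (Kpow J b m f) y ≤ prodA M L τ * n := fun hf hm hB' =>
    (gam_Kpow_G b hJ hn hm hf y).trans ((mul_le_mul_of_nonneg_left hB' hG).trans_eq
      (by simp only [prodA]; ring))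
  set p0 : Cfg n := fun _ => true
  have hlτ : ((l - S.D : ℕ) : ℝ) ≤ τ * n := le_trans (by exact_mod_cast (by omega : l - S.D ≤ S.R))
    (le_trans (le_add_of_nonneg_left (Nat.cast_nonneg _)) hτ)
  have hbd : ∀ F (a : Copy S n), |∑ j, obs S Φ k F a j * obs S Φ' l F a j| ≤ n * facB M ^ 2 := fun F a => by
    refine (Finset.abs_sum_le_sum_abs _ _).trans
      ((Finset.sum_le_card_nsmul _ _ (facB M ^ 2) fun j _ => ?_).trans_eq (by simp))
    rw [abs_mul, pow_two]
    exact mul_le_mul (hΦ.abs_le _ _ _ j) (hΦ'.abs_le _ _ _ j) (abs_nonneg _) hB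
  have hc : ∀ F (q : Leg S n), Continuous fun u => ∑ j, obs S Φ k F (u, q) j * obs S Φ' l F (u, q) j :=
    fun F q => continuous_finsetSum _ fun j _ =>
      (continuous_obs hΦ k F q j).mul (continuous_obs hΦ' l F q j)
  rcases lt_or_ge l S.D with hlD | hlD
  · have hkD : k < S.D := hkl.trans_lt hlD
    have hd : ((l - k : ℕ) : ℝ) ≤ τ * n := le_trans (by exact_mod_cast (by omega : l - k ≤ S.D)) hD
    set a0 := Φ p0 0
    set b0 := Φ' p0 0
    have e : pmean S J b Φ Φ' k l = Kpow J b k (fun z => ∑ j, a0 z j * pv J b (l - k) b0 z j) :=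
      funext fun F => by
        have e1 : (fun a : Copy S n => ∑ j, obs S Φ k F a j * obs S Φ' l F a j) =
            fun a => ∑ j, a0 (st F a.2.1 k) j * b0 (st F a.2.1 l) j := funext fun a => by
          simp only [obs, cpos_low hkD.le, cpos_low hlD.le, hk0 hkD (st F a.2.1 S.D) p0 a.1 0,
            hl0 hlD (st F a.2.1 S.D) p0 a.1 0, a0, b0]
        rw [pmean, e1, lex_fst S J b hn F fun q => ∑ j, a0 (st F q k) j * b0 (st F q l) j,
          pex_two b hn hkl hlD.le F (fun y z => ∑ j, a0 y j * b0 z j)]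
        simp only [Kpow_sum_eq]
    rw [e]
    refine fin (B' := dotA M L τ * n) (fun z => ?_) (le_trans (by exact_mod_cast hkD.le) hD) (by linarith)
    refine (VB.gam_dot (hΦ.vb p0 0) ((hΦ'.vb p0 0).kpow hJ hn b hd) z).trans (le_of_eq ?_)
    simp only [dotA]; ring
  · set m := l - S.D
    rcases lt_or_ge k S.D with hkD | hkD
    · have hd : ((S.D - k : ℕ) : ℝ) ≤ τ * n := le_trans (by exact_mod_cast Nat.sub_le S.D k) hD
      set a0 := Φ p0 0
      have e : pmean S J b Φ Φ' k l =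
          Kpow J b k (fun z => ∑ j, a0 z j * pv J b (S.D - k) (nmean J b S.t m Φ') z j) :=
        funext fun F => by
          have e1 : (fun l1 : Path n S.D => ∫ u, pex J (hf b S.t (st F l1 S.D) u) (st F l1 S.D)
              (fun l2 : Path n S.R => ∑ j, obs S Φ k F (u, (l1, l2)) j * obs S Φ' l F (u, (l1, l2)) j)
              ∂gauss (Fin n)) = fun l1 => ∑ j, a0 (st F l1 k) j * nmean J b S.t m Φ' (st F l1 S.D) j :=
            funext fun l1 => by
              rw [← nmean_lin hn hΦ']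
              refine integral_congr_ae (Filter.Eventually.of_forall fun u => ?_)
              simp only [obs, cpos_low hkD.le, cpos_high hlD, hk0 hkD (st F l1 S.D) p0 u 0, a0]
              exact pex_st J _ hn (fun z => ∑ j, Φ p0 0 (st F l1 k) j * Φ' (st F l1 S.D) u z j)
                (by omega) _
          rw [pmean, lex_eq hn (hc F) (hbd F), e1,
            pex_two b hn hkD.le le_rfl F (fun y z => ∑ j, a0 y j * nmean J b S.t m Φ' z j)]
          simp only [Kpow_sum_eq]
      rw [e]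
      refine fin (B' := mixA M L τ * n) (fun z => ?_) (le_trans (by exact_mod_cast hkD.le) hD) (by linarith)
      refine (VB.gam_dot (hΦ.vb p0 0) ((nmean_vb (b := b) hJ hn hlτ ht0 ht hΦ').kpow hJ hn b hd) z).trans
        (le_of_eq ?_)
      simp only [mixA]; ring
    · set d := l - k
      have hkτ : ((k - S.D : ℕ) : ℝ) ≤ τ * n := le_trans (by exact_mod_cast (by omega : k - S.D ≤ m)) hlτ
      have hdτ : (d : ℝ) ≤ τ * n := le_trans (by exact_mod_cast (by omega : d ≤ m)) hlτ
      have hsub : m - (k - S.D) = d := by omega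
      set Ψ := fun p u h z =>
        Kpow J h (k - S.D) (fun w => ∑ j, Φ p u w j * pv J h d (Φ' p u) w j) z with hΨ
      have hsec : Sec Ψ (pairA M L τ * n) (n * facB M ^ 2) := pair_sec hJ hn hkτ hdτ hΦ hΦ'
      have e : pmean S J b Φ Φ' k l =
          Kpow J b S.D (fun z => ∫ u, Ψ z u (hf b S.t z u) z ∂gauss (Fin n)) := funext fun F => by
        rw [pmean, lex_eq hn (hc F) (hbd F),
          ← pex_st J b hn (fun z => ∫ u, Ψ z u (hf b S.t z u) z ∂gauss (Fin n)) le_rfl]
        refine congrArg (pex J b F) (funext fun l1 => ?_)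
        refine integral_congr_ae (Filter.Eventually.of_forall fun u => ?_)
        simp only [obs, cpos_high hkD, cpos_high hlD, hΨ]
        rw [pex_two _ hn (by omega : k - S.D ≤ l - S.D) (by omega) _
          (fun y z => ∑ j, Φ (st F l1 S.D) u y j * Φ' (st F l1 S.D) u z j),
          show l - S.D - (k - S.D) = d by omega]
        simp only [Kpow_sum_eq]
      rw [e]
      exact fin (fun z => hsec.gam_mean b ht0 ht z) hD (by linarith)

/-- the sum of the covariances of two observables, as a function of the start -/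
noncomputable def covSum (S : Sched) (J : Fin n → Fin n → ℝ) (b : Fin n → ℝ)
    (Φ Φ' : Cfg n → (Fin n → ℝ) → Cfg n → Fin n → ℝ) (k l : ℕ) (F : Cfg n) : ℝ :=
  ∑ j, (lex S J b F (fun a => obs S Φ k F a j * obs S Φ' l F a j) -
    emean S J b Φ k F j * emean S J b Φ' l F j)

/-- gradient bound per site of a sum of covariances -/
noncomputable def covA (M L τ : ℝ) : ℝ :=
  2 * prodA M L τ + 6 * (2 * meanA M L τ * facB M ^ 2 + 4 * meanA M L τ ^ 2)

lemma gam_sub_le (f g : Cfg n → ℝ) (y : Cfg n) :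
    gam (fun z => f z - g z) y ≤ 2 * gam f y + 2 * gam g y := by
  simp only [gam, Finset.mul_sum, ← Finset.sum_add_distrib]
  refine Finset.sum_le_sum fun i _ => ?_
  have e : dd i (fun z => f z - g z) y = dd i f y - dd i g y := by simp only [dd]; ring
  rw [e]
  linarith [sq_nonneg (dd i f y + dd i g y)]

lemma covSum_gam (hJ : Tame J L) (hn : 0 < n) (hτ : (S.D : ℝ) + S.R ≤ τ * n) (ht0 : 0 ≤ S.t)
    (ht : S.t ≤ τ) (hΦ : Fac M L Φ) (hΦ' : Fac M L Φ') {k l : ℕ} (hk : k ≤ S.D + S.R)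
    (hl : l ≤ S.D + S.R) (hk0 : k < S.D → ∀ p p' u u' z, Φ p u z = Φ p' u' z)
    (hl0 : l < S.D → ∀ p p' u u' z, Φ' p u z = Φ' p' u' z) (y : Cfg n) :
    gam (covSum S J b Φ Φ' k l) y ≤ covA M L τ * n := by
  wlog hkl : k ≤ l generalizing Φ Φ' k l
  · have e : covSum S J b Φ Φ' k l = covSum S J b Φ' Φ l k := funext fun F =>
      Finset.sum_congr rfl fun j _ => by
        rw [mul_comm (emean S J b Φ k F j), funext fun a => mul_comm (obs S Φ k F a j) (obs S Φ' l F a j)]
    rw [e]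
    exact this hΦ' hΦ hl hk hl0 hk0 (le_of_not_ge hkl)
  have e : covSum S J b Φ Φ' k l = fun F =>
      pmean S J b Φ Φ' k l F - ∑ j, emean S J b Φ k F j * emean S J b Φ' l F j := funext fun F => by
    rw [covSum, pmean, Finset.sum_sub_distrib,
      lex_sum S J b hn F _ fun j _ => (bd_obs hΦ k F j).mul (bd_obs hΦ' l F j)]
  rw [e]
  refine (gam_sub_le _ _ y).trans ?_
  have h1 := pmean_gam (b := b) hJ hn hτ ht0 ht hΦ hΦ' hkl hl hk0 hl0 y
  have h2 := VB.gam_dot (emean_vb (b := b) hJ hn hτ ht0 ht hΦ hk hk0)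
    (emean_vb (b := b) hJ hn hτ ht0 ht hΦ' hl hl0) y
  simp only [covA]
  linarith

/-- deviation of a product from the product of the means -/
lemma prod_close (hJ : Tame J L) (hn : 0 < n) {u : ℕ} (hu : (u : ℝ) ≤ τ * n) {A B : Cfg n → ℝ}
    {α γ : ℝ} (hA : ∀ y, |A y| ≤ α) (hB : ∀ y, gam B y ≤ γ * n) (x : Cfg n) :
    |Kpow J b u (fun F => A F * B F) x - Kpow J b u A x * Kpow J b u B x| ≤
      α * (Real.sqrt (4 * τ * G L τ * γ) * Real.sqrt n) := by
  have h := pex_prod J b hn x (N := u) (F := fun ω => A (st x ω u)) (G := fun ω => B (st x ω u))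
    fun ω => hA _
  rw [pex_st J b hn (fun F => A F * B F) le_rfl x, pex_st J b hn A le_rfl x,
    pex_st J b hn B le_rfl x, pex_var J b hn le_rfl x] at h
  refine h.trans (mul_le_mul_of_nonneg_left ?_ ((abs_nonneg _).trans (hA x)))
  rw [← Real.sqrt_mul' _ (Nat.cast_nonneg n)]
  exact Real.sqrt_le_sqrt ((var_Kpow_G b hJ hn hu hB x).trans_eq (by ring))

/-- linearity of the outer mean on an expression of the shape of the period value -/
lemma comb_close (hn : 0 < n) {u N : ℕ} (x : Cfg n) {C A B : Cfg n → ℝ}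
    {A₁ B₁ A₂ B₂ : Fin N → Cfg n → ℝ} {c e₀ e₁ : ℝ} (hc : 0 ≤ c)
    (h₀ : |Kpow J b u (fun F => A F * B F) x - Kpow J b u A x * Kpow J b u B x| ≤ e₀)
    (h₁ : ∀ k, |Kpow J b u (fun F => A₁ k F * B₁ k F) x - Kpow J b u (A₁ k) x * Kpow J b u (B₁ k) x| +
      |Kpow J b u (fun F => A₂ k F * B₂ k F) x - Kpow J b u (A₂ k) x * Kpow J b u (B₂ k) x| ≤ e₁) :
    |Kpow J b u (fun F => 2 * (-C F + c * A F * B F + c * ∑ k, (A₁ k F * B₁ k F + A₂ k F * B₂ k F))) x -
      2 * (-Kpow J b u C x + c * Kpow J b u A x * Kpow J b u B x +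
        c * ∑ k, (Kpow J b u (A₁ k) x * Kpow J b u (B₁ k) x + Kpow J b u (A₂ k) x * Kpow J b u (B₂ k) x))| ≤
      2 * c * (e₀ + N * e₁) := by
  simp only [← pex_st J b hn _ (le_refl u) x] at h₀ h₁ ⊢
  rw [show (fun ω : Path n u => 2 * (-C (st x ω u) + c * A (st x ω u) * B (st x ω u) +
      c * ∑ k, (A₁ k (st x ω u) * B₁ k (st x ω u) + A₂ k (st x ω u) * B₂ k (st x ω u)))) =
      fun ω => (-2) * C (st x ω u) + ((2 * c) * (A (st x ω u) * B (st x ω u)) +
        ∑ k, (2 * c) * (A₁ k (st x ω u) * B₁ k (st x ω u) + A₂ k (st x ω u) * B₂ k (st x ω u))) from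
    funext fun ω => by rw [← Finset.mul_sum]; ring, pex_add, pex_add, pex_sum, pex_const_mul, pex_const_mul]
  simp only [pex_const_mul, pex_add]
  set P := fun f : Cfg n → ℝ => pex J b x (fun ω : Path n u => f (st x ω u))
  set D₀ := P (fun F => A F * B F) - P A * P B
  set D₁ := fun k => P (fun F => A₁ k F * B₁ k F) - P (A₁ k) * P (B₁ k)
  set D₂ := fun k => P (fun F => A₂ k F * B₂ k F) - P (A₂ k) * P (B₂ k)
  have hs : |∑ k, (D₁ k + D₂ k)| ≤ N * e₁ :=
    (Finset.abs_sum_le_sum_abs _ _).trans ((Finset.sum_le_card_nsmul _ _ e₁ fun k _ =>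
      (abs_add_le _ _).trans (h₁ k)).trans_eq (by simp))
  calc _ = |2 * c * (D₀ + ∑ k, (D₁ k + D₂ k))| := by
        congr 1
        simp only [D₀, D₁, D₂, P, Finset.sum_add_distrib, Finset.sum_sub_distrib, mul_add, ← Finset.mul_sum]
        ring
    _ ≤ _ := by
      rw [abs_mul, abs_of_nonneg (by positivity : 0 ≤ 2 * c)]
      exact mul_le_mul_of_nonneg_left ((abs_add_le _ _).trans (add_le_add h₀ hs)) (by positivity)

lemma abs_sum_mul_cinc_le {w : Fin n → ℝ} {B : ℝ} (hw : ∀ i, |w i| ≤ B) (hB : 0 ≤ B) (F : Cfg n)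
    (a : Copy S n) (k : Fin (S.D + S.R)) : |∑ i, w i * cinc S J b F a k i| ≤ B * 2 := by
  have key : ∀ (h : Fin n → ℝ) (z : Cfg n) (m : Move n), |∑ i, w i * inc J h z m i| ≤ B * 2 :=
    fun h z m => by
      rw [Finset.sum_eq_single m.1 (fun i _ hi => by simp [inc, Ne.symm hi]) (by simp), abs_mul]
      exact mul_le_mul (hw _) (abs_inc_le J h z m _) (abs_nonneg _) hB
  by_cases hk : (k : ℕ) < S.D
  · simp only [cinc, dif_pos hk]; exact key _ _ _
  · simp only [cinc, dif_neg hk]; exact key _ _ _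

lemma abs_sum_lex_mul_cinc (hn : 0 < n) {X : Copy S n → Fin n → ℝ} {B : ℝ}
    (hX : ∀ a i, |X a i| ≤ B) (hB : 0 ≤ B) (hb : ∀ i, CBd S (fun a => X a i)) (F : Cfg n)
    (k : Fin (S.D + S.R)) : |∑ i, lex S J b F (fun a => X a i * cinc S J b F a k i)| ≤ B * 2 := by
  rw [← lex_sum S J b hn F _ fun i _ => (hb i).mul (bd_cinc S J b F k i)]
  exact abs_lex_le_bound S J b hn F fun a => abs_sum_mul_cinc_le (hX a) hB F a k

end ChanMeans

open LegVar ChanMeans in
/-- the constant of the replacement by the means -/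
noncomputable def meansC (β M L τ : ℝ) : ℝ :=
  2 * β ^ 2 * (M + τ * (2 * M + 2)) * Real.sqrt (4 * τ * G L τ * covA M L τ)

open LegVar ChanMeans in
/-- Inside the mean over the start, each product of two sums in the period value may be replaced by the
product of the means, at a cost of order `√n`. -/
theorem period_means {J : Fin n → Fin n → ℝ} {L M τ β : ℝ} {S : Sched} {φ : Test n} {b : Fin n → ℝ}
    (hJ : Tame J L) (hφ : φ.Bdd M) (hu : ∀ i h c, ContDiff ℝ 1 fun u => φ.fn i h u c) (hr : S.r ≤ S.R)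
    (ht0 : 0 ≤ S.t) (ht : S.t ≤ τ) {u : ℕ} (huτ : (u : ℝ) ≤ τ * n) (hτ : (S.D : ℝ) + S.R ≤ τ * n)
    (x : Cfg n) :
    |Kpow J b u (periodValue S J φ b β) x - periodMeans S J φ b β u x| ≤
      meansC β M L τ * Real.sqrt n := by
  rcases Nat.eq_zero_or_pos n with rfl | hn
  · have hK : ∀ v, Kpow J b v (fun _ => (0 : ℝ)) = fun _ => 0 := fun v => by
      induction v with
      | zero => rfl
      | succ v ih => rw [Kpow_succ, ih]; funext y; simp [K]
    have h0 : periodValue S J φ b β = fun _ => 0 := funext fun F => by simp [periodValue]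
    simp [h0, hK, periodMeans, meanSum, meanCov]
  have hn' : (0 : ℝ) < n := Nat.cast_pos.2 hn
  have hM : 0 ≤ M := (abs_nonneg _).trans (hφ.fn_le ⟨0, hn⟩ 0 0 true)
  have hτ0 : 0 ≤ τ := ht0.trans ht
  set sd := Real.sqrt (4 * τ * G L τ * covA M L τ) * Real.sqrt n with hsd
  have hsd0 : 0 ≤ sd := by positivity
  have fS : Fac M L (fun _ _ (z : Cfg n) j => spin (z j)) := Fac.ofSpin
  have fT := Fac.test (L := L) hJ hφ hu
  have hDr : S.D + S.r ≤ S.D + S.R := by omega
  have gCov : ∀ {k l : ℕ}, k ≤ S.D + S.R → l ≤ S.D + S.R → ∀ y,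
      gam (fun F => ∑ j, (lex S J b F (fun a => xsp S k F a j * xsp S l F a j) -
        lex S J b F (fun a => xsp S k F a j) * lex S J b F (fun a => xsp S l F a j))) y ≤
        covA M L τ * n := fun hk hl y =>
    covSum_gam hJ hn hτ ht0 ht fS fS hk hl (fun _ _ _ _ _ _ => rfl) (fun _ _ _ _ _ _ => rfl) y
  have gTest : ∀ {l : ℕ}, l ≤ S.D + S.R → ∀ y,
      gam (fun F => ∑ j, (lex S J b F (fun a => cval S J φ F a j * xsp S l F a j) -
        lex S J b F (fun a => cval S J φ F a j) * lex S J b F (fun a => xsp S l F a j))) y ≤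
        covA M L τ * n := fun hl y =>
    covSum_gam hJ hn hτ ht0 ht fT fS hDr hl (fun h => absurd h (by omega)) (fun _ _ _ _ _ _ => rfl) y
  have hdv : ∀ F, |∑ i, lex S J b F (fun a => cdval S J φ F a i)| ≤ n * M := fun F =>
    (Finset.abs_sum_le_sum_abs _ _).trans ((Finset.sum_le_card_nsmul _ _ M fun i _ =>
      abs_lex_le_bound S J b hn F fun a => hφ.dfn_le _ _ _ _).trans_eq (by simp))
  have hcv : ∀ k F, |∑ i, lex S J b F (fun a => cval S J φ F a i * cinc S J b F a k i)| ≤ M * 2 :=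
    fun k F => abs_sum_lex_mul_cinc hn (fun a i => hφ.fn_le _ _ _ _) hM
      (fun i => bd_obs fT (S.D + S.r) F i) F k
  have hxv : ∀ k F, |∑ i, lex S J b F (fun a => xsp S (S.D + S.R) F a i * cinc S J b F a k i)| ≤ 1 * 2 :=
    fun k F => abs_sum_lex_mul_cinc hn (fun a i => by show |spin _| ≤ 1; simp only [spin]; split_ifs <;> norm_num)
      zero_le_one (fun i => bd_obs fS (S.D + S.R) F i) F k
  have key := comb_close (J := J) (b := b) hn x (u := u) (N := S.D + S.R) (c := β ^ 2 / n)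
    (C := fun F => ∑ i, (lex S J b F (fun a => cval S J φ F a i * fld J 0 i (cpos S F a (S.D + S.R))) -
      lex S J b F (fun a => cval S J φ F a i) * lex S J b F (fun a => fld J 0 i (cpos S F a (S.D + S.R)))))
    (by positivity)
    (prod_close (b := b) hJ hn huτ hdv (gCov hDr le_rfl) x)
    (fun k => add_le_add (prod_close (b := b) hJ hn huτ (hcv k) (gCov k.2.le le_rfl) x)
      (prod_close (b := b) hJ hn huτ (hxv k) (gTest k.2.le) x))
  refine le_trans (key : |Kpow J b u (periodValue S J φ b β) x - periodMeans S J φ b β u x| ≤ _) ?_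
  rw [← hsd]
  push_cast
  have h1 : ((S.D : ℝ) + S.R) * ((2 * M + 2) * sd) ≤ τ * n * ((2 * M + 2) * sd) :=
    mul_le_mul_of_nonneg_right hτ (by positivity)
  have h2 : β ^ 2 / (n : ℝ) * n = β ^ 2 := div_mul_cancel₀ _ hn'.ne'
  calc 2 * (β ^ 2 / (n : ℝ)) * (n * M * sd + ((S.D : ℝ) + S.R) * (M * 2 * sd + 1 * 2 * sd))
      ≤ 2 * (β ^ 2 / (n : ℝ)) * (n * (M + τ * (2 * M + 2)) * sd) :=
        mul_le_mul_of_nonneg_left (by linarith) (by positivity)
    _ = 2 * (β ^ 2 / (n : ℝ) * n) * (M + τ * (2 * M + 2)) * sd := by ring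
    _ = _ := by rw [h2, hsd, meansC]; ring

end Vale.Agent.P150.PA
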