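import Vale.Agent.P150.PA.ChanDefs
import Vale.Agent.P150.PA.ChannelMeans

/-! Shapes of the pieces of the channel identity: the test of the experiment, the average over the
copies, and the statement of the evaluation of one period. -/

open MeasureTheory Filter
open scoped Topology

namespace Vale.Agent.P150.PA

open Ising

variable {n : ℕ}

/-- the site-independent test of the experiment given by a test of the channel identity -/
def chanTest (n : ℕ) (ψ : ChanTest) : Test n where
  fn _ := ψ.fn
  dfn _ := ψ.dfn
  hasDeriv _ := ψ.hasDeriv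

/-- average over the copies used by the channel identity of an error depending on the schedule and
the origin time -/
noncomputable def schedAvg (t : ℝ) (T D W Jn : ℕ) (E : Sched → ℕ → ℝ) : ℝ :=
  blockAvg T fun v => blockAvg D fun d => blockAvg Jn fun j => blockAvg W fun r =>
    E (chanSched 1 t W d j r) (v - d)

/-- error of the evaluation of one period from the time `u`: the means of half the period value plus
the defect of the channel identity -/
noncomputable def evalErr (S : Sched) (J : Fin n → Fin n → ℝ) (β : ℝ) (ψ : ChanTest) (u : ℕ)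
    (x : Cfg n) : ℝ :=
  |periodMeans S J (chanTest n ψ) 0 β u x / 2 + chanErr S J β ψ u x|

/-- The evaluation of one period: the bound of the channel identity for `evalErr` in place of the
defect of the identity. -/
def ChannelEval (β : ℝ) : Prop :=
  ∀ (ψ : ChanTest) (t ε : ℝ), 0 < t → 0 < ε → ∃ Kc : ℝ, ∀ W : ℝ, 1 ≤ W → ∃ Jn : ℕ, 1 ≤ Jn ∧ ∃ D₀ : ℝ,
    ∀ D : ℝ, D₀ ≤ D → ∃ T₀ : ℝ, ∀ T : ℝ, T₀ ≤ T → Tendsto (fun n : ℕ => (disorder n).real
      {g | ∃ x, (ε + Kc * Real.sqrt (max 0 (blockAvg (att n T) fun v =>
          tiltLag (cpl β g) t v (att n (W / 2)) x - tiltLag (cpl β g) t v (8 * Jn * att n W) x))) * n <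
        schedAvg t (att n T) (att n D) (att n W) Jn fun S u => evalErr S (cpl β g) β ψ u x}) atTop (𝓝 0)

end Vale.Agent.P150.PA
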