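import Vale.Agent.P150.PA.ChannelEvalAvg
import Vale.Agent.P150.PA.ChanShape
import Vale.Agent.P150.PA.QSmall
import Vale.Agent.P150.PA.Whp

/-! The evaluation of one period, averaged over the copies: the score before the observation and the
tilted leg give the bound of the channel identity once the mean magnetisation has died out. -/

open MeasureTheory Filter
open scoped Topology

namespace Vale.Agent.P150.PA

open Ising QS

variable {n : ℕ}

namespace ChEval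

lemma chan_M_nonneg (ψ : ChanTest) : 0 ≤ ψ.M := (abs_nonneg _).trans (ψ.bdd 0 0 true).1

lemma chan_bdd (n : ℕ) (ψ : ChanTest) : (chanTest n ψ).Bdd ψ.M where
  fn_le _ h u c := (ψ.bdd h u c).1
  dfn_le _ h u c := (ψ.bdd h u c).2.1
  dfn_lip _ h h' u c := by simpa [chanTest] using (ψ.lip h h' u u c).2
  noise_lip _ h u u' c := by simpa [chanTest] using (ψ.lip h h u u' c).1
  cont _ c := by
    have hM : 0 ≤ 2 * ψ.M := mul_nonneg two_pos.le (chan_M_nonneg ψ)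
    have key : ∀ p q : ℝ × ℝ, ψ.M * (|p.1 - q.1| + |p.2 - q.2|) ≤ (⟨2 * ψ.M, hM⟩ : NNReal) * dist p q := fun p q => by
      show _ ≤ 2 * ψ.M * dist p q
      rw [Prod.dist_eq, Real.dist_eq, Real.dist_eq, mul_comm (2 : ℝ), mul_assoc]
      refine mul_le_mul_of_nonneg_left ?_ (chan_M_nonneg ψ)
      linarith [le_max_left |p.1 - q.1| |p.2 - q.2|, le_max_right |p.1 - q.1| |p.2 - q.2|]
    exact ⟨(LipschitzWith.of_dist_le_mul fun p q => ((ψ.lip p.1 q.1 p.2 q.2 c).1).trans (key p q)).continuous,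
      (LipschitzWith.of_dist_le_mul fun p q => ((ψ.lip p.1 q.1 p.2 q.2 c).2).trans (key p q)).continuous⟩

lemma chan_smooth (n : ℕ) (ψ : ChanTest) (i : Fin n) (h : ℝ) (c : Bool) :
    ContDiff ℝ 1 fun u => (chanTest n ψ).fn i h u c :=
  contDiff_one_iff_deriv.2 ⟨fun u => (ψ.hasDerivZ h u c).differentiableAt, by
    show Continuous (deriv fun u => ψ.fn h u c)
    rw [show (deriv fun u => ψ.fn h u c) = fun u => ψ.zfn h u c from funext fun u => (ψ.hasDerivZ h u c).deriv]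
    exact ψ.contZ h c⟩

/-- one period: the score before the observation and the tilted leg -/
lemma point {J : Fin n → Fin n → ℝ} (hJ : Tame J 3) (hn : 0 < n) {β : ℝ} (h0 : 0 ≤ β) (h1 : β ≤ 1)
    (ψ : ChanTest) {t : ℝ} (ht : 0 < t) {W Jn lo hi τ₀ N v d j r : ℕ} (hN : 0 < N) (hJn : 4 ≤ Jn)
    (hj : Jn ≤ j) (hj' : j < 2 * Jn) (hr : r < 2 * W) (hlo : lo ≤ W) (hhi : hi = 8 * Jn * W)
    (hτ₀ : 3 * τ₀ ≤ d) (hdv : d ≤ v) {τ Cr CH : ℝ} (hτ : (d : ℝ) + hi ≤ τ * n) (hτt : t ≤ τ)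
    (hCr : (r : ℝ) / n ≤ Cr) (hCH : (hi : ℝ) / n ≤ CH) {s α : ℝ} (hs : 0 ≤ s) (hα : 0 < α) (x : Cfg n) :
    evalErr (chanSched 1 t W d j r) J β ψ (v - d) x ≤
      n * evalBd J t x τ₀ W hi lo N (preGrad ψ.M 3 τ) (LegVar.facB ψ.M)
        (200 * LegVar.facB ψ.M ^ 2 + 3 * ψ.M + ψ.M * (1 + 2 * Cr)) (ψ.M * (1 + 2 * Cr))
        (ψ.M * (5 + 2 * Cr + 2 * CH)) (2 * ψ.M) (3 * ψ.M) (4 * Real.sqrt CH * ψ.M)
        (3 / (2 * α) + 2 * Real.exp (3 * (1 + α) - s / 2)) s v d j := by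
  have hW : W ≤ j * W := Nat.le_mul_of_pos_left _ (by omega)
  have h3W : 3 * W ≤ j * W := Nat.mul_le_mul_right _ (by omega)
  have hR : 2 * j * W = 2 * (j * W) := mul_assoc _ _ _
  have hRhi : 2 * j * W ≤ hi := hhi ▸ Nat.mul_le_mul_right _ (by omega)
  have hjw : (j - 1) * W + W = j * W := by
    rw [← Nat.add_one_mul, Nat.sub_add_cancel (by omega)]
  set S := chanSched 1 t W d j r with hS
  have hC := channel_copy (S := S) (lo := lo) (hi := hi) (w := (j - 1) * W) hJ hn β ψ ht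
    (show r ≤ 2 * j * W by omega) (show 4 * lo ≤ 2 * j * W by omega)
    (show 2 * (lo + r) ≤ 2 * j * W by omega) hRhi (show 2 * ((j - 1) * W) + r ≤ 2 * j * W by omega) hs hα (v - d) x
  have hP : |preGap S J (chanTest n ψ) (v - d) x| ≤ _ :=
    channel_pre (S := S) (b := (0 : Fin n → ℝ)) (τ := τ) hJ hn (chan_bdd n ψ) (chan_smooth n ψ)
      (show r ≤ 2 * j * W by omega) (le_trans (add_le_add le_rfl (Nat.cast_le.2 hRhi)) hτ) ht.le hτt hτ₀ hN (v - d) x
  rw [show Kpow J 0 (v - d) (fun F => (∑ i, lex S J 0 F (fun a => xsp S (S.D + S.R) F a i) ^ 2) / n) x =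
      etaT J S.t (v - d) S.D S.R x from eta_eq hn S le_rfl _ x, restart_qmean] at hP
  rw [legErr] at hC
  rw [eta_eq hn S le_rfl, Finset.sum_congr rfl fun l hl =>
    congrArg Real.sqrt (eta_eq hn S (Finset.mem_range.1 hl).le (v - d) x)] at hC
  simp only [hS, chanSched, show v - d + d = v by omega, show 2 * j * W / 2 = j * W by omega] at hC hP ⊢
  have hn' : (0 : ℝ) < n := Nat.cast_pos.2 hn
  have hM := chan_M_nonneg ψ
  set Mb := LegVar.facB ψ.M
  set Q := Real.sqrt (qlag J 0 (v - d + τ₀) τ₀ x)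
  set ηR := Real.sqrt (etaT J t (v - d) d (2 * j * W) x)
  set P := preDel J 0 x (v - d) d 3 (preGrad ψ.M 3 τ) Mb N
  set δ := legDefect J 3 v x hi
  set Td := tiltLag J t v ((j - 1) * W) x - tiltLag J t v (j * W) x with hTd
  set dr := tiltLag J t v lo x - tiltLag J t v hi x with hdr
  set Sg := (∑ l ∈ Finset.range hi, Real.sqrt (etaT J t (v - d) d l x)) / (n : ℝ) with hSg
  set X := Real.sqrt (3 / (2 * α) + 2 * Real.exp (3 * (1 + α) - s / 2) + s * δ)
  have hδ : 0 ≤ δ := legDefect_nonneg v x hi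
  have hP0 : 0 ≤ P := by
    have := err0 (J := J) (L := 3) (Γ := preGrad ψ.M 3 τ) (u := v - d) (d := d) (x := x)
      (zero_le_one.trans LegVar.one_le_facB : (0 : ℝ) ≤ Mb)
    unfold P preDel
    positivity
  have hb2 : β ^ 2 ≤ 1 := pow_le_one₀ h0 h1
  have e1 : β ^ 2 / n * (200 * Mb ^ 2 * (n : ℝ) ^ 2 * (Q + ηR + P)) ≤ n * (200 * Mb ^ 2 * (Q + ηR + P)) := by
    refine le_trans (le_of_eq ?_) (mul_le_of_le_one_left (by positivity) hb2)
    field_simp
  have hjR : (j - 1) * W ≤ j * W := by omega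
  have hTd0 : 0 ≤ Td + δ := tilt_mono hJ hn ht.le hjR (show j * W ≤ hi by omega) v x
  have hdr0 : 0 ≤ dr + δ := tilt_mono hJ hn ht.le (show lo ≤ hi by omega) le_rfl v x
  have e2 : (1 + 2 * (r : ℝ) / n) * (ηR + Td + δ) ≤ (1 + 2 * Cr) * (ηR + Td + δ) := by
    refine mul_le_mul_of_nonneg_right ?_ (by linarith [Real.sqrt_nonneg (etaT J t (v - d) d (2 * j * W) x)])
    rw [mul_div_assoc]; linarith
  have e3 : 2 / (n : ℝ) * ∑ l ∈ Finset.range (2 * j * W), Real.sqrt (etaT J t (v - d) d l x) ≤ 2 * Sg := by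
    rw [hSg, div_mul_eq_mul_div, ← mul_div_assoc]
    exact div_le_div_of_nonneg_right (mul_le_mul_of_nonneg_left
      (Finset.sum_le_sum_of_subset_of_nonneg (Finset.range_mono hRhi) fun l _ _ => Real.sqrt_nonneg _)
      two_pos.le) hn'.le
  have e4 : Real.sqrt (max 0 dr + δ) ≤ Real.sqrt (dr + 2 * δ) :=
    Real.sqrt_le_sqrt (by linarith [max_le hdr0 (le_add_of_nonneg_right hδ : dr ≤ dr + δ)])
  have hRn : ((2 * j * W : ℕ) : ℝ) / n ≤ CH :=
    le_trans (div_le_div_of_nonneg_right (by exact_mod_cast hRhi) hn'.le) hCH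
  have e5 : δ * (4 + 2 * ((2 * j * W : ℕ) : ℝ) / n) ≤ (4 + 2 * CH) * δ := by
    rw [mul_comm, mul_div_assoc]; exact mul_le_mul_of_nonneg_right (by linarith) hδ
  have e6 : 4 * Real.sqrt (((2 * j * W : ℕ) : ℝ) / n) * X ≤ 4 * Real.sqrt CH * X :=
    mul_le_mul_of_nonneg_right (mul_le_mul_of_nonneg_left (Real.sqrt_le_sqrt hRn) (by norm_num))
      (Real.sqrt_nonneg _)
  refine (hC.trans (add_le_add_left ((mul_le_mul_of_nonneg_left hP (by positivity)).trans e1) _)).trans ?_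
  rw [← mul_add]
  refine mul_le_mul_of_nonneg_left ?_ hn'.le
  simp only [evalBd]
  have hm : β ^ 2 * ψ.M ≤ ψ.M := mul_le_of_le_one_left hM hb2
  set B := (1 + 2 * Cr) * (ηR + Td + δ) + 2 * Sg + 3 * Real.sqrt (dr + 2 * δ) + (4 + 2 * CH) * δ
    + 4 * Real.sqrt CH * X with hB
  have hB0 : 0 ≤ B := by
    have : 0 ≤ Cr := le_trans (by positivity) hCr
    have : 0 ≤ CH := le_trans (by positivity) hCH
    have : 0 ≤ ηR + Td + δ := by linarith [Real.sqrt_nonneg (etaT J t (v - d) d (2 * j * W) x)]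
    have : 0 ≤ Sg := div_nonneg (Finset.sum_nonneg fun _ _ => Real.sqrt_nonneg _) hn'.le
    positivity
  have e7 : β ^ 2 * ψ.M * ((1 + 2 * (r : ℝ) / n) * (ηR + Td + δ)
      + 2 / n * ∑ l ∈ Finset.range (2 * j * W), Real.sqrt (etaT J t (v - d) d l x)
      + 3 * Real.sqrt (max 0 dr + δ) + δ * (4 + 2 * ((2 * j * W : ℕ) : ℝ) / n)
      + 4 * Real.sqrt (((2 * j * W : ℕ) : ℝ) / n) * X) ≤ ψ.M * B := by
    refine le_trans (mul_le_mul_of_nonneg_left ?_ (mul_nonneg (sq_nonneg β) hM))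
      (mul_le_mul_of_nonneg_right hm hB0)
    rw [hB]; linarith
  have n1 : 0 ≤ (3 * ψ.M + ψ.M * (1 + 2 * Cr)) * (Q + P) := by
    have : 0 ≤ Cr := le_trans (by positivity) hCr
    positivity
  rw [hB] at e7
  push_cast at e7 ⊢
  linarith

/-- attempts per site -/
lemma att_per (hn : 2 ≤ n) {τ : ℝ} (hτ : 0 ≤ τ) : (att n τ : ℝ) ≤ (τ + 1) * n := by
  have : (2 : ℝ) ≤ n := by exact_mod_cast hn
  linarith [att_le n hτ]

lemma div_att {n : ℕ} {c T : ℝ} (hn : 0 < n) (hc : 0 ≤ c) (hT : 0 < T) :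
    c * n / (att n T : ℝ) ≤ c / T := by
  rw [div_le_div_iff₀ (Nat.cast_pos.2 (att_pos hn hT)) hT, mul_assoc, mul_comm (n : ℝ)]
  exact mul_le_mul_of_nonneg_left (att_ge n T) hc

/-- the mean defect of a leg -/
lemma legDefect_avg {J : Fin n → Fin n → ℝ} (hJ : Tame J 3) (hn : 0 < n) {hi : ℕ} {CH T : ℝ} (hT : 0 < T)
    (hCH : (hi : ℝ) ≤ CH * n) (x : Cfg n) :
    blockAvg (att n T) (fun v => legDefect J 3 v x hi) ≤
      240 * CH * LegVar.G 3 (4 * CH) * Real.sqrt ((Real.log 2 + 3) / T) + 8 / n := by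
  have hn' : (0 : ℝ) < n := Nat.cast_pos.2 hn
  have hT' := att_pos hn hT
  simp only [legDefect, BlockAvg.add, BlockAvg.smul, BlockAvg.const hT']
  refine add_le_add ((mul_le_mul_of_nonneg_left (blockAvg_vErr hJ hn x _ _) (by positivity)).trans ?_) le_rfl
  have hp : (1 + gradC 3 / (n : ℝ)) ^ (4 * hi) ≤ LegVar.G 3 (4 * CH) :=
    LegVar.pow_le_G hn (by push_cast; linarith)
  have h0 : 0 ≤ Real.log 2 + 3 := by linarith [Real.log_pos (one_lt_two (α := ℝ))]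
  have hCH0 : 0 ≤ CH := nonneg_of_mul_nonneg_left ((Nat.cast_nonneg hi).trans hCH) hn'
  have hG := (LegVar.G_pos (L := 3) (τ := 4 * CH)).le
  have hr : Real.sqrt (Real.log 2 + 3) / Real.sqrt ((n : ℝ) * att n T) ≤
      Real.sqrt ((Real.log 2 + 3) / T) / n := by
    rw [← Real.sqrt_div h0, le_div_iff₀ hn']
    calc Real.sqrt ((Real.log 2 + 3) / ((n : ℝ) * att n T)) * n
        = Real.sqrt ((Real.log 2 + 3) / ((n : ℝ) * att n T) * (n : ℝ) ^ 2) := by
          rw [Real.sqrt_mul' _ (sq_nonneg _), Real.sqrt_sq hn'.le]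
      _ ≤ _ := Real.sqrt_le_sqrt (le_trans (le_of_eq (by field_simp)) (div_att hn h0 hT))
  refine (le_of_eq (by ring : _ = 240 * (hi : ℝ) * (1 + gradC 3 / (n : ℝ)) ^ (4 * hi) *
    (Real.sqrt (Real.log 2 + 3) / Real.sqrt ((n : ℝ) * att n T)))).trans ?_
  refine (mul_le_mul (mul_le_mul (mul_le_mul_of_nonneg_left hCH (by norm_num)) hp
    (pow_nonneg (zero_le_one.trans Corr.one_le_base) _) (by positivity)) hr (by positivity) (by positivity)).trans_eq ?_
  field_simp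

/-- the bound of the evaluation for one disorder -/
lemma eval_det {β : ℝ} (h0 : 0 ≤ β) (h1 : β ≤ 1) (ψ : ChanTest) {g : Edge n → ℝ}
    (hJ : Tame (cpl β g) 3) (hn : 2 ≤ n) {t W D T τ₁ CH η s α : ℝ} {Jn N : ℕ} (ht : 0 < t) (hW : 1 ≤ W)
    (hJn : 4 ≤ Jn) (hCH : CH = 8 * Jn * (W + 1)) (hN : 0 < N) (hτ₁ : 0 < τ₁) (hD : 3 * τ₁ + 3 ≤ D)
    (hT : 2 * D + 2 ≤ T) (hη : 0 < η) (hη1 : η ≤ 1) (hs : 0 ≤ s) (hα : 0 < α)
    (hθ : 3 / (2 * α) + 2 * Real.exp (3 * (1 + α) - s / 2) ≤ 2 * η)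
    (hcen : 8 * CH * Real.sqrt (LegVar.G 3 CH) * Real.sqrt (2 * (Real.log 2 + 3) / D) ≤ η)
    (hsh : 12 * D / T ≤ η)
    (hE : (N + 1) * (96 * (2 * (D + 1) * (LegVar.G 3 (4 * (D + 1)) *
      preGrad ψ.M 3 (2 * (D + 1) + CH + t) ^ 2 * LegVar.facB ψ.M))) * Real.sqrt ((Real.log 2 + 3) / T) ≤ η)
    (hN' : (2 * (D + 1)) ^ 2 / N ≤ η) (hsm : (2 * (D + 1) + N + 1) / n ≤ η)
    (hδ : (s + 1) * (240 * CH * LegVar.G 3 (4 * CH) * Real.sqrt ((Real.log 2 + 3) / T) + 8 / n) ≤ η)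
    (x : Cfg n) (hq : blockAvg (att n T) (fun v => qlag (cpl β g) 0 v (att n τ₁) x) ≤ η) :
    schedAvg t (att n T) (att n D) (att n W) Jn (fun S u => evalErr S (cpl β g) β ψ u x) ≤
      (ψ.M * (1 + 4 * (W + 1)) / Jn + 3 * ψ.M * Real.sqrt (max 0 (blockAvg (att n T) fun v =>
          tiltLag (cpl β g) t v (att n (W / 2)) x - tiltLag (cpl β g) t v (8 * Jn * att n W) x)) +
        (8 * (200 * LegVar.facB ψ.M ^ 2 + 3 * ψ.M + ψ.M * (1 + 4 * (W + 1))) +
          ψ.M * (5 + 4 * (W + 1) + 2 * CH) + 2 * (2 * ψ.M * CH) + 2 * (3 * ψ.M) +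
          2 * (4 * Real.sqrt CH * ψ.M)) * Real.sqrt η) * n := by
  have hnp : 0 < n := by omega
  have hn' : (0 : ℝ) < n := Nat.cast_pos.2 hnp
  have hD1 : 0 < D := by linarith
  have hT0 : 0 < T := by linarith
  have hM := chan_M_nonneg ψ
  have hL0 : 0 ≤ Real.log 2 + 3 := by linarith [Real.log_pos (one_lt_two (α := ℝ))]
  set τn := 2 * (D + 1) + CH + t with hτn
  set Γ := preGrad ψ.M 3 τn
  set Mb := LegVar.facB ψ.M
  have hW' : 0 < att n W := att_pos hnp (by linarith)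
  have hD' : 0 < att n D := att_pos hnp hD1
  have hT' : 0 < att n T := att_pos hnp hT0
  have hatW := att_per hn (show 0 ≤ W by linarith)
  have hatD := att_per hn hD1.le
  have hatT := att_ge n T
  have hhi : ((8 * Jn * att n W : ℕ) : ℝ) ≤ CH * n := by
    rw [hCH]; push_cast
    linarith [mul_le_mul_of_nonneg_left hatW (show (0 : ℝ) ≤ 8 * Jn by positivity)]
  have hCH0 : 0 ≤ CH := by rw [hCH]; positivity
  have h2D : 2 * att n D ≤ att n T := by
    rw [← Nat.cast_le (α := ℝ)]; push_cast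
    linarith [mul_le_mul_of_nonneg_right hT hn'.le]
  have h3τ : 3 * att n τ₁ ≤ att n D := by
    rw [← Nat.cast_le (α := ℝ)]; push_cast
    linarith [att_per hn hτ₁.le, att_ge n D, mul_le_mul_of_nonneg_right hD hn'.le]
  have hlo : att n (W / 2) ≤ att n W := att_mono n (by linarith)
  have hCr : ∀ r < 2 * att n W, (r : ℝ) / n ≤ 2 * (W + 1) := fun r hr => by
    rw [div_le_iff₀ hn']
    have : (r : ℝ) ≤ 2 * att n W := by exact_mod_cast hr.le
    linarith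
  refine le_trans (b := av3 (att n T) (att n D) Jn fun v d j => n * evalBd (cpl β g) t x (att n τ₁) (att n W)
    (8 * Jn * att n W) (att n (W / 2)) N Γ Mb
    (200 * Mb ^ 2 + 3 * ψ.M + ψ.M * (1 + 2 * (2 * (W + 1)))) (ψ.M * (1 + 2 * (2 * (W + 1))))
    (ψ.M * (5 + 2 * (2 * (W + 1)) + 2 * CH)) (2 * ψ.M) (3 * ψ.M) (4 * Real.sqrt CH * ψ.M)
    (3 / (2 * α) + 2 * Real.exp (3 * (1 + α) - s / 2)) s v d j)
    (BlockAvg.mono fun v hv => BlockAvg.mono fun d hd => BlockAvg.mono fun j hj =>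
      (BlockAvg.mono fun r hr => ?_).trans_eq (BlockAvg.const hW' _)) ?_
  · simp only [Finset.mem_Ico] at hv hd hj hr
    refine point hJ hnp h0 h1 ψ ht hN hJn hj.1 hj.2 hr.2 hlo rfl (by omega) (by omega) ?_ ?_ (hCr r hr.2)
      ((div_le_iff₀ hn').2 hhi) hs hα x
    · have : (d : ℝ) ≤ 2 * att n D := by exact_mod_cast hd.2.le
      rw [hτn, add_mul, add_mul]
      linarith [mul_nonneg ht.le hn'.le]
    · linarith
  rw [av3_smul, mul_comm _ (n : ℝ)]
  refine mul_le_mul_of_nonneg_left ?_ hn'.le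
  have hEb : 96 * (2 * (D + 1) * (LegVar.G 3 (4 * (D + 1)) * Γ ^ 2 * Mb)) *
      Real.sqrt ((Real.log 2 + 3) * n / att n T) ≤
      96 * (2 * (D + 1) * (LegVar.G 3 (4 * (D + 1)) * Γ ^ 2 * Mb)) * Real.sqrt ((Real.log 2 + 3) / T) := by
    refine mul_le_mul_of_nonneg_left (Real.sqrt_le_sqrt (div_att hnp hL0 hT0)) ?_
    have := (LegVar.G_pos (L := 3) (τ := 4 * (D + 1))).le
    have := (zero_le_one.trans LegVar.one_le_facB : (0 : ℝ) ≤ Mb)
    positivity
  have hE0 : 0 ≤ 96 * (2 * (D + 1) * (LegVar.G 3 (4 * (D + 1)) * Γ ^ 2 * Mb)) *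
      Real.sqrt ((Real.log 2 + 3) / T) := by
    have := (LegVar.G_pos (L := 3) (τ := 4 * (D + 1))).le
    have := (zero_le_one.trans LegVar.one_le_facB : (0 : ℝ) ≤ Mb)
    positivity
  have hNE0 := mul_nonneg (Nat.cast_nonneg (α := ℝ) N) hE0
  have hpre := preDel_le (T := att n T) (D := att n D) (Jn := Jn) (Γ := Γ) (M := Mb) (N := N)
    (Dc := 2 * (D + 1)) (Cp := LegVar.G 3 (4 * (D + 1)) * Γ ^ 2 * Mb) hJ hnp hD' h2D (by omega)
    (zero_le_one.trans LegVar.one_le_facB) hη.le hη1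
    (by
      refine mul_le_mul_of_nonneg_right (mul_le_mul_of_nonneg_right (LegVar.pow_le_G hnp ?_) (sq_nonneg _))
        (zero_le_one.trans LegVar.one_le_facB)
      push_cast; linarith)
    (by rw [div_le_iff₀ hn']; linarith)
    (hEb.trans (by linarith))
    ((mul_le_mul_of_nonneg_left hEb (Nat.cast_nonneg N)).trans (by linarith)) hN' hsm x
  have hda := legDefect_avg (J := cpl β g) hJ hnp hT0 hhi x
  have hδ0 : 0 ≤ blockAvg (att n T) (fun v => legDefect (cpl β g) 3 v x (8 * Jn * att n W)) :=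
    BlockAvg.nonneg fun v _ => legDefect_nonneg v x _
  refine (av_bd (CH := CH) (η := η) hJ hnp ht.le hD' h2D (by omega) (by omega)
    (Nat.mul_le_mul_right _ (by omega)) (hlo.trans (Nat.le_mul_of_pos_left _ (by omega))) (by positivity)
    (by positivity) (by positivity) (by positivity) (by positivity) (by positivity) (by positivity) hs hη.le hη1
    ((div_le_iff₀ hn').2 hhi) x hq ?_ ?_ hpre ?_ ?_).trans (le_of_eq ?_)
  · refine le_trans ?_ hsh
    rw [div_le_div_iff₀ (Nat.cast_pos.2 hT') hT0]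
    have : (att n τ₁ : ℝ) ≤ att n D := by exact_mod_cast (show att n τ₁ ≤ att n D by omega)
    have h4 : 2 * (2 * (att n D : ℝ) + att n τ₁) ≤ 12 * D * n := by
      linarith [mul_le_mul_of_nonneg_right (show (1 : ℝ) ≤ D by linarith) hn'.le]
    calc _ ≤ 12 * D * n * T := mul_le_mul_of_nonneg_right h4 hT0.le
      _ = 12 * D * (T * n) := by ring
      _ ≤ _ := mul_le_mul_of_nonneg_left hatT (by linarith)
  · refine le_trans (mul_le_mul (mul_le_mul ?_ (Real.sqrt_le_sqrt (LegVar.pow_le_G hnp hhi))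
      (Real.sqrt_nonneg _) (by linarith)) (Real.sqrt_le_sqrt ?_) (Real.sqrt_nonneg _) (by positivity)) hcen
    · rw [mul_div_assoc]; exact mul_le_mul_of_nonneg_left ((div_le_iff₀ hn').2 hhi) (by norm_num)
    · simp only [centC, Pi.zero_apply, abs_zero, Finset.sum_const_zero, mul_zero, zero_div, add_zero]
      rw [show 2 * (n : ℝ) * (Real.log 2 + 3) = 2 * (Real.log 2 + 3) * n by ring]
      exact div_att hnp (by linarith) hD1
  · refine le_trans hda ?_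
    linarith [mul_nonneg hs (hδ0.trans hda)]
  · linarith [mul_le_mul_of_nonneg_left hda hs, hδ0.trans hda]
  · ring

end ChEval

open ChEval

/-- the evaluation of one period, averaged over the copies, with high probability -/
theorem channelEval {β : ℝ} (h0 : 0 ≤ β) (h1 : β < 1) (hQ : QSmall β) : ChannelEval β := by
  intro ψ t ε ht hε
  have hM := chan_M_nonneg ψ
  refine ⟨3 * ψ.M, fun W hW => ?_⟩
  set b := ψ.M * (1 + 4 * (W + 1)) with hb
  obtain ⟨Jn, hJn4, hJb⟩ : ∃ Jn : ℕ, 4 ≤ Jn ∧ b / Jn ≤ ε / 2 := by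
    refine ⟨⌈2 * b / ε⌉₊ + 4, by omega, ?_⟩
    rw [div_le_iff₀ (by positivity)]
    have h := (div_le_iff₀ hε).1 (Nat.le_ceil (2 * b / ε))
    push_cast
    linarith
  refine ⟨Jn, by omega, ?_⟩
  set CH := 8 * (Jn : ℝ) * (W + 1) with hCH
  have hCH0 : 0 ≤ CH := by positivity
  set Kt := 8 * (200 * LegVar.facB ψ.M ^ 2 + 3 * ψ.M + b) + ψ.M * (5 + 4 * (W + 1) + 2 * CH) +
    2 * (2 * ψ.M * CH) + 2 * (3 * ψ.M) + 2 * (4 * Real.sqrt CH * ψ.M) with hKt
  have hKt0 : 0 ≤ Kt := by positivity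
  obtain ⟨η, hη, hη1, hηK⟩ : ∃ η : ℝ, 0 < η ∧ η ≤ 1 ∧ Kt * Real.sqrt η ≤ ε / 2 := by
    refine ⟨min 1 ((ε / 2 / (Kt + 1)) ^ 2), lt_min one_pos (by positivity), min_le_left _ _, ?_⟩
    refine le_trans (mul_le_mul_of_nonneg_left ((Real.sqrt_le_sqrt (min_le_right _ _)).trans_eq
      (Real.sqrt_sq (by positivity))) hKt0) ?_
    exact slack (by linarith) hKt0
  set α := 3 / (2 * η) with hαdef
  have hα : 0 < α := by positivity
  set s := max 0 (2 * (3 * (1 + α) - Real.log (η / 2))) with hsdef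
  have hs : 0 ≤ s := le_max_left _ _
  have hθ : 3 / (2 * α) + 2 * Real.exp (3 * (1 + α) - s / 2) ≤ 2 * η := by
    have h2 : Real.exp (3 * (1 + α) - s / 2) ≤ η / 2 := by
      refine (Real.exp_le_exp.2 ?_).trans_eq (Real.exp_log (show 0 < η / 2 by positivity))
      linarith [le_max_right 0 (2 * (3 * (1 + α) - Real.log (η / 2)))]
    have h3 : 3 / (2 * α) = η := by rw [hαdef]; field_simp
    linarith
  obtain ⟨τ₁, T₁, hτ₁, hQS⟩ := hQ η hη
  have hL0 : 0 < Real.log 2 + 3 := by linarith [Real.log_pos (one_lt_two (α := ℝ))]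
  refine ⟨max (3 * τ₁ + 3) ((8 * CH * Real.sqrt (LegVar.G 3 CH)) ^ 2 * (2 * (Real.log 2 + 3)) / η ^ 2),
    fun D hD => ?_⟩
  have hD3 : 3 * τ₁ + 3 ≤ D := (le_max_left _ _).trans hD
  have hD0 : 0 < D := by linarith
  obtain ⟨N, hN, hN'⟩ : ∃ N : ℕ, 0 < N ∧ (2 * (D + 1)) ^ 2 / (N : ℝ) ≤ η := by
    refine ⟨⌈(2 * (D + 1)) ^ 2 / η⌉₊ + 1, Nat.succ_pos _, ?_⟩
    rw [div_le_iff₀ (by positivity)]
    have h := (div_le_iff₀ hη).1 (Nat.le_ceil ((2 * (D + 1)) ^ 2 / η))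
    push_cast
    linarith
  set A := (N + 1) * (96 * (2 * (D + 1) * (LegVar.G 3 (4 * (D + 1)) *
    preGrad ψ.M 3 (2 * (D + 1) + CH + t) ^ 2 * LegVar.facB ψ.M))) with hA
  have hA0 : 0 ≤ A := by
    have := (LegVar.G_pos (L := 3) (τ := 4 * (D + 1))).le
    have := (zero_le_one.trans LegVar.one_le_facB : (0 : ℝ) ≤ LegVar.facB ψ.M)
    positivity
  set A' := 2 * (s + 1) * (240 * CH * LegVar.G 3 (4 * CH)) with hA'
  have hA'0 : 0 ≤ A' := by
    have := (LegVar.G_pos (L := 3) (τ := 4 * CH)).le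
    positivity
  refine ⟨max (max T₁ (2 * D + 2)) (max (12 * D / η) ((A + A') ^ 2 * (Real.log 2 + 3) / η ^ 2)),
    fun T hT => ?_⟩
  simp only [max_le_iff] at hT hD
  obtain ⟨⟨hT1, hT2⟩, hT3, hT4⟩ := hT
  have hT0 : 0 < T := by linarith
  have hsq : (A + A') * Real.sqrt ((Real.log 2 + 3) / T) ≤ η := by
    rw [← Real.sqrt_sq (add_nonneg hA0 hA'0), ← Real.sqrt_mul (sq_nonneg _), Real.sqrt_le_left hη.le]
    rw [div_le_iff₀ (by positivity)] at hT4
    rw [← mul_div_assoc, div_le_iff₀ hT0]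
    linarith
  have hsq0 := Real.sqrt_nonneg ((Real.log 2 + 3) / T)
  have hcen : 8 * CH * Real.sqrt (LegVar.G 3 CH) * Real.sqrt (2 * (Real.log 2 + 3) / D) ≤ η := by
    rw [← Real.sqrt_sq (show 0 ≤ 8 * CH * Real.sqrt (LegVar.G 3 CH) by positivity),
      ← Real.sqrt_mul (sq_nonneg _), Real.sqrt_le_left hη.le]
    have h := hD.2
    rw [div_le_iff₀ (by positivity)] at h
    rw [← mul_div_assoc, div_le_iff₀ hD0]
    linarith
  have hsh : 12 * D / T ≤ η := by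
    rw [div_le_iff₀ hT0]; rw [div_le_iff₀ hη] at hT3; linarith
  have hbad : Tendsto (fun n : ℕ => (disorder n).real {g | ¬ Tame (cpl β g) 3} +
      (disorder n).real {g | ∃ x, η < blockAvg (att n T) (fun v => qlag (cpl β g) 0 v (att n τ₁) x)})
      atTop (𝓝 0) := by
    simpa using (tame_whp h0 h1).add (hQS T hT1)
  refine tendsto_of_tendsto_of_tendsto_of_le_of_le' tendsto_const_nhds hbad
    (Eventually.of_forall fun _ => measureReal_nonneg) ?_
  filter_upwards [eventually_ge_atTop 2,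
    eventually_ge_atTop ⌈max ((2 * (D + 1) + N + 1) / η) (16 * (s + 1) / η)⌉₊] with n hn hn2
  have hn' : (0 : ℝ) < n := Nat.cast_pos.2 (by omega)
  rw [Nat.ceil_le, max_le_iff, div_le_iff₀ hη, div_le_iff₀ hη] at hn2
  refine le_trans (measureReal_mono (s₂ := {g | ¬ Tame (cpl β g) 3} ∪
    {g | ∃ x, η < blockAvg (att n T) (fun v => qlag (cpl β g) 0 v (att n τ₁) x)}) ?_ (measure_ne_top _ _))
    (measureReal_union_le _ _)
  rintro g ⟨x, hx⟩
  by_contra hcon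
  simp only [Set.mem_union, not_or, not_exists, not_lt, Set.mem_ofPred_eq, not_not] at hcon
  have h := eval_det h0 h1.le ψ hcon.1 hn ht hW hJn4 rfl hN hτ₁ hD3 hT2 hη hη1 hs hα hθ hcen hsh
    (le_trans (mul_le_mul_of_nonneg_right (le_add_of_nonneg_right hA'0) hsq0) hsq) hN'
    (by rw [div_le_iff₀ hn']; linarith)
    (by
      have h8 : (s + 1) * (8 / (n : ℝ)) ≤ η / 2 := by
        rw [← mul_div_assoc, div_le_iff₀ hn']; linarith
      linarith [mul_nonneg hA0 hsq0])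
    x (hcon.2 x)
  refine hx.not_ge (h.trans (mul_le_mul_of_nonneg_right ?_ hn'.le))
  linarith

end Vale.Agent.P150.PA
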