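import Vale.Agent.P150.PA.ChannelLegCore
import Vale.Agent.P150.PA.ChanShape

/-! One period of the channel identity: apart from the score of the attempts before the observation,
half the means of the period value cancel the defect of the channel identity, up to centring, the drop
of the tilted overlap and stationarity defects. -/

open MeasureTheory

namespace Vale.Agent.P150.PA

open Ising

variable {n : ℕ}

/-- squared mean of the spins of a copy `l` attempts after the observation, per spin -/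
noncomputable def legEta (S : Sched) (J : Fin n → Fin n → ℝ) (u : ℕ) (x : Cfg n) (l : ℕ) : ℝ :=
  Kpow J 0 u (fun F => (∑ i, lex S J 0 F (fun a => xsp S (S.D + l) F a i) ^ 2) / n) x

/-- the score of the attempts before the observation less its value -/
noncomputable def preGap (S : Sched) (J : Fin n → Fin n → ℝ) (φ : Test n) (u : ℕ) (x : Cfg n) : ℝ :=
  ∑ k ∈ Finset.univ.filter (fun k : Fin (S.D + S.R) => (k : ℕ) < S.D),
      (meanSum S J 0 u x (fun F a i => cval S J φ F a i * cinc S J 0 F a k i) *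
          meanCov S J 0 u x (xsp S k) (xsp S (S.D + S.R)) +
        meanSum S J 0 u x (fun F a i => xsp S (S.D + S.R) F a i * cinc S J 0 F a k i) *
          meanCov S J 0 u x (cval S J φ) (xsp S k))
    - meanSum S J 0 u x (fun F a i => cval S J φ F a i * spin (st F a.2.1 S.D i)) *
        meanSum S J 0 u x (fun F a i => spin (st F a.2.1 S.D i) * xsp S (S.D + S.R) F a i)

/-- error of one period apart from the score before the observation, per spin -/
noncomputable def legErr (S : Sched) (J : Fin n → Fin n → ℝ) (L β : ℝ) (ψ : ChanTest) (u : ℕ) (x : Cfg n)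
    (lo hi w : ℕ) (s α : ℝ) : ℝ :=
  ψ.M * L * Real.sqrt (legEta S J u x S.R) +
    β ^ 2 * ψ.M * ((1 + 2 * S.r / n) * (Real.sqrt (legEta S J u x S.R) +
        (tiltLag J S.t (u + S.D) w x - tiltLag J S.t (u + S.D) (S.R / 2) x + legDefect J L (u + S.D) x hi)) +
      2 / n * ∑ l ∈ Finset.range S.R, Real.sqrt (legEta S J u x l) +
      3 * Real.sqrt (max 0 (tiltLag J S.t (u + S.D) lo x - tiltLag J S.t (u + S.D) hi x) +
        legDefect J L (u + S.D) x hi) +
      legDefect J L (u + S.D) x hi * (4 + 2 * S.R / n) +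
      4 * Real.sqrt (S.R / n) *
        Real.sqrt (L / (2 * α) + 2 * Real.exp (L * (1 + α) - s / 2) + s * legDefect J L (u + S.D) x hi))

namespace ChanLeg

variable {S : Sched} {J : Fin n → Fin n → ℝ} {L : ℝ} {u : ℕ} {x : Cfg n} {ψ : ChanTest}

lemma cpos_leg (F : Cfg n) (a : Copy S n) (l : ℕ) :
    cpos S F a (S.D + l) = st (st F a.2.1 S.D) a.2.2 l := by
  rw [LegVar.cpos_high (Nat.le_add_right _ _), Nat.add_sub_cancel_left]

/-- a mean over one copy that only sees the leg -/
lemma gmean_leg (hn : 0 < n) {X : (Fin n → ℝ) → Cfg n → Path n S.R → ℝ} (hX : LInt X) :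
    gmean S J u x (fun F a => X a.1 (st F a.2.1 S.D) a.2.2) = legMean J S.t (u + S.D) x S.R X := by
  set H := fun p : Cfg n => ∫ z, pex J (obsField S.t p z) p (X z p) ∂gauss (Fin n) with hH
  have key : ∀ F, lex S J 0 F (fun a => X a.1 (st F a.2.1 S.D) a.2.2) = Kpow J 0 S.D H F := fun F => by
    rw [lex, ← pex_st J 0 hn H le_rfl F]
    have e : ∀ z, (∑ l : Leg S n, pw J 0 F l.1 *
        pw J (fun i => (0 : Fin n → ℝ) i + obsField S.t (st F l.1 S.D) z i) (st F l.1 S.D) l.2 *
          X z (st F l.1 S.D) l.2) =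
        ∑ l₁ : Path n S.D, pw J 0 F l₁ * pex J (obsField S.t (st F l₁ S.D) z) (st F l₁ S.D) (X z (st F l₁ S.D)) := by
      intro z
      simp only [Fintype.sum_prod_type, pex, Finset.mul_sum, Pi.zero_apply, zero_add, mul_assoc]
    simp only [e]
    rw [integral_finsetSum _ fun l₁ _ => (hX.integrable hn _).const_mul _]
    simp only [integral_const_mul, hH]
    rfl
  simp only [gmean, key]
  rw [legMean, show Kpow J 0 (u + S.D) H = Kpow J 0 u (Kpow J 0 S.D H) from
    Function.iterate_add_apply (K J 0) u S.D H]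

/-- a sum of means over one copy that only see the leg -/
lemma meanSum_leg (hn : 0 < n) (X : Fin n → (Fin n → ℝ) → Cfg n → Path n S.R → ℝ) {B : ℝ}
    (hc : ∀ i p ω, Continuous fun z => X i z p ω) (hb : ∀ i z p ω, |X i z p ω| ≤ B)
    {Y : Cfg n → Copy S n → Fin n → ℝ} (hY : ∀ F a i, Y F a i = X i a.1 (st F a.2.1 S.D) a.2.2) :
    meanSum S J 0 u x Y = legMean J S.t (u + S.D) x S.R (fun z p ω => ∑ i, X i z p ω) := by
  rw [show Y = fun F a i => X i a.1 (st F a.2.1 S.D) a.2.2 from funext fun F => funext fun a => funext (hY F a),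
    ← gmean_leg hn (LInt.sum _ fun i _ => LInt.of_bound (hc i) (hb i))]
  simp only [meanSum, gmean]
  congr 1
  funext F
  exact (lex_sum S J 0 hn F _ fun i _ => .of_bound (fun l => (hc i (st F l.1 S.D) l.2).measurable) fun _ _ => hb i _ _ _).symm

lemma cinc_leg (F : Cfg n) (a : Copy S n) (l : Fin S.R) (i : Fin n) :
    cinc S J 0 F a (Fin.natAdd S.D l) i = lincr J S.t a.1 (st F a.2.1 S.D) a.2.2 l i := by
  simp only [cinc, lincr, Fin.val_natAdd, Nat.not_lt.2 (Nat.le_add_right S.D l), dif_neg, not_false_iff, dif_pos l.2,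
    Pi.zero_apply, zero_add, Nat.add_sub_cancel_left]

lemma meanCov_eq (X Y : Cfg n → Copy S n → Fin n → ℝ) :
    meanCov S J 0 u x X Y = meanSum S J 0 u x (fun F a i => X F a i * Y F a i) -
      Kpow J 0 u (fun F => ∑ i, lex S J 0 F (fun a => X F a i) * lex S J 0 F (fun a => Y F a i)) x := by
  simp only [meanCov, meanSum, Finset.sum_sub_distrib]
  exact congrFun (Block.Kpow_sub (J := J) (b := (0 : Fin n → ℝ)) u _ _) x

/-- Cauchy's inequality for the means over the start -/
lemma cent_le (hn : 0 < n) {a b : Cfg n → Fin n → ℝ} {A B : ℝ}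
    (hA : Kpow J 0 u (fun F => (∑ i, a F i ^ 2) / n) x ≤ A) (hB : Kpow J 0 u (fun F => (∑ i, b F i ^ 2) / n) x ≤ B) :
    |Kpow J 0 u (fun F => ∑ i, a F i * b F i) x| ≤ n * (Real.sqrt A * Real.sqrt B) := by
  have hA0 : 0 ≤ A := le_trans (Pair.Kpow_nonneg (fun F =>
    div_nonneg (Finset.sum_nonneg fun _ _ => sq_nonneg _) (Nat.cast_nonneg n)) u x) hA
  have hB0 : 0 ≤ B := le_trans (Pair.Kpow_nonneg (fun F =>
    div_nonneg (Finset.sum_nonneg fun _ _ => sq_nonneg _) (Nat.cast_nonneg n)) u x) hB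
  refine le_geom hA0 hB0 (Nat.cast_nonneg n) fun s hs => ?_
  set U := fun F => n * s / 2 * ((∑ i, a F i ^ 2) / n) + n / (2 * s) * ((∑ i, b F i ^ 2) / n) with hU
  have hpt : ∀ F, |∑ i, a F i * b F i| ≤ U F := fun F => by
    have e : U F = ∑ i, (s * a F i ^ 2 + b F i ^ 2 / s) / 2 := by
      have : (n : ℝ) ≠ 0 := Nat.cast_ne_zero.2 hn.ne'
      simp only [hU, ← Finset.sum_div, Finset.sum_add_distrib, ← Finset.mul_sum]
      field_simp
    rw [e]
    refine (Finset.abs_sum_le_sum_abs _ _).trans (Finset.sum_le_sum fun i _ => ?_)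
    have h0 : 0 ≤ (s * |a F i| - |b F i|) ^ 2 / s := div_nonneg (sq_nonneg _) hs.le
    have h1 : (s * |a F i| - |b F i|) ^ 2 / s = s * a F i ^ 2 + b F i ^ 2 / s - 2 * |a F i * b F i| := by
      rw [← sq_abs (a F i), ← sq_abs (b F i), abs_mul]; field_simp; ring
    linarith
  have hKU : Kpow J 0 u U x ≤ n * ((s * A + B / s) / 2) := by
    simp only [hU]
    rw [Block.Kpow_add_mul]
    dsimp only
    rw [Block.Kpow_mul_const]
    refine (add_le_add (mul_le_mul_of_nonneg_left hA (by positivity))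
      (mul_le_mul_of_nonneg_left hB (by positivity))).trans (le_of_eq ?_)
    ring
  rw [abs_le]
  constructor
  · have h2 := Block.Kpow_mono (J := J) (b := (0 : Fin n → ℝ))
      (φ := fun F => -1 * ∑ i, a F i * b F i) (ψ := U) (fun F => by linarith [(abs_le.1 (hpt F)).1]) u x
    rw [Block.Kpow_mul_const] at h2
    dsimp only at h2
    linarith
  · exact (Block.Kpow_mono (fun F => (abs_le.1 (hpt F)).2) u x).trans hKU

lemma sq_mean_le (hn : 0 < n) {a : Cfg n → Fin n → ℝ} {C : ℝ} (ha : ∀ F i, |a F i| ≤ C) :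
    Kpow J 0 u (fun F => (∑ i, a F i ^ 2) / n) x ≤ C ^ 2 := by
  refine (le_abs_self _).trans (LegVar.abs_Kpow_le _ hn (fun F => ?_) u x)
  rw [abs_of_nonneg (div_nonneg (Finset.sum_nonneg fun _ _ => sq_nonneg _) (Nat.cast_nonneg n)),
    div_le_iff₀ (Nat.cast_pos.2 hn), mul_comm]
  exact LegVar.sum_sq_le_of_abs (ha F)

lemma abs_lex_xsp (hn : 0 < n) (k : ℕ) (F : Cfg n) (i : Fin n) :
    |lex S J 0 F (fun a => xsp S k F a i)| ≤ 1 :=
  abs_lex_le_bound S J 0 hn F fun _ => (abs_spin _).le

lemma abs_lex_cval (hn : 0 < n) (F : Cfg n) (i : Fin n) :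
    |lex S J 0 F (fun a => cval S J (chanTest n ψ) F a i)| ≤ ψ.M :=
  abs_lex_le_bound S J 0 hn F fun _ => (ψ.bdd _ _ _).1

lemma lex_fld (hn : 0 < n) (k : ℕ) (F : Cfg n) (i : Fin n) :
    lex S J 0 F (fun a => fld J 0 i (cpos S F a k)) = ∑ j, J i j * lex S J 0 F (fun a => xsp S k F a j) := by
  have e : ∀ a : Copy S n, fld J 0 i (cpos S F a k) = ∑ j, J i j * xsp S k F a j := fun a => by
    simp [fld, xsp]
  simp only [e]
  rw [lex_sum S J 0 hn F _ fun j _ => Bd.const_mul (F := fun u l => xsp S k F (u, l) j) (.of_bound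
    (fun l => by simp only [xsp, cpos]; exact measurable_const) (C := 1) fun _ _ => (abs_spin _).le) _]
  · exact Finset.sum_congr rfl fun j _ => lex_const_mul S J 0 F _ _

/-- centring of the field at the end -/
lemma cent_fld (hJ : Tame J L) (hn : 0 < n) :
    |Kpow J 0 u (fun F => ∑ i, lex S J 0 F (fun a => cval S J (chanTest n ψ) F a i) *
        lex S J 0 F (fun a => fld J 0 i (cpos S F a (S.D + S.R)))) x| ≤
      n * (ψ.M * L * Real.sqrt (legEta S J u x S.R)) := by
  have hM := M_nonneg ψ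
  have hL : 0 ≤ L := (Finset.sum_nonneg fun j _ => sq_nonneg _).trans (hJ.row2 ⟨0, hn⟩)
  have hη : 0 ≤ legEta S J u x S.R := Pair.Kpow_nonneg
    (fun F => div_nonneg (Finset.sum_nonneg fun _ _ => sq_nonneg _) (Nat.cast_nonneg n)) u x
  set η := legEta S J u x S.R with hηdef
  set a := fun F i => lex S J 0 F (fun a => cval S J (chanTest n ψ) F a i) with ha
  set b := fun F i => lex S J 0 F (fun a => xsp S (S.D + S.R) F a i) with hb
  simp only [lex_fld hn]
  have key := le_geom (A := ψ.M ^ 2) (B := η) (C := L * n)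
    (X := |Kpow J 0 u (fun F => ∑ i, a F i * ∑ j, J i j * b F j) x|) (sq_nonneg _) hη (by positivity)
    fun s hs => by
      have hpt : ∀ F, |∑ i, a F i * ∑ j, J i j * b F j| ≤
          L * n * s / 2 * ψ.M ^ 2 + L * n / (2 * s) * ((∑ i, b F i ^ 2) / n) := fun F => by
        have hs0 := Real.sqrt_pos.2 hs
        have hs2 := Real.mul_self_sqrt hs.le
        have e : ∀ c : ℝ, ∑ i, ∑ j, J j i * (c * (Real.sqrt s * a F i) * (b F j / Real.sqrt s)) =
            c * ∑ i, a F i * ∑ j, J i j * b F j := fun c => by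
          simp only [Finset.mul_sum]
          refine Finset.sum_congr rfl fun i _ => Finset.sum_congr rfl fun j _ => ?_
          rw [hJ.symm j i]
          field_simp
        have hq : ∀ c : ℝ, c ^ 2 = 1 → c * (∑ i, a F i * ∑ j, J i j * b F j) ≤
            L * n * s / 2 * ψ.M ^ 2 + L * n / (2 * s) * ((∑ i, b F i ^ 2) / n) := fun c hc => by
          refine (e c).symm.le.trans ((bilin_le hJ (fun i => c * (Real.sqrt s * a F i))
            (fun j => b F j / Real.sqrt s)).trans ?_)
          simp only [mul_pow, div_pow, hc, one_mul, Real.sq_sqrt hs.le, ← Finset.mul_sum, ← Finset.sum_div]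
          have h1 : ∑ i, a F i ^ 2 ≤ n * ψ.M ^ 2 := LegVar.sum_sq_le_of_abs fun i => abs_lex_cval hn F i
          refine (mul_le_mul_of_nonneg_left (add_le_add (mul_le_mul_of_nonneg_left h1 hs.le) le_rfl)
            (by positivity)).trans (le_of_eq ?_)
          have : (n : ℝ) ≠ 0 := Nat.cast_ne_zero.2 hn.ne'
          field_simp
        rw [abs_le]
        constructor
        · have := hq (-1) (by norm_num)
          linarith
        · have := hq 1 (by norm_num)
          linarith
      have hU : Kpow J 0 u (fun F => L * n * s / 2 * ψ.M ^ 2 + L * n / (2 * s) * ((∑ i, b F i ^ 2) / n)) x =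
          L * n * ((s * ψ.M ^ 2 + η / s) / 2) := by
        rw [Block.Kpow_add_mul]
        dsimp only
        rw [show Kpow J 0 u (fun _ => L * n * s / 2 * ψ.M ^ 2) x = L * n * s / 2 * ψ.M ^ 2 by
          rw [← pex_st J 0 hn (fun _ => L * n * s / 2 * ψ.M ^ 2) (le_refl u) x, pex_const J _ hn]]
        simp only [hηdef, legEta, hb]
        ring
      rw [abs_le]
      constructor
      · have h2 := Block.Kpow_mono (J := J) (b := (0 : Fin n → ℝ))
          (φ := fun F => -1 * ∑ i, a F i * ∑ j, J i j * b F j) (fun F => by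
            linarith [(abs_le.1 (hpt F)).1]) u x
          (ψ := fun F => L * n * s / 2 * ψ.M ^ 2 + L * n / (2 * s) * ((∑ i, b F i ^ 2) / n))
        rw [Block.Kpow_mul_const, hU] at h2
        dsimp only at h2
        linarith
      · exact (Block.Kpow_mono (fun F => (abs_le.1 (hpt F)).2) u x).trans_eq hU
  rw [Real.sqrt_sq hM] at key
  exact key.trans (le_of_eq (by ring))

end ChanLeg

open ChanLeg

/-- Apart from the score before the observation, half the means of the period value cancel the defect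
of the channel identity. -/
theorem channel_copy {S : Sched} {J : Fin n → Fin n → ℝ} {L : ℝ} (hJ : Tame J L) (hn : 0 < n) (β : ℝ)
    (ψ : ChanTest) (ht : 0 < S.t) (hr : S.r ≤ S.R) {lo hi w : ℕ} (h1 : 4 * lo ≤ S.R)
    (h2 : 2 * (lo + S.r) ≤ S.R) (h3 : S.R ≤ hi) (hw : 2 * w + S.r ≤ S.R) {s α : ℝ} (hs : 0 ≤ s)
    (hα : 0 < α) (u : ℕ) (x : Cfg n) :
    evalErr S J β ψ u x ≤ β ^ 2 / n * |preGap S J (chanTest n ψ) u x| +
      n * legErr S J L β ψ u x lo hi w s α := by
  have hn' : (0 : ℝ) < n := Nat.cast_pos.2 hn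
  have hn0 : (n : ℝ) ≠ 0 := hn'.ne'
  have hM := M_nonneg ψ
  set v := u + S.D with hv
  set C := legOv J S.t v x S.R
  set A := legCor J S.t ψ v x S.R S.r
  set P := legResp J S.t ψ v x S.R S.r
  set Q := legEnd J S.t v x S.R
  set q := C 0 with hq
  set η := legEta S J u x
  set φ := chanTest n ψ
  -- the factors through the leg
  have eP : ∀ l : Fin S.R, meanSum S J 0 u x
      (fun F a i => cval S J φ F a i * cinc S J 0 F a (Fin.natAdd S.D l) i) = P l := fun l =>
    meanSum_leg hn (fun i z p ω => psiAt J ψ z p (st p ω S.r) i * lincr J S.t z p ω l i) (B := ψ.M * 2)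
      (fun i p ω => (continuous_psi p _ i).mul (continuous_lincr p ω l i)) (fun i z p ω => by
        rw [abs_mul]
        refine mul_le_mul (abs_psi z p _ i) ?_ (abs_nonneg _) hM
        simp only [lincr]; split_ifs
        · exact PA.abs_inc_le J _ _ _ _
        · simp) fun F a i => by simp only [cval, cpos_leg, cinc_leg]; rfl
  have eQ : ∀ l : Fin S.R, meanSum S J 0 u x
      (fun F a i => xsp S (S.D + S.R) F a i * cinc S J 0 F a (Fin.natAdd S.D l) i) = Q l := fun l =>
    meanSum_leg hn (fun i z p ω => spin (st p ω S.R i) * lincr J S.t z p ω l i) (B := 1 * 2)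
      (fun i p ω => continuous_const.mul (continuous_lincr p ω l i)) (fun i z p ω => by
        rw [abs_mul]
        refine mul_le_mul (abs_spin _).le ?_ (abs_nonneg _) zero_le_one
        simp only [lincr]; split_ifs
        · exact PA.abs_inc_le J _ _ _ _
        · simp) fun F a i => by simp only [xsp, cpos_leg, cinc_leg]
  have eC : ∀ l : ℕ, meanSum S J 0 u x (fun F a i => xsp S (S.D + l) F a i * xsp S (S.D + S.R) F a i) = n * C l :=
    fun l => by
      rw [meanSum_leg hn (fun i _ p ω => spin (st p ω l i) * spin (st p ω S.R i)) (B := 1)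
        (fun _ _ _ => continuous_const) (fun _ _ _ _ => by simp [abs_spin])
        fun F a i => by simp only [xsp, cpos_leg]]
      simp only [C, legOv, legMean_div]
      field_simp
      rfl
  have eA : ∀ l : ℕ, meanSum S J 0 u x (fun F a i => cval S J φ F a i * xsp S (S.D + l) F a i) = n * A l :=
    fun l => by
      rw [meanSum_leg hn (fun i z p ω => psiAt J ψ z p (st p ω S.r) i * spin (st p ω l i)) (B := ψ.M)
        (fun i p ω => (continuous_psi p _ i).mul continuous_const) (fun i z p ω => by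
          rw [abs_mul, abs_spin, mul_one]; exact abs_psi z p _ i)
        fun F a i => by simp only [cval, xsp, cpos_leg]; rfl]
      simp only [A, legCor, legMean_div]
      field_simp
      rfl
  -- the factors of the channel identity
  have gS : gmean S J u x (fun F a => ∑ i, ψ.fn (fld J 0 i (cpos S F a (S.D + S.r))) (a.1 i) (st F a.2.1 S.D i) *
      spin (st F a.2.1 S.D i)) = meanSum S J 0 u x (fun F a i => cval S J φ F a i * spin (st F a.2.1 S.D i)) := by
    simp only [cpos_leg]
    rw [meanSum_leg hn (fun i z p ω => psiAt J ψ z p (st p ω S.r) i * spin (p i)) (B := ψ.M)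
      (fun i p ω => (continuous_psi p _ i).mul continuous_const) (fun i z p ω => by
        rw [abs_mul, abs_spin, mul_one]; exact abs_psi z p _ i)
      fun F a i => by simp only [cval, cpos_leg]; rfl]
    exact gmean_leg hn (X := fun z p ω => ∑ i, psiAt J ψ z p (st p ω S.r) i * spin (p i))
      (LInt.sum _ fun i _ => LInt.of_bound (fun p ω => (continuous_psi p _ i).mul continuous_const) (B := ψ.M)
        fun z p ω => by
          show |psiAt J ψ z p (st p ω S.r) i * spin (p i)| ≤ ψ.M
          rw [abs_mul, abs_spin, mul_one]; exact abs_psi z p _ i)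
  have eσ : meanSum S J 0 u x (fun F a i => spin (st F a.2.1 S.D i) * xsp S (S.D + S.R) F a i) = n * q := by
    rw [hq, ← eC 0]
    simp only [xsp, Nat.add_zero, LegVar.cpos_low le_rfl]
  have eq0 : chanQ S J u x = q := by
    have := gmean_leg (J := J) (u := u) (x := x) (S := S) hn
      (X := fun _ p ω => ∑ i, spin (p i) * spin (st p ω S.R i))
      (LInt.sum _ fun i _ => LInt.of_bound (fun _ _ => continuous_const) (B := 1) fun _ _ _ => by simp [abs_spin])
    simp only [← cpos_leg] at this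
    rw [chanQ, this, hq]
    simp only [C, legOv, legMean_div]
    rfl
  have eD : gmean S J u x (fun F a => ∑ i, ψ.dfn (fld J 0 i (cpos S F a (S.D + S.r))) (a.1 i) (st F a.2.1 S.D i)) =
      meanSum S J 0 u x (cdval S J φ) := by
    have hdc : ∀ (h : ℝ) (c : Bool), Continuous fun z => ψ.dfn h z c := fun h c =>
      (LipschitzWith.of_dist_le_mul (K := Real.toNNReal ψ.M) fun a b => by
        have := (ψ.lip h h a b c).2
        rw [sub_self, abs_zero, zero_add] at this
        rw [Real.dist_eq, Real.dist_eq, Real.coe_toNNReal _ hM]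
        exact this).continuous
    simp only [cpos_leg]
    rw [meanSum_leg hn (fun i z p ω => ψ.dfn (fld J 0 i (st p ω S.r)) (z i) (p i)) (B := ψ.M)
      (fun i p ω => (hdc _ _).comp' (continuous_apply i)) (fun i z p ω => (ψ.bdd _ _ _).2.1)
      fun F a i => by simp only [cdval, cpos_leg]; rfl]
    exact gmean_leg hn (X := fun z p ω => ∑ i, ψ.dfn (fld J 0 i (st p ω S.r)) (z i) (p i))
      (LInt.sum _ fun i _ => LInt.of_bound (fun p ω => (hdc _ _).comp' (continuous_apply i))
        fun z p ω => (ψ.bdd _ _ _).2.1)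
  have eE : gmean S J u x (fun F a => ∑ i, ψ.fn (fld J 0 i (cpos S F a (S.D + S.r))) (a.1 i) (st F a.2.1 S.D i) *
      spin (cpos S F a (S.D + S.R) i)) = n * A S.R := by
    simp only [cpos_leg]
    rw [show A S.R = legMean J S.t v x S.R (fun z p ω =>
      ∑ i, psiAt J ψ z p (st p ω S.r) i * spin (st p ω S.R i)) / n from legMean_div _, mul_div_cancel₀ _ hn0]
    exact gmean_leg hn (X := fun z p ω => ∑ i, psiAt J ψ z p (st p ω S.r) i * spin (st p ω S.R i))
      (LInt.sum _ fun i _ => LInt.of_bound (fun p ω => (continuous_psi p _ i).mul continuous_const) (B := ψ.M)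
        fun z p ω => by
          show |psiAt J ψ z p (st p ω S.r) i * spin (st p ω S.R i)| ≤ ψ.M
          rw [abs_mul, abs_spin, mul_one]; exact abs_psi z p _ i)
  have eZ : gmean S J u x (fun F a => ∑ i, (a.1 i * ψ.fn (fld J 0 i (cpos S F a (S.D + S.r))) (a.1 i)
      (st F a.2.1 S.D i) - ψ.zfn (fld J 0 i (cpos S F a (S.D + S.r))) (a.1 i) (st F a.2.1 S.D i))) =
      Real.sqrt S.t * ∑ l ∈ Finset.range S.R, P l := by
    simp only [cpos_leg]
    rw [← noise_ibp hn S.r]
    refine gmean_leg hn (X := fun z p ω => ∑ i, (z i * psiAt J ψ z p (st p ω S.r) i -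
        ψ.zfn (fld J 0 i (st p ω S.r)) (z i) (p i))) (LInt.sum _ fun i _ => LInt.sub (fun p ω => ?_)
          (LInt.of_bound (fun p ω => (ψ.contZ _ _).comp' (continuous_apply i)) fun z p ω => (ψ.bdd _ _ _).2.2))
    exact ⟨(continuous_apply i).mul (continuous_psi p _ i), ψ.M, fun z => by
      rw [abs_mul, mul_comm]
      exact mul_le_mul (abs_psi z p _ i) (by linarith [abs_le_l1 z i, Real.add_one_le_exp (1 * l1 z)])
        (abs_nonneg _) hM⟩
  have eF : gmean S J u x (fun F a => ∑ i, ψ.fn (fld J 0 i (cpos S F a (S.D + S.r))) (a.1 i) (st F a.2.1 S.D i) *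
      fld J 0 i (cpos S F a (S.D + S.R))) =
      meanSum S J 0 u x (fun F a i => cval S J φ F a i * fld J 0 i (cpos S F a (S.D + S.R))) := by
    have hfb : ∀ i (y : Cfg n), |fld J 0 i y| ≤ ∑ i, ∑ j, |J i j| := fun i y => by
      simp only [fld, Pi.zero_apply, add_zero]
      refine (Finset.abs_sum_le_sum_abs _ _).trans (le_trans ?_ (Finset.single_le_sum
        (f := fun i => ∑ j, |J i j|) (fun _ _ => Finset.sum_nonneg fun _ _ => abs_nonneg _) (Finset.mem_univ i)))
      exact Finset.sum_le_sum fun j _ => by rw [abs_mul, abs_spin, mul_one]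
    have hX : ∀ i (z : Fin n → ℝ) (p : Cfg n) (ω : Path n S.R), |psiAt J ψ z p (st p ω S.r) i *
        fld J 0 i (st p ω S.R)| ≤ ψ.M * ∑ i, ∑ j, |J i j| := fun i z p ω => by
      rw [abs_mul]; exact mul_le_mul (abs_psi z p _ i) (hfb _ _) (abs_nonneg _) hM
    simp only [cpos_leg]
    rw [meanSum_leg hn (fun i z p ω => psiAt J ψ z p (st p ω S.r) i * fld J 0 i (st p ω S.R))
      (fun i p ω => (continuous_psi p _ i).mul continuous_const) hX
      fun F a i => by simp only [cval, cpos_leg]; rfl]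
    exact gmean_leg hn (X := fun z p ω => ∑ i, psiAt J ψ z p (st p ω S.r) i * fld J 0 i (st p ω S.R))
      (LInt.sum _ fun i _ => LInt.of_bound (fun p ω => (continuous_psi p _ i).mul continuous_const) (hX i))
  -- centring
  set κ₁ := fun l : ℕ => Kpow J 0 u (fun F => ∑ i, lex S J 0 F (fun a => xsp S (S.D + l) F a i) *
    lex S J 0 F (fun a => xsp S (S.D + S.R) F a i)) x
  set κ₂ := fun l : ℕ => Kpow J 0 u (fun F => ∑ i, lex S J 0 F (fun a => cval S J φ F a i) *
    lex S J 0 F (fun a => xsp S (S.D + l) F a i)) x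
  set κ₀ := Kpow J 0 u (fun F => ∑ i, lex S J 0 F (fun a => cval S J φ F a i) *
    lex S J 0 F (fun a => fld J 0 i (cpos S F a (S.D + S.R)))) x
  have hκ₁ : ∀ l, |κ₁ l| ≤ n * Real.sqrt (η S.R) := fun l => by
    have h := cent_le (J := J) (u := u) (x := x) hn
      (a := fun F i => lex S J 0 F (fun a => xsp S (S.D + l) F a i))
      (b := fun F i => lex S J 0 F (fun a => xsp S (S.D + S.R) F a i)) (A := 1 ^ 2) (B := η S.R)
      (sq_mean_le hn fun F i => abs_lex_xsp hn _ F i) le_rfl
    rwa [Real.sqrt_sq zero_le_one, one_mul] at h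
  have hκ₂ : ∀ l, |κ₂ l| ≤ n * (ψ.M * Real.sqrt (η l)) := fun l => by
    have h := cent_le (J := J) (u := u) (x := x) hn
      (a := fun F i => lex S J 0 F (fun a => cval S J φ F a i))
      (b := fun F i => lex S J 0 F (fun a => xsp S (S.D + l) F a i)) (A := ψ.M ^ 2) (B := η l)
      (sq_mean_le hn fun F i => abs_lex_cval hn F i) le_rfl
    rwa [Real.sqrt_sq hM] at h
  -- the decomposition
  set mdv := meanSum S J 0 u x (cdval S J φ)
  set cs := ∑ l ∈ Finset.range S.R, (P l * κ₁ l + Q l * κ₂ l)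
  set core := ∑ l ∈ Finset.range S.R, (P l * C l + Q l * A l) - q * ∑ l ∈ Finset.range S.R, P l -
    (1 - q) * (n * A S.R)
  have main : periodMeans S J φ 0 β u x / 2 + chanErr S J β ψ u x =
      κ₀ + β ^ 2 / n * preGap S J φ u x + β ^ 2 * (mdv * (C S.r - q) - mdv / n * κ₁ S.r) +
        β ^ 2 * (core - cs / n) := by
    simp only [periodMeans, chanErr, preGap, eq0, gS, eD, eE, eZ, eF, eσ]
    rw [meanCov_eq, meanCov_eq, eC, Fin.sum_univ_add]
    have ep : ∑ k ∈ Finset.univ.filter (fun k : Fin (S.D + S.R) => (k : ℕ) < S.D),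
        (meanSum S J 0 u x (fun F a i => cval S J φ F a i * cinc S J 0 F a k i) *
            meanCov S J 0 u x (xsp S k) (xsp S (S.D + S.R)) +
          meanSum S J 0 u x (fun F a i => xsp S (S.D + S.R) F a i * cinc S J 0 F a k i) *
            meanCov S J 0 u x (cval S J φ) (xsp S k)) =
        ∑ k : Fin S.D,
        (meanSum S J 0 u x (fun F a i => cval S J φ F a i * cinc S J 0 F a (Fin.castAdd S.R k) i) *
            meanCov S J 0 u x (xsp S (Fin.castAdd S.R k : ℕ)) (xsp S (S.D + S.R)) +
          meanSum S J 0 u x (fun F a i => xsp S (S.D + S.R) F a i * cinc S J 0 F a (Fin.castAdd S.R k) i) *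
            meanCov S J 0 u x (cval S J φ) (xsp S (Fin.castAdd S.R k : ℕ))) := by
      rw [Finset.sum_filter, Fin.sum_univ_add]
      simp
    have el : ∑ l : Fin S.R,
        (meanSum S J 0 u x (fun F a i => cval S J φ F a i * cinc S J 0 F a (Fin.natAdd S.D l) i) *
            meanCov S J 0 u x (xsp S (Fin.natAdd S.D l : ℕ)) (xsp S (S.D + S.R)) +
          meanSum S J 0 u x (fun F a i => xsp S (S.D + S.R) F a i * cinc S J 0 F a (Fin.natAdd S.D l) i) *
            meanCov S J 0 u x (cval S J φ) (xsp S (Fin.natAdd S.D l : ℕ))) =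
        n * ∑ l ∈ Finset.range S.R, (P l * C l + Q l * A l) - cs := by
      simp only [eP, eQ, Fin.val_natAdd, meanCov_eq, eC, eA]
      rw [Fin.sum_univ_eq_sum_range (fun l => P l * ((n : ℝ) * C l - κ₁ l) + Q l * (n * A l - κ₂ l)),
        Finset.mul_sum, ← Finset.sum_sub_distrib]
      exact Finset.sum_congr rfl fun l _ => by ring
    rw [ep, el]
    simp only [core, κ₀, κ₁, mdv, φ]
    have hst : Real.sqrt S.t ≠ 0 := (Real.sqrt_pos.2 ht).ne'
    field_simp
    ring
  have hmdv : |mdv| ≤ n * ψ.M := by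
    refine LegVar.abs_Kpow_le _ hn (fun F => (Finset.abs_sum_le_sum_abs _ _).trans
      ((Finset.sum_le_card_nsmul _ _ ψ.M fun i _ => ?_).trans_eq (by simp))) u x
    exact abs_lex_le_bound S J 0 hn F fun _ => (ψ.bdd _ _ _).2.1
  have hdiv := legOv_flat (L := L) (t := S.t) (v := v) (x := x) hJ hn ht.le (r := S.r) (l := S.r) le_rfl hw h3
  have hcore := leg_core (ψ := ψ) (L := L) (t := S.t) (v := v) (x := x) hJ hn ht.le h1 h2 h3 hw hs hα
  have hcs : |cs| ≤ (n : ℝ) * (2 * ψ.M * S.r * Real.sqrt (η S.R) +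
      2 * ψ.M * ∑ l ∈ Finset.range S.R, Real.sqrt (η l)) := by
    simp only [cs, Finset.sum_add_distrib]
    refine (abs_add_le _ _).trans ?_
    rw [mul_add]
    refine add_le_add ?_ ?_
    · rw [← Finset.sum_range_add_sum_Ico _ hr, Finset.sum_eq_zero (s := Finset.Ico S.r S.R)
        fun l hl => by simp [P, legResp_eq_zero hn (Finset.mem_Ico.1 hl).1], add_zero]
      refine (Finset.abs_sum_le_sum_abs _ _).trans ((Finset.sum_le_card_nsmul _ _
        (2 * ψ.M * (n * Real.sqrt (η S.R))) fun l _ => ?_).trans_eq (by simp; ring))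
      rw [abs_mul]
      exact mul_le_mul (abs_legResp_le hn _ l) (hκ₁ l) (abs_nonneg _) (by positivity)
    · refine (Finset.abs_sum_le_sum_abs _ _).trans ?_
      simp only [Finset.mul_sum]
      refine Finset.sum_le_sum fun l _ => ?_
      rw [abs_mul]
      exact (mul_le_mul (abs_legEnd_le hn l) (hκ₂ l) (abs_nonneg _) (by norm_num)).trans_eq (by ring)
  rw [evalErr, main]
  refine ((abs_add_le _ _).trans (add_le_add ((abs_add_le _ _).trans (add_le_add (abs_add_le _ _) le_rfl))
    le_rfl)).trans ?_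
  have hb2 : 0 ≤ β ^ 2 := sq_nonneg β
  have b0 : |κ₀| ≤ n * (ψ.M * L * Real.sqrt (η S.R)) := cent_fld hJ hn
  have b1 : |β ^ 2 * (mdv * (C S.r - q) - mdv / n * κ₁ S.r)| ≤ β ^ 2 * (n * ψ.M *
      (tiltLag J S.t v w x - tiltLag J S.t v (S.R / 2) x + legDefect J L v x hi + Real.sqrt (η S.R))) := by
    rw [abs_mul, abs_of_nonneg hb2]
    refine mul_le_mul_of_nonneg_left ?_ hb2
    rw [mul_add ((n : ℝ) * ψ.M)]
    refine (abs_sub _ _).trans (add_le_add ?_ ?_)
    · rw [abs_mul]; exact mul_le_mul hmdv hdiv (abs_nonneg _) (by positivity)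
    · rw [abs_mul, abs_div, Nat.abs_cast]
      refine (mul_le_mul (div_le_div_of_nonneg_right hmdv hn'.le) (hκ₁ S.r) (abs_nonneg _)
        (by positivity)).trans_eq ?_
      field_simp
  have b2 : |β ^ 2 / n * preGap S J φ u x| = β ^ 2 / n * |preGap S J φ u x| := by
    rw [abs_mul, abs_of_nonneg (by positivity)]
  have b3 : |β ^ 2 * (core - cs / n)| ≤ β ^ 2 * (|core| + (2 * ψ.M * S.r * Real.sqrt (η S.R) +
      2 * ψ.M * ∑ l ∈ Finset.range S.R, Real.sqrt (η l))) := by
    rw [abs_mul, abs_of_nonneg hb2]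
    refine mul_le_mul_of_nonneg_left ((abs_sub _ _).trans (add_le_add le_rfl ?_)) hb2
    rw [abs_div, Nat.abs_cast, div_le_iff₀ hn', mul_comm _ (n : ℝ)]
    exact hcs
  rw [b2]
  refine (add_le_add (add_le_add (add_le_add b0 le_rfl) b1)
    (b3.trans (mul_le_mul_of_nonneg_left (add_le_add hcore le_rfl) hb2))).trans (le_of_eq ?_)
  simp only [legErr, η, v]
  field_simp
  ring

/-- short drops of a bounded sequence average out over the scales -/
theorem chan_tele {T : ℕ → ℝ} (hT : ∀ a, 0 ≤ T a ∧ T a ≤ 1) (Jn W : ℕ) :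
    blockAvg Jn (fun j => T ((j - 1) * W) - T (j * W)) ≤ 1 / Jn := by
  rcases Nat.eq_zero_or_pos Jn with rfl | hJn
  · simp [blockAvg]
  refine div_le_div_of_nonneg_right ?_ (Nat.cast_nonneg _)
  have key : ∀ k, ∑ j ∈ Finset.Ico Jn (Jn + k), (T ((j - 1) * W) - T (j * W)) =
      T ((Jn - 1) * W) - T ((Jn + k - 1) * W) := by
    intro k
    induction k with
    | zero => simp
    | succ k ih =>
      rw [← Nat.add_assoc, Finset.sum_Ico_succ_top (Nat.le_add_right Jn k), ih, Nat.add_sub_cancel]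
      ring
  rw [two_mul, key]
  linarith [(hT ((Jn - 1) * W)).2, (hT ((Jn + Jn - 1) * W)).1]

end Vale.Agent.P150.PA
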