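import Vale.Agent.P150.PA.BlockDrop
import Vale.Agent.P150.PA.Field
import Vale.Agent.P150.PA.LegVar
import Vale.Agent.P150.PA.ChanDefs

/-! The tilted joint law at a fixed time: the configuration at time `v` with a Gaussian observation of it.
On average the posterior is as stationary as the law at time `v`, so the tilted overlaps are almost
monotone in the lag, the chain from the configuration is almost stationary, and the squared posterior
mean is at most the tilted overlap at any lag. -/

open MeasureTheory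

namespace Vale.Agent.P150.PA

open Ising

variable {n : ℕ}

/-- the law at time `v` from `x` as a density -/
noncomputable def dens (J : Fin n → Fin n → ℝ) (v : ℕ) (x : Cfg n) : Cfg n → ℝ :=
  Kpow J 0 v (Pi.single x (wt J 0 x)⁻¹)

/-- the defect of stationarity of the law at time `v` over the horizon `M` -/
noncomputable def vErr (J : Fin n → Fin n → ℝ) (L : ℝ) (v : ℕ) (x : Cfg n) (M : ℕ) : ℝ :=
  corErr J 0 (dens J v x) L M

/-- mean of an observable of the configuration at time `v` and the field of its observation -/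
noncomputable def tiltE (J : Fin n → Fin n → ℝ) (t : ℝ) (v : ℕ) (x : Cfg n)
    (Φ : Cfg n → (Fin n → ℝ) → ℝ) : ℝ :=
  Kpow J 0 v (fun p => ∫ z, Φ p (obsField t p z) ∂gauss (Fin n)) x

/-- factor of the root of the Dirichlet form in the defect of stationarity -/
noncomputable def corK (n : ℕ) (L : ℝ) (M : ℕ) : ℝ :=
  20 * Real.sqrt n / (n : ℝ) ^ 2 * (1 + gradC L / n) ^ M

/-- gradient constant of the overlap of the means -/
noncomputable def ovA (L τ : ℝ) : ℝ := 25 * LegVar.G L τ ^ 4 + 4 * τ ^ 2 * LegVar.G L τ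

/-- constant in the concentration of the tilted overlap -/
noncomputable def concC (L τ T : ℝ) : ℝ :=
  ((1 + Real.sqrt τ) ^ 2 + 4 * T * LegVar.G L T * LegVar.meanC τ) * ovA L τ

variable {J : Fin n → Fin n → ℝ} {L t τ : ℝ} {v : ℕ} {x : Cfg n}

namespace Joint

open FieldAux

lemma corK_nonneg (n : ℕ) (L : ℝ) (M : ℕ) : 0 ≤ corK n L M := by
  have := Corr.one_le_base (n := n) (L := L)
  unfold corK
  positivity

lemma corErr_eq (c : Fin n → ℝ) (h : Cfg n → ℝ) (L : ℝ) (M : ℕ) :
    corErr J c h L M = corK n L M * Real.sqrt (dir J c fun y => Real.sqrt (h y)) := by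
  unfold corErr corK; ring

lemma corErr_mono' (c : Fin n → ℝ) (h : Cfg n → ℝ) {M M' : ℕ} (hM : M ≤ M') :
    corErr J c h L M ≤ corErr J c h L M' := corErr_mono hM

lemma dens_nonneg (v : ℕ) (x y : Cfg n) : 0 ≤ dens J v x y :=
  Pair.Kpow_nonneg (fun z => by
    by_cases h : z = x
    · subst h; rw [Pi.single_eq_same]; exact (inv_pos.2 (wt_pos J 0 z)).le
    · simp [h]) v y

lemma dens_sum (hJ : Tame J L) (hn : 0 < n) (v : ℕ) (x : Cfg n) :
    ∑ y, wt J 0 y * dens J v x y = 1 := by
  rw [dens, Pair.avg_Kpow hJ.symm hJ.diag hn, Finset.sum_eq_single x (fun y _ hy => by simp [hy]) (by simp),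
    Pi.single_eq_same, mul_inv_cancel₀ (wt_pos J 0 x).ne']

lemma qmean_ov (c : Fin n → ℝ) (a : ℕ) (p : Cfg n) : qmean J c a p = ov J c a a p := by
  simp [qmean, ov, pow_two]

lemma abs_qmean_le (c : Fin n → ℝ) (a : ℕ) (p : Cfg n) : |qmean J c a p| ≤ 1 := by
  rw [qmean_ov]; exact Corr.abs_ov_le a a p

lemma continuous_Kpow' {F : (Fin n → ℝ) → Cfg n → ℝ} (hF : ∀ y, Continuous fun c => F c y) :
    ∀ (k : ℕ) (p : Cfg n), Continuous fun c => Kpow J c k (F c) p
  | 0, p => hF p
  | k + 1, p => by
    have ih := continuous_Kpow' hF k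
    simp only [Pair.Kpow_succ, K, qb_eq]
    exact (continuous_finsetSum _ fun i _ => (((continuous_const.add (continuous_mag J i p)).mul (ih _)).add
      ((continuous_const.sub (continuous_mag J i p)).mul (ih _))).div_const _).div_const _

lemma continuous_mean (a : ℕ) (p : Cfg n) (i : Fin n) : Continuous fun c => mean J c a p i :=
  continuous_Kpow' (F := fun _ y => spin (y i)) (fun _ => continuous_const) a p

lemma continuous_ov (a c : ℕ) (p : Cfg n) : Continuous fun h => ov J h a c p :=
  (continuous_finsetSum _ fun i _ => (continuous_mean a p i).mul (continuous_mean c p i)).div_const _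

lemma continuous_qmean (a : ℕ) (p : Cfg n) : Continuous fun c => qmean J c a p :=
  (continuous_finsetSum _ fun i _ => (continuous_mean a p i).pow 2).div_const _

lemma continuous_obs (t : ℝ) (p : Cfg n) : Continuous fun z => obsField t p z := by
  unfold obsField; fun_prop

section Linear

variable {Φ Ψ : Cfg n → (Fin n → ℝ) → ℝ} {B B' : ℝ}

lemma integrable_obs (hc : ∀ p, Continuous (Φ p)) (hb : ∀ p c, |Φ p c| ≤ B) (p : Cfg n) :
    Integrable (fun z => Φ p (obsField t p z)) (gauss (Fin n)) :=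
  integrable_bdd ((hc p).comp (continuous_obs t p)) fun _ => hb _ _

lemma tiltE_add_mul (s : ℝ) (hc : ∀ p, Continuous (Φ p)) (hb : ∀ p c, |Φ p c| ≤ B)
    (hc' : ∀ p, Continuous (Ψ p)) (hb' : ∀ p c, |Ψ p c| ≤ B') :
    tiltE J t v x (fun p c => Φ p c + s * Ψ p c) = tiltE J t v x Φ + s * tiltE J t v x Ψ := by
  simp only [tiltE]
  rw [show (fun p => ∫ z, (Φ p (obsField t p z) + s * Ψ p (obsField t p z)) ∂gauss (Fin n)) =
      fun p => (∫ z, Φ p (obsField t p z) ∂gauss (Fin n)) + s * ∫ z, Ψ p (obsField t p z) ∂gauss (Fin n) from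
    funext fun p => by
      rw [integral_add (integrable_obs hc hb p) ((integrable_obs hc' hb' p).const_mul s), integral_const_mul],
    Block.Kpow_add_mul]

lemma tiltE_sub (hc : ∀ p, Continuous (Φ p)) (hb : ∀ p c, |Φ p c| ≤ B)
    (hc' : ∀ p, Continuous (Ψ p)) (hb' : ∀ p c, |Ψ p c| ≤ B') :
    tiltE J t v x (fun p c => Φ p c - Ψ p c) = tiltE J t v x Φ - tiltE J t v x Ψ := by
  simpa [sub_eq_add_neg] using tiltE_add_mul (J := J) (t := t) (v := v) (x := x) (-1) hc hb hc' hb'

lemma tiltE_div (s : ℝ) (Φ : Cfg n → (Fin n → ℝ) → ℝ) :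
    tiltE J t v x (fun p c => Φ p c / s) = tiltE J t v x Φ / s := by
  simp only [tiltE, div_eq_inv_mul, integral_const_mul, Block.Kpow_mul_const]

lemma tiltE_sum {ι : Type*} (s : Finset ι) (φ : ι → Cfg n → (Fin n → ℝ) → ℝ)
    (hc : ∀ k p, Continuous (φ k p)) (hb : ∀ k p c, |φ k p c| ≤ B) :
    tiltE J t v x (fun p c => ∑ k ∈ s, φ k p c) = ∑ k ∈ s, tiltE J t v x (φ k) := by
  induction s using Finset.cons_induction with
  | empty =>
    simpa using tiltE_div (J := J) (t := t) (v := v) (x := x) 0 fun _ _ => (0 : ℝ)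
  | cons a s ha ih =>
    simp only [Finset.sum_cons]
    rw [← ih]
    simpa using tiltE_add_mul (J := J) (t := t) (v := v) (x := x) 1 (hc a) (hb a)
      (fun p => continuous_finsetSum s fun k _ => hc k p) (B' := s.card * B) fun p c =>
        (Finset.abs_sum_le_sum_abs _ _).trans ((Finset.sum_le_card_nsmul _ _ B fun k _ => hb k p c).trans_eq
          (nsmul_eq_mul _ _))

end Linear

end Joint

open Joint FieldAux

/-- The mean over the joint law: a bound holding for the posterior at every field, through the root of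
its Dirichlet form, holds on average through that of the law at time `v`. -/
theorem tilt_le (hJ : Tame J L) (hn : 0 < n) (ht : 0 ≤ t) {Φ : Cfg n → (Fin n → ℝ) → ℝ} {B K K₀ : ℝ}
    (hc : ∀ p, Continuous (Φ p)) (hb : ∀ p c, |Φ p c| ≤ B) (hK : 0 ≤ K)
    (h : ∀ (c : Fin n → ℝ) (h : Cfg n → ℝ), (∀ y, 0 ≤ h y) → ∑ y, wt J c y * h y = 1 →
      (∀ y, h y = dens J v x y / ∑ w, wt J c w * dens J v x w) →
      Ef J c h (fun p => Φ p c) ≤ K * Real.sqrt (dir J c fun y => Real.sqrt (h y)) + K₀) :
    tiltE J t v x Φ ≤ K * Real.sqrt (dir J 0 fun y => Real.sqrt (dens J v x y)) + K₀ := by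
  set f := dens J v x with hf
  have f0 : ∀ y, 0 ≤ f y := dens_nonneg v x
  have f1 : ∑ y, wt J 0 y * f y = 1 := dens_sum hJ hn v x
  set s := Real.sqrt t
  set M := fun z : Fin n → ℝ => mix (wt J 0) (fun (y : Cfg n) i => spin (y i)) s z with hM
  set N := fun c : Fin n → ℝ => ∑ w, wt J c w * f w
  set D := fun c : Fin n → ℝ => dir J c fun y => Real.sqrt (f y)
  have f1' : ∀ y, |f y| ≤ ∑ w, f w := fun y => by
    rw [abs_of_nonneg (f0 y)]; exact Finset.single_le_sum (fun w _ => f0 w) (Finset.mem_univ y)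
  have M0 : ∀ z, 0 ≤ M z := fun z => Finset.sum_nonneg fun y _ => mul_nonneg (wt_pos J 0 y).le (ker_pos _ _ _ _).le
  have Npos : ∀ c, 0 < N c := fun c => by
    obtain ⟨y, hy⟩ : ∃ y, 0 < f y := by
      by_contra hne
      simp only [not_exists, not_lt] at hne
      rw [Finset.sum_eq_zero fun y _ => by rw [le_antisymm (hne y) (f0 y), mul_zero]] at f1
      exact zero_ne_one f1
    exact Finset.sum_pos' (fun w _ => mul_nonneg (wt_pos J c w).le (f0 w))
      ⟨y, Finset.mem_univ y, mul_pos (wt_pos J c y) hy⟩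
  -- the joint law seen from the observation
  have hjoint : ∀ (Ψ : Cfg n → (Fin n → ℝ) → ℝ), (∀ p, Continuous (Ψ p)) → ∀ B', (∀ p c, |Ψ p c| ≤ B') →
      tiltE J t v x Ψ = ∫ z, M z * ∑ y, wt J (s • z) y * (f y * Ψ y (s • z)) ∂gauss (Fin n) := by
    intro Ψ hcΨ B' hbΨ
    rw [tiltE, start_density hJ.symm hJ.diag]
    simp only [Ef, ← integral_const_mul]
    rw [← integral_finsetSum _ fun y _ => ((integrable_obs hcΨ hbΨ y).const_mul _).const_mul _]
    refine (bayes (J := J) (b := 0) ht (fun p c => f p * Ψ p c) (fun p => continuous_const.mul (hcΨ p))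
      (B := (∑ w, f w) * B') fun p c => ?_).trans ?_
    · rw [abs_mul]
      exact mul_le_mul (f1' p) (hbΨ p c) (abs_nonneg _) (Finset.sum_nonneg fun w _ => f0 w)
    · simp [hM, s]
  have hwc : ∀ y : Cfg n, Continuous fun z : Fin n → ℝ => wt J (s • z) y := fun y => by
    unfold wt qE
    exact (by fun_prop : Continuous fun z : Fin n → ℝ => Real.exp _).div (by fun_prop)
      fun z => (Finset.sum_pos (fun _ _ => Real.exp_pos _) Finset.univ_nonempty).ne'
  have hMc : Continuous M := by simp only [hM, mix, ker, dot]; fun_prop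
  have hMb : ∀ z, |M z| ≤ 1 * Real.exp (|s| * l1 z) := fun z => by
    rw [abs_of_nonneg (M0 z), one_mul, ← one_mul (Real.exp _), ← wt_sum J (0 : Fin n → ℝ), Finset.sum_mul]
    simp only [hM, mix]
    refine Finset.sum_le_sum fun y _ => mul_le_mul_of_nonneg_left (Real.exp_le_exp.2 ?_) (wt_pos J 0 y).le
    have h1 : s * dot (fun k => spin (y k)) z ≤ |s| * (1 * l1 z) := (le_abs_self _).trans (by
      rw [abs_mul]
      exact mul_le_mul_of_nonneg_left (abs_dot_le (fun k => by cases y k <;> simp [spin]) z) (abs_nonneg _))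
    have h2 : (0 : ℝ) ≤ s ^ 2 / 2 * ∑ k, spin (y k) ^ 2 := by positivity
    linarith
  have hint : ∀ {g : (Fin n → ℝ) → ℝ} {C : ℝ}, Continuous g → (∀ z, |g z| ≤ C) →
      Integrable (fun z => M z * g z) (gauss (Fin n)) := fun {g C} hg hgb =>
    integrable_of_bound (C := C) (hMc.mul hg) fun z => by
      rw [abs_mul, mul_comm C]
      refine mul_le_mul ((hMb z).trans_eq (one_mul _)) (hgb z) (abs_nonneg _) (Real.exp_pos _).le
  have hsum : ∀ (c : Fin n → ℝ) {g : Cfg n → ℝ} {C : ℝ}, (∀ y, |g y| ≤ C) → |∑ y, wt J c y * g y| ≤ C :=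
    fun c g C hg => (Finset.abs_sum_le_sum_abs _ _).trans ((Finset.sum_le_sum fun y _ => show |wt J c y * g y| ≤ wt J c y * C by
      rw [abs_mul, abs_of_pos (wt_pos J c y)]
      exact mul_le_mul_of_nonneg_left (hg y) (wt_pos J c y).le).trans_eq (by rw [← Finset.sum_mul, wt_sum, one_mul]))
  have hNc : Continuous fun z : Fin n → ℝ => N (s • z) :=
    continuous_finsetSum _ fun y _ => (hwc y).mul continuous_const
  have hDc : Continuous fun z : Fin n → ℝ => D (s • z) :=
    continuous_finsetSum _ fun i _ => continuous_finsetSum _ fun y _ =>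
      (hwc y).mul ((continuous_const.sub (((continuous_mag J i y).comp (continuous_const_smul s)).pow 2)).mul
        continuous_const)
  have hDb : ∀ c, |D c| ≤ ∑ i : Fin n, ∑ y : Cfg n, dd i (fun w => Real.sqrt (f w)) y ^ 2 := fun c => by
    refine (Finset.abs_sum_le_sum_abs _ _).trans (Finset.sum_le_sum fun i _ =>
      (Finset.abs_sum_le_sum_abs _ _).trans (Finset.sum_le_sum fun y _ => ?_))
    have h1 : wt J c y ≤ 1 :=
      (Finset.single_le_sum (fun w _ => (wt_pos J c w).le) (Finset.mem_univ y)).trans_eq (wt_sum J c)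
    have h2 := mul_nonneg (mag_sq J c i y).1 (sq_nonneg (dd i (fun w => Real.sqrt (f w)) y))
    rw [abs_of_nonneg (mul_nonneg (wt_pos J c y).le h2)]
    exact (mul_le_of_le_one_left h2 h1).trans (mul_le_of_le_one_left (sq_nonneg _) (mag_sq J c i y).2)
  have iN : Integrable (fun z => M z * N (s • z)) (gauss (Fin n)) := hint hNc fun z => hsum _ f1'
  have iD : Integrable (fun z => M z * D (s • z)) (gauss (Fin n)) := hint hDc fun z => hDb _
  have intN : ∫ z, M z * N (s • z) ∂gauss (Fin n) = 1 := by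
    have := hjoint (fun _ _ => 1) (fun _ => continuous_const) 1 (by simp)
    simp only [mul_one] at this
    rw [← this, tiltE, start_density hJ.symm hJ.diag]
    simp only [Ef, integral_const, probReal_univ, one_smul, mul_one]
    exact f1
  have intD : ∫ z, M z * D (s • z) ∂gauss (Fin n) ≤ D 0 := by
    simpa [hM, D, s] using tilt_dir_post (b := (0 : Fin n → ℝ)) hJ.symm hJ.diag ht fun y => Real.sqrt (f y)
  have hD0 : ∀ c, 0 ≤ D c := fun c => Finset.sum_nonneg fun i _ => Finset.sum_nonneg fun y _ =>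
    mul_nonneg (wt_pos J c y).le (mul_nonneg (mag_sq J c i y).1 (sq_nonneg _))
  refine le_of_forall_pos_le_add fun ε hε => ?_
  set δ := ε / (K + 1)
  set lam := Real.sqrt (D 0) + δ
  have hδ : 0 < δ := div_pos hε (by linarith)
  have hlam : 0 < lam := add_pos_of_nonneg_of_pos (Real.sqrt_nonneg _) hδ
  have pt : ∀ c, ∑ y, wt J c y * (f y * Φ y c) ≤
      K₀ * N c + K / 2 * (lam * N c + D c / lam) := by
    intro c
    have hN := Npos c
    set g := fun y => f y / N c
    have g1 : ∑ y, wt J c y * g y = 1 := by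
      simp only [g, ← mul_div_assoc, ← Finset.sum_div]; exact div_self hN.ne'
    have hg := h c g (fun y => div_nonneg (f0 y) hN.le) g1 fun y => rfl
    have eD : dir J c (fun y => Real.sqrt (g y)) = D c / N c := by
      simp only [D, g, dir, dd, Real.sqrt_div (f0 _), ← sub_div, div_pow, Real.sq_sqrt hN.le, Finset.sum_div]
      refine Finset.sum_congr rfl fun i _ => Finset.sum_congr rfl fun y _ => ?_
      field_simp
    rw [eD] at hg
    have eE : Ef J c g (fun p => Φ p c) = (∑ y, wt J c y * (f y * Φ y c)) / N c := by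
      simp only [Ef, g, div_mul_eq_mul_div, ← mul_div_assoc, ← Finset.sum_div]
    rw [eE, div_le_iff₀ hN] at hg
    set u := Real.sqrt (D c / N c)
    have hu : u ^ 2 = D c / N c := Real.sq_sqrt (div_nonneg (hD0 c) hN.le)
    have key : 2 * (u * N c) ≤ lam * N c + D c / lam := by
      rw [← sub_nonneg]
      refine le_of_le_of_eq (mul_nonneg (sq_nonneg (u - lam)) (div_nonneg hN.le hlam.le)) ?_
      have e : D c = u ^ 2 * N c := by rw [hu]; field_simp
      rw [e]; field_simp; ring
    have := mul_le_mul_of_nonneg_left key hK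
    linarith
  rw [hjoint Φ hc B hb]
  have hi1 : Integrable (fun z => M z * ∑ y, wt J (s • z) y * (f y * Φ y (s • z))) (gauss (Fin n)) :=
    hint (continuous_finsetSum _ fun y _ => (hwc y).mul
      (continuous_const.mul ((hc y).comp (continuous_const_smul s)))) fun z =>
      hsum _ (C := (∑ w, f w) * B) fun y => by
        rw [abs_mul]; exact mul_le_mul (f1' y) (hb _ _) (abs_nonneg _) (Finset.sum_nonneg fun w _ => f0 w)
  have hiN : Integrable (fun z => (K₀ + K / 2 * lam) * (M z * N (s • z))) (gauss (Fin n)) := iN.const_mul _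
  have hiD : Integrable (fun z => K / 2 / lam * (M z * D (s • z))) (gauss (Fin n)) := iD.const_mul _
  refine (integral_mono hi1 (hiN.add hiD) fun z => ?_).trans ?_
  · refine (mul_le_mul_of_nonneg_left (pt (s • z)) (M0 z)).trans_eq ?_
    simp only [Pi.add_apply]; ring
  · simp only [Pi.add_apply]
    rw [integral_add hiN hiD, integral_const_mul, integral_const_mul, intN]
    have hk : 0 ≤ K / 2 / lam := by positivity
    have h1 := mul_le_mul_of_nonneg_left intD hk
    have h2 : D 0 / lam ≤ Real.sqrt (D 0) := by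
      rw [div_le_iff₀ hlam]
      have := Real.mul_self_sqrt (hD0 0)
      simp only [lam]; nlinarith [mul_nonneg (Real.sqrt_nonneg (D 0)) hδ.le]
    have h3 : K * δ ≤ ε := by
      simp only [δ]; rw [mul_div_assoc', div_le_iff₀ (by linarith : (0 : ℝ) < K + 1)]; nlinarith
    have h4 := mul_le_mul_of_nonneg_left h2 (by linarith : (0 : ℝ) ≤ K / 2)
    have h5 : K / 2 / lam * D 0 = K / 2 * (D 0 / lam) := by ring
    simp only [lam, D] at h1 h4 h5 ⊢
    nlinarith

/-- `tilt_le` for a multiple of the defect of stationarity -/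
theorem tilt_le_corErr (hJ : Tame J L) (hn : 0 < n) (ht : 0 ≤ t) {Φ : Cfg n → (Fin n → ℝ) → ℝ}
    {B k K₀ : ℝ} {M : ℕ} (hc : ∀ p, Continuous (Φ p)) (hb : ∀ p c, |Φ p c| ≤ B) (hk : 0 ≤ k)
    (h : ∀ (c : Fin n → ℝ) (h : Cfg n → ℝ), (∀ y, 0 ≤ h y) → ∑ y, wt J c y * h y = 1 →
      Ef J c h (fun p => Φ p c) ≤ k * corErr J c h L M + K₀) :
    tiltE J t v x Φ ≤ k * vErr J L v x M + K₀ := by
  rw [vErr, corErr_eq, ← mul_assoc]
  refine tilt_le hJ hn ht hc hb (mul_nonneg hk (corK_nonneg n L M)) fun c g g0 g1 _ => ?_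
  rw [mul_assoc, ← corErr_eq]
  exact h c g g0 g1

/-- two-sided form -/
theorem tilt_abs (hJ : Tame J L) (hn : 0 < n) (ht : 0 ≤ t) {Φ Ψ : Cfg n → (Fin n → ℝ) → ℝ}
    {B B' k : ℝ} {M : ℕ} (hc : ∀ p, Continuous (Φ p)) (hb : ∀ p c, |Φ p c| ≤ B)
    (hc' : ∀ p, Continuous (Ψ p)) (hb' : ∀ p c, |Ψ p c| ≤ B') (hk : 0 ≤ k)
    (h : ∀ (c : Fin n → ℝ) (h : Cfg n → ℝ), (∀ y, 0 ≤ h y) → ∑ y, wt J c y * h y = 1 →
      |Ef J c h (fun p => Φ p c) - Ef J c h (fun p => Ψ p c)| ≤ k * corErr J c h L M) :
    |tiltE J t v x Φ - tiltE J t v x Ψ| ≤ k * vErr J L v x M := by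
  rw [abs_le]
  constructor
  · rw [neg_le, neg_sub, ← tiltE_sub hc' hb' hc hb]
    refine (tilt_le_corErr (K₀ := 0) hJ hn ht (fun p => (hc' p).sub (hc p)) (B := B' + B)
      (fun p c => (abs_sub _ _).trans (add_le_add (hb' p c) (hb p c))) hk fun c g g0 g1 => ?_).trans_eq
      (add_zero _)
    simp only [Pi.sub_apply]
    rw [← Corr.Ef_sub, add_zero]
    linarith [(abs_le.1 (h c g g0 g1)).1]
  · rw [← tiltE_sub hc hb hc' hb']
    refine (tilt_le_corErr (K₀ := 0) hJ hn ht (fun p => (hc p).sub (hc' p)) (B := B + B')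
      (fun p c => (abs_sub _ _).trans (add_le_add (hb p c) (hb' p c))) hk fun c g g0 g1 => ?_).trans_eq
      (add_zero _)
    simp only [Pi.sub_apply]
    rw [← Corr.Ef_sub, add_zero]
    linarith [(abs_le.1 (h c g g0 g1)).2]

lemma Joint.diag_anti (hJ : Tame J L) (hn : 0 < n) {c : Fin n → ℝ} {h : Cfg n → ℝ} (h0 : ∀ y, 0 ≤ h y)
    (h1 : ∑ y, wt J c y * h y = 1) {a e M : ℕ} (hae : a ≤ e) (hM : 2 * e ≤ M) :
    Cor2 J c h e e ≤ Cor2 J c h a a + ((e : ℝ) - a) * corErr J c h L M := by
  induction e, hae using Nat.le_induction with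
  | base => simp
  | succ e he ih =>
    have := ih (by omega)
    have := Cor2_diag_step hJ hn h0 h1 (a := e) (M := M) (by omega)
    push_cast
    linarith

/-- the tilted overlap is almost decreasing in the lag -/
theorem tiltLag_anti (hJ : Tame J L) (hn : 0 < n) (ht : 0 ≤ t) {a c : ℕ} (hac : a ≤ c) :
    tiltLag J t v c x ≤ tiltLag J t v a x + ((c : ℝ) - a) * vErr J L v x (2 * c) := by
  have hac' : (a : ℝ) ≤ c := Nat.cast_le.2 hac
  have e := tiltE_sub (J := J) (t := t) (v := v) (x := x) (Φ := fun p h => qmean J h c p)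
    (Ψ := fun p h => qmean J h a p) (continuous_qmean c) (fun p h => abs_qmean_le h c p)
    (continuous_qmean a) (fun p h => abs_qmean_le h a p)
  have h := tilt_le_corErr (J := J) (L := L) (t := t) (v := v) (x := x) (M := 2 * c) (K₀ := 0) hJ hn ht
    (Φ := fun p h => qmean J h c p - qmean J h a p)
    (fun p => (continuous_qmean c p).sub (continuous_qmean a p)) (B := 1 + 1)
    (fun p h => (abs_sub _ _).trans (add_le_add (abs_qmean_le h c p) (abs_qmean_le h a p)))
    (sub_nonneg.2 hac') fun b g g0 g1 => by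
      have e : ∀ k, (Ef J b g fun p => qmean J b k p) = Cor2 J b g k k := fun k => by simp [Cor2, qmean_ov]
      rw [← Corr.Ef_sub, add_zero, e, e]
      linarith [diag_anti hJ hn g0 g1 hac (le_refl (2 * c)) (c := b)]
  rw [e] at h
  simp only [tiltE, tiltLag] at h ⊢
  linarith

/-- where the tilted overlap is flat the tilted means are close -/
theorem tilt_close (hJ : Tame J L) (hn : 0 < n) (ht : 0 ≤ t) {a c : ℕ} (hac : a ≤ c) :
    tiltE J t v x (fun p h => (∑ i, (mean J h a p i - mean J h c p i) ^ 2) / n) ≤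
      tiltLag J t v a x - tiltLag J t v c x + 4 * c * vErr J L v x (2 * c) + 4 / n := by
  set Φ := fun p h => (∑ i, (mean J h a p i - mean J h c p i) ^ 2) / (n : ℝ) with hΦ
  set Ψ := fun p h => qmean J h a p - qmean J h c p with hΨ
  have eΦ : ∀ p h, Φ p h = ov J h a a p + ov J h c c p - 2 * ov J h a c p := fun p h => by
    simp only [hΦ, ov, mul_div_assoc', Finset.mul_sum, ← add_div, ← sub_div, ← Finset.sum_add_distrib,
      ← Finset.sum_sub_distrib]
    congr 1
    exact Finset.sum_congr rfl fun i _ => by ring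
  have cΦ : ∀ p, Continuous (Φ p) := fun p => by
    simp only [funext (eΦ p)]
    exact ((continuous_ov a a p).add (continuous_ov c c p)).sub (continuous_const.mul (continuous_ov a c p))
  have bΦ : ∀ p h, |Φ p h| ≤ 4 := fun p h => by
    rw [eΦ, abs_le]
    have := abs_le.1 (Corr.abs_ov_le (J := J) (b := h) a a p)
    have := abs_le.1 (Corr.abs_ov_le (J := J) (b := h) c c p)
    have := abs_le.1 (Corr.abs_ov_le (J := J) (b := h) a c p)
    constructor <;> linarith
  have cΨ : ∀ p, Continuous (Ψ p) := fun p => (continuous_qmean a p).sub (continuous_qmean c p)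
  have bΨ : ∀ p h, |Ψ p h| ≤ 1 + 1 := fun p h =>
    (abs_sub _ _).trans (add_le_add (abs_qmean_le h a p) (abs_qmean_le h c p))
  have e2 : tiltE J t v x Ψ = tiltLag J t v a x - tiltLag J t v c x :=
    tiltE_sub (continuous_qmean a) (fun p h => abs_qmean_le h a p) (continuous_qmean c)
      (fun p h => abs_qmean_le h c p)
  have h := tilt_le_corErr (J := J) (L := L) (t := t) (v := v) (x := x) (M := 2 * c) (K₀ := 4 / n)
    (k := 4 * c) hJ hn ht (Φ := fun p h => Φ p h - Ψ p h) (fun p => (cΦ p).sub (cΨ p)) (B := 4 + (1 + 1))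
    (fun p h => (abs_sub _ _).trans (add_le_add (bΦ p h) (bΨ p h))) (by positivity) fun b g g0 g1 => by
      have e : Ef J b g (fun p => Φ p b - Ψ p b) = 2 * Cor2 J b g c c - 2 * Cor2 J b g a c := by
        simp only [eΦ, hΨ, qmean_ov, Cor2, Ef, Finset.mul_sum, ← Finset.sum_sub_distrib]
        exact Finset.sum_congr rfl fun y _ => by ring
      set E := corErr J b g L (2 * c)
      set j := (a + c) / 2
      have h1 := abs_le.1 (Cor2_near hJ g0 g1 (a := a) (c := c) (M := 2 * c) (L := L) (by omega))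
      have h2 := abs_le.1 (Cor2_near hJ g0 g1 (a := j) (c := j) (M := 2 * c) (L := L) (by omega))
      have h3 : Cor J b g (j + j) - 2 / n ≤ Cor J b g (a + c) := by
        rcases (show a + c = j + j ∨ a + c = j + j + 1 by omega) with h | h <;> rw [h]
        · linarith [(by positivity : (0 : ℝ) ≤ 2 / n)]
        · linarith [(abs_le.1 (Cor_step hn g0 g1 (J := J) (b := b) (j + j))).1]
      have h4 := diag_anti hJ hn g0 g1 (show j ≤ c by omega) (le_refl (2 * c)) (c := b)
      have h5 : ((a : ℝ) + c) * E ≤ 2 * c * E := by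
        refine mul_le_mul_of_nonneg_right ?_ (corErr_nonneg _)
        have : (a : ℝ) ≤ c := Nat.cast_le.2 hac
        linarith
      rw [e]
      linear_combination 2 * h1.1 + 2 * h2.2 + 2 * h3 + 2 * h4 + 2 * h5
  rw [tiltE_sub cΦ bΦ cΨ bΨ, e2] at h
  linarith

/-- the tilted overlap is the correlation of the observed spins with the mean at twice the lag -/
theorem tilt_ov (hJ : Tame J L) (hn : 0 < n) (ht : 0 ≤ t) (a : ℕ) :
    |tiltE J t v x (fun p h => ov J h 0 (2 * a) p) - tiltLag J t v a x| ≤ a * vErr J L v x (2 * a) := by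
  refine tilt_abs (J := J) (L := L) hJ hn ht (Φ := fun p h => ov J h 0 (2 * a) p)
    (Ψ := fun p h => qmean J h a p) (continuous_ov 0 (2 * a)) (fun p h => Corr.abs_ov_le 0 _ p)
    (continuous_qmean a) (fun p h => abs_qmean_le h a p) (Nat.cast_nonneg a) fun b g g0 g1 => ?_
  simp only [qmean_ov]
  have h := Cor2_near hJ g0 g1 (a := a) (c := a) (M := 2 * a) (L := L) (by omega)
  rw [abs_sub_comm, ← two_mul] at h
  exact h

/-- the tilted chain is stationary for the overlap of the means -/
theorem tilt_stat (hJ : Tame J L) (hn : 0 < n) (ht : 0 ≤ t) (k a : ℕ) :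
    |tiltE J t v x (fun p h => Kpow J h k (qmean J h a) p) - tiltLag J t v a x| ≤
      k * vErr J L v x (k + 2 * a) := by
  refine tilt_abs (J := J) (L := L) hJ hn ht (Φ := fun p h => Kpow J h k (qmean J h a) p)
    (Ψ := fun p h => qmean J h a p) (fun p => continuous_Kpow' (continuous_qmean a) k p)
    (fun p h => LegVar.abs_Kpow_le h hn (fun y => abs_qmean_le h a y) k p)
    (continuous_qmean a) (fun p h => abs_qmean_le h a p) (Nat.cast_nonneg k) fun b g g0 g1 => ?_
  simp only [qmean_ov, funext (qmean_ov (J := J) b a)]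
  exact ov_stat hJ hn g0 g1 (a := a) (c := a) (by omega)

/-- the mean of the flatness defect of a tilted block -/
theorem tilt_defect (hJ : Tame J L) (hn : 0 < n) (ht : 0 ≤ t) {G W : ℕ} (hGW : G ≤ W) :
    tiltE J t v x (fun p h => defect J h G W p) ≤
      tiltLag J t v G x - blockAvg W (fun u => tiltLag J t v u x) + 2 * W * vErr J L v x (4 * W) := by
  rcases Nat.eq_zero_or_pos W with rfl | hW
  · obtain rfl : G = 0 := Nat.le_zero.1 hGW
    have h0 : 0 ≤ tiltLag J t v 0 x :=
      Pair.Kpow_nonneg (fun p => integral_nonneg fun z =>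
        div_nonneg (Finset.sum_nonneg fun i _ => sq_nonneg _) (Nat.cast_nonneg n)) v x
    have hz : tiltE J t v x (fun _ _ => (0 : ℝ)) = 0 := by
      simpa using tiltE_div (J := J) (t := t) (v := v) (x := x) 0 fun _ _ => (0 : ℝ)
    simpa [defect, blockAvg, tiltE_div, hz] using h0
  have hW' : (0 : ℝ) < W := Nat.cast_pos.2 hW
  set A := fun u => tiltE J t v x fun p h => qlag J h u G p
  have hA : ∀ u ∈ Finset.Ico W (2 * W), A u ≤ tiltLag J t v G x + 2 * W * vErr J L v x (4 * W) := by
    intro u hu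
    simp only [Finset.mem_Ico] at hu
    refine (sub_le_iff_le_add'.1 ((abs_le.1 (tilt_stat hJ hn ht (u - G) G)).2)).trans (add_le_add le_rfl ?_)
    refine mul_le_mul ?_ (corErr_mono (by omega)) (corErr_nonneg _) (by positivity)
    exact_mod_cast (show u - G ≤ 2 * W by omega)
  have hb2 : ∀ u p h, |qlag J h u G p - qmean J h u p| ≤ 2 := fun u p h => by
    refine (abs_sub _ _).trans ?_
    have h1 := LegVar.abs_Kpow_le (J := J) h hn (fun y => abs_qmean_le (J := J) h G y) (u - G) p
    have h2 := abs_qmean_le (J := J) h u p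
    simp only [qlag]; linarith
  simp only [defect, blockAvg]
  rw [tiltE_div, tiltE_sum (B := 2) _ (fun u p h => qlag J h u G p - qmean J h u p)
    (fun u p => (continuous_Kpow' (continuous_qmean G) _ p).sub (continuous_qmean u p))
    hb2]
  rw [Finset.sum_congr rfl fun u _ => tiltE_sub (J := J) (t := t) (v := v) (x := x) (B := 1) (B' := 1)
    (Φ := fun p h => qlag J h u G p) (Ψ := fun p h => qmean J h u p)
    (fun p => continuous_Kpow' (continuous_qmean G) (u - G) p)
    (fun p h => LegVar.abs_Kpow_le h hn (fun y => abs_qmean_le h G y) _ p)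
    (continuous_qmean u) (fun p h => abs_qmean_le h u p), Finset.sum_sub_distrib, sub_div]
  have h := Finset.sum_le_card_nsmul _ _ _ hA
  rw [Nat.card_Ico, nsmul_eq_mul, show 2 * W - W = W by omega] at h
  have h' : (∑ u ∈ Finset.Ico W (2 * W), A u) / W ≤ tiltLag J t v G x + 2 * W * vErr J L v x (4 * W) := by
    rw [div_le_iff₀ hW']; linarith
  simp only [A, qlag] at h'
  simp only [tiltE, tiltLag, qlag] at h' ⊢
  linarith

/-- the squared posterior mean is at most the tilted overlap at any lag -/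
theorem msq_le_tiltLag (hJ : Tame J L) (hn : 0 < n) (ht : 0 ≤ t) (a : ℕ) :
    msq t (lawAt J 0 v x) ≤ n * (tiltLag J t v a x + a * vErr J L v x (2 * a)) := by
  have hn' : (0 : ℝ) < n := Nat.cast_pos.2 hn
  set f := dens J v x
  set s := Real.sqrt t with hs
  set m := fun (c : Fin n → ℝ) i => Ef J c (fun y => f y / ∑ w, wt J c w * f w) fun y => spin (y i) with hm
  set Gm := fun c => (∑ i, m c i ^ 2) / (n : ℝ)
  have f0 : ∀ y, 0 ≤ f y := dens_nonneg v x
  have Npos : ∀ c, 0 < ∑ w, wt J c w * f w := fun c => by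
    obtain ⟨y, -, hy⟩ : ∃ y ∈ Finset.univ, 0 < wt J 0 y * f y :=
      Finset.exists_lt_of_sum_lt (f := fun _ => (0 : ℝ)) (by simp [f, dens_sum hJ hn v x])
    exact Finset.sum_pos' (fun w _ => mul_nonneg (wt_pos J c w).le (f0 w))
      ⟨y, Finset.mem_univ y, mul_pos (wt_pos J c y) (pos_of_mul_pos_right hy (wt_pos J 0 y).le)⟩
  have g0 : ∀ c y, 0 ≤ f y / ∑ w, wt J c w * f w := fun c y => div_nonneg (f0 y) (Npos c).le
  have g1 : ∀ c, ∑ y, wt J c y * (f y / ∑ w, wt J c w * f w) = 1 := fun c => by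
    simp only [← mul_div_assoc, ← Finset.sum_div]; exact div_self (Npos c).ne'
  have hm1 : ∀ c i, |m c i| ≤ 1 := fun c i =>
    Corr.abs_Ef_le (g0 c) (g1 c) fun y => by cases y i <;> simp [spin]
  have hmn : ∀ c, ∑ i, m c i ^ 2 ≤ n := fun c =>
    (Finset.sum_le_card_nsmul _ _ 1 fun i _ => (sq_le_one_iff_abs_le_one _).2 (hm1 c i)).trans_eq (by simp)
  have hwc : ∀ y : Cfg n, Continuous fun c : Fin n → ℝ => wt J c y := fun y => by
    unfold wt qE
    exact (by fun_prop : Continuous fun c : Fin n → ℝ => Real.exp _).div (by fun_prop)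
      fun z => (Finset.sum_pos (fun _ _ => Real.exp_pos _) Finset.univ_nonempty).ne'
  have hGc : Continuous Gm :=
    (continuous_finsetSum _ fun i _ => (continuous_finsetSum _ fun y _ => (hwc y).mul
      ((continuous_const.div (continuous_finsetSum _ fun w _ => (hwc w).mul continuous_const)
        fun c => (Npos c).ne').mul continuous_const)).pow 2).div_const _
  have hGb : ∀ c, |Gm c| ≤ 1 := fun c => by
    rw [abs_of_nonneg (div_nonneg (Finset.sum_nonneg fun _ _ => sq_nonneg _) hn'.le), div_le_one hn']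
    exact hmn c
  -- the squared posterior mean as an average over the joint law
  have e1 : tiltE J t v x (fun _ c => Gm c) = msq t (lawAt J 0 v x) / n := by
    have hb' : ∀ p c, |f p * Gm c| ≤ ∑ w, f w := fun p c => by
      rw [abs_mul, abs_of_nonneg (f0 p)]
      exact (mul_le_of_le_one_right (f0 p) (hGb c)).trans
        (Finset.single_le_sum (fun w _ => f0 w) (Finset.mem_univ p))
    rw [tiltE, start_density hJ.symm hJ.diag, msq, ← integral_div]
    simp only [Ef, ← integral_const_mul]
    rw [← integral_finsetSum _ fun y _ =>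
      ((integrable_obs (Φ := fun _ c => Gm c) (fun _ => hGc) (fun _ => hGb) y).const_mul _).const_mul _]
    refine (bayes (J := J) (b := 0) ht (fun p c => f p * Gm c) (fun p => continuous_const.mul hGc) hb').trans ?_
    refine integral_congr_ae (Filter.Eventually.of_forall fun z => ?_)
    set c := s • z with hcdef
    set M := mix (wt J 0) (fun (y : Cfg n) i => spin (y i)) s z with hM
    have hMpos : 0 < M := Finset.sum_pos (fun y _ => mul_pos (wt_pos J 0 y) (ker_pos _ _ _ _)) Finset.univ_nonempty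
    have hl : ∀ y, lawAt J 0 v x y * ker (fun (w : Cfg n) i => spin (w i)) s z y = M * (wt J c y * f y) := by
      intro y
      have hmw := mix_mul_wt J (0 : Fin n → ℝ) s z y
      rw [zero_add] at hmw
      rw [lawAt, start_density hJ.symm hJ.diag, Ef, Finset.sum_eq_single y (fun w _ hw => by simp [hw]) (by simp),
        Pi.single_eq_same, mul_one, ← mul_assoc, hM, hcdef, hmw]
      simp only [f, dens]; ring
    have hmix : mix (lawAt J 0 v x) (fun (w : Cfg n) i => spin (w i)) s z = M * ∑ w, wt J c w * f w := by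
      rw [mix, Finset.mul_sum]; exact Finset.sum_congr rfl fun y _ => hl y
    have hpost : ∀ i, (∑ y, post (lawAt J 0 v x) (fun (w : Cfg n) j => spin (w j)) s z y * spin (y i)) = m c i := by
      intro i
      simp only [hm, Ef, post, hmix, hl]
      exact Finset.sum_congr rfl fun y _ => by field_simp
    simp only [zero_add, ← hs, ← hcdef, ← hM, hmix, hpost, Gm, ← mul_assoc, ← Finset.sum_mul]
    ring
  have key := tilt_le (J := J) (L := L) (t := t) (v := v) (x := x) (K := a * corK n L (2 * a)) (K₀ := 0)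
    (Φ := fun p c => Gm c - qmean J c a p) hJ hn ht (fun p => hGc.sub (continuous_qmean a p)) (B := 1 + 1)
    (fun p c => (abs_sub _ _).trans (add_le_add (hGb c) (abs_qmean_le c a p)))
    (mul_nonneg (Nat.cast_nonneg a) (corK_nonneg n L _)) fun c g g0' g1' hg => by
      have em : m c = fun i => Ef J c g fun y => spin (y i) := by
        funext i; simp only [hm, funext hg, f]
      set φ := fun y : Cfg n => ∑ i, m c i * spin (y i)
      set S := ∑ i, m c i ^ 2
      have eS : S = Ef J c g φ := by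
        simp only [S, φ, Ef, Finset.mul_sum]
        rw [Finset.sum_comm]
        refine Finset.sum_congr rfl fun i _ => ?_
        rw [pow_two]; nth_rw 2 [em]
        simp only [Ef, Finset.mul_sum]
        exact Finset.sum_congr rfl fun y _ => by ring
      have hgam : ∀ y, gam φ y ≤ n := fun y => by rw [gam_linear]; exact hmn c
      have hr := Corr.one_le_base (n := n) (L := L)
      have h := stat_iter hJ.symm hJ.diag hn g0' g1' φ (k := a) (b := c)
        (A := (Real.sqrt n * (1 + gradC L / n) ^ (2 * a)) ^ 2) fun l hl y => by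
          refine (gam_Kpow_le c hJ hgam l y).trans ?_
          rw [mul_pow, Real.sq_sqrt hn'.le, ← pow_mul, mul_comm]
          exact mul_le_mul_of_nonneg_left (pow_le_pow_right₀ hr (by omega)) hn'.le
      rw [Real.sqrt_sq (by positivity)] at h
      set e := 4 * (a : ℝ) / n * Real.sqrt (dir J c fun y => Real.sqrt (g y)) *
        (Real.sqrt n * (1 + gradC L / n) ^ (2 * a)) with he
      set Q := Ef J c g (fun y => qmean J c a y)
      have hS : S ≤ (n * Q + S) / 2 + e := by
        have hK : Ef J c g (Kpow J c a φ) ≤ (n * Q + S) / 2 := by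
          have : ∀ y, Kpow J c a φ y ≤ (n * qmean J c a y + S) / 2 := fun y => by
            simp only [φ, Corr.Kpow_lin]
            rw [qmean, mul_div_cancel₀ _ hn'.ne', le_div_iff₀ two_pos, Finset.sum_mul, ← Finset.sum_add_distrib]
            exact Finset.sum_le_sum fun i _ => by
              simp only [mean]; linarith [two_mul_le_add_sq (m c i) (Kpow J c a (fun z => spin (z i)) y)]
          refine (Corr.Ef_mono g0' this).trans (le_of_eq ?_)
          simp only [Q, Ef, Finset.mul_sum, ← add_div, ← Finset.sum_div, mul_div_assoc', mul_add,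
            Finset.sum_add_distrib]
          congr 2
          · exact Finset.sum_congr rfl fun y _ => by ring
          · simp only [← mul_assoc, ← Finset.sum_mul, g1', one_mul]
        have h' := (abs_le.1 h).1
        rw [show ∑ y, wt J c y * (g y * (Kpow J c a φ y - φ y)) = Ef J c g (Kpow J c a φ) - S by
          rw [eS, Corr.Ef_sub]; rfl] at h'
        linarith
      have e2 : Ef J c g (fun p => Gm c - qmean J c a p) = S / n - Q := by
        rw [← Corr.Ef_sub, Corr.Ef_const g1']
      rw [e2, add_zero]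
      have h8 : 2 * e / n ≤ a * corK n L (2 * a) * Real.sqrt (dir J c fun y => Real.sqrt (g y)) := by
        have : (0 : ℝ) ≤ a * (Real.sqrt n / (n : ℝ) ^ 2 * (1 + gradC L / n) ^ (2 * a)) *
            Real.sqrt (dir J c fun y => Real.sqrt (g y)) := by positivity
        have e3 : 2 * e / n = 8 * (a * (Real.sqrt n / (n : ℝ) ^ 2 * (1 + gradC L / n) ^ (2 * a)) *
            Real.sqrt (dir J c fun y => Real.sqrt (g y))) := by rw [he]; field_simp; ring
        rw [e3, corK]
        refine le_of_sub_nonneg (le_of_le_of_eq (mul_nonneg (by norm_num : (0 : ℝ) ≤ 12) this) ?_)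
        ring
      have h9 : S / n ≤ Q + 2 * e / n := by
        rw [← sub_nonneg, show Q + 2 * e / n - S / n = (n * Q + 2 * e - S) / n by field_simp]
        exact div_nonneg (by linarith) hn'.le
      linarith
  rw [tiltE_sub (fun _ => hGc) (fun _ => hGb) (continuous_qmean a) (fun p c => abs_qmean_le c a p), e1,
    add_zero, mul_assoc, ← corErr_eq] at key
  have h := mul_le_mul_of_nonneg_left (sub_le_iff_le_add.1 key) hn'.le
  rw [mul_div_cancel₀ _ hn'.ne'] at h
  simp only [tiltE, tiltLag, vErr] at h ⊢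
  linarith

lemma Joint.ovA_pos (τ : ℝ) : 0 < ovA L τ := by
  unfold ovA; have := LegVar.G_pos (L := L) (τ := τ); positivity

lemma Joint.ov_sec (hJ : Tame J L) (hn : 0 < n) {a : ℕ} (ha : (a : ℝ) ≤ τ * n) :
    LegVar.Sec (fun _ _ h y => qmean J h a y) (ovA L τ / n) 1 := by
  have hn' : (0 : ℝ) < n := Nat.cast_pos.2 hn
  have hτ : 0 ≤ τ := nonneg_of_mul_nonneg_left ((Nat.cast_nonneg a).trans ha) hn'
  have hG := LegVar.G_pos (L := L) (τ := τ)
  have hA : 0 ≤ ovA L τ / n := div_nonneg (ovA_pos τ).le hn'.le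
  refine ⟨fun p y h hh => ?_, fun p u h y => ?_, fun p u h h' y => ?_,
    ⟨0, fun _ => le_rfl, by simpa using hA, fun _ _ _ _ _ _ => by simp⟩, fun p u h y => abs_qmean_le h a y⟩
  · exact (ContDiff.sum fun i _ => (LegVar.contDiff_Kpow (f := fun _ z => spin (z i)) hh
      (fun _ => contDiff_const) a y).pow 2).div_const _
  · set φ := fun z => ∑ i, mean J h a z i * mean J h a z i
    have e : gam (fun z => qmean J h a z) y = gam φ y / (n : ℝ) ^ 2 := by
      rw [gam, gam, Finset.sum_div]
      exact Finset.sum_congr rfl fun i _ => by simp only [qmean_ov, ov, dd, φ]; ring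
    rw [e, div_le_div_iff₀ (by positivity) hn']
    refine (mul_le_mul_of_nonneg_right (Corr.gam_ov hJ a a y) hn'.le).trans ?_
    rw [mul_pow, mul_pow, Real.sq_sqrt hn'.le, ← pow_mul]
    have h1 : (1 + gradC L / (n : ℝ)) ^ ((a + a) * 2) ≤ LegVar.G L τ ^ 4 := by
      rw [show (a + a) * 2 = a * 4 by ring, pow_mul]
      exact pow_le_pow_left₀ (pow_nonneg (zero_le_one.trans Corr.one_le_base) _) (LegVar.pow_le_G hn ha) 4
    have h2 : (0 : ℝ) ≤ 4 * τ ^ 2 * LegVar.G L τ * (n : ℝ) ^ 2 := by positivity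
    simp only [ovA]
    linarith [mul_le_mul_of_nonneg_left h1 (by positivity : (0 : ℝ) ≤ 25 * (n : ℝ) ^ 2)]
  · set w := fun i => mean J h a y i + mean J h' a y i
    have hw : ∑ i, w i ^ 2 ≤ 4 * (n : ℝ) := by
      have h1 := Corr.sum_sq_mean_le (J := J) (b := h) a y
      have h2 := Corr.sum_sq_mean_le (J := J) (b := h') a y
      refine (Finset.sum_le_sum fun i _ => show w i ^ 2 ≤ 2 * mean J h a y i ^ 2 + 2 * mean J h' a y i ^ 2 from ?_).trans ?_
      · simp only [w]; linarith [sq_nonneg (mean J h a y i - mean J h' a y i)]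
      · rw [Finset.sum_add_distrib, ← Finset.mul_sum, ← Finset.mul_sum]; linarith
    have hk := LegVar.Kpow_field_le hJ hn ha (f := fun z => ∑ i, w i * spin (z i)) (A := 4 * n)
      (fun z => (gam_linear w z).le.trans hw) h h' y
    have e : qmean J h a y - qmean J h' a y =
        (Kpow J h a (fun z => ∑ i, w i * spin (z i)) y - Kpow J h' a (fun z => ∑ i, w i * spin (z i)) y) / n := by
      simp only [qmean, Corr.Kpow_lin, ← sub_div, ← Finset.sum_sub_distrib, w, mean]
      congr 1
      exact Finset.sum_congr rfl fun i _ => by ring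
    rw [e, abs_div, Nat.abs_cast, div_le_iff₀ hn']
    refine hk.trans ?_
    have h1 : τ * Real.sqrt (LegVar.G L τ * (4 * n)) ≤ Real.sqrt (ovA L τ / n) * n := by
      have e : Real.sqrt (ovA L τ / n) * n = Real.sqrt (ovA L τ / n * (n : ℝ) ^ 2) := by
        rw [Real.sqrt_mul hA, Real.sqrt_sq hn'.le]
      rw [e]
      refine Real.le_sqrt_of_sq_le ?_
      rw [mul_pow, Real.sq_sqrt (by positivity)]
      simp only [ovA]
      field_simp
      have : (0 : ℝ) ≤ LegVar.G L τ ^ 4 := by positivity
      nlinarith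
    calc _ ≤ Real.sqrt (ovA L τ / n) * n * LegVar.nrm (fun i => h i - h' i) :=
          mul_le_mul_of_nonneg_right h1 (LegVar.nrm_nonneg _)
      _ = _ := by ring

/-- the tilted overlap concentrates -/
theorem tilt_conc (hJ : Tame J L) (hn : 0 < n) (ht0 : 0 ≤ t) (ht : t ≤ τ) {T : ℝ} {a : ℕ}
    (ha : (a : ℝ) ≤ τ * n) (hv : (v : ℝ) ≤ T * n) :
    tiltE J t v x (fun p h => |qmean J h a p - tiltLag J t v a x|) ≤ Real.sqrt (concC L τ T / n) := by
  have hn' : (0 : ℝ) < n := Nat.cast_pos.2 hn
  have hT : 0 ≤ T := nonneg_of_mul_nonneg_left ((Nat.cast_nonneg v).trans hv) hn'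
  have hS := ov_sec hJ hn ha
  set A := ovA L τ / n
  set F := fun p => ∫ z, qmean J (obsField t p z) a p ∂gauss (Fin n) with hF
  set T₀ := tiltLag J t v a x
  have e0 : ∀ p z, LegVar.hf (0 : Fin n → ℝ) t p z = obsField t p z := fun p z => by
    funext i; simp [LegVar.hf]
  have hvar : ∀ p, ∫ z, qmean J (obsField t p z) a p ^ 2 ∂gauss (Fin n) - F p ^ 2 ≤
      (1 + Real.sqrt τ) ^ 2 * A := fun p => by
    simpa only [e0] using hS.var (0 : Fin n → ℝ) ht p
  have hgam : ∀ p, gam F p ≤ LegVar.meanC τ * A := fun p => by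
    simpa only [e0] using hS.gam_mean (0 : Fin n → ℝ) ht0 ht p
  have hKv := LegVar.var_Kpow_G (J := J) (0 : Fin n → ℝ) hJ hn hv hgam x
  set V := concC L τ T / n with hV
  have hVpos : 0 < V := by
    refine div_pos (mul_pos ?_ (ovA_pos τ)) hn'
    have := LegVar.G_pos (L := L) (τ := T)
    have := LegVar.meanC_nonneg (τ := τ)
    positivity
  set s := Real.sqrt V
  have hs : 0 < s := Real.sqrt_pos.2 hVpos
  have hq : ∀ p, Continuous fun h => qmean J h a p := continuous_qmean a
  have iQ : ∀ p, Integrable (fun z => qmean J (obsField t p z) a p) (gauss (Fin n)) :=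
    integrable_obs (Φ := fun p h => qmean J h a p) hq fun p h => abs_qmean_le h a p
  have iQ2 : ∀ p, Integrable (fun z => qmean J (obsField t p z) a p ^ 2) (gauss (Fin n)) :=
    integrable_obs (Φ := fun p h => qmean J h a p ^ 2) (fun p => (hq p).pow 2) (B := 1) fun p h => by
      rw [abs_pow]; exact pow_le_one₀ (abs_nonneg _) (abs_qmean_le h a p)
  have iA : ∀ p, Integrable (fun z => |qmean J (obsField t p z) a p - T₀|) (gauss (Fin n)) := fun p =>
    ((iQ p).sub (integrable_const T₀)).abs
  have hpt : ∀ p, ∫ z, |qmean J (obsField t p z) a p - T₀| ∂gauss (Fin n) ≤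
      1 / (2 * s) * ((F p ^ 2 + ((1 + Real.sqrt τ) ^ 2 * A + T₀ ^ 2 + V)) + -(2 * T₀) * F p) := by
    intro p
    have i1 : Integrable (fun z => qmean J (obsField t p z) a p ^ 2 + -(2 * T₀) * qmean J (obsField t p z) a p)
        (gauss (Fin n)) := (iQ2 p).add ((iQ p).const_mul _)
    refine (integral_mono (iA p) ((i1.add (integrable_const (T₀ ^ 2 + V))).const_mul (1 / (2 * s))) fun z => ?_).trans ?_
    · simp only [Pi.add_apply]
      rw [div_mul_eq_mul_div, one_mul, le_div_iff₀ (by positivity)]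
      have h := two_mul_le_add_sq |qmean J (obsField t p z) a p - T₀| s
      rw [sq_abs, Real.sq_sqrt hVpos.le] at h
      nlinarith
    · simp only [Pi.add_apply]
      rw [integral_const_mul, integral_add i1 (integrable_const _),
        integral_add (iQ2 p) ((iQ p).const_mul _), integral_const_mul]
      refine mul_le_mul_of_nonneg_left ?_ (by positivity)
      simp only [integral_const, probReal_univ, one_smul, hF] at hvar ⊢
      linarith [hvar p]
  refine (Block.Kpow_mono hpt v x).trans ?_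
  set C₀ := (1 + Real.sqrt τ) ^ 2 * A + T₀ ^ 2 + V
  have hF2 : Kpow J 0 v (fun p => F p ^ 2 + C₀) x = Kpow J 0 v (fun p => F p ^ 2) x + C₀ := by
    have hc : ∀ k y, Kpow J 0 k (fun _ => C₀) y = C₀ := by
      intro k
      induction k with
      | zero => exact fun y => rfl
      | succ k ih =>
        intro y
        rw [Pair.Kpow_succ, funext ih]
        simp only [K, qb_const, Finset.sum_const, Finset.card_univ, Fintype.card_fin, nsmul_eq_mul]
        rw [mul_div_cancel_left₀ _ hn'.ne']
    have := congrFun (Block.Kpow_add_mul (J := J) (b := (0 : Fin n → ℝ)) v 1 (fun p => F p ^ 2) fun _ => C₀) x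
    simpa [hc] using this
  rw [Block.Kpow_mul_const]
  dsimp only
  rw [Block.Kpow_add_mul]
  dsimp only
  rw [hF2, show Kpow J 0 v F x = T₀ from rfl]
  rw [show Kpow J 0 v F x = T₀ from rfl] at hKv
  have hVV : (1 + Real.sqrt τ) ^ 2 * A + 4 * T * LegVar.G L T * (LegVar.meanC τ * A) = V := by
    simp only [hV, A, concC]; ring
  refine (mul_le_mul_of_nonneg_left (show _ ≤ 2 * V by simp only [C₀]; nlinarith) (by positivity)).trans (le_of_eq ?_)
  rw [div_mul_eq_mul_div, one_mul, div_eq_iff (by positivity)]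
  linear_combination -2 * Real.mul_self_sqrt hVpos.le

/-- the defect of stationarity averages out over a long block -/
theorem blockAvg_vErr (hJ : Tame J L) (hn : 0 < n) (x : Cfg n) (W M : ℕ) :
    blockAvg W (fun u => vErr J L u x M) ≤
      20 * (1 + gradC L / n) ^ M * Real.sqrt (Real.log 2 + L) / Real.sqrt (n * W) := by
  rcases Nat.eq_zero_or_pos W with rfl | hW
  · simp [blockAvg]
  have hn' : (0 : ℝ) < n := Nat.cast_pos.2 hn
  have hW' : (0 : ℝ) < W := Nat.cast_pos.2 hW
  set d := fun u => dir J 0 fun y => Real.sqrt (dens J u x y)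
  have d0 : ∀ u, 0 ≤ d u := fun u => Finset.sum_nonneg fun i _ => Finset.sum_nonneg fun y _ =>
    mul_nonneg (wt_pos J 0 y).le (mul_nonneg (mag_sq J 0 i y).1 (sq_nonneg _))
  set f₀ : Cfg n → ℝ := Pi.single x (wt J 0 x)⁻¹
  have h0 : ∀ y, 0 ≤ f₀ y := dens_nonneg (J := J) 0 x
  have h2 : ∑ u ∈ Finset.Ico W (2 * W), d u ≤ n * (n * (Real.log 2 + L)) := by
    refine (Finset.sum_le_sum_of_subset_of_nonneg (fun u hu => Finset.mem_range.2 (Finset.mem_Ico.1 hu).2)
      fun u _ _ => d0 u).trans ((sum_dir_sqrt hJ.symm hJ.diag hn h0 (2 * W)).trans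
        (mul_le_mul_of_nonneg_left ((ent_point hJ.op x).trans_eq ?_) hn'.le))
    simp; ring
  have h3 : ∑ u ∈ Finset.Ico W (2 * W), Real.sqrt (d u) ≤ Real.sqrt W * Real.sqrt (∑ u ∈ Finset.Ico W (2 * W), d u) := by
    have h := Real.sum_mul_le_sqrt_mul_sqrt (Finset.Ico W (2 * W)) (fun _ => (1 : ℝ)) fun u => Real.sqrt (d u)
    simp only [one_mul, one_pow, Finset.sum_const, Nat.card_Ico, nsmul_eq_mul, mul_one, Real.sq_sqrt (d0 _),
      show 2 * W - W = W by omega] at h
    exact h
  have hK := corK_nonneg n L M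
  have e : blockAvg W (fun u => vErr J L u x M) =
      corK n L M * (∑ u ∈ Finset.Ico W (2 * W), Real.sqrt (d u)) / W := by
    simp only [blockAvg, vErr, corErr_eq, Finset.mul_sum, d]
  rw [e]
  refine (div_le_div_of_nonneg_right (mul_le_mul_of_nonneg_left
    (h3.trans (mul_le_mul_of_nonneg_left (Real.sqrt_le_sqrt h2) (Real.sqrt_nonneg _))) hK) hW'.le).trans (le_of_eq ?_)
  rw [← mul_assoc (n : ℝ) n, Real.sqrt_mul (mul_self_nonneg _), Real.sqrt_mul_self hn'.le,
    Real.sqrt_mul hn'.le, corK]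
  have sn := Real.mul_self_sqrt hn'.le
  have sw := Real.mul_self_sqrt hW'.le
  have : 0 < Real.sqrt (n : ℝ) := Real.sqrt_pos.2 hn'
  have : 0 < Real.sqrt (W : ℝ) := Real.sqrt_pos.2 hW'
  field_simp
  rw [Real.sq_sqrt hn'.le, Real.sq_sqrt hW'.le]
  ring

end Vale.Agent.P150.PA
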