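import Vale.Agent.P150.PA.Defs

/-! Gradient commutation for the random-scan heat bath, uniformly in the external field, and the
resulting variance bound for `k` attempts. -/

namespace Vale.Agent.P150.PA

open Ising

variable {n : ℕ}

/-- first-order expansion of the change of a conditional mean under one flip -/
lemma tanh_shift {a K σ : ℝ} (hK : |K| ≤ 1 / 64) (hσ : |σ| = 1) :
    |(Real.tanh (a + K) - Real.tanh (a - K)) / 2| ≤
        2 * |K| * (1 - ((Real.tanh (a + K) + Real.tanh (a - K)) / 2) ^ 2) ∧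
      |(Real.tanh (a + K) - Real.tanh (a - K)) / 2 - K * (1 - Real.tanh (a + σ * K) ^ 2)| ≤
        5 * K ^ 2 := by
  have hA : |Real.tanh a| < 1 := tanh_abs_lt a
  have hT : |Real.tanh K| ≤ |K| := abs_tanh_le K
  have hTK : |Real.tanh K - K| ≤ |K| ^ 3 := abs_tanh_sub_le K
  have hlip : |Real.tanh (a + σ * K) - Real.tanh a| ≤ |K| := by
    have h := convex_univ.norm_image_sub_le_of_norm_hasDerivWithin_le (C := 1)
      (fun x _ => (hasDerivAt_tanh' x).hasDerivWithinAt) (fun x _ => by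
        rw [Real.norm_eq_abs, abs_le]
        have := (sq_lt_one_iff_abs_lt_one (Real.tanh x)).2 (tanh_abs_lt x)
        constructor <;> linarith [sq_nonneg (Real.tanh x)]) (Set.mem_univ a) (Set.mem_univ (a + σ * K))
    simpa [abs_mul, hσ] using h
  have h1 := tanh_add' a K
  have h2 := tanh_add' a (-K)
  rw [← sub_eq_add_neg, Real.tanh_neg] at h2
  rw [h1, h2]
  set A := Real.tanh a
  set T := Real.tanh K
  set B := Real.tanh (a + σ * K)
  have hB : |B| < 1 := tanh_abs_lt _
  have hA2 : A ^ 2 < 1 := (sq_lt_one_iff_abs_lt_one A).2 hA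
  have hT2 : T ^ 2 ≤ 1 / 4096 := by
    have := pow_le_pow_left₀ (abs_nonneg T) (hT.trans hK) 2
    rw [sq_abs] at this; norm_num at this; exact this
  set q := A ^ 2 * T ^ 2
  have hq : q ≤ T ^ 2 := mul_le_of_le_one_left (sq_nonneg T) hA2.le
  have hq0 : 0 ≤ q := by positivity
  have hp : 0 < 1 + A * T ∧ 0 < 1 - A * T := by
    have : |A * T| ≤ 1 / 64 := by
      rw [abs_mul]; exact (mul_le_of_le_one_left (abs_nonneg T) hA.le).trans (hT.trans hK)
    constructor <;> linarith [abs_le.1 this]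
  have hm : (1 + A * T) * (1 + A * -T) ≠ 0 := by
    rw [mul_neg, ← sub_eq_add_neg]; exact (mul_pos hp.1 hp.2).ne'
  have e1 : ((A + T) / (1 + A * T) - (A + -T) / (1 + A * -T)) / 2 = T * (1 - A ^ 2) / (1 - q) := by
    rw [show 1 - q = (1 + A * T) * (1 - A * T) by simp only [q]; ring,
      show 1 + A * -T = 1 - A * T by ring]
    have := hp.1.ne'
    have n2 : 1 - A * T ≠ 0 := hp.2.ne'
    field_simp
    ring
  have e2 : ((A + T) / (1 + A * T) + (A + -T) / (1 + A * -T)) / 2 = A * (1 - T ^ 2) / (1 - q) := by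
    rw [show 1 - q = (1 + A * T) * (1 - A * T) by simp only [q]; ring,
      show 1 + A * -T = 1 - A * T by ring]
    have := hp.1.ne'
    have n2 : 1 - A * T ≠ 0 := hp.2.ne'
    field_simp
    ring
  rw [e1, e2]
  set r := 1 / (1 - q) with hr
  have hr0 : 0 < r := by rw [hr]; apply one_div_pos.2; linarith
  have hr1 : r ≤ 1 + 2 * T ^ 2 := by
    rw [hr, div_le_iff₀ (by linarith : (0 : ℝ) < 1 - q)]
    nlinarith
  have hr2 : 1 ≤ r := by rw [hr, le_div_iff₀ (by linarith : (0 : ℝ) < 1 - q)]; linarith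
  constructor
  · have hz : (A * (1 - T ^ 2) / (1 - q)) ^ 2 ≤ A ^ 2 := by
      have h0 : 0 ≤ (1 - T ^ 2) / (1 - q) := div_nonneg (by linarith) (by linarith)
      have h1 : (1 - T ^ 2) / (1 - q) ≤ 1 := (div_le_one (by linarith)).2 (by linarith)
      rw [mul_div_assoc, mul_pow]
      exact mul_le_of_le_one_right (sq_nonneg A) (pow_le_one₀ h0 h1)
    rw [show T * (1 - A ^ 2) / (1 - q) = T * r * (1 - A ^ 2) by simp only [hr]; ring,
      abs_mul, abs_mul, abs_of_pos hr0, abs_of_pos (by linarith : (0 : ℝ) < 1 - A ^ 2)]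
    refine mul_le_mul ?_ (by linarith) (by linarith) (by positivity)
    calc |T| * r ≤ |K| * 2 := mul_le_mul hT (by linarith) hr0.le (abs_nonneg K)
      _ = 2 * |K| := mul_comm _ _
  · rw [show T * (1 - A ^ 2) / (1 - q) - K * (1 - B ^ 2) =
        (T - K) * (1 - A ^ 2) + T * (1 - A ^ 2) * (r - 1) + K * (B - A) * (B + A) by
      simp only [hr]; ring]
    have k0 := abs_nonneg K
    have k3 : |K| ^ 3 ≤ K ^ 2 := by
      rw [← sq_abs K]; exact pow_le_pow_of_le_one k0 (by linarith) (by norm_num)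
    have hA' : |1 - A ^ 2| ≤ 1 := abs_le.2 ⟨by linarith [sq_nonneg A], by linarith [sq_nonneg A]⟩
    have b1 : |(T - K) * (1 - A ^ 2)| ≤ K ^ 2 := by
      rw [abs_mul]; exact (mul_le_of_le_one_right (abs_nonneg _) hA').trans (hTK.trans k3)
    have b2 : |T * (1 - A ^ 2) * (r - 1)| ≤ 2 * K ^ 2 := by
      rw [abs_mul, abs_mul, abs_of_nonneg (sub_nonneg.2 hr2)]
      calc |T| * |1 - A ^ 2| * (r - 1) ≤ 1 * (2 * T ^ 2) :=
            mul_le_mul (mul_le_one₀ ((hT.trans hK).trans (by norm_num)) (abs_nonneg _) hA')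
              (by linarith) (by linarith) zero_le_one
        _ ≤ 2 * K ^ 2 := by
          rw [one_mul]; linarith [sq_le_sq.2 hT]
    have b3 : |K * (B - A) * (B + A)| ≤ 2 * K ^ 2 := by
      rw [abs_mul, abs_mul]
      calc |K| * |B - A| * |B + A| ≤ |K| * |K| * 2 :=
            mul_le_mul (mul_le_mul_of_nonneg_left hlip k0)
              ((abs_add_le B A).trans (by linarith)) (abs_nonneg _) (by positivity)
        _ = 2 * K ^ 2 := by rw [← sq_abs K]; ring
    linarith [abs_add_three ((T - K) * (1 - A ^ 2)) (T * (1 - A ^ 2) * (r - 1))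
      (K * (B - A) * (B + A))]

/-- the first-order part of the two-site computation -/
lemma main_term_le {K d Dx u v : ℝ} (hd : |d| ≤ 2 * |K|) (hdD : |d - K * Dx| ≤ 5 * K ^ 2) :
    2 * d * (u * v) + d ^ 2 * v ^ 2 ≤ 2 * K * (u * (Dx * v)) + 9 * K ^ 2 * (u ^ 2 + v ^ 2) := by
  have huv : |u * v| ≤ (u ^ 2 + v ^ 2) / 2 := by
    rw [abs_le]
    constructor <;> linarith [sq_nonneg (u + v), sq_nonneg (u - v), add_sq u v, sub_sq u v]
  have a1 : (d - K * Dx) * (u * v) ≤ 5 * K ^ 2 * ((u ^ 2 + v ^ 2) / 2) :=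
    (le_abs_self _).trans (by
      rw [abs_mul]; exact mul_le_mul hdD huv (abs_nonneg _) (by positivity))
  have a2 : d ^ 2 ≤ 4 * K ^ 2 := by
    rw [← sq_abs d, show 4 * K ^ 2 = (2 * |K|) ^ 2 by rw [mul_pow, sq_abs]; norm_num]
    exact pow_le_pow_left₀ (abs_nonneg d) hd 2
  linarith [mul_le_mul_of_nonneg_right a2 (sq_nonneg v), mul_nonneg (sq_nonneg K) (sq_nonneg u)]

/-- the cross terms with the second derivative are absorbed -/
lemma cross_term_le {K D c u v w : ℝ} (hD0 : 0 ≤ D) (hD1 : D ≤ 1)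
    (hc : |c| ≤ 2 * |K| * D * (5 * (|u| + |v|))) :
    w * c ≤ w ^ 2 * (D / 2) + 100 * K ^ 2 * (u ^ 2 + v ^ 2) := by
  have hW : (|u| + |v|) ^ 2 ≤ 2 * (u ^ 2 + v ^ 2) := by
    rw [← sq_abs u, ← sq_abs v]
    linarith [sq_nonneg (|u| - |v|), add_sq |u| |v|, sub_sq |u| |v|]
  refine (le_abs_self _).trans ?_
  rw [abs_mul]
  refine (mul_le_mul_of_nonneg_left hc (abs_nonneg w)).trans ?_
  have y1 := mul_nonneg hD0 (sq_nonneg (|w| - 10 * |K| * (|u| + |v|)))
  have y2 : D * (|K| * (|u| + |v|)) ^ 2 ≤ 2 * K ^ 2 * (u ^ 2 + v ^ 2) := by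
    refine (mul_le_of_le_one_left (sq_nonneg _) hD1).trans ?_
    rw [mul_pow, sq_abs]
    linarith [mul_le_mul_of_nonneg_left hW (sq_nonneg K)]
  have hw : |w| ^ 2 = w ^ 2 := sq_abs w
  linear_combination (1 / 2) * y1 + 50 * y2 + (D / 2) * hw

/-- the coefficient of the cross terms -/
lemma cross_coef_le {d zb s t u v : ℝ} (hs : |s| = 1) (ht : |t| = 1) (hz : |zb| ≤ 1)
    (hd1 : |d| ≤ 1 / 32) :
    |-(4 * (d * s * u)) + 2 * (d * (zb - t) * v) - 2 * (d ^ 2 * s * v)| ≤
      |d| * (5 * (|u| + |v|)) := by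
  have d0 := abs_nonneg d
  have e1 : |d * s * u| = |d| * |u| := by rw [abs_mul, abs_mul, hs, mul_one]
  have e2 : |d * (zb - t) * v| ≤ |d| * (2 * |v|) := by
    rw [abs_mul, abs_mul, mul_assoc]
    exact mul_le_mul_of_nonneg_left (mul_le_mul_of_nonneg_right
      ((abs_sub zb t).trans (by linarith)) (abs_nonneg v)) d0
  have e3 : |d ^ 2 * s * v| ≤ |d| * ((1 / 32) * |v|) := by
    rw [abs_mul, abs_mul, hs, mul_one, abs_pow, pow_two, mul_assoc]
    exact mul_le_mul_of_nonneg_left (mul_le_mul_of_nonneg_right hd1 (abs_nonneg v)) d0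
  have t1 := abs_sub (-(4 * (d * s * u)) + 2 * (d * (zb - t) * v)) (2 * (d ^ 2 * s * v))
  have t2 := abs_add_le (-(4 * (d * s * u))) (2 * (d * (zb - t) * v))
  simp only [abs_neg, abs_mul (4 : ℝ), abs_mul (2 : ℝ), abs_of_pos (by norm_num : (0 : ℝ) < 4),
    abs_of_pos (by norm_num : (0 : ℝ) < 2), e1] at t1 t2
  linarith [mul_nonneg d0 (abs_nonneg u), mul_nonneg d0 (abs_nonneg v)]

/-- the two-site computation: `u = dd i f x`, `v = dd j f x`, `w = dd i (dd j f) x` -/
lemma pair_sq_le {K d zb s t Dx u v w : ℝ} (hK : |K| ≤ 1 / 64) (hzb : zb ^ 2 ≤ 1)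
    (hs : |s| = 1) (ht : |t| = 1) (hd : |d| ≤ 2 * |K| * (1 - zb ^ 2))
    (hdD : |d - K * Dx| ≤ 5 * K ^ 2) :
    (u + (zb - t) * w + d * (v - s * w)) ^ 2 -
        ((u - t * w) ^ 2 + w ^ 2 + 2 * (zb + d * s) * (u - t * w) * w) ≤
      2 * K * (u * (Dx * v)) + 110 * K ^ 2 * (u ^ 2 + v ^ 2) := by
  set D := 1 - zb ^ 2 with hD
  have hD0 : 0 ≤ D := by rw [hD]; linarith
  have hD1 : D ≤ 1 := by rw [hD]; linarith [sq_nonneg zb]
  have hs2 : s ^ 2 = 1 := by rw [← sq_abs, hs, one_pow]
  have hz : |zb| ≤ 1 := (sq_le_one_iff_abs_le_one zb).1 hzb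
  have d0 := abs_nonneg d
  have hdK : |d| ≤ 2 * |K| := hd.trans (mul_le_of_le_one_right (by positivity) hD1)
  have hd1 : |d| ≤ 1 / 32 := by linarith
  have hdD' : |d| ≤ D / 32 := hd.trans (by
    linarith [mul_le_mul_of_nonneg_right hK hD0])
  have expand : (u + (zb - t) * w + d * (v - s * w)) ^ 2 -
        ((u - t * w) ^ 2 + w ^ 2 + 2 * (zb + d * s) * (u - t * w) * w) =
      2 * d * (u * v) + d ^ 2 * v ^ 2 +
      w * (-(4 * (d * s * u)) + 2 * (d * (zb - t) * v) - 2 * (d ^ 2 * s * v)) +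
      w ^ 2 * (-D + 4 * (d * s * t) - 2 * (d * s * zb) + d ^ 2) := by
    rw [hD]
    linear_combination (d ^ 2 * w ^ 2) * hs2
  rw [expand]
  have c2 : w ^ 2 * (-D + 4 * (d * s * t) - 2 * (d * s * zb) + d ^ 2) ≤ w ^ 2 * (-(3 / 4) * D) := by
    refine mul_le_mul_of_nonneg_left ?_ (sq_nonneg w)
    have a1 : d * s * t ≤ |d| := (le_abs_self _).trans (by rw [abs_mul, abs_mul, hs, ht]; simp)
    have a2 : -(d * s * zb) ≤ |d| := (neg_le_abs _).trans (by
      rw [abs_mul, abs_mul, hs, mul_one]; exact mul_le_of_le_one_right d0 hz)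
    have a3 : d ^ 2 ≤ |d| := by
      rw [← sq_abs, sq]; exact mul_le_of_le_one_left d0 (by linarith)
    linarith
  have c1 := cross_term_le (K := K) (u := u) (v := v) (w := w) hD0 hD1
    ((cross_coef_le (u := u) (v := v) hs ht hz hd1).trans
      (mul_le_mul_of_nonneg_right hd (by positivity)))
  have c0 := main_term_le (u := u) (v := v) hdK hdD
  linarith [mul_nonneg (sq_nonneg K) (add_nonneg (sq_nonneg u) (sq_nonneg v)),
    mul_nonneg hD0 (sq_nonneg w)]

variable {J : Fin n → Fin n → ℝ} (b : Fin n → ℝ)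

/-- commutation of `dd i` with the heat bath at another site, squared -/
lemma dd_qb_sq_le {L : ℝ} (hJ : Tame J L) {i j : Fin n} (hij : i ≠ j) (f : Cfg n → ℝ) (x : Cfg n) :
    dd i (qb b J j f) x ^ 2 ≤ qb b J j (fun y => dd i f y ^ 2) x +
      2 * J j i * (dd i f x * ((1 - mag J b j x ^ 2) * dd j f x)) +
      110 * J j i ^ 2 * (dd i f x ^ 2 + dd j f x ^ 2) := by
  set K := J j i
  set a := fld J b j x - K * spin (x i) with ha
  set s := spin (x i)
  set t := spin (x j)
  have hs : |s| = 1 := by simp only [s, spin]; split_ifs <;> norm_num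
  have ht : |t| = 1 := by simp only [t, spin]; split_ifs <;> norm_num
  have hup : ∀ c, mag J b j (Function.update x i c) = Real.tanh (a + spin c * K) := fun c => by
    rw [mag, fld_update, ha]; congr 1; ring
  have hz : mag J b j x = Real.tanh (a + s * K) := by rw [mag, ha]; congr 1; ring
  have hpl : mag J b j (Function.update x i true) = Real.tanh (a + K) := by
    rw [hup]; simp [spin]
  have hmi : mag J b j (Function.update x i false) = Real.tanh (a - K) := by
    rw [hup]; simp [spin, ← sub_eq_add_neg]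
  obtain ⟨h1, h2⟩ := tanh_shift (a := a) (hJ.small j i) hs
  set zb := (Real.tanh (a + K) + Real.tanh (a - K)) / 2 with hzb
  set d := (Real.tanh (a + K) - Real.tanh (a - K)) / 2 with hd
  have hzb1 : zb ^ 2 ≤ 1 := by
    refine (sq_le_one_iff_abs_le_one zb).2 (abs_le.2 ?_)
    have := abs_lt.1 (tanh_abs_lt (a + K))
    have := abs_lt.1 (tanh_abs_lt (a - K))
    rw [hzb]
    constructor <;> linarith
  have hzd : mag J b j x = zb + d * s := by
    rw [hz, hzb, hd]
    simp only [s, spin]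
    split_ifs <;> simp [← sub_eq_add_neg] <;> ring
  set F := fun c c' => f (Function.update (Function.update x i c) j c') with hF
  set w := (F true true - F true false - F false true + F false false) / 4 with hw
  have hu : dd i f x = (F true (x j) - F false (x j)) / 2 := by
    simp only [dd, hF]
    have : ∀ c, Function.update (Function.update x i c) j (x j) = Function.update x i c := fun c => by
      conv_lhs => rw [show x j = Function.update x i c j from (Function.update_of_ne hij.symm c x).symm]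
      rw [Function.update_eq_self]
    rw [this, this]
  have hv : dd j f x = (F (x i) true - F (x i) false) / 2 := by
    simp only [dd, hF, Function.update_eq_self]
  have hR : qb b J j (fun y => dd i f y ^ 2) x =
      ((1 + mag J b j x) * ((F true true - F false true) / 2) ^ 2 +
        (1 - mag J b j x) * ((F true false - F false false) / 2) ^ 2) / 2 := by
    simp only [qb_eq, dd, hF, Function.update_comm hij.symm]
  have hL : dd i (qb b J j f) x =
      (((1 + Real.tanh (a + K)) * F true true + (1 - Real.tanh (a + K)) * F true false) / 2 -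
        ((1 + Real.tanh (a - K)) * F false true + (1 - Real.tanh (a - K)) * F false false) / 2) / 2 := by
    simp only [dd, qb_eq, hpl, hmi, hF]
  have key := pair_sq_le (u := dd i f x) (v := dd j f x) (w := w) (hJ.small j i) hzb1 hs ht h1 h2
  rw [← hz] at key
  have eL : dd i f x + (zb - t) * w + d * (dd j f x - s * w) = dd i (qb b J j f) x := by
    rw [hL, hu, hv, hw, hzb, hd]
    cases hi : x i <;> cases hj : x j <;> simp only [s, t, spin, hi, hj, if_true, Bool.false_eq_true, if_false] <;> ring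
  have eR : (dd i f x - t * w) ^ 2 + w ^ 2 + 2 * (zb + d * s) * (dd i f x - t * w) * w =
      qb b J j (fun y => dd i f y ^ 2) x := by
    rw [← hzd, hR, hu, hw]
    cases hj : x j <;> simp only [t, spin, hj, if_true, Bool.false_eq_true, if_false] <;> ring
  rw [eL, eR] at key
  linarith

lemma qb_mono {f g : Cfg n → ℝ} (h : ∀ y, f y ≤ g y) (i : Fin n) (x : Cfg n) :
    qb b J i f x ≤ qb b J i g x := by
  rw [qb_eq, qb_eq]
  have := abs_lt.1 (tanh_abs_lt (fld J b i x))
  have h1 : 0 ≤ 1 + mag J b i x := by simp only [mag]; linarith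
  have h2 : 0 ≤ 1 - mag J b i x := by simp only [mag]; linarith
  linarith [mul_le_mul_of_nonneg_left (h (Function.update x i true)) h1,
    mul_le_mul_of_nonneg_left (h (Function.update x i false)) h2]

lemma qb_const (c : ℝ) (i : Fin n) (x : Cfg n) : qb b J i (fun _ => c) x = c := by
  rw [qb_eq]; ring

lemma K_mono {f g : Cfg n → ℝ} (h : ∀ y, f y ≤ g y) (x : Cfg n) : K J b f x ≤ K J b g x :=
  div_le_div_of_nonneg_right (Finset.sum_le_sum fun i _ => qb_mono b h i x) (Nat.cast_nonneg n)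

lemma K_const_le {c : ℝ} (hc : 0 ≤ c) (x : Cfg n) : K J b (fun _ => c) x ≤ c := by
  simp only [K, qb_const, Finset.sum_const, Finset.card_univ, Fintype.card_fin, nsmul_eq_mul]
  exact mul_div_le_self' hc
where
  mul_div_le_self' {c : ℝ} (hc : 0 ≤ c) : (n : ℝ) * c / n ≤ c := by
    rcases Nat.eq_zero_or_pos n with rfl | hn
    · simpa using hc
    · rw [mul_div_cancel_left₀ _ (Nat.cast_pos.2 hn).ne']

lemma gam_nonneg (f : Cfg n → ℝ) (x : Cfg n) : 0 ≤ gam f x :=
  Finset.sum_nonneg fun _ _ => sq_nonneg _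

lemma bilin_le {L : ℝ} (hJ : Tame J L) (p q : Fin n → ℝ) :
    ∑ i, ∑ j, J j i * (p i * q j) ≤ L / 2 * (∑ i, p i ^ 2 + ∑ i, q i ^ 2) := by
  have h1 := (abs_le.1 (hJ.op fun i => p i + q i)).2
  have h2 := (abs_le.1 (hJ.op fun i => p i - q i)).1
  have e : ∑ i, ∑ j, J i j * ((p i + q i) * (p j + q j)) - ∑ i, ∑ j, J i j * ((p i - q i) * (p j - q j)) =
      4 * ∑ i, ∑ j, J j i * (p i * q j) := by
    have es : ∑ i, ∑ j, J i j * (q i * p j) = ∑ i, ∑ j, J j i * (p i * q j) := by
      rw [Finset.sum_comm]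
      exact Finset.sum_congr rfl fun i _ => Finset.sum_congr rfl fun j _ => by ring
    have et : ∑ i, ∑ j, J i j * (p i * q j) = ∑ i, ∑ j, J j i * (p i * q j) :=
      Finset.sum_congr rfl fun i _ => Finset.sum_congr rfl fun j _ => by rw [hJ.symm i j]
    simp only [add_mul, mul_add, sub_mul, mul_sub, Finset.sum_add_distrib, Finset.sum_sub_distrib]
    linarith
  have es : ∑ i, (p i + q i) ^ 2 + ∑ i, (p i - q i) ^ 2 = 2 * (∑ i, p i ^ 2 + ∑ i, q i ^ 2) := by
    rw [← Finset.sum_add_distrib, ← Finset.sum_add_distrib, Finset.mul_sum]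
    exact Finset.sum_congr rfl fun i _ => by ring
  have h3 : L * ∑ i, (p i + q i) ^ 2 + L * ∑ i, (p i - q i) ^ 2 =
      L * (2 * (∑ i, p i ^ 2 + ∑ i, q i ^ 2)) := by rw [← mul_add, es]
  linarith

/-- the constant of `gam_K` -/
noncomputable def gradC (L : ℝ) : ℝ := 222 * max L 0

lemma gradC_nonneg (L : ℝ) : 0 ≤ gradC L := by unfold gradC; positivity

lemma gam_K_le {L : ℝ} (hJ : Tame J L) (f : Cfg n → ℝ) (x : Cfg n) :
    gam (K J b f) x ≤ K J b (gam f) x + gradC L / n * gam f x := by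
  rcases Nat.eq_zero_or_pos n with rfl | hn
  · simp [gam, K]
  have hn' : (0 : ℝ) < n := Nat.cast_pos.2 hn
  set u := fun i => dd i f x with hu
  set D := fun j => 1 - mag J b j x ^ 2 with hD
  have key : ∀ i j, dd i (qb b J j f) x ^ 2 ≤ qb b J j (fun y => dd i f y ^ 2) x +
      2 * (J j i * (u i * (D j * u j))) + 110 * (J j i ^ 2 * u i ^ 2 + J j i ^ 2 * u j ^ 2) := fun i j => by
    by_cases h : i = j
    · subst h
      have e : dd i (qb b J i f) x = 0 := by simp [dd, qb_update b hJ.diag]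
      have h0 : 0 ≤ qb b J i (fun y => dd i f y ^ 2) x :=
        (qb_const b 0 i x).ge.trans (qb_mono b (fun y => sq_nonneg _) i x)
      simp only [e, hJ.diag]
      linarith
    · exact (dd_qb_sq_le b hJ h f x).trans (le_of_eq (by simp only [hu, hD]; ring))
  have hL : 0 ≤ L := (Finset.sum_nonneg fun j _ => sq_nonneg _).trans (hJ.row2 ⟨0, hn⟩)
  have hlhs : gam (K J b f) x ≤ (∑ i, ∑ j, dd i (qb b J j f) x ^ 2) / n := by
    rw [gam, Finset.sum_div]
    refine Finset.sum_le_sum fun i _ => ?_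
    have e : dd i (K J b f) x = (∑ j, dd i (qb b J j f) x) / n := by
      simp only [dd, K, ← Finset.sum_div, Finset.sum_sub_distrib]; ring
    rw [e, div_pow, div_le_div_iff₀ (by positivity) hn', pow_two (n : ℝ), ← mul_assoc]
    refine mul_le_mul_of_nonneg_right ?_ hn'.le
    have := sq_sum_le_card_mul_sum_sq (s := (Finset.univ : Finset (Fin n))) (f := fun j => dd i (qb b J j f) x)
    rw [Finset.card_univ, Fintype.card_fin] at this
    linarith
  have h1 := Finset.sum_le_sum (s := (Finset.univ : Finset (Fin n))) fun i _ =>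
    Finset.sum_le_sum (s := (Finset.univ : Finset (Fin n))) fun j _ => key i j
  simp only [Finset.sum_add_distrib, ← Finset.mul_sum] at h1
  have a0 : ∑ i, ∑ j, qb b J j (fun y => dd i f y ^ 2) x = n * K J b (gam f) x := by
    rw [K, mul_div_cancel₀ _ hn'.ne', Finset.sum_comm]
    refine Finset.sum_congr rfl fun j _ => ?_
    simp only [qb_eq, gam, Finset.mul_sum, ← Finset.sum_add_distrib, ← Finset.sum_div]
  have hD1 : ∑ i, (D i * u i) ^ 2 ≤ gam f x := Finset.sum_le_sum fun i _ => by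
    obtain ⟨p0, p1⟩ := mag_sq J b i x
    rw [mul_pow]; exact mul_le_of_le_one_left (sq_nonneg _) (pow_le_one₀ p0 p1)
  have a1 : ∑ i, ∑ j, J j i * (u i * (D j * u j)) ≤ L * gam f x := by
    refine (bilin_le hJ u fun j => D j * u j).trans ?_
    have : ∑ i, u i ^ 2 = gam f x := rfl
    nlinarith
  have a2 : ∑ i, ∑ j, J j i ^ 2 * u i ^ 2 ≤ L * gam f x := by
    rw [gam, Finset.mul_sum]
    refine Finset.sum_le_sum fun i _ => ?_
    rw [← Finset.sum_mul]
    refine mul_le_mul_of_nonneg_right (le_trans (le_of_eq ?_) (hJ.row2 i)) (sq_nonneg _)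
    exact Finset.sum_congr rfl fun j _ => by rw [hJ.symm i j]
  have a3 : ∑ i, ∑ j, J j i ^ 2 * u j ^ 2 ≤ L * gam f x := by
    rw [Finset.sum_comm, gam, Finset.mul_sum]
    refine Finset.sum_le_sum fun j _ => ?_
    rw [← Finset.sum_mul]
    exact mul_le_mul_of_nonneg_right (hJ.row2 j) (sq_nonneg _)
  refine hlhs.trans ?_
  rw [div_le_iff₀ hn', add_mul, show gradC L / (n : ℝ) * gam f x * n = gradC L * gam f x by field_simp,
    gradC, max_eq_left hL]
  linarith

/-- gradient commutation for one attempt, uniformly in the field -/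
theorem gam_K (L : ℝ) : ∃ C, 0 ≤ C ∧ ∀ (n : ℕ) (J : Fin n → Fin n → ℝ) (b : Fin n → ℝ),
    Tame J L → ∀ f x, gam (K J b f) x ≤ K J b (gam f) x + C / n * gam f x :=
  ⟨gradC L, gradC_nonneg L, fun _ _ b hJ f x => gam_K_le b hJ f x⟩

lemma Grad.Kpow_succ (k : ℕ) (f : Cfg n → ℝ) : Kpow J b (k + 1) f = K J b (Kpow J b k f) :=
  Function.iterate_succ_apply' (K J b) k f

/-- gradient bound after `k` attempts -/
theorem gam_Kpow_le {L A : ℝ} (hJ : Tame J L) {f : Cfg n → ℝ} (hf : ∀ y, gam f y ≤ A) (k : ℕ)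
    (x : Cfg n) : gam (Kpow J b k f) x ≤ (1 + gradC L / n) ^ k * A := by
  induction k generalizing x with
  | zero => simpa [Kpow] using hf x
  | succ k ih =>
    have hC : 0 ≤ gradC L / (n : ℝ) := div_nonneg (gradC_nonneg L) (Nat.cast_nonneg n)
    have hA : 0 ≤ A := (gam_nonneg f x).trans (hf x)
    rw [Grad.Kpow_succ]
    refine (gam_K_le b hJ _ x).trans ?_
    have h1 : K J b (gam (Kpow J b k f)) x ≤ (1 + gradC L / n) ^ k * A :=
      (K_mono b ih x).trans (K_const_le b (by positivity) x)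
    have h2 := mul_le_mul_of_nonneg_left (ih x) hC
    rw [pow_succ]
    linarith

lemma K_sq_sub_le (g : Cfg n → ℝ) (x : Cfg n) :
    K J b (fun y => g y ^ 2) x - K J b g x ^ 2 ≤ 4 / n * gam g x := by
  rcases Nat.eq_zero_or_pos n with rfl | hn
  · simp [K, gam]
  have hn' : (0 : ℝ) < n := Nat.cast_pos.2 hn
  have e : K J b (fun y => (g y - g x) ^ 2) x =
      K J b (fun y => g y ^ 2) x - 2 * g x * K J b g x + g x ^ 2 := by
    have h : ∀ i, qb b J i (fun y => (g y - g x) ^ 2) x =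
        qb b J i (fun y => g y ^ 2) x - 2 * g x * qb b J i g x + g x ^ 2 := fun i => by
      simp only [qb_eq]; ring
    simp only [K, h, Finset.sum_add_distrib, Finset.sum_sub_distrib, ← Finset.mul_sum, Finset.sum_const,
      Finset.card_univ, Fintype.card_fin, nsmul_eq_mul]
    field_simp
  have h1 : K J b (fun y => (g y - g x) ^ 2) x ≤ 4 / n * gam g x := by
    rw [K, gam, Finset.sum_div, Finset.mul_sum]
    refine Finset.sum_le_sum fun i _ => ?_
    rw [div_mul_eq_mul_div]
    refine div_le_div_of_nonneg_right ?_ hn'.le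
    rw [qb_eq]
    obtain ⟨p0, -⟩ := mag_sq J b i x
    have hb := abs_le.1 ((sq_le_one_iff_abs_le_one (mag J b i x)).1 (by linarith))
    set P := (g (Function.update x i true) - g x) ^ 2
    set M := (g (Function.update x i false) - g x) ^ 2
    have hPM : P + M ≤ 4 * dd i g x ^ 2 ∧ 0 ≤ P ∧ 0 ≤ M := by
      refine ⟨?_, sq_nonneg _, sq_nonneg _⟩
      simp only [P, M, dd]
      cases hx : x i
      · have : Function.update x i false = x := by rw [← hx, Function.update_eq_self]
        rw [this]; exact le_of_eq (by ring)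
      · have : Function.update x i true = x := by rw [← hx, Function.update_eq_self]
        rw [this]; exact le_of_eq (by ring)
    nlinarith
  nlinarith [sq_nonneg (g x - K J b g x)]

/-- variance of `k` attempts from a fixed start -/
theorem var_Kpow_le {L A : ℝ} (hJ : Tame J L) {f : Cfg n → ℝ} (hf : ∀ y, gam f y ≤ A) (k : ℕ)
    (x : Cfg n) :
    Kpow J b k (fun y => f y ^ 2) x - Kpow J b k f x ^ 2 ≤ 4 * k / n * (1 + gradC L / n) ^ k * A := by
  induction k generalizing x with
  | zero => simp [Kpow]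
  | succ k ih =>
    set r := 1 + gradC L / (n : ℝ) with hr
    have hr1 : 1 ≤ r := le_add_of_nonneg_right (div_nonneg (gradC_nonneg L) (Nat.cast_nonneg n))
    have hA : 0 ≤ A := (gam_nonneg f x).trans (hf x)
    set B := 4 * (k : ℝ) / n * r ^ k * A with hB
    have hB0 : 0 ≤ B := by positivity
    rw [Grad.Kpow_succ, Grad.Kpow_succ]
    have h1 : K J b (Kpow J b k fun y => f y ^ 2) x ≤ K J b (fun y => Kpow J b k f y ^ 2) x + B := by
      refine (K_mono b (g := fun y => Kpow J b k f y ^ 2 + B) (fun y => by linarith [ih y]) x).trans ?_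
      have e : K J b (fun y => Kpow J b k f y ^ 2 + B) x =
          K J b (fun y => Kpow J b k f y ^ 2) x + K J b (fun _ => B) x := by
        simp only [K, qb_eq, ← add_div, ← Finset.sum_add_distrib]
        congr 1
        exact Finset.sum_congr rfl fun i _ => by ring
      rw [e]
      linarith [K_const_le b (J := J) hB0 x]
    have h2 := K_sq_sub_le b (J := J) (Kpow J b k f) x
    have h3 := mul_le_mul_of_nonneg_left (gam_Kpow_le b hJ hf k x)
      (div_nonneg (by norm_num : (0 : ℝ) ≤ 4) (Nat.cast_nonneg n))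
    have h4 : B + 4 / (n : ℝ) * (r ^ k * A) ≤ 4 * ((k + 1 : ℕ) : ℝ) / n * r ^ (k + 1) * A := by
      have e : B + 4 / (n : ℝ) * (r ^ k * A) = 4 * ((k + 1 : ℕ) : ℝ) / n * r ^ k * A := by
        rw [hB]; push_cast; ring
      rw [e]
      exact mul_le_mul_of_nonneg_right (mul_le_mul_of_nonneg_left
        (pow_le_pow_right₀ hr1 (Nat.le_succ k)) (by positivity)) hA
    rw [← hr] at h3
    linarith

/-- gradient bound after `k` attempts, with the constant of `gam_K` -/
theorem gam_Kpow (L : ℝ) : ∃ C, 0 ≤ C ∧ ∀ (n : ℕ) (J : Fin n → Fin n → ℝ) (b : Fin n → ℝ),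
    Tame J L → ∀ (f : Cfg n → ℝ) (A : ℝ), (∀ y, gam f y ≤ A) →
      ∀ k x, gam (Kpow J b k f) x ≤ (1 + C / n) ^ k * A :=
  ⟨gradC L, gradC_nonneg L, fun _ _ b hJ _ _ hf k x => gam_Kpow_le b hJ hf k x⟩

/-- variance bound after `k` attempts -/
theorem var_Kpow (L : ℝ) : ∃ C, 0 ≤ C ∧ ∀ (n : ℕ) (J : Fin n → Fin n → ℝ) (b : Fin n → ℝ),
    Tame J L → ∀ (f : Cfg n → ℝ) (A : ℝ), (∀ y, gam f y ≤ A) →
      ∀ k x, Kpow J b k (fun y => f y ^ 2) x - Kpow J b k f x ^ 2 ≤
        4 * k / n * (1 + C / n) ^ k * A :=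
  ⟨gradC L, gradC_nonneg L, fun _ _ b hJ _ _ hf k x => var_Kpow_le b hJ hf k x⟩

end Vale.Agent.P150.PA
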