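import Vale.Agent.P150.PA.Pair
import Vale.Agent.P150.PA.Grad

/-! Two-time overlaps of the mean magnetisations under an almost stationary density: they depend on the
sum of the two times only, the diagonal is almost decreasing, and some time scale is flat. -/

namespace Vale.Agent.P150.PA

open Ising

variable {n : ℕ}

/-- expectation under the density `f` -/
noncomputable def Ef (J : Fin n → Fin n → ℝ) (b : Fin n → ℝ) (f φ : Cfg n → ℝ) : ℝ :=
  ∑ x, wt J b x * (f x * φ x)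

/-- normalised inner product of the mean magnetisations after `a` and after `c` attempts -/
noncomputable def ov (J : Fin n → Fin n → ℝ) (b : Fin n → ℝ) (a c : ℕ) (x : Cfg n) : ℝ :=
  (∑ i, mean J b a x i * mean J b c x i) / n

/-- two-time overlap under the density `f` -/
noncomputable def Cor2 (J : Fin n → Fin n → ℝ) (b : Fin n → ℝ) (f : Cfg n → ℝ) (a c : ℕ) : ℝ :=
  Ef J b f (ov J b a c)

/-- autocorrelation under the density `f` -/
noncomputable def Cor (J : Fin n → Fin n → ℝ) (b : Fin n → ℝ) (f : Cfg n → ℝ) (j : ℕ) : ℝ :=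
  Cor2 J b f 0 j

/-- the defect of stationarity at total time `M` -/
noncomputable def corErr (J : Fin n → Fin n → ℝ) (b : Fin n → ℝ) (f : Cfg n → ℝ) (L : ℝ) (M : ℕ) : ℝ :=
  20 * Real.sqrt n / (n : ℝ) ^ 2 * Real.sqrt (dir J b fun x => Real.sqrt (f x)) * (1 + gradC L / n) ^ M

variable {J : Fin n → Fin n → ℝ} {b : Fin n → ℝ} {f : Cfg n → ℝ} {L : ℝ}

namespace Corr

lemma one_le_base : 1 ≤ 1 + gradC L / (n : ℝ) :=
  le_add_of_nonneg_right (div_nonneg (gradC_nonneg L) (Nat.cast_nonneg n))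

lemma sqrt_pow_le {r : ℝ} (hr : 1 ≤ r) (k : ℕ) : Real.sqrt (r ^ k) ≤ r ^ k := by
  rw [Real.sqrt_le_left (pow_nonneg (zero_le_one.trans hr) k)]
  exact le_self_pow₀ (one_le_pow₀ hr) two_ne_zero

lemma Kpow_lin {m : ℕ} (v : Fin m → ℝ) (u : Fin m → Cfg n → ℝ) (k : ℕ) :
    Kpow J b k (fun z => ∑ l, v l * u l z) = fun z => ∑ l, v l * Kpow J b k (u l) z := by
  induction k with
  | zero => rfl
  | succ k ih =>
    rw [Pair.Kpow_succ, ih]
    funext z
    simp only [Pair.Kpow_succ, K, qb_eq, Finset.mul_sum, Finset.sum_div, ← Finset.sum_add_distrib]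
    rw [Finset.sum_comm]
    exact Finset.sum_congr rfl fun l _ => Finset.sum_congr rfl fun i _ => by ring

lemma K_sq_le (φ : Cfg n → ℝ) (x : Cfg n) : K J b φ x ^ 2 ≤ K J b (fun y => φ y ^ 2) x := by
  rcases Nat.eq_zero_or_pos n with rfl | hn
  · simp [K]
  have hn' : (0 : ℝ) < n := Nat.cast_pos.2 hn
  have hq : ∀ i, qb b J i φ x ^ 2 ≤ qb b J i (fun y => φ y ^ 2) x := fun i => by
    rw [qb_eq, qb_eq]
    have h := mul_nonneg (mag_sq J b i x).1
      (sq_nonneg (φ (Function.update x i true) - φ (Function.update x i false)))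
    linarith
  have h := sq_sum_le_card_mul_sum_sq (s := (Finset.univ : Finset (Fin n))) (f := fun i => qb b J i φ x)
  rw [Finset.card_univ, Fintype.card_fin] at h
  rw [K, K, div_pow, pow_two (n : ℝ), ← div_div]
  refine div_le_div_of_nonneg_right ?_ hn'.le
  rw [div_le_iff₀ hn']
  exact h.trans (le_of_le_of_eq
    (mul_le_mul_of_nonneg_left (Finset.sum_le_sum fun i _ => hq i) hn'.le) (mul_comm _ _))

lemma sum_sq_Kpow_le {m : ℕ} {u : Fin m → Cfg n → ℝ} {U : ℝ} (hU : ∀ y, ∑ l, u l y ^ 2 ≤ U) (k : ℕ)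
    (x : Cfg n) : ∑ l, Kpow J b k (u l) x ^ 2 ≤ U := by
  induction k generalizing x with
  | zero => exact hU x
  | succ k ih =>
    simp only [Pair.Kpow_succ]
    refine (Finset.sum_le_sum fun l _ => K_sq_le _ x).trans ?_
    refine le_trans (le_of_eq ?_) ((K_mono b ih x).trans
      (K_const_le b (J := J) ((Finset.sum_nonneg fun l _ => sq_nonneg _).trans (hU x)) x))
    simp only [K, qb_eq, Finset.mul_sum, ← Finset.sum_add_distrib, Finset.sum_div]
    rw [Finset.sum_comm]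

lemma gam_Kpow_lin (hJ : Tame J L) {m : ℕ} {u : Fin m → Cfg n → ℝ} {A : ℝ}
    (hu : ∀ (v : Fin m → ℝ) y, gam (fun z => ∑ l, v l * u l z) y ≤ A ^ 2 * ∑ l, v l ^ 2) (k : ℕ)
    (v : Fin m → ℝ) (y : Cfg n) :
    gam (fun z => ∑ l, v l * Kpow J b k (u l) z) y ≤
      (Real.sqrt ((1 + gradC L / n) ^ k) * A) ^ 2 * ∑ l, v l ^ 2 := by
  rw [← Kpow_lin, mul_pow, Real.sq_sqrt (pow_nonneg (zero_le_one.trans one_le_base) k), mul_assoc]
  exact gam_Kpow_le b hJ (hu v) k y

/-- gradient bound for an inner product of two vector fields -/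
lemma gam_inner {m : ℕ} (u h : Fin m → Cfg n → ℝ) {A B U H : ℝ}
    (hgh : ∀ (v : Fin m → ℝ) y, gam (fun z => ∑ l, v l * h l z) y ≤ A ^ 2 * ∑ l, v l ^ 2)
    (hgu : ∀ (v : Fin m → ℝ) y, gam (fun z => ∑ l, v l * u l z) y ≤ B ^ 2 * ∑ l, v l ^ 2)
    (hU : ∀ y, ∑ l, u l y ^ 2 ≤ U) (hH : ∀ y, ∑ l, h l y ^ 2 ≤ H) (x : Cfg n) :
    gam (fun z => ∑ l, u l z * h l z) x ≤
      3 * (A ^ 2 * U + B ^ 2 * H + 4 * n * (A ^ 2 * B ^ 2)) := by
  have hlin : ∀ (v : Fin m → ℝ) (φ : Fin m → Cfg n → ℝ) i,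
      dd i (fun z => ∑ l, v l * φ l z) x = ∑ l, v l * dd i (φ l) x := fun v φ i => by
    simp only [dd, ← Finset.sum_sub_distrib, Finset.sum_div]
    exact Finset.sum_congr rfl fun l _ => by ring
  set X := fun i => ∑ l, u l x * dd i (h l) x
  set Y := fun i => ∑ l, h l x * dd i (u l) x
  set Z := fun i => ∑ l, dd i (u l) x * dd i (h l) x
  have hX : ∑ i, X i ^ 2 ≤ A ^ 2 * U := by
    refine le_trans (le_of_eq ?_) ((hgh (fun l => u l x) x).trans
      (mul_le_mul_of_nonneg_left (hU x) (sq_nonneg A)))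
    exact Finset.sum_congr rfl fun i _ => by rw [hlin]
  have hY : ∑ i, Y i ^ 2 ≤ B ^ 2 * H := by
    refine le_trans (le_of_eq ?_) ((hgu (fun l => h l x) x).trans
      (mul_le_mul_of_nonneg_left (hH x) (sq_nonneg B)))
    exact Finset.sum_congr rfl fun i _ => by rw [hlin]
  have hcol : ∀ (φ : Fin m → Cfg n → ℝ) (C : ℝ),
      (∀ (v : Fin m → ℝ) y, gam (fun z => ∑ l, v l * φ l z) y ≤ C ^ 2 * ∑ l, v l ^ 2) →
        ∀ i, ∑ l, dd i (φ l) x ^ 2 ≤ C ^ 2 := by
    intro φ C hφ i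
    have h1 : (∑ l, dd i (φ l) x ^ 2) ^ 2 ≤ C ^ 2 * ∑ l, dd i (φ l) x ^ 2 := by
      refine le_trans ?_ (hφ (fun l => dd i (φ l) x) x)
      refine le_trans (le_of_eq ?_) (Finset.single_le_sum
        (f := fun i' => dd i' (fun z => ∑ l, dd i (φ l) x * φ l z) x ^ 2)
        (fun _ _ => sq_nonneg _) (Finset.mem_univ i))
      rw [hlin]
      simp only [sq]
    rcases eq_or_lt_of_le (Finset.sum_nonneg fun l _ => sq_nonneg (dd i (φ l) x) :
      0 ≤ ∑ l, dd i (φ l) x ^ 2) with h0 | h0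
    · rw [← h0]; exact sq_nonneg C
    · rw [pow_two] at h1; exact le_of_mul_le_mul_right h1 h0
  have hZ : ∑ i, Z i ^ 2 ≤ n * (A ^ 2 * B ^ 2) := by
    refine (Finset.sum_le_card_nsmul _ _ (A ^ 2 * B ^ 2) fun i _ => ?_).trans_eq (by simp)
    refine (Finset.sum_mul_sq_le_sq_mul_sq _ _ _).trans ?_
    rw [mul_comm (A ^ 2)]
    exact mul_le_mul (hcol u B hgu i) (hcol h A hgh i) (Finset.sum_nonneg fun _ _ => sq_nonneg _)
      (sq_nonneg B)
  have e : ∀ i, dd i (fun z => ∑ l, u l z * h l z) x = X i + Y i - 2 * spin (x i) * Z i := fun i => by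
    simp only [dd, X, Y, Z, ← Finset.sum_sub_distrib, Finset.sum_div, Finset.mul_sum,
      ← Finset.sum_add_distrib]
    refine Finset.sum_congr rfl fun l _ => ?_
    cases hx : x i
    · have e : Function.update x i false = x := by rw [← hx, Function.update_eq_self]
      simp only [spin, e, Bool.false_eq_true, if_false]; ring
    · have e : Function.update x i true = x := by rw [← hx, Function.update_eq_self]
      simp only [spin, e, if_true]; ring
  calc gam (fun z => ∑ l, u l z * h l z) x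
      ≤ ∑ i, 3 * (X i ^ 2 + Y i ^ 2 + 4 * Z i ^ 2) := Finset.sum_le_sum fun i _ => by
        rw [e]
        have hs : spin (x i) ^ 2 = 1 := by rw [sq, spin_mul_self]
        linarith [sq_nonneg (X i - Y i), sq_nonneg (X i + 2 * spin (x i) * Z i),
          sq_nonneg (Y i + 2 * spin (x i) * Z i), mul_pow (spin (x i)) (Z i) 2,
          congrArg (· * Z i ^ 2) hs]
    _ = 3 * ((∑ i, X i ^ 2) + (∑ i, Y i ^ 2) + 4 * ∑ i, Z i ^ 2) := by
      simp only [Finset.mul_sum, ← Finset.sum_add_distrib]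
    _ ≤ _ := by linarith

lemma gam_lin_spin (v : Fin n → ℝ) (y : Cfg n) :
    gam (fun z => ∑ l, v l * spin (z l)) y ≤ (1 : ℝ) ^ 2 * ∑ l, v l ^ 2 := by
  rw [one_pow, one_mul]
  refine le_of_eq (Finset.sum_congr rfl fun i _ => ?_)
  congr 1
  simp only [dd, ← Finset.sum_sub_distrib, ← mul_sub, spin_update]
  rw [Finset.sum_eq_single i (fun l _ hl => by simp [hl]) (by simp)]
  simp [spin]; ring

/-- gradient bound for a linear form of the mean magnetisation -/
lemma gam_mean (hJ : Tame J L) (k : ℕ) (v : Fin n → ℝ) (y : Cfg n) :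
    gam (fun z => ∑ i, v i * mean J b k z i) y ≤
      (Real.sqrt ((1 + gradC L / n) ^ k)) ^ 2 * ∑ i, v i ^ 2 := by
  have h := gam_Kpow_lin (b := b) hJ (u := fun i (z : Cfg n) => spin (z i)) gam_lin_spin k v y
  rw [mul_one] at h
  exact h

lemma sum_sq_mean_le (k : ℕ) (x : Cfg n) : ∑ i, mean J b k x i ^ 2 ≤ n :=
  sum_sq_Kpow_le (u := fun i (z : Cfg n) => spin (z i)) (fun y => le_of_eq (by simp [sq, spin_mul_self])) k x

lemma Ef_mono (hf : ∀ x, 0 ≤ f x) {φ ψ : Cfg n → ℝ} (h : ∀ x, φ x ≤ ψ x) : Ef J b f φ ≤ Ef J b f ψ :=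
  Finset.sum_le_sum fun x _ =>
    mul_le_mul_of_nonneg_left (mul_le_mul_of_nonneg_left (h x) (hf x)) (wt_pos J b x).le

lemma Ef_const (hmean : ∑ x, wt J b x * f x = 1) (c : ℝ) : Ef J b f (fun _ => c) = c := by
  simp only [Ef, ← mul_assoc, ← Finset.sum_mul, hmean, one_mul]

lemma Ef_sub (φ ψ : Cfg n → ℝ) : Ef J b f φ - Ef J b f ψ = Ef J b f (fun x => φ x - ψ x) := by
  simp only [Ef, ← Finset.sum_sub_distrib, mul_sub]

lemma abs_Ef_le (hf : ∀ x, 0 ≤ f x) (hmean : ∑ x, wt J b x * f x = 1) {φ : Cfg n → ℝ} {c : ℝ}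
    (h : ∀ x, |φ x| ≤ c) : |Ef J b f φ| ≤ c :=
  abs_le.2 ⟨le_trans (le_of_eq (Ef_const hmean _).symm) (Ef_mono hf fun x => (abs_le.1 (h x)).1),
    (Ef_mono hf fun x => (abs_le.1 (h x)).2).trans_eq (Ef_const hmean c)⟩

lemma abs_ov_le (a c : ℕ) (x : Cfg n) : |ov J b a c x| ≤ 1 := by
  rw [ov, abs_div, Nat.abs_cast]
  refine div_le_one_of_le₀ ((Finset.abs_sum_le_sum_abs _ _).trans ?_) (Nat.cast_nonneg n)
  calc ∑ i, |mean J b a x i * mean J b c x i| ≤ ∑ i, (mean J b a x i ^ 2 + mean J b c x i ^ 2) / 2 :=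
        Finset.sum_le_sum fun i _ => abs_le.2
          ⟨by linarith [sq_nonneg (mean J b a x i + mean J b c x i)],
           by linarith [sq_nonneg (mean J b a x i - mean J b c x i)]⟩
    _ ≤ n := by
      rw [← Finset.sum_div, Finset.sum_add_distrib]
      linarith [sum_sq_mean_le (J := J) (b := b) a x, sum_sq_mean_le (J := J) (b := b) c x]

/-- gradient bound for the two-time overlap -/
lemma gam_ov (hJ : Tame J L) (a c : ℕ) (x : Cfg n) :
    gam (fun z => ∑ i, mean J b a z i * mean J b c z i) x ≤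
      (5 * Real.sqrt n * (1 + gradC L / n) ^ (a + c)) ^ 2 := by
  have h := gam_inner (fun i z => mean J b a z i) (fun i z => mean J b c z i) (fun v y => gam_mean hJ c v y)
    (fun v y => gam_mean hJ a v y) (fun y => sum_sq_mean_le a y) (fun y => sum_sq_mean_le c y) x
  refine h.trans ?_
  have hr := one_le_base (n := n) (L := L)
  have hn : (0 : ℝ) ≤ n := Nat.cast_nonneg n
  simp only [Real.sq_sqrt (pow_nonneg (zero_le_one.trans hr) _)]
  rw [mul_pow, mul_pow, Real.sq_sqrt hn, ← pow_mul, ← pow_add]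
  have h1 := mul_le_mul_of_nonneg_right (pow_le_pow_right₀ hr (by omega : c ≤ (a + c) * 2)) hn
  have h2 := mul_le_mul_of_nonneg_right (pow_le_pow_right₀ hr (by omega : a ≤ (a + c) * 2)) hn
  have h3 := mul_le_mul_of_nonneg_right (pow_le_pow_right₀ hr (by omega : c + a ≤ (a + c) * 2)) hn
  have h4 : 0 ≤ (1 + gradC L / (n : ℝ)) ^ ((a + c) * 2) * n :=
    mul_nonneg (pow_nonneg (zero_le_one.trans hr) _) hn
  linarith

end Corr

open Corr

lemma corErr_nonneg (M : ℕ) : 0 ≤ corErr J b f L M := by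
  have := one_le_base (n := n) (L := L)
  unfold corErr
  positivity

lemma corErr_mono {M M' : ℕ} (h : M ≤ M') : corErr J b f L M ≤ corErr J b f L M' :=
  mul_le_mul_of_nonneg_left (pow_le_pow_right₀ one_le_base h) (by positivity)

/-- moving one attempt from one vector field to the other -/
theorem swap (hJ : Tame J L) (hf : ∀ x, 0 ≤ f x) (hmean : ∑ x, wt J b x * f x = 1) {m : ℕ}
    (u h : Fin m → Cfg n → ℝ) {A B U H : ℝ} (hA : 0 ≤ A) (hB : 0 ≤ B)
    (hgh : ∀ (v : Fin m → ℝ) y, gam (fun z => ∑ l, v l * h l z) y ≤ A ^ 2 * ∑ l, v l ^ 2)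
    (hgu : ∀ (v : Fin m → ℝ) y, gam (fun z => ∑ l, v l * u l z) y ≤ B ^ 2 * ∑ l, v l ^ 2)
    (hU : ∀ y, ∑ l, u l y ^ 2 ≤ U) (hH : ∀ y, ∑ l, h l y ^ 2 ≤ H) (a c : ℕ) :
    |Ef J b f (fun x => ∑ l, Kpow J b a (u l) x * Kpow J b (c + 1) (h l) x) -
        Ef J b f (fun x => ∑ l, Kpow J b (a + 1) (u l) x * Kpow J b c (h l) x)| ≤
      4 / n * Real.sqrt (dir J b fun x => Real.sqrt (f x)) *
        (Real.sqrt ((1 + gradC L / n) ^ c) * A * Real.sqrt U +
          Real.sqrt ((1 + gradC L / n) ^ a) * B * Real.sqrt H) := by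
  refine le_trans (le_of_eq ?_) (fdt hJ.symm hJ.diag hf hmean (fun l => Kpow J b a (u l))
    (fun l => Kpow J b c (h l)) (mul_nonneg (Real.sqrt_nonneg _) hA) (mul_nonneg (Real.sqrt_nonneg _) hB)
    (gam_Kpow_lin hJ hgh c) (gam_Kpow_lin hJ hgu a) (sum_sq_Kpow_le hU a) (sum_sq_Kpow_le hH c))
  rw [Ef_sub]
  simp only [Ef, ← Finset.sum_sub_distrib, Pair.Kpow_succ]
  congr 1
  exact Finset.sum_congr rfl fun x _ => by
    congr 2
    exact Finset.sum_congr rfl fun l _ => by ring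

theorem Cor2_swap (hJ : Tame J L) (hf : ∀ x, 0 ≤ f x) (hmean : ∑ x, wt J b x * f x = 1) {a c M : ℕ}
    (hM : a + c ≤ M) : |Cor2 J b f a (c + 1) - Cor2 J b f (a + 1) c| ≤ corErr J b f L M := by
  have hn : ∀ y : Cfg n, ∑ i, spin (y i) ^ 2 ≤ (n : ℝ) := fun y => le_of_eq (by simp [sq, spin_mul_self])
  have h := swap hJ hf hmean (fun i z => spin (z i)) (fun i z => spin (z i)) zero_le_one zero_le_one
    gam_lin_spin gam_lin_spin hn hn a c
  have e : ∀ a c, Cor2 J b f a c =
      Ef J b f (fun x => ∑ i, Kpow J b a (fun z => spin (z i)) x * Kpow J b c (fun z => spin (z i)) x) / n := by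
    intro a c
    simp only [Cor2, Ef, ov, mean, ← mul_div_assoc, ← Finset.sum_div]
  rw [e, e, ← sub_div, abs_div, Nat.abs_cast]
  refine (div_le_div_of_nonneg_right h (Nat.cast_nonneg n)).trans ?_
  have hr := one_le_base (n := n) (L := L)
  have ha := (sqrt_pow_le hr a).trans (pow_le_pow_right₀ hr (by omega : a ≤ M))
  have hc := (sqrt_pow_le hr c).trans (pow_le_pow_right₀ hr (by omega : c ≤ M))
  rw [mul_one, mul_one, ← add_mul, corErr]
  have hs := mul_nonneg (mul_nonneg (Real.sqrt_nonneg (dir J b fun x => Real.sqrt (f x))) (Real.sqrt_nonneg (n : ℝ)))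
    (inv_nonneg.2 (sq_nonneg (n : ℝ)))
  have h1 := mul_le_mul_of_nonneg_right (add_le_add hc ha) hs
  have h2 := mul_nonneg (pow_nonneg (zero_le_one.trans hr) M) hs
  calc 4 / (n : ℝ) * Real.sqrt (dir J b fun x => Real.sqrt (f x)) * ((Real.sqrt ((1 + gradC L / n) ^ c) + Real.sqrt ((1 + gradC L / n) ^ a)) * Real.sqrt n) / n
      = 4 * ((Real.sqrt ((1 + gradC L / n) ^ c) + Real.sqrt ((1 + gradC L / n) ^ a)) * (Real.sqrt (dir J b fun x => Real.sqrt (f x)) * Real.sqrt n * ((n : ℝ) ^ 2)⁻¹)) := by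
        field_simp
    _ ≤ 20 * ((1 + gradC L / n) ^ M * (Real.sqrt (dir J b fun x => Real.sqrt (f x)) * Real.sqrt n * ((n : ℝ) ^ 2)⁻¹)) := by linarith
    _ = _ := by field_simp

/-- the overlap depends on the sum of the two times only -/
theorem Cor2_near (hJ : Tame J L) (hf : ∀ x, 0 ≤ f x) (hmean : ∑ x, wt J b x * f x = 1) {a c M : ℕ}
    (hM : a + c ≤ M) : |Cor2 J b f a c - Cor J b f (a + c)| ≤ a * corErr J b f L M := by
  induction a generalizing c with
  | zero => simp [Cor]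
  | succ a ih =>
    have h1 := Cor2_swap hJ hf hmean (a := a) (c := c) (M := M) (by omega)
    have h2 := ih (c := c + 1) (by omega)
    rw [show a + 1 + c = a + (c + 1) by omega]
    rw [abs_le] at h1 h2 ⊢
    push_cast
    constructor <;> linarith

/-- stationarity of the two-time overlap -/
theorem ov_stat (hJ : Tame J L) (hn : 0 < n) (hf : ∀ x, 0 ≤ f x) (hmean : ∑ x, wt J b x * f x = 1)
    {k a c M : ℕ} (hM : k + a + c ≤ M) :
    |Ef J b f (Kpow J b k (ov J b a c)) - Cor2 J b f a c| ≤ k * corErr J b f L M := by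
  have hn' : (0 : ℝ) < n := Nat.cast_pos.2 hn
  have hr := one_le_base (n := n) (L := L)
  set φ := fun z => ∑ i, mean J b a z i * mean J b c z i
  have hov : ov J b a c = fun z => ∑ l : Fin 1, (fun _ => (n : ℝ)⁻¹) l * φ z := by
    funext z; simp [ov, φ, div_eq_inv_mul]
  have hK : ∀ x, Kpow J b k (ov J b a c) x = (n : ℝ)⁻¹ * Kpow J b k φ x := fun x => by
    rw [hov, Kpow_lin (fun _ : Fin 1 => (n : ℝ)⁻¹) (fun _ => φ)]; simp
  have h := stat_iter hJ.symm hJ.diag hn hf hmean φ (k := k)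
    (A := (5 * Real.sqrt n * (1 + gradC L / n) ^ M) ^ 2) (fun l hl y => by
      refine (gam_Kpow_le b hJ (gam_ov hJ a c) l y).trans ?_
      rw [mul_pow, mul_pow (5 * Real.sqrt (n : ℝ)), ← pow_mul, ← pow_mul, mul_left_comm, ← pow_add]
      exact mul_le_mul_of_nonneg_left (pow_le_pow_right₀ hr (by omega)) (sq_nonneg _))
  rw [Real.sqrt_sq (by positivity)] at h
  have e : Ef J b f (Kpow J b k (ov J b a c)) - Cor2 J b f a c =
      (∑ x, wt J b x * (f x * (Kpow J b k φ x - φ x))) / n := by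
    rw [Cor2, Ef_sub]
    simp only [Ef, hK, Finset.sum_div]
    exact Finset.sum_congr rfl fun x _ => by simp only [ov, φ]; ring
  rw [e, abs_div, Nat.abs_cast]
  refine (div_le_div_of_nonneg_right h hn'.le).trans (le_of_eq ?_)
  rw [corErr]
  field_simp
  ring

/-- the diagonal overlap is almost decreasing -/
theorem Cor2_diag_step (hJ : Tame J L) (hn : 0 < n) (hf : ∀ x, 0 ≤ f x) (hmean : ∑ x, wt J b x * f x = 1)
    {a M : ℕ} (hM : 2 * a + 1 ≤ M) :
    Cor2 J b f (a + 1) (a + 1) ≤ Cor2 J b f a a + corErr J b f L M := by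
  have h := abs_le.1 (ov_stat hJ hn hf hmean (k := 1) (a := a) (c := a) (M := M) (by omega))
  have h1 : Cor2 J b f (a + 1) (a + 1) ≤ Ef J b f (Kpow J b 1 (ov J b a a)) := by
    refine Ef_mono hf fun x => ?_
    have e : Kpow J b 1 (ov J b a a) x = (∑ i, K J b (fun y => mean J b a y i ^ 2) x) / n := by
      rw [Pair.Kpow_succ, show Kpow J b 0 (ov J b a a) = ov J b a a from rfl]
      simp only [K, ov, qb_eq, ← pow_two, Finset.sum_div, Finset.mul_sum, ← Finset.sum_add_distrib]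
      rw [Finset.sum_comm]
      exact Finset.sum_congr rfl fun i _ => Finset.sum_congr rfl fun j _ => by ring
    rw [e, ov]
    refine div_le_div_of_nonneg_right (Finset.sum_le_sum fun i _ => ?_) (Nat.cast_nonneg n)
    rw [← pow_two, mean, Pair.Kpow_succ]
    exact K_sq_le _ x
  simp only [Nat.cast_one, one_mul] at h
  linarith

/-- autocorrelations at even times are almost decreasing -/
theorem Cor_even_step (hJ : Tame J L) (hn : 0 < n) (hf : ∀ x, 0 ≤ f x) (hmean : ∑ x, wt J b x * f x = 1)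
    {j M : ℕ} (hM : 2 * j + 2 ≤ M) :
    Cor J b f (2 * j + 2) ≤ Cor J b f (2 * j) + (2 * j + 2) * corErr J b f L M := by
  have h1 := abs_le.1 (Cor2_near hJ hf hmean (a := j + 1) (c := j + 1) (M := M) (by omega))
  have h2 := abs_le.1 (Cor2_near hJ hf hmean (a := j) (c := j) (M := M) (by omega))
  have h3 := Cor2_diag_step hJ hn hf hmean (a := j) (M := M) (by omega)
  rw [show j + 1 + (j + 1) = 2 * j + 2 by omega] at h1
  rw [show j + j = 2 * j by omega] at h2
  push_cast at h1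
  linarith

theorem abs_Cor2_le (hf : ∀ x, 0 ≤ f x) (hmean : ∑ x, wt J b x * f x = 1) (a c : ℕ) :
    |Cor2 J b f a c| ≤ 1 := abs_Ef_le hf hmean (abs_ov_le a c)

theorem Cor2_diag_nonneg (hf : ∀ x, 0 ≤ f x) (hmean : ∑ x, wt J b x * f x = 1) (a : ℕ) :
    0 ≤ Cor2 J b f a a :=
  le_trans (le_of_eq (Ef_const hmean 0).symm) (Ef_mono hf fun _ =>
    div_nonneg (Finset.sum_nonneg fun _ _ => mul_self_nonneg _) (Nat.cast_nonneg n))

/-- one attempt moves an autocorrelation by at most `2/n` -/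
theorem Cor_step (hn : 0 < n) (hf : ∀ x, 0 ≤ f x) (hmean : ∑ x, wt J b x * f x = 1) (j : ℕ) :
    |Cor J b f (j + 1) - Cor J b f j| ≤ 2 / n := by
  have hn' : (0 : ℝ) < n := Nat.cast_pos.2 hn
  have h : ∀ l x, |mean J b (j + 1) x l - mean J b j x l| ≤ 2 / n := by
    intro l
    induction j with
    | zero =>
      intro x
      have e : mean J b (0 + 1) x l - mean J b 0 x l = (mag J b l x - spin (x l)) / n := by
        simp only [mean, Pair.Kpow_succ, show ∀ φ, Kpow J b 0 φ = φ from fun _ => rfl, K]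
        have hq : ∀ i, qb b J i (fun y => spin (y l)) x =
            spin (x l) + if i = l then mag J b l x - spin (x l) else 0 := fun i => by
          rcases eq_or_ne i l with h | h
          · subst h; rw [qb_eq]; simp [spin]; ring
          · rw [qb_eq, if_neg h]; simp [Function.update_of_ne h.symm]; ring
        rw [Finset.sum_congr rfl fun i _ => hq i, Finset.sum_add_distrib, Finset.sum_ite_eq']
        simp only [Finset.sum_const, Finset.card_univ, Fintype.card_fin, nsmul_eq_mul, Finset.mem_univ, if_true]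
        field_simp
        ring
      rw [e, abs_div, Nat.abs_cast]
      refine div_le_div_of_nonneg_right ?_ hn'.le
      have h1 := abs_lt.1 (tanh_abs_lt (fld J b l x))
      rw [abs_le, mag]
      cases x l <;> simp [spin] <;> constructor <;> linarith
    | succ j ih =>
      intro x
      simp only [mean, Pair.Kpow_succ (j + 1), Pair.Kpow_succ j]
      simp only [mean, Pair.Kpow_succ j] at ih
      have hc := K_const_le b (J := J) (c := 2 / n) (by positivity) x
      have hup := (K_mono b (f := fun y => K J b (Kpow J b j fun z => spin (z l)) y - Kpow J b j (fun z => spin (z l)) y)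
        (fun y => (abs_le.1 (ih y)).2) x).trans hc
      have hdn := (K_mono b (f := fun y => Kpow J b j (fun z => spin (z l)) y - K J b (Kpow J b j fun z => spin (z l)) y)
        (fun y => by linarith [(abs_le.1 (ih y)).1]) x).trans hc
      simp only [K, qb_eq, ← Finset.sum_sub_distrib, ← sub_div] at hup hdn ⊢
      rw [abs_le]
      refine ⟨neg_le.1 (le_trans (le_of_eq ?_) hdn), le_trans (le_of_eq ?_) hup⟩
      · rw [← neg_div, ← Finset.sum_neg_distrib]; congr 1
        exact Finset.sum_congr rfl fun i _ => by ring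
      · congr 1
        exact Finset.sum_congr rfl fun i _ => by ring
  rw [Cor, Cor, Cor2, Cor2, Ef_sub]
  refine abs_Ef_le hf hmean fun x => ?_
  rw [ov, ov, ← sub_div, abs_div, Nat.abs_cast, div_le_iff₀ hn', ← Finset.sum_sub_distrib]
  refine (Finset.abs_sum_le_sum_abs _ _).trans ((Finset.sum_le_card_nsmul _ _ (2 / (n : ℝ)) fun l _ => ?_).trans_eq ?_)
  · rw [← mul_sub, abs_mul, show mean J b 0 x l = spin (x l) from rfl]
    calc |spin (x l)| * |mean J b (j + 1) x l - mean J b j x l| = |mean J b (j + 1) x l - mean J b j x l| := by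
          cases x l <;> simp [spin]
      _ ≤ _ := h l x
  · simp; field_simp

/-- a `[0,1]` sequence that is monotone up to `e` per step is flat on one of `M` scales -/
theorem flat_scale {s : ℕ → ℝ} {e : ℝ} (he : 0 ≤ e) {G : ℕ → ℕ} (hG : Monotone G) {M N : ℕ} (hM : 0 < M)
    (hN : G M ≤ N) (h0 : ∀ j ≤ N, 0 ≤ s j ∧ s j ≤ 1) (hs : ∀ j < N, s (j + 1) ≤ s j + e) :
    ∃ k < M, ∀ j, G k ≤ j → j ≤ G (k + 1) → |s j - s (G k)| ≤ 1 / M + N * e := by
  have hM' : (0 : ℝ) < M := Nat.cast_pos.2 hM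
  have hup : ∀ i j, i ≤ j → j ≤ N → s j ≤ s i + ((j : ℝ) - i) * e := by
    intro i j hij
    induction j, hij using Nat.le_induction with
    | base => intro _; simp
    | succ j hij ih =>
      intro hj
      have := ih (by omega)
      have := hs j (by omega)
      push_cast
      linarith
  obtain ⟨k, hk, hk'⟩ : ∃ k ∈ Finset.range M, s (G k) - s (G (k + 1)) ≤ 1 / M := by
    refine Finset.exists_le_of_sum_le (Finset.nonempty_range_iff.2 hM.ne') ?_
    rw [Finset.sum_range_sub' (fun k => s (G k)) M, Finset.sum_const, Finset.card_range, nsmul_eq_mul,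
      mul_one_div_cancel hM'.ne']
    linarith [(h0 (G 0) ((hG (Nat.zero_le M)).trans hN)).2, (h0 (G M) hN).1]
  refine ⟨k, Finset.mem_range.1 hk, fun j h1 h2 => ?_⟩
  have hkN : G (k + 1) ≤ N := (hG (Finset.mem_range.1 hk)).trans hN
  have hjN : j ≤ N := h2.trans hkN
  have a1 := hup _ _ h1 hjN
  have a2 := hup _ _ h2 hkN
  have b1 : ((j : ℝ) - G k) * e ≤ N * e := by
    refine mul_le_mul_of_nonneg_right ?_ he
    have : (j : ℝ) ≤ N := Nat.cast_le.2 hjN
    linarith [(Nat.cast_nonneg (G k) : (0 : ℝ) ≤ G k)]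
  have b2 : ((G (k + 1) : ℝ) - j) * e ≤ N * e := by
    refine mul_le_mul_of_nonneg_right ?_ he
    have : (G (k + 1) : ℝ) ≤ N := Nat.cast_le.2 hkN
    linarith [(Nat.cast_nonneg j : (0 : ℝ) ≤ j)]
  have h3 : (0 : ℝ) ≤ 1 / M := by positivity
  rw [abs_le]
  constructor <;> linarith

/-- on a flat scale the mean magnetisation does not depend on the time -/
theorem mean_close (hJ : Tame J L) (hn : 0 < n) (hf : ∀ x, 0 ≤ f x) (hmean : ∑ x, wt J b x * f x = 1)
    {g₀ g₁ : ℕ} {ε : ℝ} (hflat : ∀ j, g₀ ≤ j → j ≤ g₁ → |Cor2 J b f j j - Cor2 J b f g₀ g₀| ≤ ε)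
    {a c : ℕ} (ha : g₀ ≤ a) (ha' : a ≤ g₁) (hc : g₀ ≤ c) (hc' : c ≤ g₁) :
    Ef J b f (fun x => (∑ i, (mean J b a x i - mean J b c x i) ^ 2) / n) ≤
      4 * ε + 4 * g₁ * corErr J b f L (2 * g₁) + 4 / n := by
  have e : Ef J b f (fun x => (∑ i, (mean J b a x i - mean J b c x i) ^ 2) / n) =
      Cor2 J b f a a + Cor2 J b f c c - 2 * Cor2 J b f a c := by
    simp only [Cor2, Ef, ov, Finset.mul_sum, ← Finset.sum_add_distrib, ← Finset.sum_sub_distrib]
    refine Finset.sum_congr rfl fun x _ => ?_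
    simp only [Finset.sum_div, Finset.mul_sum, ← Finset.sum_add_distrib, ← Finset.sum_sub_distrib]
    exact Finset.sum_congr rfl fun i _ => by ring
  set E := corErr J b f L (2 * g₁)
  have hE : 0 ≤ E := corErr_nonneg _
  set j := (a + c) / 2
  have hj1 : g₀ ≤ j := by omega
  have hj2 : j ≤ g₁ := by omega
  have h1 := abs_le.1 (Cor2_near hJ hf hmean (a := a) (c := c) (M := 2 * g₁) (L := L) (by omega))
  have h2 := abs_le.1 (Cor2_near hJ hf hmean (a := j) (c := j) (M := 2 * g₁) (L := L) (by omega))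
  have h3 : Cor J b f (j + j) - 2 / n ≤ Cor J b f (a + c) := by
    rcases (show a + c = j + j ∨ a + c = j + j + 1 by omega) with h | h <;> rw [h]
    · linarith [(by positivity : (0 : ℝ) ≤ 2 / n)]
    · linarith [(abs_le.1 (Cor_step hn hf hmean (J := J) (b := b) (j + j))).1]
  have h4 := abs_le.1 (hflat a ha ha')
  have h5 := abs_le.1 (hflat c hc hc')
  have h6 := abs_le.1 (hflat j hj1 hj2)
  have h7 : ((a : ℝ) + j) * E ≤ 2 * g₁ * E := by
    refine mul_le_mul_of_nonneg_right ?_ hE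
    have : (a : ℝ) ≤ g₁ := Nat.cast_le.2 ha'
    have : (j : ℝ) ≤ g₁ := Nat.cast_le.2 hj2
    linarith
  rw [e]
  linear_combination h4.2 + h5.2 + 2 * h6.1 + 2 * h1.1 + 2 * h2.2 + 2 * h3 + 2 * h7

end Vale.Agent.P150.PA
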