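import Vale.Agent.P150.TapSup
import Vale.Agent.P150.Mixing

/-! The TAP supremum bound in the form used by Part A. -/

namespace Vale.Agent.P150.PA

open Real MeasureTheory

/-- For `β < 1`, no profile of overlap at least `q₀` attains the TAP value up to `δ n`, with probability
at least `1 - exp (-c n)`. -/
theorem tap_sup {β q₀ : ℝ} (hβ0 : 0 ≤ β) (hβ : β < 1) (hq₀ : 0 < q₀) :
    ∃ δ > 0, ∃ c > 0, ∀ᶠ n : ℕ in Filter.atTop, (disorder n).real
      {g | ∃ m : Fin n → ℝ, (∀ i, |m i| < 1) ∧ q₀ * n ≤ ∑ i, m i ^ 2 ∧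
        ∑ i, m i * artanh (m i) + β ^ 2 * (1 - (∑ i, m i ^ 2) / n) * (∑ i, m i ^ 2) - δ * n ≤
          ∑ i, ∑ j, m i * cpl β g i j * m j} ≤ exp (-(c * n)) := by
  obtain ⟨c, hc, N, hN⟩ := tap_negative hβ0 hβ hq₀
  refine ⟨c / 2, half_pos hc, c, hc, Filter.eventually_atTop.2 ⟨max N 1, fun n hn =>
    le_trans (measureReal_mono ?_) (hN n (le_of_max_le_left hn))⟩⟩
  rintro g ⟨m, hm, hq, h⟩
  have hn' : (0:ℝ) < n := by exact_mod_cast (le_of_max_le_right hn : 1 ≤ n)
  refine ⟨m, hm, hq, ?_⟩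
  have e1 : β ^ 2 * profileQ m * (1 - profileQ m) * n =
      β ^ 2 * (1 - (∑ i, m i ^ 2) / n) * (∑ i, m i ^ 2) := by
    unfold profileQ; field_simp
  have e2 : β * profileForm g m = ∑ i, ∑ j, m i * cpl β g i j * m j := by
    simp only [profileForm, cpl, Finset.sum_div, Finset.mul_sum]
    exact Finset.sum_congr rfl fun i _ => Finset.sum_congr rfl fun j _ => by ring
  have : 0 < c * n := mul_pos hc hn'
  rw [tapFun, e1, e2, profilePenalty]
  linarith

end Vale.Agent.P150.PA
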