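import Vale.Agent.P150.PA.Targets
import Vale.Agent.P150.PA.Path
import Vale.Agent.P150.PA.Corr
import Vale.Agent.P150.PA.TapSup
import Vale.Agent.P150.Fast.Stein
import Vale.Agent.P150.SKNorm

/-! Tools for the vanishing of the mean magnetisation: linearity of the chain, monotonicity of the lagged
overlap, shifts of time averages, the spin against its conditional mean along the chain, and the two
kernels used in the block identity. -/

open MeasureTheory Filter
open scoped Topology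

namespace Vale.Agent.P150.PA.QS

open Ising

variable {n : ℕ} {J : Fin n → Fin n → ℝ} {b : Fin n → ℝ}

/-- the quadratic form of `J` is at most `L` -/
def Op (J : Fin n → Fin n → ℝ) (L : ℝ) : Prop :=
  ∀ v : Fin n → ℝ, |∑ i, ∑ j, J i j * (v i * v j)| ≤ L * ∑ i, v i ^ 2

/-! ### Averages over blocks -/

lemma blockAvg_mono {W : ℕ} {f g : ℕ → ℝ} (h : ∀ v, W ≤ v → v < 2 * W → f v ≤ g v) :
    blockAvg W f ≤ blockAvg W g :=
  div_le_div_of_nonneg_right
    (Finset.sum_le_sum fun v hv => h v (Finset.mem_Ico.1 hv).1 (Finset.mem_Ico.1 hv).2) (Nat.cast_nonneg W)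

lemma blockAvg_add (W : ℕ) (f g : ℕ → ℝ) :
    blockAvg W (fun v => f v + g v) = blockAvg W f + blockAvg W g := by
  simp only [blockAvg, Finset.sum_add_distrib, add_div]

lemma blockAvg_sub (W : ℕ) (f g : ℕ → ℝ) :
    blockAvg W (fun v => f v - g v) = blockAvg W f - blockAvg W g := by
  simp only [blockAvg, Finset.sum_sub_distrib, sub_div]

lemma blockAvg_mul (W : ℕ) (c : ℝ) (f : ℕ → ℝ) : blockAvg W (fun v => c * f v) = c * blockAvg W f := by
  simp only [blockAvg, ← Finset.mul_sum, mul_div_assoc]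

lemma blockAvg_const {W : ℕ} (hW : 0 < W) (c : ℝ) : blockAvg W (fun _ => c) = c := by
  simp only [blockAvg, Finset.sum_const, Nat.card_Ico, nsmul_eq_mul]
  rw [show 2 * W - W = W by omega, mul_div_assoc, mul_comm, div_mul_cancel₀]
  exact_mod_cast hW.ne'

lemma blockAvg_comm (T W : ℕ) (F : ℕ → ℕ → ℝ) :
    blockAvg T (fun u => blockAvg W fun v => F u v) = blockAvg W (fun v => blockAvg T fun u => F u v) := by
  simp only [blockAvg, ← Finset.sum_div]
  rw [Finset.sum_comm, div_div, div_div, mul_comm (W : ℝ) (T : ℝ)]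

/-- shifting the times of an average -/
lemma shift (T : ℕ) (f : ℕ → ℝ) {B : ℝ} (hB : ∀ u, |f u| ≤ B) (v : ℕ) :
    |blockAvg T (fun u => f (u + v)) - blockAvg T f| ≤ 2 * B * v / T := by
  have key : ∀ v : ℕ, |∑ u ∈ Finset.Ico T (2 * T), f (u + v) - ∑ u ∈ Finset.Ico T (2 * T), f u| ≤ 2 * B * v := by
    intro v
    induction v with
    | zero => simp
    | succ v ih =>
      have e : ∑ u ∈ Finset.Ico T (2 * T), f (u + (v + 1)) - ∑ u ∈ Finset.Ico T (2 * T), f (u + v) =
          f (2 * T + v) - f (T + v) := by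
        rw [← Finset.sum_sub_distrib, ← Finset.sum_Ico_sub (fun u => f (u + v)) (show T ≤ 2 * T by omega)]
        exact Finset.sum_congr rfl fun u _ => by rw [show u + 1 + v = u + (v + 1) by omega]
      have h1 := abs_le.1 (hB (2 * T + v))
      have h2 := abs_le.1 (hB (T + v))
      have h3 := abs_le.1 ih
      push_cast
      rw [abs_le]
      constructor <;> linarith
  simp only [blockAvg, ← sub_div, abs_div, Nat.abs_cast]
  exact div_le_div_of_nonneg_right (key v) (Nat.cast_nonneg T)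

lemma sqrt_le_lin {a s : ℝ} (ha : 0 ≤ a) (hs : 0 < s) : Real.sqrt a ≤ a / (2 * s) + s / 2 := by
  have e : a / (2 * s) + s / 2 - Real.sqrt a = (Real.sqrt a - s) ^ 2 / (2 * s) := by
    field_simp
    rw [sub_sq, Real.sq_sqrt ha]
    ring
  nlinarith [div_nonneg (sq_nonneg (Real.sqrt a - s)) (by linarith : 0 ≤ 2 * s)]

/-! ### The chain -/

lemma Kpow_eq_pex (hn : 0 < n) (k : ℕ) (f : Cfg n → ℝ) (x : Cfg n) :
    Kpow J b k f x = pex J b x (fun ω : Path n k => f (st x ω k)) :=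
  (pex_st J b hn f le_rfl x).symm

lemma Kpow_add (hn : 0 < n) (k : ℕ) (f g : Cfg n → ℝ) (x : Cfg n) :
    Kpow J b k (fun y => f y + g y) x = Kpow J b k f x + Kpow J b k g x := by
  simp only [Kpow_eq_pex hn, ← pex_add]

lemma Kpow_mul (hn : 0 < n) (k : ℕ) (c : ℝ) (f : Cfg n → ℝ) (x : Cfg n) :
    Kpow J b k (fun y => c * f y) x = c * Kpow J b k f x := by
  simp only [Kpow_eq_pex hn, ← pex_const_mul]

lemma Kpow_sub (hn : 0 < n) (k : ℕ) (f g : Cfg n → ℝ) (x : Cfg n) :
    Kpow J b k (fun y => f y - g y) x = Kpow J b k f x - Kpow J b k g x := by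
  have h := Kpow_add (J := J) (b := b) hn k f (fun y => (-1) * g y) x
  rw [Kpow_mul hn] at h
  simpa [sub_eq_add_neg] using h

lemma Kpow_sum (hn : 0 < n) {ι : Type*} (s : Finset ι) (k : ℕ) (f : ι → Cfg n → ℝ) (x : Cfg n) :
    Kpow J b k (fun y => ∑ a ∈ s, f a y) x = ∑ a ∈ s, Kpow J b k (f a) x := by
  simp only [Kpow_eq_pex hn, ← pex_sum]

lemma Kpow_const (hn : 0 < n) (k : ℕ) (c : ℝ) (x : Cfg n) : Kpow J b k (fun _ => c) x = c := by
  rw [Kpow_eq_pex hn]
  exact pex_const J b hn x c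

lemma Kpow_mono (hn : 0 < n) (k : ℕ) {f g : Cfg n → ℝ} (h : ∀ y, f y ≤ g y) (x : Cfg n) :
    Kpow J b k f x ≤ Kpow J b k g x := by
  rw [Kpow_eq_pex hn, Kpow_eq_pex hn]
  exact pex_mono J b x fun ω => h _

lemma Kpow_abs_le (hn : 0 < n) (k : ℕ) {f : Cfg n → ℝ} {B : ℝ} (h : ∀ y, |f y| ≤ B) (x : Cfg n) :
    |Kpow J b k f x| ≤ B := by
  rw [Kpow_eq_pex hn]
  refine (abs_pex_le J b x _).trans ?_
  rw [← pex_const J b hn (N := k) x B]
  exact pex_mono J b x fun ω => h _

lemma Kpow_comp (a c : ℕ) (f : Cfg n → ℝ) : Kpow J b (a + c) f = Kpow J b a (Kpow J b c f) :=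
  Function.iterate_add_apply _ a c f

lemma Kpow_sq (hn : 0 < n) (k : ℕ) (f : Cfg n → ℝ) (x : Cfg n) :
    Kpow J b k f x ^ 2 ≤ Kpow J b k (fun y => f y ^ 2) x := by
  set c := Kpow J b k f x with hc
  have h := Kpow_mono (J := J) (b := b) hn k (f := fun _ => (0 : ℝ))
    (g := fun y => f y ^ 2 - ((2 * c) * f y - c ^ 2)) (fun y => by nlinarith [sq_nonneg (f y - c)]) x
  rw [Kpow_const hn, Kpow_sub hn, Kpow_sub hn, Kpow_mul hn, Kpow_const hn, ← hc] at h
  nlinarith

lemma Kpow_blockAvg (hn : 0 < n) (k W : ℕ) (F : ℕ → Cfg n → ℝ) (x : Cfg n) :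
    Kpow J b k (fun y => blockAvg W fun v => F v y) x = blockAvg W (fun v => Kpow J b k (F v) x) := by
  simp only [blockAvg, div_eq_inv_mul, Kpow_mul hn, Kpow_sum hn]

/-! ### Overlaps -/

lemma mean_sq_le (v : ℕ) (x : Cfg n) : ∑ i, mean J b v x i ^ 2 ≤ n := Corr.sum_sq_mean_le v x

lemma qmean_mem (v : ℕ) (x : Cfg n) : 0 ≤ qmean J b v x ∧ qmean J b v x ≤ 1 :=
  ⟨div_nonneg (Finset.sum_nonneg fun i _ => sq_nonneg _) (Nat.cast_nonneg n),
    div_le_one_of_le₀ (mean_sq_le v x) (Nat.cast_nonneg n)⟩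

lemma abs_qlag_le (hn : 0 < n) (w τ : ℕ) (x : Cfg n) : |qlag J b w τ x| ≤ 1 :=
  Kpow_abs_le hn _ (fun y => abs_le.2 ⟨by linarith [(qmean_mem (J := J) (b := b) τ y).1],
    (qmean_mem τ y).2⟩) x

lemma qlag_nonneg (hn : 0 < n) (w τ : ℕ) (x : Cfg n) : 0 ≤ qlag J b w τ x :=
  (le_of_eq (Kpow_const (J := J) (b := b) hn (w - τ) 0 x).symm).trans
    (Kpow_mono hn _ (fun y => (qmean_mem τ y).1) x)

lemma qlag_self (v : ℕ) (x : Cfg n) : qlag J b v v x = qmean J b v x := by
  simp [qlag, Kpow]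

lemma qmean_le_comp (hn : 0 < n) (d τ : ℕ) (x : Cfg n) :
    qmean J b (d + τ) x ≤ Kpow J b d (qmean J b τ) x := by
  have e : qmean J b τ = fun y => (n : ℝ)⁻¹ * ∑ i, mean J b τ y i ^ 2 := by
    funext y; rw [qmean, div_eq_inv_mul]
  rw [e, Kpow_mul hn, Kpow_sum hn, qmean, div_eq_inv_mul]
  refine mul_le_mul_of_nonneg_left (Finset.sum_le_sum fun i _ => ?_) (inv_nonneg.2 (Nat.cast_nonneg n))
  rw [show mean J b (d + τ) x i = Kpow J b d (fun y => mean J b τ y i) x from congrFun (Kpow_comp d τ _) x]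
  exact Kpow_sq hn d _ x

lemma qlag_anti (hn : 0 < n) {w τ τ' : ℕ} (h : τ ≤ τ') (h' : τ' ≤ w) (x : Cfg n) :
    qlag J b w τ' x ≤ qlag J b w τ x := by
  obtain ⟨d, rfl⟩ := Nat.exists_eq_add_of_le h
  refine (Kpow_mono hn _ (g := Kpow J b d (qmean J b τ))
    (fun y => by rw [add_comm τ d]; exact qmean_le_comp hn d τ y) x).trans (le_of_eq ?_)
  rw [← Kpow_comp, qlag]
  congr 1
  omega

lemma defect_nonneg (hn : 0 < n) {G W : ℕ} (h : G ≤ W) (x : Cfg n) : 0 ≤ defect J b G W x := by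
  refine div_nonneg (Finset.sum_nonneg fun v hv => ?_) (Nat.cast_nonneg W)
  have hv' := (Finset.mem_Ico.1 hv).1
  have := qlag_anti (J := J) (b := b) hn (h.trans hv') le_rfl x
  rw [qlag_self] at this
  linarith

/-- time average of a lagged overlap after a restart -/
lemma restart_qlag (hn : 0 < n) {u v τ : ℕ} (h : τ ≤ v) (x : Cfg n) :
    Kpow J b u (qlag J b v τ) x = qlag J b (u + v) τ x := by
  show Kpow J b u (fun y => Kpow J b (v - τ) (qmean J b τ) y) x = _
  rw [show (fun y => Kpow J b (v - τ) (qmean J b τ) y) = Kpow J b (v - τ) (qmean J b τ) from rfl, ← Kpow_comp,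
    qlag, Nat.add_sub_assoc h]

lemma restart_qmean (v u : ℕ) (x : Cfg n) : Kpow J b u (qmean J b v) x = qlag J b (u + v) v x := by
  rw [qlag, Nat.add_sub_cancel]

/-- the restarted overlap on a block is at most the lagged overlap, up to the shift -/
lemma restart_qmean_le (hn : 0 < n) {T τ v : ℕ} (hτ : τ ≤ v) (x : Cfg n) :
    blockAvg T (fun u => Kpow J b u (qmean J b v) x) ≤
      blockAvg T (fun w => qlag J b w τ x) + 2 * v / T := by
  have h1 : blockAvg T (fun u => Kpow J b u (qmean J b v) x) ≤ blockAvg T (fun u => qlag J b (u + v) τ x) :=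
    blockAvg_mono fun u _ _ => by
      rw [restart_qmean]
      exact qlag_anti hn hτ (Nat.le_add_left v u) x
  have h2 := (abs_le.1 (shift T (fun w => qlag J b w τ x) (fun w => abs_qlag_le hn w τ x) v)).2
  rw [mul_one] at h2
  linarith

/-- the restarted lagged overlap on a block is close to the lagged overlap -/
lemma restart_qlag_le (hn : 0 < n) {T τ v : ℕ} (hτ : τ ≤ v) (x : Cfg n) :
    blockAvg T (fun u => Kpow J b u (qlag J b v τ) x) ≤
      blockAvg T (fun w => qlag J b w τ x) + 2 * v / T := by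
  have h2 := (abs_le.1 (shift T (fun w => qlag J b w τ x) (fun w => abs_qlag_le hn w τ x) v)).2
  rw [mul_one] at h2
  have e : blockAvg T (fun u => Kpow J b u (qlag J b v τ) x) = blockAvg T (fun u => qlag J b (u + v) τ x) := by
    simp only [restart_qlag hn hτ]
  linarith

/-- the restarted overlap on a block is at least the lagged overlap, up to the shift -/
lemma restart_qmean_ge (hn : 0 < n) {T τ v : ℕ} (hτ : v ≤ τ) (hT : τ ≤ T) (x : Cfg n) :
    blockAvg T (fun w => qlag J b w τ x) - 2 * v / T ≤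
      blockAvg T (fun u => Kpow J b u (qmean J b v) x) := by
  have h1 : blockAvg T (fun w => qlag J b w τ x) ≤ blockAvg T (fun w => qlag J b w v x) :=
    blockAvg_mono fun w hw _ => qlag_anti hn hτ (hT.trans hw) x
  have h2 := (abs_le.1 (shift T (fun w => qlag J b w v x) (fun w => abs_qlag_le hn w v x) v)).1
  rw [mul_one] at h2
  simp only [restart_qmean]
  linarith

/-! ### The spin against its conditional mean -/

lemma adjoint_K (hs : ∀ i j, J i j = J j i) (hd : ∀ i, J i i = 0) (f h : Cfg n → ℝ) :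
    ∑ x, wt J b x * (f x * K J b h x) = ∑ x, wt J b x * (K J b f x * h x) := by
  have e : ∀ (f h : Cfg n → ℝ) i, ∑ x, wt J b x * (f x * qb b J i h x) =
      ∑ x, wt J b x * (f x * h x) - ∑ x, wt J b x * ((1 - mag J b i x ^ 2) * (dd i f x * dd i h x)) := by
    intro f h i
    rw [← site_mul b hs hd i f h, ← Finset.sum_sub_distrib]
    exact Finset.sum_congr rfl fun x _ => by simp only [qb]; ring
  have e2 : ∀ f h : Cfg n → ℝ, ∑ x, wt J b x * (f x * K J b h x) = (∑ i, ∑ x, wt J b x * (f x * qb b J i h x)) / n :=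
    fun f h => by
      rw [Finset.sum_comm, Finset.sum_div]
      refine Finset.sum_congr rfl fun x _ => ?_
      rw [K, mul_div_assoc', mul_div_assoc', Finset.mul_sum, Finset.mul_sum]
  rw [e2, show (∑ x, wt J b x * (K J b f x * h x)) = ∑ x, wt J b x * (h x * K J b f x) from
    Finset.sum_congr rfl fun x _ => by ring, e2]
  congr 1
  refine Finset.sum_congr rfl fun i _ => ?_
  rw [e, e]
  congr 1
  · exact Finset.sum_congr rfl fun x _ => by ring
  · exact Finset.sum_congr rfl fun x _ => by ring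

lemma adjoint_Kpow (hs : ∀ i j, J i j = J j i) (hd : ∀ i, J i i = 0) (k : ℕ) (f h : Cfg n → ℝ) :
    ∑ x, wt J b x * (f x * Kpow J b k h x) = ∑ x, wt J b x * (Kpow J b k f x * h x) := by
  induction k generalizing h with
  | zero => rfl
  | succ k ih =>
    rw [show Kpow J b (k + 1) h = Kpow J b k (K J b h) from Function.iterate_succ_apply _ _ _, ih,
      adjoint_K hs hd, ← Pair.Kpow_succ]

/-- the density of the start -/
noncomputable def point (J : Fin n → Fin n → ℝ) (b : Fin n → ℝ) (x : Cfg n) : Cfg n → ℝ :=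
  Pi.single x (wt J b x)⁻¹

lemma point_nonneg (x y : Cfg n) : 0 ≤ point J b x y := by
  by_cases h : y = x
  · subst h; rw [point, Pi.single_eq_same]; exact inv_nonneg.2 (wt_pos J b y).le
  · simp [point, h]

lemma Kpow_eq_point (hs : ∀ i j, J i j = J j i) (hd : ∀ i, J i i = 0) (k : ℕ) (h : Cfg n → ℝ) (x : Cfg n) :
    Kpow J b k h x = ∑ y, wt J b y * (Kpow J b k (point J b x) y * h y) := by
  rw [← adjoint_Kpow hs hd, Finset.sum_eq_single x (fun y _ hy => by simp [point, hy]) (by simp), point,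
    Pi.single_eq_same, ← mul_assoc, mul_inv_cancel₀ (wt_pos J b x).ne', one_mul]

lemma dd_spin (i : Fin n) (x : Cfg n) : dd i (fun y : Cfg n => spin (y i)) x = 1 := by
  simp [dd, spin]

/-- a predictable weight against the spin minus its conditional mean -/
lemma spin_mag (hs : ∀ i j, J i j = J j i) (hd : ∀ i, J i i = 0) {f : Cfg n → ℝ} (hf : ∀ x, 0 ≤ f x)
    (G : Fin n → Cfg n → ℝ) (hG : ∀ i x c, G i (Function.update x i c) = G i x) :
    |∑ x, wt J b x * (f x * ∑ i, G i x * (spin (x i) - mag J b i x))| ≤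
      4 * Real.sqrt (dir J b fun x => Real.sqrt (f x)) * Real.sqrt (∑ x, wt J b x * (f x * ∑ i, G i x ^ 2)) := by
  refine le_trans (le_of_eq ?_) (pair hs hd hf G hG)
  congr 1
  calc ∑ x, wt J b x * (f x * ∑ i, G i x * (spin (x i) - mag J b i x))
      = ∑ i, ∑ x, wt J b x * ((f x * G i x) * proj J b i (fun y => spin (y i)) x) := by
        rw [Finset.sum_comm]
        refine Finset.sum_congr rfl fun x _ => ?_
        rw [Finset.mul_sum, Finset.mul_sum]
        exact Finset.sum_congr rfl fun i _ => by rw [proj, dd_spin]; ring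
    _ = ∑ i, ∑ x, wt J b x * ((1 - mag J b i x ^ 2) * dd i f x * G i x) := by
        refine Finset.sum_congr rfl fun i _ => ?_
        rw [site_mul b hs hd i (fun x => f x * G i x)]
        refine Finset.sum_congr rfl fun x _ => ?_
        rw [dd_spin]
        simp only [dd, hG]
        ring
    _ = _ := by
        rw [Finset.sum_comm]
        exact Finset.sum_congr rfl fun x _ => (Finset.mul_sum ..).symm

/-- along the chain a predictable weight does not see the spin minus its conditional mean -/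
lemma spin_mag_block {L : ℝ} (hs : ∀ i j, J i j = J j i) (hd : ∀ i, J i i = 0) (hop : Op J L)
    (hn : 0 < n) (hb : ∀ i, b i = 0) {W : ℕ} (hW : 0 < W) (x : Cfg n) (G : ℕ → Fin n → Cfg n → ℝ)
    (hG : ∀ v i y c, G v i (Function.update y i c) = G v i y) {A : ℝ} (hA : 0 ≤ A)
    (hGA : ∀ v y, ∑ i, G v i y ^ 2 ≤ A ^ 2) :
    blockAvg W (fun v => |Kpow J b v (fun y => ∑ i, G v i y * (spin (y i) - mag J b i y)) x|) ≤
      4 * A * (n * Real.sqrt ((Real.log 2 + L) / W)) := by
  have hW' : (0 : ℝ) < W := Nat.cast_pos.2 hW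
  set d := fun v => dir J b fun y => Real.sqrt (Kpow J b v (point J b x) y) with hd'
  have hd0 : ∀ v, 0 ≤ d v := fun v => Finset.sum_nonneg fun i _ => Finset.sum_nonneg fun y _ =>
    mul_nonneg (wt_pos J b y).le (mul_nonneg (mag_sq J b i y).1 (sq_nonneg _))
  have h1 : ∀ v, |Kpow J b v (fun y => ∑ i, G v i y * (spin (y i) - mag J b i y)) x| ≤
      4 * A * Real.sqrt (d v) := by
    intro v
    have hf : ∀ y, 0 ≤ Kpow J b v (point J b x) y := Pair.Kpow_nonneg (point_nonneg x) v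
    rw [Kpow_eq_point hs hd]
    refine (spin_mag hs hd hf (G v) (hG v)).trans ?_
    have hm : ∑ y, wt J b y * Kpow J b v (point J b x) y = 1 := by
      have h := Kpow_eq_point (b := b) hs hd v (fun _ => (1 : ℝ)) x
      rw [Kpow_const hn] at h
      simpa using h.symm
    have h2 : ∑ y, wt J b y * (Kpow J b v (point J b x) y * ∑ i, G v i y ^ 2) ≤ A ^ 2 := by
      calc ∑ y, wt J b y * (Kpow J b v (point J b x) y * ∑ i, G v i y ^ 2)
          ≤ ∑ y, wt J b y * (Kpow J b v (point J b x) y * A ^ 2) := Finset.sum_le_sum fun y _ =>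
            mul_le_mul_of_nonneg_left (mul_le_mul_of_nonneg_left (hGA v y) (hf y)) (wt_pos J b y).le
        _ = A ^ 2 := by simp only [← mul_assoc, ← Finset.sum_mul, hm, one_mul]
    have h3 := (Real.sqrt_le_sqrt h2).trans_eq (Real.sqrt_sq hA)
    calc 4 * Real.sqrt (d v) * Real.sqrt (∑ y, wt J b y * (Kpow J b v (point J b x) y * ∑ i, G v i y ^ 2))
        ≤ 4 * Real.sqrt (d v) * A := mul_le_mul_of_nonneg_left h3 (by positivity)
      _ = 4 * A * Real.sqrt (d v) := by ring
  refine (blockAvg_mono fun v _ _ => h1 v).trans ?_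
  rw [blockAvg_mul]
  refine mul_le_mul_of_nonneg_left ?_ (by linarith)
  have hsum : ∑ v ∈ Finset.Ico W (2 * W), d v ≤ (n : ℝ) ^ 2 * (Real.log 2 + L) := by
    calc ∑ v ∈ Finset.Ico W (2 * W), d v ≤ ∑ v ∈ Finset.range (2 * W), d v :=
          Finset.sum_le_sum_of_subset_of_nonneg (fun v hv => Finset.mem_range.2 (Finset.mem_Ico.1 hv).2)
            fun v _ _ => hd0 v
      _ ≤ n * ent (wt J b) (point J b x) := sum_dir_sqrt hs hd hn (point_nonneg x) _
      _ ≤ n * (n * Real.log 2 + L * n + 2 * ∑ i, |b i|) :=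
          mul_le_mul_of_nonneg_left (ent_point hop x) (Nat.cast_nonneg n)
      _ = _ := by simp [hb]; ring
  have hcs := Finset.sum_mul_sq_le_sq_mul_sq (Finset.Ico W (2 * W)) (fun _ => (1 : ℝ)) (fun v => Real.sqrt (d v))
  simp only [one_mul, one_pow, Real.sq_sqrt (hd0 _), Finset.sum_const, Nat.card_Ico, nsmul_eq_mul, mul_one,
    show 2 * W - W = W by omega] at hcs
  have h4 : (blockAvg W fun v => Real.sqrt (d v)) ^ 2 ≤ (n : ℝ) ^ 2 * ((Real.log 2 + L) / W) := by
    rw [blockAvg, div_pow, div_le_iff₀ (pow_pos hW' 2)]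
    calc (∑ v ∈ Finset.Ico W (2 * W), Real.sqrt (d v)) ^ 2 ≤ W * ((n : ℝ) ^ 2 * (Real.log 2 + L)) :=
          hcs.trans (mul_le_mul_of_nonneg_left hsum hW'.le)
      _ = _ := by field_simp
  rw [← Real.sqrt_sq (Nat.cast_nonneg (α := ℝ) n), ← Real.sqrt_mul (sq_nonneg _)]
  exact Real.le_sqrt_of_sq_le h4

/-! ### Operator bounds -/

lemma op_bilin {L : ℝ} (hs : ∀ i j, J i j = J j i) (hop : Op J L) (p q : Fin n → ℝ) :
    |∑ i, ∑ j, J i j * (p i * q j)| ≤ L / 2 * (∑ i, p i ^ 2 + ∑ i, q i ^ 2) := by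
  have h1 := abs_le.1 (hop fun i => p i + q i)
  have h2 := abs_le.1 (hop fun i => p i - q i)
  have es : ∑ i, ∑ j, J i j * (q i * p j) = ∑ i, ∑ j, J i j * (p i * q j) := by
    rw [Finset.sum_comm]
    exact Finset.sum_congr rfl fun i _ => Finset.sum_congr rfl fun j _ => by rw [hs j i]; ring
  have e : ∑ i, ∑ j, J i j * ((p i + q i) * (p j + q j)) - ∑ i, ∑ j, J i j * ((p i - q i) * (p j - q j)) =
      4 * ∑ i, ∑ j, J i j * (p i * q j) := by
    simp only [add_mul, mul_add, sub_mul, mul_sub, Finset.sum_add_distrib, Finset.sum_sub_distrib]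
    linarith
  have e2 : L * ∑ i, (p i + q i) ^ 2 + L * ∑ i, (p i - q i) ^ 2 =
      2 * L * (∑ i, p i ^ 2 + ∑ i, q i ^ 2) := by
    simp only [Finset.mul_sum, ← Finset.sum_add_distrib]
    exact Finset.sum_congr rfl fun i _ => by ring
  rw [abs_le]
  constructor <;> linarith

lemma op_vec {L : ℝ} (hs : ∀ i j, J i j = J j i) (hL : 0 < L) (hop : Op J L) (v : Fin n → ℝ) :
    ∑ i, (∑ j, J i j * v j) ^ 2 ≤ L ^ 2 * ∑ i, v i ^ 2 := by
  set w := fun i => ∑ j, J i j * v j with hw
  have h := (abs_le.1 (op_bilin hs hop (fun i => w i / L) v)).2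
  have e : ∑ i, ∑ j, J i j * (w i / L * v j) = (∑ i, w i ^ 2) / L := by
    rw [Finset.sum_div]
    refine Finset.sum_congr rfl fun i _ => ?_
    calc ∑ j, J i j * (w i / L * v j) = w i / L * ∑ j, J i j * v j := by
          rw [Finset.mul_sum]; exact Finset.sum_congr rfl fun j _ => by ring
      _ = w i ^ 2 / L := by rw [hw]; ring
  rw [e] at h
  simp only [div_pow, ← Finset.sum_div] at h
  have e2 : L / 2 * ((∑ i, w i ^ 2) / L ^ 2 + ∑ i, v i ^ 2) =
      (∑ i, w i ^ 2) / (2 * L) + L / 2 * ∑ i, v i ^ 2 := by field_simp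
  rw [e2] at h
  have h3 : (∑ i, w i ^ 2) / L = 2 * ((∑ i, w i ^ 2) / (2 * L)) := by field_simp
  have h4 : (∑ i, w i ^ 2) / (2 * L) ≤ L / 2 * ∑ i, v i ^ 2 := by linarith
  rw [div_le_iff₀ (by linarith)] at h4
  linarith

lemma cpl_symm (β : ℝ) (g : Edge n → ℝ) (i j : Fin n) : cpl β g i j = cpl β g j i := by
  simp only [cpl, coupling_symm g i j]

lemma cpl_diag (β : ℝ) (g : Edge n → ℝ) (i : Fin n) : cpl β g i i = 0 := by
  simp [cpl, coupling_eq, upper_self]

/-- the couplings have operator norm at most three with high probability -/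
lemma op_whp {β : ℝ} (h0 : 0 ≤ β) (h1 : β < 1) :
    Tendsto (fun n : ℕ => (disorder n).real {g | ¬ Op (cpl β g) 3}) atTop (𝓝 0) := by
  obtain ⟨c, hc, hb⟩ := opnorm_bound (ε := 1 / 10) (δ := 1 / 100) (by norm_num) (by norm_num) (by norm_num)
    (by norm_num)
  have hlim : Tendsto (fun n : ℕ => 2 * Real.exp (-(c * n))) atTop (𝓝 0) := by
    have : Tendsto (fun n : ℕ => -(c * (n : ℝ))) atTop atBot :=
      tendsto_neg_atTop_atBot.comp (tendsto_natCast_atTop_atTop.const_mul_atTop hc)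
    simpa using (Real.tendsto_exp_atBot.comp this).const_mul 2
  refine tendsto_of_tendsto_of_tendsto_of_le_of_le' tendsto_const_nhds hlim
    (Eventually.of_forall fun _ => measureReal_nonneg) ?_
  filter_upwards [eventually_gt_atTop 0] with n hn
  refine le_trans (measureReal_mono ?_) (hb n hn)
  intro g hg
  by_contra hcon
  simp only [Set.mem_ofPred_eq, not_exists, not_lt] at hcon
  refine hg fun v => ?_
  have hs : 0 < Real.sqrt n := Real.sqrt_pos.2 (Nat.cast_pos.2 hn)
  have e : ∑ i, ∑ j, cpl β g i j * (v i * v j) = β / Real.sqrt n * ∑ i, ∑ j, coupling g i j * (v i * v j) := by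
    simp only [cpl, Finset.mul_sum]
    exact Finset.sum_congr rfl fun i _ => Finset.sum_congr rfl fun j _ => by ring
  rw [e, abs_mul, abs_of_nonneg (div_nonneg h0 hs.le)]
  refine (mul_le_mul_of_nonneg_left (hcon v) (div_nonneg h0 hs.le)).trans ?_
  have hnum : (2 + 5 * (1 / 10 : ℝ)) / (1 - 2 * (1 / 100)) ≤ 3 := by norm_num
  have hv : 0 ≤ ∑ i, v i ^ 2 := Finset.sum_nonneg fun i _ => sq_nonneg _
  have e2 : β / Real.sqrt n * ((2 + 5 * (1 / 10)) / (1 - 2 * (1 / 100)) * Real.sqrt n * ∑ i, v i ^ 2) =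
      β * ((2 + 5 * (1 / 10)) / (1 - 2 * (1 / 100))) * ∑ i, v i ^ 2 := by field_simp
  rw [e2]
  refine mul_le_mul_of_nonneg_right ?_ hv
  calc β * ((2 + 5 * (1 / 10)) / (1 - 2 * (1 / 100))) ≤ 1 * 3 :=
        mul_le_mul h1.le hnum (by norm_num) zero_le_one
    _ = 3 := one_mul 3

/-! ### The kernels -/

/-- projection to `[0, 1]` -/
noncomputable def cb (x : ℝ) : ℝ := max 0 (min 1 x)

/-- projection to `[-2, 2]` -/
noncomputable def cw (x : ℝ) : ℝ := max (-2) (min 2 x)

lemma cb_mem (x : ℝ) : 0 ≤ cb x ∧ cb x ≤ 1 := ⟨le_max_left _ _, max_le zero_le_one (min_le_left _ _)⟩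

lemma cb_id {x : ℝ} (h0 : 0 ≤ x) (h1 : x ≤ 1) : cb x = x := by
  rw [cb, min_eq_right h1, max_eq_right h0]

lemma cw_id {x : ℝ} (h : |x| ≤ 2) : cw x = x := by
  rw [cw, min_eq_right (abs_le.1 h).2, max_eq_right (abs_le.1 h).1]

lemma cw_abs (x : ℝ) : |cw x| ≤ 2 :=
  abs_le.2 ⟨le_max_left _ _, max_le (by norm_num) (min_le_left _ _)⟩

lemma cb_lip (x y : ℝ) : |cb x - cb y| ≤ |x - y| := by
  refine (abs_max_sub_max_le_max _ _ _ _).trans ?_
  rw [sub_self, abs_zero]
  refine max_le (abs_nonneg _) ((abs_min_sub_min_le_max _ _ _ _).trans ?_)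
  rw [sub_self, abs_zero]
  exact max_le (abs_nonneg _) le_rfl

lemma cw_lip (x y : ℝ) : |cw x - cw y| ≤ |x - y| := by
  refine (abs_max_sub_max_le_max _ _ _ _).trans ?_
  rw [sub_self, abs_zero]
  refine max_le (abs_nonneg _) ((abs_min_sub_min_le_max _ _ _ _).trans ?_)
  rw [sub_self, abs_zero]
  exact max_le (abs_nonneg _) le_rfl

lemma exp_half_le {t : ℝ} (h : t ≤ 1) : Real.exp (t / 2) ≤ 2 := by
  refine (Real.exp_le_exp.2 (show t / 2 ≤ 1 / 2 by linarith)).trans ?_
  have h2 : Real.exp (1 / 2) ^ 2 ≤ 2 ^ 2 := by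
    rw [← Real.exp_nat_mul]
    norm_num
    linarith [Real.exp_one_lt_d9]
  exact pow_le_pow_iff_left₀ (Real.exp_pos _).le (by norm_num) (by norm_num) |>.1 h2

lemma tapKer_lip {w w' s s' D : ℝ} (hs : |s| ≤ 16) (hw : |w'| ≤ 2) (hD : |s - s'| ≤ D) :
    |(-w) * s - (-w') * s'| ≤ 16 * |w - w'| + 2 * D := by
  rw [show (-w) * s - (-w') * s' = -((w - w') * s + w' * (s - s')) by ring, abs_neg]
  refine (abs_add_le _ _).trans (add_le_add ?_ ?_)
  · rw [abs_mul, mul_comm 16]; exact mul_le_mul_of_nonneg_left hs (abs_nonneg _)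
  · rw [abs_mul]; exact mul_le_mul hw hD (abs_nonneg _) (by norm_num)

open Fast.Stein in
lemma sol_lip3 {b b' : ℝ} (hb : 0 ≤ b ∧ b ≤ 1) (hb' : 0 ≤ b' ∧ b' ≤ 1) (h a h' a' : ℝ) :
    |sol b h a - sol b' h' a'| ≤ 16 * (|h - h'| + |a - a'| + |b - b'|) ∧
      |solH b h a - solH b' h' a'| ≤ 40 * (|h - h'| + |a - a'| + |b - b'|) := by
  have e := exp_half_le hb.2
  have e1 : Real.exp ((1 : ℝ) / 2) ≤ 2 := exp_half_le le_rfl
  have s0 : 0 ≤ |h - h'| + |a - a'| := by positivity
  have hb0 := abs_nonneg (b - b')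
  have l1 := (sol_lip hb.1 h a h' a').trans
    (mul_le_mul_of_nonneg_right (mul_le_mul_of_nonneg_left e (by norm_num : (0:ℝ) ≤ 8)) s0)
  have l2 := (solH_lip hb.1 h a h' a').trans
    (mul_le_mul_of_nonneg_right (mul_le_mul_of_nonneg_left e (by norm_num : (0:ℝ) ≤ 20)) s0)
  have lb : ∀ k : ℕ, |Fast.Stein.ker k b h' a' - Fast.Stein.ker k b' h' a'| ≤ 8 * |b - b'| := fun k =>
    (ker_lip_b k hb.1 hb'.1 hb.2 hb'.2 h' a').trans
      ((mul_le_mul_of_nonneg_right (mul_le_mul_of_nonneg_left e1 (by norm_num : (0:ℝ) ≤ 4)) hb0).trans_eq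
        (by ring))
  have m0 : |sol b h' a' - sol b' h' a'| ≤ 8 * |b - b'| := lb 0
  have m1 : |solH b h' a' - solH b' h' a'| ≤ 16 * |b - b'| := by
    have e2 : solH b h' a' - solH b' h' a' =
        -(Fast.Stein.ker 1 b h' a' - Fast.Stein.ker 1 b' h' a') +
          (-Real.tanh h') * (Fast.Stein.ker 0 b h' a' - Fast.Stein.ker 0 b' h' a') := by
      simp only [solH]; ring
    rw [e2]
    refine (abs_comb_le (A := 8 * |b - b'|) (by rw [abs_neg]; exact lb 1) (lb 0)
      (by rw [abs_neg]; exact (Real.abs_tanh_lt_one h').le)).trans_eq (by ring)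
  constructor
  · linarith [abs_sub_le (sol b h a) (sol b h' a') (sol b' h' a')]
  · linarith [abs_sub_le (solH b h a) (solH b h' a') (solH b' h' a')]

open Fast.Stein in
/-- the Stein kernel of the TAP step; parameters: cavity field, reaction coefficient, weight -/
noncomputable def tapKern : Kern where
  fn p h := (-cw (p 2)) * sol (cb (p 1)) h (p 0)
  dfn p h := (-cw (p 2)) * solH (cb (p 1)) h (p 0)
  hasDeriv p h := (sol_deriv_h (cb (p 1)) h (p 0)).const_mul _
  M := 100
  bdd p h := by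
    have hb := cb_mem (p 1)
    have e := exp_half_le hb.2
    have hw := cw_abs (p 2)
    constructor <;> rw [abs_mul, abs_neg]
    · exact (mul_le_mul hw (abs_sol_le hb.1 h (p 0)) (abs_nonneg _) (by norm_num)).trans (by linarith)
    · exact (mul_le_mul hw (abs_solH_le hb.1 h (p 0)) (abs_nonneg _) (by norm_num)).trans (by linarith)
  lip p p' h h' := by
    have hb := cb_mem (p 1)
    have e := exp_half_le hb.2
    have l := sol_lip3 hb (cb_mem (p' 1)) h (p 0) h' (p' 0)
    have hs : |sol (cb (p 1)) h (p 0)| ≤ 16 := (abs_sol_le hb.1 h (p 0)).trans (by linarith)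
    have hs' : |solH (cb (p 1)) h (p 0)| ≤ 16 := (abs_solH_le hb.1 h (p 0)).trans (by linarith)
    have hsum : ∑ l, |p l - p' l| = |p 0 - p' 0| + |p 1 - p' 1| + |p 2 - p' 2| := Fin.sum_univ_three _
    rw [hsum]
    have := cb_lip (p 1) (p' 1)
    have := cw_lip (p 2) (p' 2)
    have := abs_nonneg (p 0 - p' 0); have := abs_nonneg (p 1 - p' 1)
    have := abs_nonneg (p 2 - p' 2); have := abs_nonneg (h - h')
    constructor
    · have := tapKer_lip (w := cw (p 2)) hs (cw_abs (p' 2)) l.1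
      linarith
    · have := tapKer_lip (w := cw (p 2)) hs' (cw_abs (p' 2)) l.2
      linarith

open Fast.Stein in
lemma tapKern_eq {p : Fin 3 → ℝ} (hb : 0 ≤ p 1 ∧ p 1 ≤ 1) (hw : |p 2| ≤ 2) (h : ℝ) :
    tapKern.fn p h * (h - p 0 - p 1 * Real.tanh h) - p 1 * tapKern.dfn p h =
      p 2 * (Real.tanh h - Real.tanh (p 0)) := by
  simp only [tapKern, cb_id hb.1 hb.2, cw_id hw]
  rw [← Fast.Stein.stein_eq (p 1) h (p 0)]
  ring

lemma tanh_lip (x y : ℝ) : |Real.tanh x - Real.tanh y| ≤ |x - y| := by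
  have h := convex_univ.norm_image_sub_le_of_norm_hasDerivWithin_le (C := 1)
    (fun z _ => (hasDerivAt_tanh' z).hasDerivWithinAt) (fun z _ => by
      rw [Real.norm_eq_abs, abs_le]
      have := (sq_lt_one_iff_abs_lt_one (Real.tanh z)).2 (tanh_abs_lt z)
      constructor <;> linarith [sq_nonneg (Real.tanh z)]) (Set.mem_univ y) (Set.mem_univ x)
  simpa using h

/-- the kernel of the energy step -/
noncomputable def enKern : Kern where
  fn _ h := Real.tanh h
  dfn _ h := 1 - Real.tanh h ^ 2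
  hasDeriv _ h := hasDerivAt_tanh' h
  M := 2
  bdd _ h := by
    have h1 := (tanh_abs_lt h).le
    have h2 := (sq_le_one_iff_abs_le_one (Real.tanh h)).2 h1
    refine ⟨h1.trans (by norm_num), abs_le.2 ⟨by linarith, by linarith [sq_nonneg (Real.tanh h)]⟩⟩
  lip p p' h h' := by
    have hl := tanh_lip h h'
    have hsum : 0 ≤ ∑ l, |p l - p' l| := Finset.sum_nonneg fun l _ => abs_nonneg _
    have h0 := abs_nonneg (h - h')
    constructor
    · linarith
    · rw [show (1 - Real.tanh h ^ 2) - (1 - Real.tanh h' ^ 2) =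
        (Real.tanh h' + Real.tanh h) * (Real.tanh h' - Real.tanh h) by ring, abs_mul,
        abs_sub_comm (Real.tanh h') (Real.tanh h)]
      refine (mul_le_mul (show |Real.tanh h' + Real.tanh h| ≤ 2 from ?_) hl (abs_nonneg _) (by norm_num)).trans
        (by linarith)
      exact (abs_add_le _ _).trans (by linarith [tanh_abs_lt h, tanh_abs_lt h'])

end Vale.Agent.P150.PA.QS
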