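import Vale.Agent.P150.PA.ChannelPre
import Vale.Agent.P150.PA.ChannelLeg
import Vale.Agent.P150.PA.AvgDir
import Vale.Agent.P150.PA.JointStat
import Vale.Agent.P150.PA.Centring
import Vale.Agent.P150.PA.QSmallTools

/-! Averages over the copies of the bound for one period: the restarted overlaps, the centring means,
the stationarity defects and the telescoped tilted overlaps. -/

open MeasureTheory

namespace Vale.Agent.P150.PA

open Ising

variable {n : ℕ}

/-- squared centring mean after `l` tilted attempts, the observation being `d` attempts after the origin -/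
noncomputable def etaT (J : Fin n → Fin n → ℝ) (t : ℝ) (u d l : ℕ) (x : Cfg n) : ℝ :=
  Kpow J 0 u (fun F => (∑ i, Kpow J 0 d (Centre.tmean J 0 t l i) F ^ 2) / n) x

/-- average over the end time, the length and the leg -/
noncomputable def av3 (T D Jn : ℕ) (F : ℕ → ℕ → ℕ → ℝ) : ℝ :=
  blockAvg T fun v => blockAvg D fun d => blockAvg Jn (F v d)

/-- the bound for one period, given the end time, the length and the leg, per site -/
noncomputable def evalBd (J : Fin n → Fin n → ℝ) (t : ℝ) (x : Cfg n) (τ₀ W hi lo N : ℕ)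
    (Γ Mb a b b' c K e θ s : ℝ) (v d j : ℕ) : ℝ :=
  a * Real.sqrt (qlag J 0 (v - d + τ₀) τ₀ x) + a * Real.sqrt (etaT J t (v - d) d (2 * j * W) x)
    + a * preDel J 0 x (v - d) d 3 Γ Mb N
    + b * (tiltLag J t v ((j - 1) * W) x - tiltLag J t v (j * W) x) + b' * legDefect J 3 v x hi
    + c * ((∑ l ∈ Finset.range hi, Real.sqrt (etaT J t (v - d) d l x)) / n)
    + K * Real.sqrt (tiltLag J t v lo x - tiltLag J t v hi x + 2 * legDefect J 3 v x hi)
    + e * Real.sqrt (θ + s * legDefect J 3 v x hi)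

namespace ChEval

variable {J : Fin n → Fin n → ℝ} {t L : ℝ} {T D Jn : ℕ} {F G : ℕ → ℕ → ℕ → ℝ}

lemma eta_eq (hn : 0 < n) (S : Sched) {l : ℕ} (hl : l ≤ S.R) (u : ℕ) (x : Cfg n) :
    legEta S J u x l = etaT J S.t u S.D l x := by
  simp [legEta, etaT, xsp, Centre.lex_spin hn S hl]

lemma etaT_nonneg (u d l : ℕ) (x : Cfg n) : 0 ≤ etaT J t u d l x :=
  Pair.Kpow_nonneg (fun _ => div_nonneg (Finset.sum_nonneg fun _ _ => sq_nonneg _) (Nat.cast_nonneg n)) u x

lemma av3_mono (h : ∀ v ∈ Finset.Ico T (2 * T), ∀ d ∈ Finset.Ico D (2 * D), ∀ j ∈ Finset.Ico Jn (2 * Jn),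
    F v d j ≤ G v d j) : av3 T D Jn F ≤ av3 T D Jn G :=
  BlockAvg.mono fun v hv => BlockAvg.mono fun d hd => BlockAvg.mono fun j hj => h v hv d hd j hj

lemma av3_nonneg (h : ∀ v d j, 0 ≤ F v d j) : 0 ≤ av3 T D Jn F :=
  BlockAvg.nonneg fun v _ => BlockAvg.nonneg fun d _ => BlockAvg.nonneg fun j _ => h v d j

lemma av3_add : av3 T D Jn (fun v d j => F v d j + G v d j) = av3 T D Jn F + av3 T D Jn G := by
  simp only [av3, BlockAvg.add]

lemma av3_smul (c : ℝ) : av3 T D Jn (fun v d j => c * F v d j) = c * av3 T D Jn F := by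
  simp only [av3, BlockAvg.smul]

lemma av3_sum {ι : Type*} (s : Finset ι) (F : ι → ℕ → ℕ → ℕ → ℝ) :
    av3 T D Jn (fun v d j => ∑ a ∈ s, F a v d j) = ∑ a ∈ s, av3 T D Jn (F a) := by
  simp only [av3, BlockAvg.sum]

lemma av3_const (hT : 0 < T) (hD : 0 < D) (hJ : 0 < Jn) (c : ℝ) : av3 T D Jn (fun _ _ _ => c) = c := by
  simp only [av3, BlockAvg.const hJ, BlockAvg.const hD, BlockAvg.const hT]

lemma av3_end (hD : 0 < D) (hJ : 0 < Jn) (f : ℕ → ℝ) : av3 T D Jn (fun v _ _ => f v) = blockAvg T f := by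
  simp only [av3, BlockAvg.const hJ, BlockAvg.const hD]

lemma av3_len (hJ : 0 < Jn) (f : ℕ → ℕ → ℝ) :
    av3 T D Jn (fun v d _ => f v d) = blockAvg T fun v => blockAvg D (f v) := by
  simp only [av3, BlockAvg.const hJ]

lemma av3_leg : av3 T D Jn F = blockAvg Jn fun j => blockAvg T fun v => blockAvg D fun d => F v d j := by
  rw [av3, BlockAvg.ext fun v _ => BlockAvg.comm (W := D) Jn (F v), BlockAvg.comm]

lemma av3_sqrt_le (h : ∀ v ∈ Finset.Ico T (2 * T), ∀ d ∈ Finset.Ico D (2 * D),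
    ∀ j ∈ Finset.Ico Jn (2 * Jn), 0 ≤ F v d j) :
    av3 T D Jn (fun v d j => Real.sqrt (F v d j)) ≤ Real.sqrt (av3 T D Jn F) := by
  refine le_trans (BlockAvg.mono fun v hv => le_trans
    (BlockAvg.mono fun d hd => BlockAvg.sqrt_le (h v hv d hd))
    (BlockAvg.sqrt_le fun d hd => BlockAvg.nonneg (h v hv d hd))) ?_
  exact BlockAvg.sqrt_le fun v hv => BlockAvg.nonneg fun d hd => BlockAvg.nonneg (h v hv d hd)

lemma legDefect_nonneg (v : ℕ) (x : Cfg n) (hi : ℕ) : 0 ≤ legDefect J L v x hi :=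
  add_nonneg (mul_nonneg (by positivity) (corErr_nonneg _)) (by positivity)

/-- up to the defect of the leg the tilted overlap decreases -/
lemma tilt_mono (hJ : Tame J L) (hn : 0 < n) (ht : 0 ≤ t) {a c hi : ℕ} (hac : a ≤ c) (hc : c ≤ hi)
    (v : ℕ) (x : Cfg n) :
    0 ≤ tiltLag J t v a x - tiltLag J t v c x + legDefect J L v x hi := by
  have h := tiltLag_anti (v := v) (x := x) hJ hn ht hac
  have h1 : ((c : ℝ) - a) * vErr J L v x (2 * c) ≤ 12 * hi * vErr J L v x (4 * hi) := by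
    refine mul_le_mul ?_ (corErr_mono (by omega)) (corErr_nonneg _) (by positivity)
    linarith [(Nat.cast_nonneg a : (0 : ℝ) ≤ a), (Nat.cast_le.2 hc : (c : ℝ) ≤ hi),
      (Nat.cast_nonneg hi : (0 : ℝ) ≤ hi)]
  have h2 : (0 : ℝ) ≤ 8 / n := by positivity
  unfold legDefect
  linarith

/-- the centring means, averaged over the end time and the length -/
lemma eta_le (hJ : Tame J L) (hn : 0 < n) (ht : 0 ≤ t) (hD : 0 < D) (hT : 2 * D ≤ T) {τ₀ : ℕ}
    (hτ : τ₀ ≤ D) (l : ℕ) (x : Cfg n) :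
    blockAvg T (fun v => blockAvg D fun d => etaT J t (v - d) d l x) ≤
      blockAvg T (fun v => qlag J 0 v τ₀ x) +
        8 * l / n * Real.sqrt ((1 + gradC L / n) ^ l) *
          Real.sqrt (2 * n * centC (0 : Fin n → ℝ) L / D) := by
  have h := centring (b := (0 : Fin n → ℝ)) hJ hn ht 1 l 0 le_rfl hD hT x
  refine le_trans (b := blockAvg T (fun v => blockAvg D fun d => qlag J 0 v τ₀ x +
    |etaT J t (v - d) d l x - qlag J 0 v d x|)) (BlockAvg.mono fun v hv => BlockAvg.mono fun d hd => ?_) ?_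
  · simp only [Finset.mem_Ico] at hv hd
    have h1 := QS.qlag_anti (J := J) (b := 0) hn (show τ₀ ≤ d by omega) (show d ≤ v by omega) x
    linarith [le_abs_self (etaT J t (v - d) d l x - qlag J 0 v d x)]
  · simp only [BlockAvg.add, BlockAvg.const hD]
    refine add_le_add le_rfl (le_trans (le_of_eq ?_) h)
    simp only [Centre.lex_spin hn ⟨1, _, l, 0, t⟩ (le_refl l), etaT]

/-- the restarted overlaps -/
lemma restart_le (hn : 0 < n) (hD : 0 < D) (τ₀ : ℕ) (x : Cfg n) :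
    blockAvg T (fun v => blockAvg D fun d => qlag J 0 (v - d + τ₀) τ₀ x) ≤
      blockAvg T (fun v => qlag J 0 v τ₀ x) + 2 * (2 * D + τ₀) / T := by
  rw [BlockAvg.comm]
  refine (BlockAvg.mono fun d hd => ?_).trans_eq (BlockAvg.const hD _)
  have hA : ∀ v, |qlag J 0 v τ₀ x| ≤ 1 := fun v => QS.abs_qlag_le hn v τ₀ x
  have h1 := abs_le.1 (BlockAvg.unshift_le (W := T) (f := fun v => qlag J 0 (v + τ₀) τ₀ x) (fun v => hA _) d)
  have h2 := abs_le.1 (BlockAvg.shift_le (W := T) (f := fun v => qlag J 0 v τ₀ x) hA τ₀)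
  have h3 : 2 * (d : ℝ) * 1 / T + 2 * (τ₀ : ℝ) * 1 / T ≤ 2 * (2 * D + τ₀) / T := by
    rw [← add_div]
    refine div_le_div_of_nonneg_right ?_ (Nat.cast_nonneg T)
    have : (d : ℝ) ≤ 2 * D := by exact_mod_cast (Finset.mem_Ico.1 hd).2.le
    linarith
  linarith [h1.2, h2.2]

/-- the defects before the observation, averaged over the end time -/
lemma preErr_le (hJ : Tame J L) (hn : 0 < n) {d : ℕ} (hd : d ≤ T) {Γ M Cp : ℝ}
    (hCp : (1 + gradC L / n) ^ (2 * d + 2) * Γ ^ 2 * M ≤ Cp) (hM : 0 ≤ M) (x : Cfg n) :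
    blockAvg T (fun v => preErr J 0 x (v - d) d L Γ M) ≤
      2 * (d + 1) * (24 * Cp * Real.sqrt ((Real.log 2 + L) * n / T)) := by
  have hb : (0 : ℝ) ≤ (1 + gradC L / n) ^ (2 * d + 2) := pow_nonneg (zero_le_one.trans Corr.one_le_base) _
  have hC0 : 0 ≤ Cp := le_trans (by positivity) hCp
  have hstep : ∀ w, blockAvg T (fun v => preStep J 0 x (v - d) d L Γ M w) ≤
      24 * Cp * Real.sqrt ((Real.log 2 + L) * n / T) := fun w => by
    have e : ∀ v, preStep J 0 x (v - d) d L Γ M w =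
        24 * ((1 + gradC L / n) ^ (2 * d + 2) * Γ ^ 2 * M) * eAt J 0 (v - d + w) x := fun v => by
      rw [preStep, eAt, lawDens, mul_assoc, Real.sqrt_div_self', one_div_mul_eq_div]
    have hav : blockAvg T (fun v => eAt J (0 : Fin n → ℝ) (v - d + w) x) ≤
        Real.sqrt ((Real.log 2 + L) * n / T) := by
      refine (AvgDir.avg_comp hJ.symm hJ.diag hJ.op hn x (φ := fun v => v - d + w)
        fun u hu v hv h => ?_).trans_eq (by simp)
      simp only [Finset.coe_Ico, Set.mem_Ico] at hu hv h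
      omega
    simp only [e, BlockAvg.smul]
    exact mul_le_mul (by linarith) hav
      (BlockAvg.nonneg fun v _ => AvgDir.eAt_nonneg _ _) (mul_nonneg (by norm_num) hC0)
  simp only [preErr, BlockAvg.add, BlockAvg.smul, BlockAvg.sum]
  refine (add_le_add (mul_le_mul_of_nonneg_left (hstep 0) (by positivity))
    (Finset.sum_le_card_nsmul _ _ _ fun w _ => hstep w)).trans_eq ?_
  rw [Finset.card_range, nsmul_eq_mul]; push_cast; ring

lemma err0 {Γ M : ℝ} {u d : ℕ} {x : Cfg n} (hM : 0 ≤ M) : 0 ≤ preErr J 0 x u d L Γ M := by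
  have hs : ∀ w, 0 ≤ preStep J 0 x u d L Γ M w := fun w => by
    have hb : (0 : ℝ) ≤ (1 + gradC L / n) ^ (2 * d + 2) :=
      pow_nonneg (zero_le_one.trans Corr.one_le_base) _
    unfold preStep
    positivity
  exact add_nonneg (mul_nonneg (by positivity) (hs 0)) (Finset.sum_nonneg fun w _ => hs w)

/-- the small terms before the observation -/
lemma preDel_le (hJ : Tame J 3) (hn : 0 < n) (hD : 0 < D) (hT : 2 * D ≤ T) (hJn : 0 < Jn) {N : ℕ}
    {Γ M Cp Dc η : ℝ} (hΓM : 0 ≤ M) (hη : 0 ≤ η) (hη1 : η ≤ 1)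
    (hCp : (1 + gradC 3 / n) ^ (4 * D) * Γ ^ 2 * M ≤ Cp) (hDc : 2 * (D : ℝ) / n ≤ Dc)
    (hE : 96 * (Dc * Cp) * Real.sqrt ((Real.log 2 + 3) * n / T) ≤ η)
    (hNE : N * (96 * (Dc * Cp) * Real.sqrt ((Real.log 2 + 3) * n / T)) ≤ η)
    (hN : Dc ^ 2 / N ≤ η) (hsm : (Dc + N + 1) / n ≤ η) (x : Cfg n) :
    av3 T D Jn (fun v d _ => preDel J 0 x (v - d) d 3 Γ M N) ≤ 4 * Real.sqrt η := by
  have hn' : (0 : ℝ) < n := Nat.cast_pos.2 hn
  have hD' : (1 : ℝ) ≤ D := by exact_mod_cast hD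
  have hT0 : 0 < T := by omega
  set P := fun v d => (Real.sqrt n)⁻¹ ^ 2 * preErr J 0 x (v - d) d 3 Γ M with hP
  have eP : ∀ v d, preErr J 0 x (v - d) d 3 Γ M / n = P v d := fun v d => by
    simp only [hP, inv_pow, Real.sq_sqrt hn'.le]; ring
  have hPη : av3 T D Jn (fun v d _ => P v d) ≤ 96 * (Dc * Cp) * Real.sqrt ((Real.log 2 + 3) * n / T) := by
    have hC0 : 0 ≤ Cp := le_trans (mul_nonneg (mul_nonneg
      (pow_nonneg (zero_le_one.trans Corr.one_le_base) _) (sq_nonneg Γ)) hΓM) hCp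
    rw [av3_len hJn, BlockAvg.comm]
    refine (BlockAvg.mono fun d hd => ?_).trans_eq (BlockAvg.const hD _)
    simp only [Finset.mem_Ico] at hd
    have hpow : (1 + gradC 3 / (n : ℝ)) ^ (2 * d + 2) * Γ ^ 2 * M ≤ Cp :=
      le_trans (mul_le_mul_of_nonneg_right (mul_le_mul_of_nonneg_right
        (pow_le_pow_right₀ Corr.one_le_base (by omega)) (sq_nonneg Γ)) hΓM) hCp
    have h := preErr_le (T := T) hJ hn (show d ≤ T by omega) hpow hΓM x
    simp only [hP, BlockAvg.smul]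
    refine (mul_le_mul_of_nonneg_left h (by positivity)).trans ?_
    rw [inv_pow, Real.sq_sqrt hn'.le]
    have hd1 : ((n : ℝ))⁻¹ * (2 * (d + 1)) ≤ 4 * Dc := by
      refine le_trans ?_ (mul_le_mul_of_nonneg_left hDc (by norm_num : (0 : ℝ) ≤ 4))
      rw [inv_mul_eq_div, ← mul_div_assoc]
      refine div_le_div_of_nonneg_right ?_ hn'.le
      have : (d : ℝ) ≤ 2 * D := by exact_mod_cast hd.2.le
      linarith
    rw [← mul_assoc]
    refine (mul_le_mul_of_nonneg_right hd1 (by positivity)).trans_eq ?_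
    ring
  have hP0 : ∀ v d, 0 ≤ P v d := fun v d =>
    mul_nonneg (sq_nonneg _) (err0 hΓM)
  have hpt : av3 T D Jn (fun v d _ => preDel J 0 x (v - d) d 3 Γ M N) ≤
      av3 T D Jn (fun v d _ => Real.sqrt (P v d) + N * P v d + (Dc ^ 2 / N + (Dc + N + 1) / n)) := by
    refine av3_mono fun v _ d hd _ _ => ?_
    simp only [Finset.mem_Ico] at hd
    have hd1 : (d : ℝ) / n ≤ Dc := le_trans (div_le_div_of_nonneg_right (by exact_mod_cast hd.2.le) hn'.le) hDc
    rw [preDel, eP, mul_div_assoc (N : ℝ), eP, add_assoc]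
    refine add_le_add le_rfl (add_le_add (div_le_div_of_nonneg_right
      (pow_le_pow_left₀ (div_nonneg (Nat.cast_nonneg _) hn'.le) hd1 2) (Nat.cast_nonneg _)) ?_)
    exact div_le_div_of_nonneg_right (by linarith) hn'.le
  refine hpt.trans ?_
  rw [av3_add, av3_const hT0 hD hJn, av3_add, av3_smul]
  have h1 := (av3_sqrt_le (T := T) (D := D) (Jn := Jn) fun v _ d _ _ _ => hP0 v d).trans
    (Real.sqrt_le_sqrt (hPη.trans hE))
  have h2 := (mul_le_mul_of_nonneg_left hPη (Nat.cast_nonneg N)).trans hNE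
  have h3 : η ≤ Real.sqrt η := by
    refine Real.le_sqrt_of_sq_le ?_
    rw [sq]; exact mul_le_of_le_one_left hη hη1
  linarith

/-- the average of the bound for one period -/
theorem av_bd (hJ : Tame J 3) (hn : 0 < n) (ht : 0 ≤ t) (hD : 0 < D) (hT : 2 * D ≤ T) (hJn : 0 < Jn)
    {τ₀ W hi lo N : ℕ} (hτ : τ₀ ≤ D) (hW : 4 * Jn * W ≤ hi) (hlo : lo ≤ hi)
    {Γ Mb a b b' c K e θ s η CH : ℝ} (ha : 0 ≤ a) (hb : 0 ≤ b) (hb' : 0 ≤ b') (hc : 0 ≤ c) (hK : 0 ≤ K) (he : 0 ≤ e)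
    (hθ : 0 ≤ θ) (hs : 0 ≤ s) (hη : 0 ≤ η) (hη1 : η ≤ 1) (hCH : (hi : ℝ) / n ≤ CH) (x : Cfg n)
    (hq : blockAvg T (fun v => qlag J 0 v τ₀ x) ≤ η) (hsh : 2 * (2 * (D : ℝ) + τ₀) / T ≤ η)
    (hcen : 8 * (hi : ℝ) / n * Real.sqrt ((1 + gradC 3 / n) ^ hi) *
      Real.sqrt (2 * n * centC (0 : Fin n → ℝ) 3 / D) ≤ η)
    (hpre : av3 T D Jn (fun v d _ => preDel J 0 x (v - d) d 3 Γ Mb N) ≤ 4 * Real.sqrt η)
    (hδ : blockAvg T (fun v => legDefect J 3 v x hi) ≤ η)
    (hsδ : θ + s * blockAvg T (fun v => legDefect J 3 v x hi) ≤ 3 * η) :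
    av3 T D Jn (evalBd J t x τ₀ W hi lo N Γ Mb a b b' c K e θ s) ≤
      b / Jn + K * Real.sqrt (max 0 (blockAvg T fun v => tiltLag J t v lo x - tiltLag J t v hi x)) +
        (8 * a + b' + 2 * (c * CH) + 2 * K + 2 * e) * Real.sqrt η := by
  have hT0 : 0 < T := by omega
  have r2 : Real.sqrt (2 * η) ≤ 2 * Real.sqrt η := by
    rw [Real.sqrt_mul (by norm_num)]
    exact mul_le_mul_of_nonneg_right ((Real.sqrt_le_left (by norm_num)).2 (by norm_num)) (Real.sqrt_nonneg _)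
  have r3 : Real.sqrt (3 * η) ≤ 2 * Real.sqrt η := by
    rw [Real.sqrt_mul (by norm_num)]
    exact mul_le_mul_of_nonneg_right ((Real.sqrt_le_left (by norm_num)).2 (by norm_num)) (Real.sqrt_nonneg _)
  have hη' : η ≤ Real.sqrt η := Real.le_sqrt_of_sq_le (by rw [sq]; exact mul_le_of_le_one_left hη hη1)
  have heta : ∀ l ≤ hi, blockAvg T (fun v => blockAvg D fun d => etaT J t (v - d) d l x) ≤ 2 * η := by
    intro l hl
    refine (eta_le hJ hn ht hD hT hτ l x).trans ?_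
    have hl' : 8 * (l : ℝ) / n ≤ 8 * (hi : ℝ) / n :=
      div_le_div_of_nonneg_right (by exact_mod_cast Nat.mul_le_mul_left 8 hl) (Nat.cast_nonneg n)
    have h1 := mul_le_mul hl' (Real.sqrt_le_sqrt (pow_le_pow_right₀ (Corr.one_le_base (n := n) (L := 3)) hl))
      (Real.sqrt_nonneg _) (by positivity)
    linarith [mul_le_mul_of_nonneg_right h1 (Real.sqrt_nonneg (2 * n * centC (0 : Fin n → ℝ) 3 / D))]
  unfold evalBd
  simp only [av3_add, av3_smul]
  have b1 : av3 T D Jn (fun v d _ => Real.sqrt (qlag J 0 (v - d + τ₀) τ₀ x)) ≤ 2 * Real.sqrt η := by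
    refine (av3_sqrt_le fun v _ d _ j _ => QS.qlag_nonneg hn _ _ x).trans ((Real.sqrt_le_sqrt ?_).trans r2)
    rw [av3_len hJn]
    linarith [restart_le (J := J) (T := T) hn hD τ₀ x]
  have b2 : av3 T D Jn (fun v d j => Real.sqrt (etaT J t (v - d) d (2 * j * W) x)) ≤ 2 * Real.sqrt η := by
    refine (av3_sqrt_le fun v _ d _ j _ => etaT_nonneg _ _ _ x).trans ((Real.sqrt_le_sqrt ?_).trans r2)
    rw [av3_leg]
    refine (BlockAvg.mono fun j hj => heta _ (le_trans ?_ hW)).trans_eq (BlockAvg.const hJn _)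
    exact Nat.mul_le_mul_right _ (by have := (Finset.mem_Ico.1 hj).2; omega)
  have b4 : av3 T D Jn (fun v _ j => tiltLag J t v ((j - 1) * W) x - tiltLag J t v (j * W) x) ≤ 1 / Jn := by
    refine (BlockAvg.mono fun v _ => BlockAvg.mono fun d _ => ?_).trans_eq
      ((BlockAvg.ext fun v _ => BlockAvg.const hD _).trans (BlockAvg.const hT0 _))
    exact chan_tele (T := fun a => tiltLag J t v a x) (fun a => ChanLeg.lag_mem hn a) Jn W
  have b5 : av3 T D Jn (fun v _ _ => legDefect J 3 v x hi) ≤ η := (av3_end hD hJn _).trans_le hδ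
  have b6 : av3 T D Jn (fun v d _ =>
      (∑ l ∈ Finset.range hi, Real.sqrt (etaT J t (v - d) d l x)) / (n : ℝ)) ≤ CH * (2 * Real.sqrt η) := by
    simp only [div_eq_inv_mul, av3_smul, av3_sum]
    refine (mul_le_mul_of_nonneg_left (Finset.sum_le_card_nsmul _ _ (2 * Real.sqrt η) fun l hl => ?_)
      (inv_nonneg.2 (Nat.cast_nonneg n))).trans ?_
    · refine (av3_sqrt_le fun v _ d _ j _ => etaT_nonneg _ _ _ x).trans ((Real.sqrt_le_sqrt ?_).trans r2)
      rw [av3_len hJn]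
      exact heta l (Finset.mem_range.1 hl).le
    · rw [Finset.card_range, nsmul_eq_mul, ← mul_assoc, inv_mul_eq_div]
      exact mul_le_mul_of_nonneg_right hCH (by positivity)
  have b7 : av3 T D Jn (fun v _ _ =>
      Real.sqrt (tiltLag J t v lo x - tiltLag J t v hi x + 2 * legDefect J 3 v x hi)) ≤
      Real.sqrt (max 0 (blockAvg T fun v => tiltLag J t v lo x - tiltLag J t v hi x)) + 2 * Real.sqrt η := by
    have h0 : ∀ v, 0 ≤ tiltLag J t v lo x - tiltLag J t v hi x + 2 * legDefect J 3 v x hi := fun v => by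
      linarith [tilt_mono hJ hn ht hlo le_rfl v x, legDefect_nonneg (J := J) (L := 3) v x hi]
    refine (av3_sqrt_le fun v _ d _ j _ => h0 v).trans ?_
    rw [av3_end hD hJn, BlockAvg.add, BlockAvg.smul]
    refine le_trans (Real.sqrt_le_sqrt (add_le_add (le_max_right 0 _) (mul_le_mul_of_nonneg_left hδ two_pos.le))) ?_
    refine le_trans ?_ (add_le_add le_rfl r2)
    rw [Real.sqrt_le_left (by positivity), add_sq, Real.sq_sqrt (le_max_left _ _), Real.sq_sqrt (by positivity)]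
    linarith [(by positivity : (0 : ℝ) ≤ 2 * Real.sqrt (max 0 (blockAvg T fun v =>
      tiltLag J t v lo x - tiltLag J t v hi x)) * Real.sqrt (2 * η))]
  have b8 : av3 T D Jn (fun v _ _ => Real.sqrt (θ + s * legDefect J 3 v x hi)) ≤ 2 * Real.sqrt η := by
    refine (av3_sqrt_le fun v _ d _ j _ => add_nonneg hθ (mul_nonneg hs (legDefect_nonneg v x hi))).trans
      ((Real.sqrt_le_sqrt ?_).trans r3)
    rw [av3_end hD hJn, BlockAvg.add, BlockAvg.smul, BlockAvg.const hT0]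
    exact hsδ
  have e1 : b * (1 / (Jn : ℝ)) = b / Jn := mul_one_div _ _
  linarith [mul_le_mul_of_nonneg_left b1 ha, mul_le_mul_of_nonneg_left b2 ha,
    mul_le_mul_of_nonneg_left hpre ha, mul_le_mul_of_nonneg_left b4 hb,
    mul_le_mul_of_nonneg_left (b5.trans hη') hb', mul_le_mul_of_nonneg_left b6 hc,
    mul_le_mul_of_nonneg_left b7 hK, mul_le_mul_of_nonneg_left b8 he]

end ChEval

end Vale.Agent.P150.PA
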