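import Vale.Agent.P150.PA.Defs
import Vale.Agent.P150.GaussCalc

/-! The branching experiment of Part A. Along the main path from a configuration, each of the `P`
periods runs two independent copies from its starting configuration: `D` attempts in the field `b`,
then a Gaussian observation of the configuration reached and `R` attempts of the tilted chain. The
first copy continues the main path. -/

open MeasureTheory

namespace Vale.Agent.P150.PA

open Ising

variable {n : ℕ}

/-- sizes and channel strength of the experiment -/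
structure Sched where
  /-- number of periods -/
  P : ℕ
  /-- attempts before the observation -/
  D : ℕ
  /-- attempts after the observation -/
  R : ℕ
  /-- the attempt after the observation at which the test is evaluated -/
  r : ℕ
  /-- channel strength -/
  t : ℝ

variable (S : Sched)

/-- one copy: the untilted and the tilted attempts -/
abbrev Leg (n : ℕ) := Path n S.D × Path n S.R

/-- the discrete outcome: per period and per copy (`true` is the one on the main path) -/
abbrev Out (n : ℕ) := Fin S.P → Bool → Leg S n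

/-- the Gaussian noise per period and copy -/
abbrev Noise (n : ℕ) := Fin S.P × Bool × Fin n → ℝ

/-- observation of `x` at strength `t` with noise `z` -/
noncomputable def obsField (t : ℝ) (x : Cfg n) (z : Fin n → ℝ) (i : Fin n) : ℝ :=
  t * spin (x i) + Real.sqrt t * z i

/-- starting configuration of the period `p` -/
def origin (x : Cfg n) (ω : Out S n) : ℕ → Cfg n
  | 0 => x
  | p + 1 => if h : p < S.P then st (origin x ω p) (ω ⟨p, h⟩ true).1 S.D else origin x ω p

/-- the configuration observed by the copy `(p, c)` -/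
def mid (x : Cfg n) (ω : Out S n) (p : Fin S.P) (c : Bool) : Cfg n := st (origin S x ω p) (ω p c).1 S.D

/-- the noise of the copy `(p, c)` -/
def noise (z : Noise S n) (p : Fin S.P) (c : Bool) : Fin n → ℝ := fun i => z (p, c, i)

/-- the field of the tilted attempts of the copy `(p, c)` -/
noncomputable def tfield (b : Fin n → ℝ) (x : Cfg n) (ω : Out S n) (z : Noise S n) (p : Fin S.P) (c : Bool) :
    Fin n → ℝ :=
  fun i => b i + obsField S.t (mid S x ω p c) (noise S z p c) i

/-- the configuration of the copy `(p, c)` after `k` tilted attempts -/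
def leaf (x : Cfg n) (ω : Out S n) (p : Fin S.P) (c : Bool) (k : ℕ) : Cfg n := st (mid S x ω p c) (ω p c).2 k

/-- probability of the outcome given the noise -/
noncomputable def tw' (J : Fin n → Fin n → ℝ) (b : Fin n → ℝ) (x : Cfg n) (z : Noise S n) (ω : Out S n) : ℝ :=
  ∏ p : Fin S.P, ∏ c : Bool,
    pw J b (origin S x ω p) (ω p c).1 * pw J (tfield S b x ω z p c) (mid S x ω p c) (ω p c).2

/-- expectation over the experiment -/
noncomputable def tex (J : Fin n → Fin n → ℝ) (b : Fin n → ℝ) (x : Cfg n) (F : Noise S n → Out S n → ℝ) : ℝ :=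
  ∫ z, ∑ ω, tw' S J b x z ω * F z ω ∂gauss (Fin S.P × Bool × Fin n)

/-- a per-site test of the local field, the noise and the observed spin, with its derivative in the field -/
structure Test (n : ℕ) where
  /-- the test -/
  fn : Fin n → ℝ → ℝ → Bool → ℝ
  /-- its derivative in the field -/
  dfn : Fin n → ℝ → ℝ → Bool → ℝ
  hasDeriv : ∀ i h u c, HasDerivAt (fun s => fn i s u c) (dfn i h u c) h

/-- bounded test with bounded, Lipschitz derivative -/
structure Test.Bdd (φ : Test n) (M : ℝ) : Prop where
  fn_le : ∀ i h u c, |φ.fn i h u c| ≤ M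
  dfn_le : ∀ i h u c, |φ.dfn i h u c| ≤ M
  dfn_lip : ∀ i h h' u c, |φ.dfn i h u c - φ.dfn i h' u c| ≤ M * |h - h'|
  noise_lip : ∀ i h u u' c, |φ.fn i h u c - φ.fn i h u' c| ≤ M * |u - u'|
  cont : ∀ i c, Continuous (fun s : ℝ × ℝ => φ.fn i s.1 s.2 c) ∧ Continuous (fun s : ℝ × ℝ => φ.dfn i s.1 s.2 c)

variable (J : Fin n → Fin n → ℝ) (φ : Test n) (x : Cfg n) (z : Noise S n) (ω : Out S n)

/-- the test at the copy `(p, c)` -/
noncomputable def val (p : Fin S.P) (c : Bool) (i : Fin n) : ℝ :=
  φ.fn i (fld J 0 i (leaf S x ω p c S.r)) (noise S z p c i) (mid S x ω p c i)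

/-- derivative of the test at the copy `(p, c)` -/
noncomputable def dval (p : Fin S.P) (c : Bool) (i : Fin n) : ℝ :=
  φ.dfn i (fld J 0 i (leaf S x ω p c S.r)) (noise S z p c i) (mid S x ω p c i)

/-- the centred test -/
noncomputable def dpsi (p : Fin S.P) (i : Fin n) : ℝ := val S J φ x z ω p true i - val S J φ x z ω p false i

/-- the centred spin at the end -/
def dspin (p : Fin S.P) (i : Fin n) : ℝ :=
  spin (leaf S x ω p true S.R i) - spin (leaf S x ω p false S.R i)

/-- the shift direction of the couplings, up to the factor `σ²` -/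
noncomputable def shiftDir (i k : Fin n) : ℝ :=
  if i = k then 0 else ∑ p, (dpsi S J φ x z ω p i * dspin S x ω p k + dpsi S J φ x z ω p k * dspin S x ω p i)

/-- the shift of the disorder, for couplings `σ g` -/
noncomputable def dirEdge (σ : ℝ) (e : Edge n) : ℝ := σ * shiftDir S J φ x z ω e.1.1 e.1.2

/-- linear part of the change of the log-likelihood of one segment under `J ↦ J + σ² shiftDir` -/
noncomputable def segScore {N : ℕ} (b : Fin n → ℝ) (W : Fin n → Fin n → ℝ) (y : Cfg n) (q : Path n N) : ℝ :=
  ∑ k : Fin N, inc J b (st y q k) (q k) (q k).1 * fld W 0 (q k).1 (st y q k)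

/-- quadratic part of one segment -/
noncomputable def segQuad {N : ℕ} (W : Fin n → Fin n → ℝ) (y : Cfg n) (q : Path n N) : ℝ :=
  (∑ k : Fin N, fld W 0 (q k).1 (st y q k) ^ 2) / 2

/-- score of the experiment in the direction `W` -/
noncomputable def score (b : Fin n → ℝ) (W : Fin n → Fin n → ℝ) : ℝ :=
  ∑ p : Fin S.P, ∑ c : Bool, (segScore J b W (origin S x ω p) (ω p c).1 +
    segScore J (tfield S b x ω z p c) W (mid S x ω p c) (ω p c).2)

/-- quadratic part of the experiment -/
noncomputable def quad (W : Fin n → Fin n → ℝ) : ℝ :=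
  ∑ p : Fin S.P, ∑ c : Bool, (segQuad W (origin S x ω p) (ω p c).1 + segQuad W (mid S x ω p c) (ω p c).2)

/-- the trace of the derivative of `dirEdge` in the disorder, divided by `σ²` -/
noncomputable def divDir : ℝ :=
  ∑ p : Fin S.P, ∑ i, ∑ k ∈ Finset.univ.erase i,
    (dval S J φ x z ω p true i * spin (leaf S x ω p true S.r k)
      - dval S J φ x z ω p false i * spin (leaf S x ω p false S.r k)) * dspin S x ω p k

/-- the linear functional `Λ` for couplings `J = σ g` -/
noncomputable def lam (b : Fin n → ℝ) (σ : ℝ) : ℝ :=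
  -(∑ p : Fin S.P, ∑ i, dpsi S J φ x z ω p i *
      ((fld J 0 i (leaf S x ω p true S.R)) - fld J 0 i (leaf S x ω p false S.R)))
    + σ ^ 2 * divDir S J φ x z ω
    + σ ^ 2 * score S J x z ω b (shiftDir S J φ x z ω)

/-- the outcomes on which the centred spins of distinct periods are nearly orthogonal -/
def Orth : Prop :=
  ∀ p q : Fin S.P, p ≠ q → |∑ i, dspin S x ω p i * dspin S x ω q i| ≤ n / S.P

/-- one copy with its noise -/
abbrev Copy (n : ℕ) := (Fin n → ℝ) × Leg S n

/-- the copy `(p, c)` of an outcome -/
def copy (p : Fin S.P) (c : Bool) : Copy S n := (noise S z p c, ω p c)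

/-- expectation over one copy from `F` -/
noncomputable def lex (b : Fin n → ℝ) (F : Cfg n) (X : Copy S n → ℝ) : ℝ :=
  ∫ u, ∑ l : Leg S n, pw J b F l.1 * pw J (fun i => b i + obsField S.t (st F l.1 S.D) u i) (st F l.1 S.D) l.2
    * X (u, l) ∂gauss (Fin n)

/-- expectation over two independent copies from `F` -/
noncomputable def lex2 (b : Fin n → ℝ) (F : Cfg n) (X : Copy S n → Copy S n → ℝ) : ℝ :=
  lex S J b F fun a => lex S J b F fun a' => X a a'

/-- the configuration of a copy after `k` of all its `D + R` attempts -/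
def cpos (F : Cfg n) (a : Copy S n) (k : ℕ) : Cfg n :=
  if k ≤ S.D then st F a.2.1 k else st (st F a.2.1 S.D) a.2.2 (k - S.D)

/-- the martingale increment of the attempt `k` of a copy, at its own site -/
noncomputable def cinc (b : Fin n → ℝ) (F : Cfg n) (a : Copy S n) (k : Fin (S.D + S.R)) (i : Fin n) : ℝ :=
  if h : (k : ℕ) < S.D then inc J b (st F a.2.1 k) (a.2.1 ⟨k, h⟩) i
  else inc J (fun j => b j + obsField S.t (st F a.2.1 S.D) a.1 j) (st (st F a.2.1 S.D) a.2.2 (k - S.D))
    (a.2.2 ⟨(k : ℕ) - S.D, by have := k.2; omega⟩) i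

/-- the test of a copy -/
noncomputable def cval (F : Cfg n) (a : Copy S n) (i : Fin n) : ℝ :=
  φ.fn i (fld J 0 i (cpos S F a (S.D + S.r))) (a.1 i) (st F a.2.1 S.D i)

/-- the derivative of the test of a copy -/
noncomputable def cdval (F : Cfg n) (a : Copy S n) (i : Fin n) : ℝ :=
  φ.dfn i (fld J 0 i (cpos S F a (S.D + S.r))) (a.1 i) (st F a.2.1 S.D i)

/-- the value of one period from `F`: the mean of `Λ` with overlaps replaced by their means -/
noncomputable def periodValue (b : Fin n → ℝ) (β : ℝ) (F : Cfg n) : ℝ :=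
  let E := lex S J b F
  let xs := fun (k : ℕ) (a : Copy S n) (i : Fin n) => spin (cpos S F a k i)
  2 * (-(∑ i, (E (fun a => cval S J φ F a i * fld J 0 i (cpos S F a (S.D + S.R)))
          - E (fun a => cval S J φ F a i) * E (fun a => fld J 0 i (cpos S F a (S.D + S.R)))))
    + β ^ 2 / n * (∑ i, E (fun a => cdval S J φ F a i))
        * (∑ i, (E (fun a => xs (S.D + S.r) a i * xs (S.D + S.R) a i)
          - E (fun a => xs (S.D + S.r) a i) * E (fun a => xs (S.D + S.R) a i)))
    + β ^ 2 / n * ∑ k : Fin (S.D + S.R),
        ((∑ i, E (fun a => cval S J φ F a i * cinc S J b F a k i))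
            * (∑ i, (E (fun a => xs k a i * xs (S.D + S.R) a i) - E (fun a => xs k a i) * E (fun a => xs (S.D + S.R) a i)))
          + (∑ i, E (fun a => xs (S.D + S.R) a i * cinc S J b F a k i))
            * (∑ i, (E (fun a => cval S J φ F a i * xs k a i) - E (fun a => cval S J φ F a i) * E (fun a => xs k a i)))))

end Vale.Agent.P150.PA
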