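import Vale.Agent.P150.PA.Corr
import Vale.Agent.P150.PA.Path
import Vale.Agent.P150.PA.Tree
import Vale.Agent.P150.Fast.PoincareC1
import Vale.Agent.P150.Fast.Channel

/-! Tools for the variance under one copy: vector fields with a gradient bound, two-time variances,
dependence of the tilted chain on its field, and averages over the observation noise. -/

namespace Vale.Agent.P150.PA.LegVar

open Ising MeasureTheory

variable {n : ℕ} {J : Fin n → Fin n → ℝ} {L τ : ℝ}

/-- growth of a squared gradient over `τ n` attempts -/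
noncomputable def G (L τ : ℝ) : ℝ := Real.exp (gradC L * τ)

lemma G_pos : 0 < G L τ := Real.exp_pos _

lemma one_le_G (hτ : 0 ≤ τ) : 1 ≤ G L τ := Real.one_le_exp (mul_nonneg (gradC_nonneg L) hτ)

lemma pow_le_G {m : ℕ} (hn : 0 < n) (hm : (m : ℝ) ≤ τ * n) :
    (1 + gradC L / n) ^ m ≤ G L τ := by
  have hn' : (0 : ℝ) < n := Nat.cast_pos.2 hn
  have hC : 0 ≤ gradC L / (n : ℝ) := div_nonneg (gradC_nonneg L) hn'.le
  refine (pow_le_pow_left₀ (by linarith) ((add_comm (1 : ℝ) _).le.trans (Real.add_one_le_exp _)) m).trans ?_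
  rw [← Real.exp_nat_mul, G]
  refine Real.exp_le_exp.2 (le_trans (mul_le_mul_of_nonneg_right hm hC) (le_of_eq ?_))
  field_simp

section Chain

variable (h : Fin n → ℝ)

lemma gam_Kpow_G (hJ : Tame J L) (hn : 0 < n) {m : ℕ} (hm : (m : ℝ) ≤ τ * n) {f : Cfg n → ℝ} {A : ℝ}
    (hf : ∀ y, gam f y ≤ A) (x : Cfg n) : gam (Kpow J h m f) x ≤ G L τ * A :=
  (gam_Kpow_le h hJ hf m x).trans
    (mul_le_mul_of_nonneg_right (pow_le_G hn hm) ((gam_nonneg f x).trans (hf x)))

lemma var_Kpow_G (hJ : Tame J L) (hn : 0 < n) {m : ℕ} (hm : (m : ℝ) ≤ τ * n) {f : Cfg n → ℝ} {A : ℝ}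
    (hf : ∀ y, gam f y ≤ A) (x : Cfg n) :
    Kpow J h m (fun y => f y ^ 2) x - Kpow J h m f x ^ 2 ≤ 4 * τ * G L τ * A := by
  have hn' : (0 : ℝ) < n := Nat.cast_pos.2 hn
  have hτ : 0 ≤ τ := nonneg_of_mul_nonneg_left ((Nat.cast_nonneg m).trans hm) hn'
  have hA : 0 ≤ A := (gam_nonneg f x).trans (hf x)
  refine (var_Kpow_le h hJ hf m x).trans ?_
  refine mul_le_mul_of_nonneg_right (mul_le_mul ?_ (pow_le_G hn hm) ?_ (by positivity)) hA
  · rw [div_le_iff₀ hn']; linarith
  · exact pow_nonneg (by have := gradC_nonneg L; positivity) _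

lemma abs_pex_le_const (hn : 0 < n) {N : ℕ} (x : Cfg n) {F : Path n N → ℝ} {B : ℝ}
    (hF : ∀ ω, |F ω| ≤ B) : |pex J h x F| ≤ B :=
  (abs_pex_le J h x F).trans ((pex_mono J h x hF).trans_eq (pex_const J h hn x B))

lemma abs_Kpow_le (hn : 0 < n) {f : Cfg n → ℝ} {B : ℝ} (hf : ∀ y, |f y| ≤ B) (m : ℕ) (x : Cfg n) :
    |Kpow J h m f x| ≤ B := by
  rw [← pex_st J h hn f (le_refl m) x]
  exact abs_pex_le_const h hn x fun ω => hf _

lemma Kpow_close (hn : 0 < n) {f g : Cfg n → ℝ} {B : ℝ} (hfg : ∀ y, |f y - g y| ≤ B) (m : ℕ) (x : Cfg n) :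
    |Kpow J h m f x - Kpow J h m g x| ≤ B := by
  rw [← pex_st J h hn f (le_refl m) x, ← pex_st J h hn g (le_refl m) x, pex, pex, ← Finset.sum_sub_distrib]
  simp only [← mul_sub]
  exact abs_pex_le_const h hn x (F := fun ω => f (st x ω m) - g (st x ω m)) fun ω => hfg _

/-- two-time marginal of the chain -/
lemma pex_two (hn : 0 < n) {k l N : ℕ} (hkl : k ≤ l) (hlN : l ≤ N) (x : Cfg n)
    (H : Cfg n → Cfg n → ℝ) :
    pex J h x (fun ω : Path n N => H (st x ω k) (st x ω l)) =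
      Kpow J h k (fun y => Kpow J h (l - k) (H y) y) x := by
  rw [← pex_st J h hn (fun y => Kpow J h (l - k) (H y) y) (hkl.trans hlN) x]
  rw [show (fun ω : Path n N => H (st x ω k) (st x ω l)) =
      fun ω => ∑ y, (if st x ω k = y then (1 : ℝ) else 0) * H y (st x ω l) from funext fun ω => by simp,
    show (fun ω : Path n N => Kpow J h (l - k) (H (st x ω k)) (st x ω k)) =
      fun ω => ∑ y, (if st x ω k = y then (1 : ℝ) else 0) * Kpow J h (l - k) (H y) (st x ω k) from
        funext fun ω => by simp, pex_sum, pex_sum]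
  exact Finset.sum_congr rfl fun y _ =>
    pex_markov J h hn (H y) hkl hlN x _ (before_st x (fun z => if z = y then (1 : ℝ) else 0) k)

end Chain

/-- a vector field with a gradient bound and a length bound -/
structure VB (a : Cfg n → Fin n → ℝ) (A U : ℝ) : Prop where
  nonneg : 0 ≤ A
  gam_le : ∀ (v : Fin n → ℝ) y, gam (fun z => ∑ j, v j * a z j) y ≤ A * ∑ j, v j ^ 2
  sq_le : ∀ y, ∑ j, a y j ^ 2 ≤ U

/-- the chain applied to each component -/
noncomputable def pv (J : Fin n → Fin n → ℝ) (h : Fin n → ℝ) (m : ℕ) (a : Cfg n → Fin n → ℝ) (y : Cfg n)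
    (j : Fin n) : ℝ := Kpow J h m (fun z => a z j) y

lemma Kpow_sum_eq (h : Fin n → ℝ) (m : ℕ) (v : Fin n → ℝ) (a : Cfg n → Fin n → ℝ) (y : Cfg n) :
    Kpow J h m (fun z => ∑ j, v j * a z j) y = ∑ j, v j * pv J h m a y j := by
  rw [Corr.Kpow_lin v (fun j z => a z j) m]
  rfl

lemma sum_sq_le_of_abs {a : Fin n → ℝ} {M : ℝ} (ha : ∀ j, |a j| ≤ M) : ∑ j, a j ^ 2 ≤ n * M ^ 2 := by
  refine (Finset.sum_le_card_nsmul _ _ (M ^ 2) fun j _ => ?_).trans_eq (by simp)
  rw [← sq_abs (a j)]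
  exact pow_le_pow_left₀ (abs_nonneg _) (ha j) 2

variable {a b : Cfg n → Fin n → ℝ} {A A' U U' : ℝ}

lemma VB.kpow (ha : VB a A U) (hJ : Tame J L) (hn : 0 < n) (h : Fin n → ℝ) {m : ℕ}
    (hm : (m : ℝ) ≤ τ * n) : VB (pv J h m a) (G L τ * A) U where
  nonneg := mul_nonneg G_pos.le ha.nonneg
  gam_le v y := by
    rw [mul_assoc]
    have e : (fun z => ∑ j, v j * pv J h m a z j) = Kpow J h m (fun z => ∑ j, v j * a z j) :=
      funext fun z => (Kpow_sum_eq h m v a z).symm
    rw [e]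
    exact gam_Kpow_G h hJ hn hm (ha.gam_le v) y
  sq_le y := Corr.sum_sq_Kpow_le (u := fun j z => a z j) ha.sq_le m y

lemma VB.gam_dot (ha : VB a A U) (hb : VB b A' U') (y : Cfg n) :
    gam (fun z => ∑ j, a z j * b z j) y ≤ 3 * (A' * U + A * U' + 4 * n * (A' * A)) := by
  have h := Corr.gam_inner (fun j z => a z j) (fun j z => b z j) (A := Real.sqrt A') (B := Real.sqrt A)
    (fun v z => by rw [Real.sq_sqrt hb.nonneg]; exact hb.gam_le v z)
    (fun v z => by rw [Real.sq_sqrt ha.nonneg]; exact ha.gam_le v z) ha.sq_le hb.sq_le y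
  rwa [Real.sq_sqrt ha.nonneg, Real.sq_sqrt hb.nonneg] at h

/-- constant of the two-time variance -/
noncomputable def twoC (L τ A A' V : ℝ) : ℝ :=
  4 * τ * G L τ * (A' * V + 3 * (G L τ * A' * V + A * V + 4 * (G L τ * A' * A)))

/-- variance of an inner product of a vector field at two times -/
lemma two_var (hJ : Tame J L) (hn : 0 < n) (h : Fin n → ℝ) {k l N : ℕ} (hkl : k ≤ l) (hlN : l ≤ N)
    (hl : (l : ℝ) ≤ τ * n) {V : ℝ} (ha : VB a A (n * V)) (hb : VB b A' (n * V)) (x : Cfg n) :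
    pex J h x (fun ω : Path n N => (∑ j, a (st x ω k) j * b (st x ω l) j) ^ 2) -
      pex J h x (fun ω : Path n N => ∑ j, a (st x ω k) j * b (st x ω l) j) ^ 2 ≤
        twoC L τ A A' V * n := by
  have hd : ((l - k : ℕ) : ℝ) ≤ τ * n := le_trans (by exact_mod_cast Nat.sub_le l k) hl
  have hk : (k : ℝ) ≤ τ * n := le_trans (by exact_mod_cast hkl) hl
  rw [pex_two h hn hkl hlN x (fun y z => (∑ j, a y j * b z j) ^ 2),
    pex_two h hn hkl hlN x (fun y z => ∑ j, a y j * b z j)]
  set P := fun y => ∑ j, a y j * pv J h (l - k) b y j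
  set Q := fun y => Kpow J h (l - k) (fun z => (∑ j, a y j * b z j) ^ 2) y
  have hQ : ∀ y, Q y ≤ P y ^ 2 + 4 * τ * G L τ * (A' * (n * V)) := fun y => by
    have hv := var_Kpow_G h hJ hn hd (A := A' * (n * V)) (f := fun z => ∑ j, a y j * b z j)
      (fun z => (hb.gam_le (a y) z).trans (mul_le_mul_of_nonneg_left (ha.sq_le y) hb.nonneg)) y
    rw [Kpow_sum_eq h (l - k) (a y) b y] at hv
    linarith
  have hP := var_Kpow_G h hJ hn hk (f := P) (VB.gam_dot ha (hb.kpow hJ hn h hd)) x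
  have e : (fun y => Kpow J h (l - k) (fun z => ∑ j, a y j * b z j) y) = P :=
    funext fun y => Kpow_sum_eq h (l - k) (a y) b y
  rw [e]
  have hK : Kpow J h k Q x ≤ Kpow J h k (fun y => P y ^ 2) x + 4 * τ * G L τ * (A' * (n * V)) := by
    rw [← pex_st J h hn Q le_rfl x, ← pex_st J h hn (fun y => P y ^ 2) le_rfl x,
      ← pex_const J h hn (N := k) x (4 * τ * G L τ * (A' * (n * V))), ← pex_add]
    exact pex_mono J h x fun ω => hQ _
  show Kpow J h k Q x - _ ≤ _
  simp only [twoC]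
  linarith

/-- Euclidean length -/
noncomputable def nrm (v : Fin n → ℝ) : ℝ := Real.sqrt (∑ i, v i ^ 2)

lemma nrm_nonneg (v : Fin n → ℝ) : 0 ≤ nrm v := Real.sqrt_nonneg _

lemma nrm_smul (s : ℝ) (v : Fin n → ℝ) : nrm (fun i => s * v i) = |s| * nrm v := by
  simp only [nrm, mul_pow, ← Finset.mul_sum]
  rw [Real.sqrt_mul (sq_nonneg s), Real.sqrt_sq_eq_abs]

lemma tanh_lip (x y : ℝ) : |Real.tanh x - Real.tanh y| ≤ |x - y| := by
  have h := convex_univ.norm_image_sub_le_of_norm_hasDerivWithin_le (C := 1)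
    (fun x _ => (hasDerivAt_tanh' x).hasDerivWithinAt) (fun x _ => by
      rw [Real.norm_eq_abs, abs_le]
      have := (sq_lt_one_iff_abs_lt_one (Real.tanh x)).2 (tanh_abs_lt x)
      constructor <;> linarith [sq_nonneg (Real.tanh x)]) (Set.mem_univ y) (Set.mem_univ x)
  simpa using h

lemma K_field_le (f : Cfg n → ℝ) (h h' : Fin n → ℝ) (x : Cfg n) :
    |K J h f x - K J h' f x| ≤ Real.sqrt (gam f x) * nrm (fun i => h i - h' i) / n := by
  have e : K J h f x - K J h' f x = (∑ i, (mag J h i x - mag J h' i x) * dd i f x) / n := by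
    simp only [K, qb_eq, dd, ← sub_div, ← Finset.sum_sub_distrib]
    congr 1
    exact Finset.sum_congr rfl fun i _ => by ring
  rw [e, abs_div, Nat.abs_cast]
  refine div_le_div_of_nonneg_right ((Finset.abs_sum_le_sum_abs _ _).trans ?_) (Nat.cast_nonneg n)
  refine (Finset.sum_le_sum fun i _ => show _ ≤ |h i - h' i| * |dd i f x| from ?_).trans ?_
  · rw [abs_mul]
    refine mul_le_mul_of_nonneg_right ((tanh_lip _ _).trans (le_of_eq ?_)) (abs_nonneg _)
    simp [fld]
  · refine (Real.sum_mul_le_sqrt_mul_sqrt _ _ _).trans (le_of_eq ?_)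
    simp only [sq_abs]
    exact mul_comm _ _

/-- dependence of the chain on its field -/
lemma Kpow_field_le (hJ : Tame J L) (hn : 0 < n) {m : ℕ} (hm : (m : ℝ) ≤ τ * n) {f : Cfg n → ℝ} {A : ℝ}
    (hf : ∀ y, gam f y ≤ A) (h h' : Fin n → ℝ) (x : Cfg n) :
    |Kpow J h m f x - Kpow J h' m f x| ≤ τ * Real.sqrt (G L τ * A) * nrm (fun i => h i - h' i) := by
  set S := Real.sqrt (G L τ * A) * nrm (fun i => h i - h' i)
  have hn' : (0 : ℝ) < n := Nat.cast_pos.2 hn
  have key : ∀ k : ℕ, (k : ℝ) ≤ τ * n → ∀ y, |Kpow J h k f y - Kpow J h' k f y| ≤ (k : ℝ) / n * S := by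
    intro k
    induction k with
    | zero => intro _ y; simp [Kpow]
    | succ k ih =>
      intro hk y
      push_cast at hk
      have hk' : (k : ℝ) ≤ τ * n := by linarith
      have h1 : |K J h (Kpow J h k f) y - K J h (Kpow J h' k f) y| ≤ (k : ℝ) / n * S :=
        Kpow_close h hn (ih hk') 1 y
      have h2 : |K J h (Kpow J h' k f) y - K J h' (Kpow J h' k f) y| ≤ S / n := by
        refine (K_field_le _ h h' y).trans (div_le_div_of_nonneg_right ?_ hn'.le)
        exact mul_le_mul_of_nonneg_right (Real.sqrt_le_sqrt (gam_Kpow_G h' hJ hn hk' hf y)) (nrm_nonneg _)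
      rw [Kpow_succ, Kpow_succ]
      refine (abs_sub_le _ (K J h (Kpow J h' k f) y) _).trans ((add_le_add h1 h2).trans (le_of_eq ?_))
      push_cast
      ring
  have hmn : (m : ℝ) / n ≤ τ := by rw [div_le_iff₀ hn']; exact hm
  rw [mul_assoc]
  exact (key m hm x).trans
    (mul_le_mul_of_nonneg_right hmn (mul_nonneg (Real.sqrt_nonneg _) (nrm_nonneg _)))

lemma contDiff_tanh : ContDiff ℝ 1 fun x : ℝ => Real.tanh x := by
  rw [show (fun x : ℝ => Real.tanh x) = fun x => Real.sinh x / Real.cosh x from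
    funext fun x => Real.tanh_eq_sinh_div_cosh x]
  exact Real.contDiff_sinh.div Real.contDiff_cosh fun x => (Real.cosh_pos x).ne'

lemma contDiff_Kpow {E : Type*} [NormedAddCommGroup E] [NormedSpace ℝ E] {hh : E → Fin n → ℝ}
    (hh1 : ContDiff ℝ 1 hh) {f : E → Cfg n → ℝ} (hf : ∀ z, ContDiff ℝ 1 fun u => f u z) :
    ∀ (m : ℕ) (x : Cfg n), ContDiff ℝ 1 fun u => Kpow J (hh u) m (f u) x
  | 0, x => hf x
  | m + 1, x => by
    have ih := contDiff_Kpow hh1 hf m
    have hmag : ∀ i, ContDiff ℝ 1 fun u => mag J (hh u) i x := fun i => by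
      simp only [mag, fld]
      exact contDiff_tanh.comp (contDiff_const.add ((contDiff_apply ℝ ℝ i).comp hh1))
    simp only [Kpow_succ, K, qb_eq]
    exact (ContDiff.sum fun i _ => (((contDiff_const.add (hmag i)).mul (ih _)).add
      ((contDiff_const.sub (hmag i)).mul (ih _))).div_const 2).div_const (n : ℝ)

/-- Poincaré inequality for a function with a Lipschitz bound -/
lemma var_gauss_le {g : (Fin n → ℝ) → ℝ} (hg : ContDiff ℝ 1 g) {B K : ℝ} (hb : ∀ u, |g u| ≤ B)
    (hK : 0 ≤ K) (hlip : ∀ u v, |g u - g v| ≤ K * nrm (fun i => u i - v i)) :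
    ∫ u, g u ^ 2 ∂gauss (Fin n) - (∫ u, g u ∂gauss (Fin n)) ^ 2 ≤ K ^ 2 := by
  classical
  set g' := fun z k => fderiv ℝ g z (Pi.single k (1 : ℝ))
  have hlin : ∀ z v, fderiv ℝ g z v = ∑ k, g' z k * v k := fun z v => by
    have hv : v = ∑ k, v k • (Pi.single k 1 : Fin n → ℝ) := by
      ext j; simp [Finset.sum_apply, Pi.single_apply]
    conv_lhs => rw [hv]
    simp only [map_sum, map_smul, smul_eq_mul, g', mul_comm]
  have hd : ∀ z, HasFDerivAt g (PoincareC1.lin (g' z)) z := fun z =>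
    (hg.differentiable one_ne_zero z).hasFDerivAt.congr_fderiv
      (ContinuousLinearMap.ext fun v => by rw [PoincareC1.lin_apply, hlin])
  have hsq : ∀ z, ∑ k, g' z k ^ 2 ≤ K ^ 2 := fun z => by
    have hline : HasDerivAt (fun s : ℝ => g (z + s • g' z)) (∑ k, g' z k * g' z k) 0 := by
      have hc : HasDerivAt (fun s : ℝ => z + s • g' z) (g' z) 0 := by
        simpa using ((hasDerivAt_id (0 : ℝ)).smul_const (g' z)).const_add z
      refine ((hd _).comp_hasDerivAt 0 hc).congr_deriv ?_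
      rw [PoincareC1.lin_apply]; simp
    have hle := hline.le_of_lip' (C := K * nrm (g' z)) (mul_nonneg hK (nrm_nonneg _))
      (Filter.Eventually.of_forall fun s => by
        refine (hlip _ _).trans (le_of_eq ?_)
        have e : (fun i => (z + s • g' z) i - (z + (0 : ℝ) • g' z) i) = fun i => s * g' z i :=
          funext fun i => by simp
        rw [e, nrm_smul, sub_zero, Real.norm_eq_abs]
        ring)
    simp only [← pow_two] at hle
    rw [Real.norm_eq_abs, abs_of_nonneg (Finset.sum_nonneg fun _ _ => sq_nonneg _)] at hle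
    set N := nrm (g' z)
    have hN2 : N ^ 2 = ∑ k, g' z k ^ 2 := Real.sq_sqrt (Finset.sum_nonneg fun _ _ => sq_nonneg _)
    nlinarith [sq_nonneg (K - N)]
  have habs : ∀ z k, |g' z k| ≤ K := fun z k =>
    (Real.abs_le_sqrt ((Finset.single_le_sum (f := fun k => g' z k ^ 2) (fun _ _ => sq_nonneg _)
      (Finset.mem_univ k)).trans (hsq z))).trans_eq (Real.sqrt_sq hK)
  have hB : 0 ≤ B := (abs_nonneg _).trans (hb 0)
  have hc' : Continuous g' := continuous_pi fun k =>
    (hg.continuous_fderiv one_ne_zero).clm_apply continuous_const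
  refine (PoincareC1.gauss_poincare le_rfl hd hc' (C := B + K) (fun z => ?_) (fun z k => ?_)).trans ?_
  · simp only [zero_mul, Real.exp_zero, mul_one]; linarith [hb z]
  · simp only [zero_mul, Real.exp_zero, mul_one]; linarith [habs z k]
  · refine (integral_mono_of_nonneg (Filter.Eventually.of_forall fun z =>
      Finset.sum_nonneg fun _ _ => sq_nonneg _) (integrable_const (K ^ 2))
      (Filter.Eventually.of_forall hsq)).trans_eq (by simp)

/-- Bessel inequality -/
lemma bessel {Ω ι : Type*} [MeasurableSpace Ω] {μ : Measure Ω} [Fintype ι] [DecidableEq ι]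
    {f : ι → Ω → ℝ} {X : Ω → ℝ} {κ : ℝ} (hκ : 0 < κ) (iXX : Integrable (fun u => X u ^ 2) μ)
    (ifX : ∀ i, Integrable (fun u => f i u * X u) μ)
    (iff' : ∀ i j, Integrable (fun u => f i u * f j u) μ)
    (horth : ∀ i j, i ≠ j → ∫ u, f i u * f j u ∂μ = 0) (hnorm : ∀ i, ∫ u, f i u * f i u ∂μ ≤ κ) :
    ∑ i, (∫ u, f i u * X u ∂μ) ^ 2 ≤ κ * ∫ u, X u ^ 2 ∂μ := by
  set s := fun i => ∫ u, f i u * X u ∂μ
  have key : 0 ≤ ∫ u, (κ ^ 2 * X u ^ 2 - 2 * κ * ∑ i, s i * (f i u * X u)) +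
      ∑ i, ∑ j, s i * s j * (f i u * f j u) ∂μ := integral_nonneg fun u => by
    refine le_trans (sq_nonneg (κ * X u - ∑ i, s i * f i u)) (le_of_eq ?_)
    rw [sub_sq, mul_pow, sq (∑ i, s i * f i u), Finset.sum_mul_sum]
    congr 1
    · congr 1
      simp only [Finset.mul_sum]
      exact Finset.sum_congr rfl fun i _ => by ring
    · exact Finset.sum_congr rfl fun i _ => Finset.sum_congr rfl fun j _ => by ring
  have i1 : Integrable (fun u => ∑ i, s i * (f i u * X u)) μ :=
    integrable_finsetSum _ fun i _ => (ifX i).const_mul _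
  have i2 : ∀ i, Integrable (fun u => ∑ j, s i * s j * (f i u * f j u)) μ := fun i =>
    integrable_finsetSum _ fun j _ => (iff' i j).const_mul _
  have i3 : Integrable (fun u => κ ^ 2 * X u ^ 2 - 2 * κ * ∑ i, s i * (f i u * X u)) μ :=
    (iXX.const_mul _).sub (i1.const_mul _)
  rw [integral_add i3 (integrable_finsetSum _ fun i _ => i2 i),
    integral_sub (iXX.const_mul _) (i1.const_mul _), integral_const_mul, integral_const_mul,
    integral_finsetSum _ fun i _ => (ifX i).const_mul _, integral_finsetSum _ fun i _ => i2 i] at key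
  have e : ∀ i, ∫ u, ∑ j, s i * s j * (f i u * f j u) ∂μ = s i ^ 2 * ∫ u, f i u * f i u ∂μ := fun i => by
    rw [integral_finsetSum _ fun j _ => (iff' i j).const_mul _,
      Finset.sum_eq_single i (fun j _ hj => by rw [integral_const_mul, horth i j (Ne.symm hj), mul_zero])
        (by simp), integral_const_mul, sq]
  simp only [e, integral_const_mul] at key
  have h1 : ∑ i, s i ^ 2 * ∫ u, f i u * f i u ∂μ ≤ κ * ∑ i, s i ^ 2 := by
    rw [Finset.mul_sum]
    exact Finset.sum_le_sum fun i _ => by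
      rw [mul_comm κ]; exact mul_le_mul_of_nonneg_left (hnorm i) (sq_nonneg _)
  have h2 : ∑ i, s i * s i = ∑ i, s i ^ 2 := Finset.sum_congr rfl fun i _ => (sq _).symm
  rw [h2] at key
  refine le_of_mul_le_mul_left ?_ hκ
  linarith

/-- likelihood ratio of a shift of one noise coordinate -/
noncomputable def rho (a : ℝ) (i : Fin n) (u : Fin n → ℝ) : ℝ := Real.exp (a * u i - a ^ 2 / 2)

lemma continuous_rho (a : ℝ) (i : Fin n) : Continuous (rho a i) := by unfold rho; fun_prop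

lemma abs_rho_le (a : ℝ) (i : Fin n) (u : Fin n → ℝ) : |rho a i u| ≤ Real.exp (|a| * l1 u) := by
  rw [rho, Real.abs_exp]
  refine Real.exp_le_exp.2 ?_
  have h := mul_le_mul_of_nonneg_left (abs_le_l1 u i) (abs_nonneg a)
  rw [← abs_mul] at h
  linarith [le_abs_self (a * u i), sq_nonneg a]

lemma shift_eq (a : ℝ) (i : Fin n) (F : (Fin n → ℝ) → ℝ) :
    ∫ u, F (u + Pi.single i a) ∂gauss (Fin n) = ∫ u, rho a i u * F u ∂gauss (Fin n) := by
  rw [Channel.translate]
  refine integral_congr_ae (Filter.Eventually.of_forall fun u => ?_)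
  simp [rho, dot, Channel.nsq, Pi.single_apply]

lemma integral_rho (a : ℝ) (i : Fin n) : ∫ u, rho a i u ∂gauss (Fin n) = 1 := by
  simpa using (shift_eq a i fun _ => (1 : ℝ)).symm

lemma integral_rho_mul (a a' : ℝ) {i j : Fin n} (hij : i ≠ j) :
    ∫ u, rho a i u * rho a' j u ∂gauss (Fin n) = 1 := by
  rw [← shift_eq a i]
  simpa [rho, Pi.single_apply, hij.symm] using integral_rho a' j

lemma integral_rho_sq (a : ℝ) (i : Fin n) :
    ∫ u, rho a i u * rho a i u ∂gauss (Fin n) = Real.exp (a ^ 2) := by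
  have e : ∀ u : Fin n → ℝ, rho a i u * rho a i u = Real.exp (a ^ 2) * rho (2 * a) i u := fun u => by
    simp only [rho, ← Real.exp_add]; ring_nf
  simp only [e, integral_const_mul, integral_rho, mul_one]

end Vale.Agent.P150.PA.LegVar
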