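import Vale.Agent.P150.PA.BlockDrop
import Vale.Agent.P150.PA.LegTools

/-! The phase before the observation, for two arbitrary vector fields of the observed configuration:
the responses pair with the correlations to the product of the correlations at the observation. -/

namespace Vale.Agent.P150.PA

open Ising

variable {n : ℕ}

/-- a vector field with a gradient bound and a bound per component -/
structure PreField (G : Fin n → Cfg n → ℝ) (Γ M : ℝ) : Prop where
  one_le_grad : 1 ≤ Γ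
  one_le_bdd : 1 ≤ M
  grad : ∀ (v : Fin n → ℝ) y, gam (fun z => ∑ i, v i * G i z) y ≤ Γ ^ 2 * ∑ i, v i ^ 2
  bdd : ∀ i y, |G i y| ≤ M

/-- the law after `w` attempts from `x`, as a density -/
noncomputable def lawDens (J : Fin n → Fin n → ℝ) (b : Fin n → ℝ) (x : Cfg n) (w : ℕ) : Cfg n → ℝ :=
  Kpow J b w (Pi.single x (wt J b x)⁻¹)

/-- correlation of the spins at attempt `k` with a field of the configuration observed at attempt `D` -/
noncomputable def preCor (J : Fin n → Fin n → ℝ) (b : Fin n → ℝ) (x : Cfg n) (u D : ℕ)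
    (G : Fin n → Cfg n → ℝ) (k : ℕ) : ℝ :=
  Kpow J b (u + k) (fun y => ∑ i, spin (y i) * Kpow J b (D - k) (G i) y) x

/-- response of that field to attempt `k` -/
noncomputable def preResp (J : Fin n → Fin n → ℝ) (b : Fin n → ℝ) (x : Cfg n) (u D : ℕ)
    (G : Fin n → Cfg n → ℝ) (k : ℕ) : ℝ :=
  Kpow J b (u + k) (fun y => ∑ i, (1 - mag J b i y ^ 2) * dd i (Kpow J b (D - k - 1) (G i)) y / n) x

/-- product of the conditional means given the origin of the copy -/
noncomputable def preCen (J : Fin n → Fin n → ℝ) (b : Fin n → ℝ) (x : Cfg n) (u D : ℕ)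
    (G : Fin n → Cfg n → ℝ) (k : ℕ) : ℝ :=
  Kpow J b u (fun F => ∑ i, mean J b k F i * Kpow J b D (G i) F) x

/-- stationarity defect of one attempt `w` after the origin of the copy -/
noncomputable def preStep (J : Fin n → Fin n → ℝ) (b : Fin n → ℝ) (x : Cfg n) (u D : ℕ) (L Γ M : ℝ)
    (w : ℕ) : ℝ :=
  24 * ((1 + gradC L / n) ^ (2 * D + 2) * Γ ^ 2 * M) * (Real.sqrt n / n) *
    Real.sqrt (dir J b fun y => Real.sqrt (lawDens J b x (u + w) y))

/-- stationarity defect of the whole phase before the observation -/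
noncomputable def preErr (J : Fin n → Fin n → ℝ) (b : Fin n → ℝ) (x : Cfg n) (u D : ℕ) (L Γ M : ℝ) : ℝ :=
  (D + 1) * preStep J b x u D L Γ M 0 + ∑ w ∈ Finset.range (D + 1), preStep J b x u D L Γ M w

/-- the small terms of the phase before the observation, cut into `N` pieces -/
noncomputable def preDel (J : Fin n → Fin n → ℝ) (b : Fin n → ℝ) (x : Cfg n) (u D : ℕ) (L Γ M : ℝ) (N : ℕ) : ℝ :=
  Real.sqrt (preErr J b x u D L Γ M / n) + N * preErr J b x u D L Γ M / n + ((D : ℝ) / n) ^ 2 / N +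
    ((D : ℝ) / n + N + 1) / n

/-- squared length of the conditional mean of a field given the origin of the copy -/
noncomputable def preEta (J : Fin n → Fin n → ℝ) (b : Fin n → ℝ) (x : Cfg n) (u D : ℕ)
    (G : Fin n → Cfg n → ℝ) : ℝ :=
  Kpow J b u (fun F => (∑ i, Kpow J b D (G i) F ^ 2) / n) x

namespace ChPre

variable {J : Fin n → Fin n → ℝ} {b : Fin n → ℝ} {x : Cfg n} {u D : ℕ} {L Γ M : ℝ}
  {G H : Fin n → Cfg n → ℝ}

lemma law_nonneg (x : Cfg n) (w : ℕ) (y : Cfg n) : 0 ≤ lawDens J b x w y := by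
  refine Pair.Kpow_nonneg (fun z => ?_) w y
  rcases eq_or_ne z x with h | h
  · subst h; simpa using (wt_pos J b z).le
  · simp [h]

lemma law_mean (hJ : Tame J L) (hn : 0 < n) (x : Cfg n) (w : ℕ) :
    ∑ y, wt J b y * lawDens J b x w y = 1 := by
  rw [lawDens, Pair.avg_Kpow hJ.symm hJ.diag hn, Finset.sum_eq_single x (fun y _ hy => by simp [hy]) (by simp)]
  simp [(wt_pos J b x).ne']

lemma law_Ef (hJ : Tame J L) (w : ℕ) (φ : Cfg n → ℝ) (x : Cfg n) :
    Kpow J b w φ x = Ef J b (lawDens J b x w) φ := start_density hJ.symm hJ.diag w φ x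

lemma base_le {k m : ℕ} (h : k ≤ m) : (1 + gradC L / (n : ℝ)) ^ k ≤ (1 + gradC L / (n : ℝ)) ^ m :=
  pow_le_pow_right₀ Corr.one_le_base h

lemma one_le_pow (k : ℕ) : 1 ≤ (1 + gradC L / (n : ℝ)) ^ k := one_le_pow₀ Corr.one_le_base

lemma step_nonneg (hM : 1 ≤ M) (w : ℕ) : 0 ≤ preStep J b x u D L Γ M w := by
  have h1 := one_le_pow (n := n) (L := L) (2 * D + 2)
  unfold preStep
  positivity

lemma err_nonneg (hM : 1 ≤ M) : 0 ≤ preErr J b x u D L Γ M :=
  add_nonneg (mul_nonneg (by positivity) (step_nonneg hM 0)) (Finset.sum_nonneg fun w _ => step_nonneg hM w)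

/-- the defects over all attempts are at most `preErr` -/
lemma sum_step_le (hM : 1 ≤ M) : ∑ w ∈ Finset.range D, preStep J b x u D L Γ M w ≤ preErr J b x u D L Γ M := by
  refine le_trans (Finset.sum_le_sum_of_subset_of_nonneg (Finset.range_mono (Nat.le_succ D))
    fun w _ _ => step_nonneg hM w) (le_add_of_nonneg_left (mul_nonneg (by positivity) (step_nonneg hM 0)))

/-- the defect at the origin, repeated over all attempts, is at most `preErr` -/
lemma mul_step_le (hM : 1 ≤ M) {k : ℕ} (hk : k ≤ D + 1) :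
    (k : ℝ) * preStep J b x u D L Γ M 0 ≤ preErr J b x u D L Γ M :=
  (mul_le_mul_of_nonneg_right (by exact_mod_cast hk : (k : ℝ) ≤ (D : ℝ) + 1) (step_nonneg hM 0)).trans
    (le_add_of_nonneg_right (Finset.sum_nonneg fun w _ => step_nonneg hM w))

/-- a one-attempt defect with a polynomial coefficient is at most `preStep` -/
lemma le_err {c : ℝ} {w : ℕ}
    (hc : c ≤ 6 * ((1 + gradC L / n) ^ (2 * D + 2) * Γ ^ 2 * M) * Real.sqrt n) :
    4 / (n : ℝ) * Real.sqrt (dir J b fun y => Real.sqrt (lawDens J b x (u + w) y)) * c ≤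
      preStep J b x u D L Γ M w := by
  refine (mul_le_mul_of_nonneg_left hc (mul_nonneg (by positivity) (Real.sqrt_nonneg _))).trans (le_of_eq ?_)
  rw [preStep]
  ring

lemma abs_K_le {g : Cfg n → ℝ} {c : ℝ} (hn : 0 < n) (hg : ∀ y, |g y| ≤ c) (k : ℕ) (y : Cfg n) :
    |Kpow J b k g y| ≤ c := LegVar.abs_Kpow_le b hn hg k y

lemma abs_qb_le {g : Cfg n → ℝ} {c : ℝ} (hg : ∀ y, |g y| ≤ c) (i : Fin n) (y : Cfg n) :
    |qb b J i g y| ≤ c :=
  abs_le.2 ⟨(qb_const b (-c) i y).ge.trans (qb_mono b (fun z => (abs_le.1 (hg z)).1) i y),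
    (qb_mono b (fun z => (abs_le.1 (hg z)).2) i y).trans (qb_const b c i y).le⟩

lemma abs_spin (c : Bool) : |spin c| = 1 := by cases c <;> simp [spin]

lemma sum_sq_le {g : Fin n → Cfg n → ℝ} {c : ℝ} (hg : ∀ i y, |g i y| ≤ c) (y : Cfg n) :
    ∑ i, g i y ^ 2 ≤ n * c ^ 2 := LegVar.sum_sq_le_of_abs fun i => hg i y

/-- pointwise change of a correlation in one attempt -/
lemma spin_step (hn : 0 < n) (i : Fin n) (g : Cfg n → ℝ) (y : Cfg n) :
    K J b (fun z => spin (z i) * g z) y - spin (y i) * K J b g y =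
      (qb b J i (fun z => spin (z i) * g z) y - spin (y i) * qb b J i g y) / n := by
  have hn' : (n : ℝ) ≠ 0 := Nat.cast_ne_zero.2 hn.ne'
  rw [K, K, ← mul_div_assoc, ← sub_div, Finset.mul_sum, ← Finset.sum_sub_distrib,
    Finset.sum_eq_single i (fun j _ hj => ?_) (by simp)]
  simp only [qb_eq, Function.update_of_ne hj.symm]
  ring

lemma spin_qb (i : Fin n) (g : Cfg n → ℝ) (y : Cfg n) :
    qb b J i (fun z => spin (z i) * g z) y = mag J b i y * qb b J i g y + (1 - mag J b i y ^ 2) * dd i g y := by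
  rw [qb_eq, qb_eq, dd]
  simp [spin]
  ring

lemma cor_eq {k : ℕ} (hk : k < D) :
    preCor J b x u D G (k + 1) - preCor J b x u D G k = Kpow J b (u + k) (fun y => ∑ i,
      (K J b (fun z => spin (z i) * Kpow J b (D - k - 1) (G i) z) y -
        spin (y i) * K J b (Kpow J b (D - k - 1) (G i)) y)) x := by
  rw [preCor, preCor, ← Nat.add_assoc, Block.Kpow_comm, ← congrFun (Block.Kpow_sub (J := J) (b := b) (u + k) _ _) x]
  congr 1
  funext y
  rw [Block.K_sum, ← Finset.sum_sub_distrib]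
  refine Finset.sum_congr rfl fun i _ => ?_
  rw [show D - (k + 1) = D - k - 1 by omega, show D - k = D - k - 1 + 1 by omega, Pair.Kpow_succ,
    Nat.add_sub_cancel]

/-- the correlation moves by at most `2 M` per attempt -/
lemma cor_step_le (hn : 0 < n) (hG : PreField G Γ M) {k : ℕ} (hk : k < D) :
    |preCor J b x u D G (k + 1) - preCor J b x u D G k| ≤ 2 * M := by
  rw [cor_eq hk]
  refine abs_K_le hn (fun y => (Finset.abs_sum_le_sum_abs _ _).trans
    ((Finset.sum_le_card_nsmul _ _ (2 * M / n) fun i _ => ?_).trans_eq ?_)) _ x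
  · rw [spin_step hn, abs_div, Nat.abs_cast]
    refine div_le_div_of_nonneg_right ((abs_sub _ _).trans ?_) (Nat.cast_nonneg n)
    rw [abs_mul, abs_spin, one_mul, two_mul]
    have hg : ∀ z, |Kpow J b (D - k - 1) (G i) z| ≤ M := abs_K_le hn (hG.bdd i) _
    exact add_le_add (abs_qb_le (fun z => by rw [abs_mul, abs_spin, one_mul]; exact hg z) i y) (abs_qb_le hg i y)
  · simp only [Finset.card_univ, Fintype.card_fin, nsmul_eq_mul]
    have : (n : ℝ) ≠ 0 := Nat.cast_ne_zero.2 hn.ne'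
    field_simp

/-- fluctuation-dissipation relation before the observation -/
lemma fdt_step (hJ : Tame J L) (hn : 0 < n) (hG : PreField G Γ M) {k : ℕ} (hk : k < D) :
    |preCor J b x u D G (k + 1) - preCor J b x u D G k - preResp J b x u D G k| ≤
      preStep J b x u D L Γ M k := by
  have hn' : (0 : ℝ) < n := Nat.cast_pos.2 hn
  rw [cor_eq hk, preResp, ← congrFun (Block.Kpow_sub (J := J) (b := b) (u + k) _ _) x, law_Ef hJ]
  set f := lawDens J b x (u + k) with hfdef
  set g := fun i => Kpow J b (D - k - 1) (G i)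
  set G' := fun i y => qb b J i (g i) y with hG'
  have hG'i : ∀ i y c, G' i (Function.update y i c) = G' i y := fun i y c => qb_update b hJ.diag i _ y c
  have e : Ef J b f (fun y => (∑ i, (K J b (fun z => spin (z i) * g i z) y - spin (y i) * K J b (g i) y)) -
      ∑ i, (1 - mag J b i y ^ 2) * dd i (g i) y / n) =
      -((∑ y, wt J b y * ∑ i, (1 - mag J b i y ^ 2) * dd i f y * G' i y) / n) := by
    have e1 : ∀ i y, K J b (fun z => spin (z i) * g i z) y - spin (y i) * K J b (g i) y -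
        (1 - mag J b i y ^ 2) * dd i (g i) y / n = -(G' i y * proj J b i (fun z => spin (z i)) y / n) := fun i y => by
      rw [spin_step hn, spin_qb, proj, show dd i (fun z : Cfg n => spin (z i)) y = 1 by
        simp [dd, spin]]
      ring
    simp only [Ef, ← Finset.sum_sub_distrib, e1]
    simp only [Finset.sum_neg_distrib, ← Finset.sum_div, mul_neg, ← mul_div_assoc,
      Finset.mul_sum]
    congr 2
    rw [Finset.sum_comm, Finset.sum_congr rfl fun i (_ : i ∈ Finset.univ) => (Finset.sum_congr rfl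
      fun y (_ : y ∈ Finset.univ) => show wt J b y * (f y * (G' i y * proj J b i (fun z => spin (z i)) y)) =
        wt J b y * ((fun z => f z * G' i z) y * proj J b i (fun z => spin (z i)) y) by ring).trans
      (site_mul b hJ.symm hJ.diag i (fun z => f z * G' i z) fun z => spin (z i)), Finset.sum_comm]
    refine Finset.sum_congr rfl fun y _ => Finset.sum_congr rfl fun i _ => ?_
    simp only [dd, hG'i, spin, Function.update_self, if_true, Bool.false_eq_true, if_false]
    ring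
  rw [e, abs_neg, abs_div, Nat.abs_cast]
  have hf := law_nonneg (J := J) (b := b) x (u + k)
  refine (div_le_div_of_nonneg_right (pair hJ.symm hJ.diag hf G' hG'i) hn'.le).trans ?_
  refine le_trans (le_of_eq ?_) (le_err (x := x) (u := u) (w := k)
    (c := Real.sqrt (∑ y, wt J b y * (f y * ∑ i, G' i y ^ 2))) ?_)
  · ring
  have hM0 : 0 ≤ M := zero_le_one.trans hG.one_le_bdd
  calc Real.sqrt (∑ y, wt J b y * (f y * ∑ i, G' i y ^ 2))
      ≤ Real.sqrt (n * M ^ 2) := Real.sqrt_le_sqrt ((Corr.Ef_mono hf fun y => sum_sq_le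
          (fun i z => abs_qb_le (abs_K_le hn (hG.bdd i) _) i z) y).trans_eq
          (Corr.Ef_const (law_mean hJ hn x (u + k)) _))
    _ = 1 * M * Real.sqrt n := by rw [Real.sqrt_mul hn'.le, Real.sqrt_sq hM0]; ring
    _ ≤ _ := by
      refine mul_le_mul_of_nonneg_right ?_ (Real.sqrt_nonneg _)
      have h0 := one_le_pow (n := n) (L := L) (2 * D + 2)
      have h2 : (1 : ℝ) ≤ Γ ^ 2 := one_le_pow₀ hG.one_le_grad
      have h3 := mul_le_mul_of_nonneg_right (one_le_mul_of_one_le_of_one_le h0 h2) hM0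
      linarith

lemma spin_grad (v : Fin n → ℝ) (y : Cfg n) :
    gam (fun z => ∑ l, v l * spin (z l)) y ≤ (1 : ℝ) ^ 2 * ∑ l, v l ^ 2 := Corr.gam_lin_spin v y

lemma sum_sq_spin (y : Cfg n) : ∑ i, spin (y i) ^ 2 ≤ (n : ℝ) := le_of_eq (by simp [sq, spin_mul_self])

lemma grad_Kpow (hJ : Tame J L) (hG : PreField G Γ M) (k : ℕ) (v : Fin n → ℝ) (y : Cfg n) :
    gam (fun z => ∑ l, v l * Kpow J b k (G l) z) y ≤
      (Real.sqrt ((1 + gradC L / n) ^ k) * Γ) ^ 2 * ∑ l, v l ^ 2 := Corr.gam_Kpow_lin hJ hG.grad k v y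

lemma sqrt_base_le {k m : ℕ} (h : k ≤ m) :
    Real.sqrt ((1 + gradC L / (n : ℝ)) ^ k) ≤ (1 + gradC L / (n : ℝ)) ^ m :=
  (Corr.sqrt_pow_le Corr.one_le_base k).trans (base_le h)

/-- moving the two times of a correlation under the law at the origin -/
lemma swap_to (hJ : Tame J L) (hn : 0 < n) (hG : PreField G Γ M) {a c : ℕ} (h : a + c ≤ D + 1) :
    |Ef J b (lawDens J b x u) (fun y => ∑ i, Kpow J b a (fun z => spin (z i)) y * Kpow J b c (G i) y) -
      Kpow J b u (fun y => ∑ i, spin (y i) * Kpow J b (a + c) (G i) y) x| ≤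
      a * preStep J b x u D L Γ M 0 := by
  induction a generalizing c with
  | zero => rw [law_Ef hJ]; simp [Kpow]
  | succ a ih =>
    have h2 := abs_le.1 (ih (c := c + 1) (by omega))
    rw [show a + (c + 1) = a + 1 + c by omega] at h2
    have hU : ∀ y, ∑ i, G i y ^ 2 ≤ n * M ^ 2 := sum_sq_le hG.bdd
    have hM0 : 0 ≤ M := zero_le_one.trans hG.one_le_bdd
    have h1 := abs_le.1 ((swap hJ (law_nonneg (J := J) (b := b) x u) (law_mean hJ hn x u) (fun i z => spin (z i)) G
      (zero_le_one.trans hG.one_le_grad) zero_le_one hG.grad spin_grad sum_sq_spin hU a c).trans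
      (le_err (D := D) (u := u) (w := 0) (x := x) (L := L) (Γ := Γ) (M := M) (by
        rw [Real.sqrt_mul (Nat.cast_nonneg n), Real.sqrt_sq hM0]
        have h0 := one_le_pow (n := n) (L := L) (2 * D + 2)
        have hc := sqrt_base_le (n := n) (L := L) (show c ≤ 2 * D + 2 by omega)
        have ha := sqrt_base_le (n := n) (L := L) (show a ≤ 2 * D + 2 by omega)
        set R := (1 + gradC L / (n : ℝ)) ^ (2 * D + 2)
        have s0 := Real.sqrt_nonneg (n : ℝ)
        have g1 := hG.one_le_grad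
        have g2 : Γ ≤ Γ ^ 2 * M := by
          calc Γ = Γ * 1 := (mul_one _).symm
            _ ≤ Γ * (Γ * M) := mul_le_mul_of_nonneg_left (one_le_mul_of_one_le_of_one_le g1 hG.one_le_bdd) (by linarith)
            _ = _ := by ring
        have g3 : M ≤ Γ ^ 2 * M := le_mul_of_one_le_left hM0 (one_le_pow₀ g1)
        have t1 := mul_le_mul_of_nonneg_right (mul_le_mul hc g2 (by linarith) (by linarith)) s0
        have t2 := mul_le_mul_of_nonneg_right (mul_le_mul ha g3 hM0 (by linarith)) s0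
        have t3 : 0 ≤ R * (Γ ^ 2 * M) * Real.sqrt n := by positivity
        simp only [mul_one]
        linarith)))
    push_cast
    rw [abs_le]
    constructor <;> linarith

/-- moving a correlation to the law at the origin -/
lemma shift_to (hJ : Tame J L) (hn : 0 < n) (hG : PreField G Γ M) {k : ℕ} (hk : k ≤ D) :
    |preCor J b x u D G k - Kpow J b u (fun y => ∑ i, spin (y i) * Kpow J b (D - k) (G i) y) x| ≤
      k * preStep J b x u D L Γ M 0 := by
  rw [preCor, Kpow, Function.iterate_add_apply]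
  change |Kpow J b u (Kpow J b k fun y => ∑ i, spin (y i) * Kpow J b (D - k) (G i) y) x -
    Kpow J b u (fun y => ∑ i, spin (y i) * Kpow J b (D - k) (G i) y) x| ≤ _
  rw [law_Ef hJ, law_Ef hJ, Corr.Ef_sub]
  have hf := law_nonneg (J := J) (b := b) x u
  set φ := fun y => ∑ i, spin (y i) * Kpow J b (D - k) (G i) y
  set R := (1 + gradC L / (n : ℝ)) ^ (2 * D + 2) with hR
  have hR1 : 1 ≤ R := one_le_pow _
  have hM0 : 0 ≤ M := zero_le_one.trans hG.one_le_bdd
  have hΓ0 : 0 ≤ Γ := zero_le_one.trans hG.one_le_grad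
  have hA : ∀ l < k, ∀ y, gam (Kpow J b l φ) y ≤ (5 * (R * Γ ^ 2 * M) * Real.sqrt n) ^ 2 := by
    intro l hl y
    have h0 := Corr.gam_inner (fun i z => spin (z i)) (fun i => Kpow J b (D - k) (G i))
      (grad_Kpow hJ hG (D - k)) spin_grad sum_sq_spin
      (Corr.sum_sq_Kpow_le (J := J) (b := b) (sum_sq_le hG.bdd) (D - k))
    refine (gam_Kpow_le b hJ h0 l y).trans ?_
    rw [mul_pow (Real.sqrt _), Real.sq_sqrt (pow_nonneg (zero_le_one.trans Corr.one_le_base) _), one_pow,
      mul_pow (5 * _), Real.sq_sqrt (Nat.cast_nonneg n)]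
    have b1 : (1 + gradC L / (n : ℝ)) ^ l * (1 + gradC L / (n : ℝ)) ^ (D - k) ≤ R := by
      rw [← pow_add]; exact base_le (by omega)
    have b2 : (1 + gradC L / (n : ℝ)) ^ l ≤ R := base_le (by omega)
    have g2 : 1 ≤ Γ ^ 2 := one_le_pow₀ hG.one_le_grad
    have m2 : 1 ≤ M ^ 2 := one_le_pow₀ hG.one_le_bdd
    have hn0 : (0 : ℝ) ≤ n := Nat.cast_nonneg n
    have q : 1 * (Γ ^ 2 * M ^ 2) ≤ R * Γ ^ 2 * (Γ ^ 2 * M ^ 2) :=
      mul_le_mul_of_nonneg_right (one_le_mul_of_one_le_of_one_le hR1 g2) (by positivity)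
    have t1 : (1 + gradC L / (n : ℝ)) ^ l * (1 + gradC L / (n : ℝ)) ^ (D - k) * Γ ^ 2 * n ≤
        R * (R * Γ ^ 2 * (Γ ^ 2 * M ^ 2)) * n := by
      refine mul_le_mul_of_nonneg_right (le_trans ?_ (mul_le_mul b1 q (by positivity) (by linarith))) hn0
      refine mul_le_mul_of_nonneg_left ?_ (by have := one_le_pow (n := n) (L := L) l; have := one_le_pow (n := n) (L := L) (D - k); positivity)
      rw [one_mul]; exact le_mul_of_one_le_right (by positivity) m2
    have t2 : (1 + gradC L / (n : ℝ)) ^ l * M ^ 2 * n ≤ R * (R * Γ ^ 2 * (Γ ^ 2 * M ^ 2)) * n := by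
      refine mul_le_mul_of_nonneg_right (mul_le_mul b2 (le_trans ?_ q) (by positivity) (by linarith)) hn0
      rw [one_mul]; exact le_mul_of_one_le_left (by positivity) g2
    have t4 : 0 ≤ R * (R * Γ ^ 2 * (Γ ^ 2 * M ^ 2)) * n := by positivity
    linarith
  have h := stat_iter hJ.symm hJ.diag hn hf (law_mean hJ hn x u) φ hA
  rw [Real.sqrt_sq (by positivity)] at h
  refine h.trans (le_trans (le_of_eq ?_) (mul_le_mul_of_nonneg_left
    (le_err (J := J) (b := b) (x := x) (u := u) (w := 0) (Γ := Γ) (M := M) (L := L) (D := D)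
      (c := 5 * (R * Γ ^ 2 * M) * Real.sqrt n) (by rw [← hR]; gcongr; norm_num)) (Nat.cast_nonneg k)))
  simp only [Nat.add_zero]
  ring

/-- stationarity error of a square -/
lemma sqErr_le {B W : ℝ} (hB : 1 ≤ B) (hW : 1 ≤ W) (hΓ : 1 ≤ Γ) (hM : 1 ≤ M)
    (hB2 : B ^ 2 ≤ (1 + gradC L / n) ^ (2 * D + 2) * Γ ^ 2) (hWM : W ≤ M) :
    sqErr J b (lawDens J b x u) B (n * W ^ 2) ≤ preStep J b x u D L Γ M 0 := by
  refine le_err (x := x) (u := u) (w := 0) ?_
  have hR := one_le_pow (n := n) (L := L) (2 * D + 2)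
  calc Real.sqrt (3 * (2 * (B ^ 2 * (n * W ^ 2)) + 4 * n * B ^ 4))
      ≤ 5 * (B ^ 2 * W) * Real.sqrt n := by
        refine (Real.sqrt_le_left (by positivity)).2 ?_
        rw [mul_pow, Real.sq_sqrt (Nat.cast_nonneg n)]
        have h1 : B ^ 2 * W ^ 2 * n ≤ B ^ 2 * B ^ 2 * W ^ 2 * n :=
          mul_le_mul_of_nonneg_right (mul_le_mul_of_nonneg_right
            (le_mul_of_one_le_left (sq_nonneg B) (one_le_pow₀ hB)) (sq_nonneg W)) (Nat.cast_nonneg n)
        have h2 : B ^ 2 * B ^ 2 * n ≤ B ^ 2 * B ^ 2 * W ^ 2 * n :=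
          mul_le_mul_of_nonneg_right (le_mul_of_one_le_right (by positivity) (one_le_pow₀ hW)) (Nat.cast_nonneg n)
        linarith [show (0 : ℝ) ≤ B ^ 2 * B ^ 2 * W ^ 2 * n by positivity]
    _ ≤ _ := by
      refine mul_le_mul_of_nonneg_right ?_ (Real.sqrt_nonneg _)
      have h3 := mul_le_mul hB2 hWM (by linarith) (by positivity)
      have h4 : (0 : ℝ) ≤ (1 + gradC L / n) ^ (2 * D + 2) * Γ ^ 2 * M := by positivity
      linarith

/-- variation of the balanced inner product of two vector fields with the lag -/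
lemma tv_gen (hJ : Tame J L) (hn : 0 < n) (hΓ : 1 ≤ Γ) (hM : 1 ≤ M) {v h : Fin n → Cfg n → ℝ}
    (hgv : ∀ (w : Fin n → ℝ) y, gam (fun z => ∑ l, w l * v l z) y ≤
      (Real.sqrt (1 + gradC L / n) * Γ) ^ 2 * ∑ l, w l ^ 2)
    (hgh : ∀ (w : Fin n → ℝ) y, gam (fun z => ∑ l, w l * h l z) y ≤
      (Real.sqrt (1 + gradC L / n) * Γ) ^ 2 * ∑ l, w l ^ 2)
    (hv : ∀ i y, |v i y| ≤ M) (hh : ∀ i y, |h i y| ≤ M) {p q : ℕ} (hpq : p ≤ q) (hq : q ≤ D + 1) :
    ∑ a ∈ Finset.Ico p q, |Ef J b (lawDens J b x u) (fun y => ∑ i, Kpow J b a (v i) y *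
        (Kpow J b (a + 1) (h i) y - Kpow J b a (h i) y))| ≤
      (Real.sqrt (Ef J b (lawDens J b x u) (fun y => ∑ l, Kpow J b p (v l) y * Kpow J b p (v l) y)) +
          Real.sqrt (preErr J b x u D L Γ M)) *
        (Real.sqrt (Ef J b (lawDens J b x u) (fun y => ∑ l, Kpow J b p (h l) y * Kpow J b p (h l) y)) +
          Real.sqrt (preErr J b x u D L Γ M)) + preErr J b x u D L Γ M := by
  have hn' : (0 : ℝ) < n := Nat.cast_pos.2 hn
  have hM0 : 0 ≤ M := zero_le_one.trans hM
  have hf := law_nonneg (J := J) (b := b) x u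
  have hm := law_mean (b := b) hJ hn x u
  set E := preErr J b x u D L Γ M
  have hE : 0 ≤ E := err_nonneg hM
  set A := Real.sqrt (1 + gradC L / (n : ℝ)) * Γ with hA
  have hA1 : 1 ≤ A := one_le_mul_of_one_le_of_one_le (Real.one_le_sqrt.2 Corr.one_le_base) hΓ
  set S := Real.sqrt ((1 + gradC L / (n : ℝ)) ^ q) with hS
  have hS1 : 1 ≤ S := Real.one_le_sqrt.2 (one_le_pow q)
  have hB : (S * A) ^ 2 ≤ (1 + gradC L / (n : ℝ)) ^ (2 * D + 2) * Γ ^ 2 := by
    rw [mul_pow, hA, mul_pow, hS, Real.sq_sqrt (zero_le_one.trans (one_le_pow q)),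
      Real.sq_sqrt (zero_le_one.trans Corr.one_le_base), ← mul_assoc, ← pow_succ]
    exact mul_le_mul_of_nonneg_right (base_le (by omega)) (sq_nonneg Γ)
  have h0 := tv hJ hf hm hn v h (A := A) (B := A) (U := n * M ^ 2) (H := n * M ^ 2) (by linarith) (by linarith)
    hgh hgv (sum_sq_le hv) (sum_sq_le hh) hpq
  refine h0.trans ?_
  have hqp : (q - p : ℕ) ≤ D + 1 := by omega
  have es : (q - p : ℕ) * sqErr J b (lawDens J b x u) (S * A) (n * M ^ 2) ≤ E :=
    (mul_le_mul_of_nonneg_left (sqErr_le (one_le_mul_of_one_le_of_one_le hS1 hA1) hM hΓ hM hB le_rfl)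
      (Nat.cast_nonneg _)).trans (mul_step_le hM hqp)
  have ep : (q - p : ℕ) * pairErr J b (lawDens J b x u) (S * A) (S * A) (n * M ^ 2) ≤ E := by
    refine (mul_le_mul_of_nonneg_left ?_ (Nat.cast_nonneg _)).trans (mul_step_le hM hqp)
    refine le_err (x := x) (u := u) (w := 0) ?_
    set B := S * A
    have hB1 : 1 ≤ B := one_le_mul_of_one_le_of_one_le hS1 hA1
    rw [show 2 * ((n : ℝ) * M ^ 2) = 2 * M ^ 2 * n by ring, Real.sqrt_mul (by positivity : (0 : ℝ) ≤ 2 * M ^ 2),
      Real.sqrt_mul zero_le_two, Real.sqrt_sq hM0]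
    have h2 : Real.sqrt 2 ≤ 2 := (Real.sqrt_le_left zero_le_two).2 (by norm_num)
    calc B * (Real.sqrt 2 * M * Real.sqrt n + 3 * B * Real.sqrt n)
        ≤ B * (5 * (B * M) * Real.sqrt n) := by
          gcongr
          have h4 := le_mul_of_one_le_left hM0 hB1
          have h5 := le_mul_of_one_le_right (zero_le_one.trans hB1) hM
          have h6 := mul_le_mul_of_nonneg_right ((mul_le_mul_of_nonneg_right h2 hM0).trans
            (mul_le_mul_of_nonneg_left h4 zero_le_two)) (Real.sqrt_nonneg (n : ℝ))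
          have h7 := mul_le_mul_of_nonneg_right h5 (Real.sqrt_nonneg (n : ℝ))
          linarith
      _ = 5 * (B ^ 2 * M) * Real.sqrt n := by ring
      _ ≤ _ := by
        refine mul_le_mul_of_nonneg_right ?_ (Real.sqrt_nonneg _)
        have h3 := mul_le_mul_of_nonneg_right hB hM0
        have h4 : (0 : ℝ) ≤ (1 + gradC L / n) ^ (2 * D + 2) * Γ ^ 2 * M := by
          have := one_le_pow (n := n) (L := L) (2 * D + 2); positivity
        linarith
  have u1 : ∀ s t : ℝ, 0 ≤ s → 0 ≤ t → Real.sqrt (s + t) ≤ Real.sqrt s + Real.sqrt t := fun s t hs ht => by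
    rw [Real.sqrt_le_left (by positivity), add_sq, Real.sq_sqrt hs, Real.sq_sqrt ht]
    have := mul_nonneg (Real.sqrt_nonneg s) (Real.sqrt_nonneg t); linarith
  have hnn : ∀ (a : ℕ) (φ : Fin n → Cfg n → ℝ), 0 ≤ Ef J b (lawDens J b x u) (fun y => ∑ l, Kpow J b a (φ l) y * Kpow J b a (φ l) y) :=
    fun a φ => (Corr.Ef_const hm 0).symm.le.trans (Corr.Ef_mono hf fun y => Finset.sum_nonneg fun l _ => mul_self_nonneg _)
  refine add_le_add (mul_le_mul ((Real.sqrt_le_sqrt ?_).trans (u1 _ _ (hnn p v) hE))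
    ((Real.sqrt_le_sqrt ?_).trans (u1 _ _ (hnn p h) hE)) (Real.sqrt_nonneg _) (by positivity)) ep
  · linarith [hnn q v]
  · linarith [hnn q h]

lemma qmean_mem (a : ℕ) (y : Cfg n) : 0 ≤ qmean J b a y ∧ qmean J b a y ≤ 1 :=
  ⟨div_nonneg (Finset.sum_nonneg fun _ _ => sq_nonneg _) (Nat.cast_nonneg n),
    div_le_one_of_le₀ (Corr.sum_sq_mean_le a y) (Nat.cast_nonneg n)⟩

lemma eta_mem (hn : 0 < n) (u a : ℕ) (x : Cfg n) :
    0 ≤ Kpow J b u (qmean J b a) x ∧ Kpow J b u (qmean J b a) x ≤ 1 :=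
  ⟨Pair.Kpow_nonneg (fun y => (qmean_mem a y).1) u x, (le_abs_self _).trans (abs_K_le hn (fun y => by
    rw [abs_of_nonneg (qmean_mem a y).1]; exact (qmean_mem a y).2) u x)⟩

/-- the balanced correlation of the spins with a field at lag `2 a` -/
noncomputable def bal (J : Fin n → Fin n → ℝ) (b : Fin n → ℝ) (x : Cfg n) (u : ℕ)
    (G : Fin n → Cfg n → ℝ) (a : ℕ) : ℝ :=
  Ef J b (lawDens J b x u) (fun y => ∑ i, Kpow J b a (fun z => spin (z i)) y * Kpow J b a (G i) y)

/-- variation of the balanced correlation beyond the lag `2 p` -/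
lemma bal_tv (hJ : Tame J L) (hn : 0 < n) (hG : PreField G Γ M) {p q : ℕ} (hpq : p ≤ q) (hq : q ≤ D + 1) :
    ∑ a ∈ Finset.Ico p q, |bal J b x u G (a + 1) - bal J b x u G a| ≤
      2 * (n * M * Real.sqrt (Kpow J b u (qmean J b p) x) +
        Real.sqrt (n * preErr J b x u D L Γ M) * (Real.sqrt (Kpow J b u (qmean J b p) x) + M) +
        2 * preErr J b x u D L Γ M) := by
  have hn' : (0 : ℝ) < n := Nat.cast_pos.2 hn
  have hM := hG.one_le_bdd
  have hM0 : 0 ≤ M := zero_le_one.trans hM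
  have hf := law_nonneg (J := J) (b := b) x u
  have hm := law_mean (b := b) hJ hn x u
  set E := preErr J b x u D L Γ M
  have hE : 0 ≤ E := err_nonneg hM
  set η := Kpow J b u (qmean J b p) x
  set Γ₁ := Real.sqrt (1 + gradC L / (n : ℝ)) * Γ with hΓ₁
  have hb1 : 1 ≤ Γ₁ := one_le_mul_of_one_le_of_one_le (Real.one_le_sqrt.2 Corr.one_le_base) hG.one_le_grad
  have gs : ∀ (w : Fin n → ℝ) y, gam (fun z => ∑ l, w l * spin (z l)) y ≤ Γ₁ ^ 2 * ∑ l, w l ^ 2 := fun w y =>
    (spin_grad w y).trans (mul_le_mul_of_nonneg_right (by rw [one_pow]; exact one_le_pow₀ hb1)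
      (Finset.sum_nonneg fun _ _ => sq_nonneg _))
  have g0 : ∀ (w : Fin n → ℝ) y, gam (fun z => ∑ l, w l * G l z) y ≤ Γ₁ ^ 2 * ∑ l, w l ^ 2 := fun w y =>
    (hG.grad w y).trans (mul_le_mul_of_nonneg_right (pow_le_pow_left₀ (zero_le_one.trans hG.one_le_grad)
      (le_mul_of_one_le_left (zero_le_one.trans hG.one_le_grad) (Real.one_le_sqrt.2 Corr.one_le_base)) 2)
      (Finset.sum_nonneg fun _ _ => sq_nonneg _))
  have g1 : ∀ (w : Fin n → ℝ) y, gam (fun z => ∑ l, w l * Kpow J b 1 (G l) z) y ≤ Γ₁ ^ 2 * ∑ l, w l ^ 2 := fun w y => by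
    have h := grad_Kpow (b := b) hJ hG 1 w y
    rw [pow_one] at h
    exact h
  have bs : ∀ (i : Fin n) (y : Cfg n), |spin (y i)| ≤ M := fun i y => (abs_spin _).le.trans hM
  have bG : ∀ (i : Fin n) y, |Kpow J b 1 (G i) y| ≤ M := fun i => abs_K_le hn (hG.bdd i) 1
  have t1 := tv_gen hJ hn hG.one_le_grad hM (x := x) (u := u) (b := b) (D := D)
    (v := fun i z => spin (z i)) (h := G) gs g0 bs hG.bdd hpq hq
  have t2 := tv_gen hJ hn hG.one_le_grad hM (x := x) (u := u) (b := b) (D := D)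
    (v := fun i => Kpow J b 1 (G i)) (h := fun i z => spin (z i)) g1 gs bG bs hpq hq
  have eK : ∀ a i, Kpow J b a (Kpow J b 1 (G i)) = Kpow J b (a + 1) (G i) := fun a i =>
    (Function.iterate_add_apply (K J b) a 1 (G i)).symm
  simp only [eK] at t2
  have eη : Ef J b (lawDens J b x u) (fun y => ∑ l, Kpow J b p (fun z => spin (z l)) y * Kpow J b p (fun z => spin (z l)) y) =
      n * η := by
    rw [← law_Ef hJ]
    simp only [η]
    rw [← congrFun (Block.Kpow_mul_const (J := J) (b := b) u (n : ℝ) (qmean J b p)) x]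
    congr 1; funext y
    simp only [qmean, mean, pow_two]
    field_simp
  have hb : ∀ a, Ef J b (lawDens J b x u) (fun y => ∑ l, Kpow J b a (G l) y * Kpow J b a (G l) y) ≤ n * M ^ 2 := fun a => by
    refine (Corr.Ef_mono hf fun y => ?_).trans_eq (Corr.Ef_const hm _)
    simpa only [pow_two] using Corr.sum_sq_Kpow_le (J := J) (b := b) (sum_sq_le hG.bdd) a y
  rw [eη, Real.sqrt_mul hn'.le] at t1 t2
  have s1 : ∀ a, Real.sqrt (Ef J b (lawDens J b x u) (fun y => ∑ l, Kpow J b a (G l) y * Kpow J b a (G l) y)) ≤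
      Real.sqrt n * M := fun a =>
    (Real.sqrt_le_sqrt (hb a)).trans_eq (by rw [Real.sqrt_mul hn'.le, Real.sqrt_sq hM0])
  have a1 := mul_le_mul_of_nonneg_left (add_le_add (s1 p) (le_refl (Real.sqrt E)))
    (show 0 ≤ Real.sqrt n * Real.sqrt η + Real.sqrt E by positivity)
  have a2 := mul_le_mul_of_nonneg_right (add_le_add (s1 (p + 1)) (le_refl (Real.sqrt E)))
    (show 0 ≤ Real.sqrt n * Real.sqrt η + Real.sqrt E by positivity)
  have e : (Real.sqrt n * Real.sqrt η + Real.sqrt E) * (Real.sqrt n * M + Real.sqrt E) =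
      n * M * Real.sqrt η + Real.sqrt (n * E) * (Real.sqrt η + M) + E := by
    rw [Real.sqrt_mul hn'.le]
    linear_combination (Real.sqrt η * M) * Real.mul_self_sqrt hn'.le + Real.mul_self_sqrt hE
  refine (Finset.sum_le_sum fun a _ => ?_).trans ((Finset.sum_add_distrib).trans_le
    ((add_le_add t1 t2).trans (by linarith)))
  refine le_of_eq_of_le (congrArg abs ?_) (abs_add_le _ _)
  simp only [bal, Ef, ← Finset.sum_add_distrib, ← Finset.sum_sub_distrib]
  refine Finset.sum_congr rfl fun y _ => ?_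
  rw [← mul_sub, ← mul_add, ← mul_sub, ← mul_add, ← Finset.sum_sub_distrib, ← Finset.sum_add_distrib]
  congr 2
  exact Finset.sum_congr rfl fun i _ => by ring

lemma preEta_mem (hn : 0 < n) (hG : PreField G Γ M) :
    0 ≤ preEta J b x u D G ∧ preEta J b x u D G ≤ M ^ 2 := by
  have h : ∀ y, 0 ≤ (∑ i, Kpow J b D (G i) y ^ 2) / n ∧ (∑ i, Kpow J b D (G i) y ^ 2) / n ≤ M ^ 2 := fun y =>
    ⟨div_nonneg (Finset.sum_nonneg fun i _ => sq_nonneg _) (Nat.cast_nonneg n), by
      rw [div_le_iff₀ (Nat.cast_pos.2 hn), mul_comm]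
      exact sum_sq_le (fun i z => abs_K_le hn (hG.bdd i) D z) y⟩
  exact ⟨Pair.Kpow_nonneg (fun y => (h y).1) u x, (le_abs_self _).trans (abs_K_le hn (fun y => by
    rw [abs_of_nonneg (h y).1]; exact (h y).2) u x)⟩

lemma abs_dot_le {a c : Fin n → ℝ} {s M : ℝ} (hs : 0 ≤ s) (ha : ∀ i, |a i| ≤ s) (hc : ∀ i, |c i| ≤ M) :
    |∑ i, a i * c i| ≤ n * (s * M) := by
  refine (Finset.abs_sum_le_sum_abs _ _).trans ((Finset.sum_le_card_nsmul _ _ (s * M) fun i _ => ?_).trans_eq (by simp))
  rw [abs_mul]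
  exact mul_le_mul (ha i) (hc i) (abs_nonneg _) hs

lemma abs_cor_le (hn : 0 < n) (hG : PreField G Γ M) (k : ℕ) : |preCor J b x u D G k| ≤ n * M :=
  abs_K_le hn (fun y => (abs_dot_le zero_le_one (fun i => (abs_spin (y i)).le)
    fun i => abs_K_le hn (hG.bdd i) _ y).trans_eq (by rw [one_mul])) _ x

lemma cor_zero : preCor J b x u D G 0 = preCen J b x u D G 0 := by simp [preCor, preCen, mean, Kpow]

/-- the centring moves by at most `2 M` per attempt -/
lemma cen_step (hn : 0 < n) (hG : PreField G Γ M) (k : ℕ) :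
    |preCen J b x u D G (k + 1) - preCen J b x u D G k| ≤ 2 * M := by
  have hn' : (0 : ℝ) < n := Nat.cast_pos.2 hn
  have h : ∀ i y, |mean J b (k + 1) y i - mean J b k y i| ≤ 2 / n := fun i y => by
    rw [mean, mean, Block.Kpow_comm, ← congrFun (Block.Kpow_sub (J := J) (b := b) k _ _) y]
    refine abs_K_le hn (fun z => ?_) k y
    have h := spin_step (J := J) (b := b) hn i (fun _ => (1 : ℝ)) z
    simp only [mul_one, K_one J b hn] at h
    rw [h, abs_div, Nat.abs_cast, qb_const, mul_one]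
    refine div_le_div_of_nonneg_right ((abs_sub _ _).trans ?_) hn'.le
    rw [abs_spin, ← one_add_one_eq_two]
    exact add_le_add (abs_qb_le (fun w => (abs_spin _).le) i z) le_rfl
  rw [preCen, preCen, ← congrFun (Block.Kpow_sub (J := J) (b := b) u _ _) x]
  refine abs_K_le hn (fun y => ?_) u x
  rw [← Finset.sum_sub_distrib]
  simp only [← sub_mul]
  exact (abs_dot_le (by positivity) (fun i => h i y) fun i => abs_K_le hn (hG.bdd i) D y).trans_eq (by field_simp)

/-- centring terms -/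
lemma cen_le (hn : 0 < n) (k : ℕ) :
    |preCen J b x u D G k| ≤ n * (Real.sqrt (Kpow J b u (qmean J b k) x) * Real.sqrt (preEta J b x u D G)) := by
  have hn' : (0 : ℝ) < n := Nat.cast_pos.2 hn
  refine (Block.Kpow_cauchy u (V := fun y => (n : ℝ) * qmean J b k y)
    (W := fun y => (n : ℝ) * ((∑ i, Kpow J b D (G i) y ^ 2) / n))
    (fun y => mul_nonneg hn'.le (qmean_mem k y).1)
    (fun y => mul_nonneg hn'.le (div_nonneg (Finset.sum_nonneg fun i _ => sq_nonneg _) hn'.le)) (fun y => ?_) x).trans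
    (le_of_eq ?_)
  · rw [qmean, mul_div_cancel₀ _ hn'.ne', mul_div_cancel₀ _ hn'.ne']
    exact Finset.sum_mul_sq_le_sq_mul_sq _ _ _
  · rw [Block.Kpow_mul_const, Block.Kpow_mul_const, Real.sqrt_mul hn'.le, Real.sqrt_mul hn'.le, preEta]
    linear_combination (Real.sqrt (Kpow J b u (qmean J b k) x) *
      Real.sqrt (Kpow J b u (fun F => (∑ i, Kpow J b D (G i) F ^ 2) / n) x)) * Real.mul_self_sqrt hn'.le

/-- the overlap at a longer lag is at most the overlap at a shorter one -/
lemma eta_le (hJ : Tame J L) (hn : 0 < n) (hΓ : 1 ≤ Γ) (hM : 1 ≤ M) {τ₀ k : ℕ} (h0 : τ₀ ≤ k) (hk : k ≤ D) :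
    Kpow J b u (qmean J b k) x ≤ Kpow J b u (qmean J b τ₀) x + preErr J b x u D L Γ M / n := by
  have hn' : (0 : ℝ) < n := Nat.cast_pos.2 hn
  have h1 : Kpow J b u (qmean J b k) x ≤ Kpow J b u (Kpow J b (k - τ₀) (qmean J b τ₀)) x :=
    Block.Kpow_mono (fun y => (qlag_self k y).symm.trans_le (qlag_anti h0 le_rfl y)) u x
  have e : qmean J b τ₀ = ov J b τ₀ τ₀ := funext fun y => by simp only [qmean, ov, pow_two]
  have h2 := abs_le.1 (ov_stat hJ hn (law_nonneg (J := J) (b := b) x u) (law_mean hJ hn x u) (k := k - τ₀)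
    (a := τ₀) (c := τ₀) (M := 2 * D) (by omega))
  rw [Cor2, ← e, ← law_Ef hJ, ← law_Ef hJ] at h2
  have hc : corErr J b (lawDens J b x u) L (2 * D) ≤ preStep J b x u D L Γ M 0 / n := by
    rw [le_div_iff₀ hn']
    refine le_trans (le_of_eq ?_) (le_err (x := x) (u := u) (w := 0) (Γ := Γ) (M := M) (L := L) (D := D)
      (c := 5 * (1 + gradC L / n) ^ (2 * D) * Real.sqrt n) ?_)
    · rw [corErr, Nat.add_zero]; field_simp; ring
    · refine mul_le_mul_of_nonneg_right ?_ (Real.sqrt_nonneg _)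
      have hA : 1 ≤ Γ ^ 2 * M := one_le_mul_of_one_le_of_one_le (one_le_pow₀ hΓ) hM
      have h3 := (base_le (n := n) (L := L) (Nat.le_add_right (2 * D) 2)).trans
        (le_mul_of_one_le_right (zero_le_one.trans (one_le_pow _)) hA)
      linarith [one_le_pow (n := n) (L := L) (2 * D)]
  have h3 : ((k - τ₀ : ℕ) : ℝ) * corErr J b (lawDens J b x u) L (2 * D) ≤ preErr J b x u D L Γ M / n := by
    refine (mul_le_mul_of_nonneg_left hc (Nat.cast_nonneg _)).trans ?_
    rw [← mul_div_assoc]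
    exact div_le_div_of_nonneg_right (mul_step_le hM (by omega)) hn'.le
  linarith

/-- a correlation is near the balanced one -/
lemma cor_bal (hJ : Tame J L) (hn : 0 < n) (hG : PreField G Γ M) {k : ℕ} (hk : k ≤ D) :
    |preCor J b x u D G k - bal J b x u G ((D - k) / 2)| ≤ 2 * M + 2 * preErr J b x u D L Γ M := by
  have hM := hG.one_le_bdd
  have key : ∀ j ≤ D, ∀ a, D - j = a + a →
      |preCor J b x u D G j - bal J b x u G a| ≤ 2 * preErr J b x u D L Γ M := by
    intro j hj a ha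
    have h1 := abs_le.1 ((shift_to hJ hn hG hj (x := x) (u := u) (b := b)).trans
      (mul_step_le (x := x) (u := u) (b := b) (J := J) (L := L) (Γ := Γ) hM (by omega)))
    have h2 := abs_le.1 ((swap_to hJ hn hG (D := D) (a := a) (c := a) (by omega) (x := x) (u := u) (b := b)).trans
      (mul_step_le (x := x) (u := u) (b := b) (J := J) (L := L) (Γ := Γ) hM (by omega)))
    rw [← ha] at h2
    rw [bal, abs_le]
    constructor <;> linarith
  rcases Nat.mod_two_eq_zero_or_one (D - k) with h | h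
  · refine (key k hk _ (by omega)).trans (le_add_of_nonneg_left (by linarith))
  · have h1 := abs_le.1 (key (k + 1) (by omega) ((D - k) / 2) (by omega))
    have h2 := abs_le.1 (cor_step_le (J := J) (b := b) (x := x) (u := u) hn hG (show k < D by omega))
    rw [abs_le]
    constructor <;> linarith

lemma sum_var_le (C : ℕ → ℝ) {g : ℕ → ℕ} (hg : Antitone g) (N : ℕ) :
    ∑ j ∈ Finset.range N, |C (g j) - C (g (j + 1))| ≤ ∑ a ∈ Finset.Ico (g N) (g 0), |C (a + 1) - C a| := by
  induction N with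
  | zero => simp
  | succ N ih =>
    rw [Finset.sum_range_succ, ← Finset.sum_Ico_consecutive _ (hg (Nat.le_succ N)) (hg (Nat.zero_le N)), add_comm]
    refine add_le_add ?_ ih
    rw [← Finset.sum_Ico_sub C (hg (Nat.le_succ N))]
    exact Finset.abs_sum_le_sum_abs _ _

lemma lip_range {c : ℕ → ℝ} {K : ℝ} (hc : ∀ k, |c (k + 1) - c k| ≤ K) {a k : ℕ} (h : a ≤ k) :
    |c k - c a| ≤ ((k : ℝ) - a) * K := by
  induction k, h using Nat.le_induction with
  | base => simp
  | succ k _ ih =>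
    have h1 := abs_le.1 (hc k)
    have h2 := abs_le.1 ih
    push_cast
    rw [abs_le]
    constructor <;> linarith

lemma sum_grid (F : ℕ → ℝ) {g : ℕ → ℕ} (hg : Monotone g) (N : ℕ) :
    ∑ k ∈ Finset.Ico (g 0) (g N), F k = ∑ j ∈ Finset.range N, ∑ k ∈ Finset.Ico (g j) (g (j + 1)), F k := by
  induction N with
  | zero => simp
  | succ N ih => rw [Finset.sum_range_succ, ← ih, Finset.sum_Ico_consecutive _ (hg (Nat.zero_le N)) (hg (Nat.le_succ N))]

/-- responses against a slowly varying weight, coarse grained into `N` pieces -/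
lemma resp_weight (hJ : Tame J L) (hn : 0 < n) (hG : PreField G Γ M) {p lo hi N : ℕ} (hlo : lo ≤ hi)
    (hhi : hi + 2 * p ≤ D) (hN : 0 < N) {c : ℕ → ℝ} {m : ℝ} (hm0 : 0 ≤ m) (hm : m ≤ n * M)
    (hc : ∀ k ∈ Finset.Ico lo hi, |c k| ≤ m) (hcl : ∀ k, |c (k + 1) - c k| ≤ 2 * M) :
    |∑ k ∈ Finset.Ico lo hi, preResp J b x u D G k * c k| ≤
      2 * m * n * M * Real.sqrt (Kpow J b u (qmean J b p) x) +
        30 * M ^ 2 * (n : ℝ) ^ 2 * preDel J b x u D L Γ M N := by
  have hn' : (0 : ℝ) < n := Nat.cast_pos.2 hn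
  have hN' : (0 : ℝ) < N := Nat.cast_pos.2 hN
  have hM := hG.one_le_bdd
  have hM0 : 0 ≤ M := zero_le_one.trans hM
  set E := preErr J b x u D L Γ M with hEd
  have hE : 0 ≤ E := err_nonneg hM
  set δ := preDel J b x u D L Γ M N with hδd
  set η := Kpow J b u (qmean J b p) x
  set A := preCor J b x u D G
  set l := D / N + 1
  set g := fun j => min (lo + j * l) hi
  have hg : Monotone g := fun i j h => min_le_min (by have := Nat.mul_le_mul_right l h; omega) le_rfl
  have g0 : g 0 = lo := by simp [g, hlo]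
  have gN : g N = hi := by
    refine min_eq_right ?_
    have h1 := Nat.div_add_mod D N
    have h2 := Nat.mod_lt D hN
    have : N * l = N * (D / N) + N := by simp only [l]; ring
    omega
  have hgs : ∀ j, g (j + 1) ≤ g j + l := fun j => by simp only [g, Nat.succ_mul]; generalize j * l = t; generalize l = l'; omega
  have hmem : ∀ j < N, ∀ k ∈ Finset.Ico (g j) (g (j + 1)), k ∈ Finset.Ico lo hi := fun j hj k hk => by
    have h1 := hg (Nat.zero_le j); have h2 := hg (show j + 1 ≤ N from hj)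
    have h3 := Finset.mem_Ico.1 hk
    exact Finset.mem_Ico.2 ⟨by omega, by omega⟩
  have hgD : ∀ j, g j ≤ D := fun j => (min_le_right _ _).trans (by omega)
  -- replace responses by increments
  have s1 : |∑ k ∈ Finset.Ico lo hi, (preResp J b x u D G k - (A (k + 1) - A k)) * c k| ≤ m * E := by
    refine (Finset.abs_sum_le_sum_abs _ _).trans ?_
    refine (Finset.sum_le_sum (g := fun k => m * preStep J b x u D L Γ M k) fun k hk => ?_).trans ?_
    · have hkD : k < D := by have := (Finset.mem_Ico.1 hk).2; omega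
      rw [abs_mul, abs_sub_comm, mul_comm m]
      exact mul_le_mul (fdt_step hJ hn hG hkD) (hc k hk) (abs_nonneg _) (step_nonneg hM k)
    · rw [← Finset.mul_sum]
      refine mul_le_mul_of_nonneg_left (le_trans ?_ (sum_step_le hM)) hm0
      exact Finset.sum_le_sum_of_subset_of_nonneg (fun k hk => Finset.mem_range.2
        (by have := (Finset.mem_Ico.1 hk).2; omega)) fun k _ _ => step_nonneg hM k
  -- one piece
  have piece : ∀ j < N, |∑ k ∈ Finset.Ico (g j) (g (j + 1)), (A (k + 1) - A k) * c k| ≤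
      m * |bal J b x u G ((D - g j) / 2) - bal J b x u G ((D - g (j + 1)) / 2)| + m * (4 * M + 4 * E) +
        4 * M ^ 2 * l * ((g (j + 1) : ℝ) - g j) := by
    intro j hj
    set a := g j
    set a' := g (j + 1)
    have ha : a ≤ a' := hg (Nat.le_succ j)
    have e : ∑ k ∈ Finset.Ico a a', (A (k + 1) - A k) * c k =
        c a * (A a' - A a) + ∑ k ∈ Finset.Ico a a', (A (k + 1) - A k) * (c k - c a) := by
      rw [← Finset.sum_Ico_sub A ha, Finset.mul_sum, ← Finset.sum_add_distrib]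
      exact Finset.sum_congr rfl fun k _ => by ring
    rw [e]
    refine (abs_add_le _ _).trans (add_le_add ?_ ?_)
    · rcases eq_or_lt_of_le ha with h | h
      · rw [← h, sub_self, mul_zero, abs_zero]; positivity
      · rw [abs_mul, ← mul_add]
        refine mul_le_mul (hc a (hmem j hj a (Finset.mem_Ico.2 ⟨le_rfl, h⟩))) ?_ (abs_nonneg _) hm0
        have h1 := abs_le.1 (cor_bal hJ hn hG (hgD j) (x := x) (u := u) (b := b))
        have h2 := abs_le.1 (cor_bal hJ hn hG (hgD (j + 1)) (x := x) (u := u) (b := b))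
        rw [abs_le]
        constructor <;> linarith [le_abs_self (bal J b x u G ((D - a) / 2) - bal J b x u G ((D - a') / 2)),
          neg_abs_le (bal J b x u G ((D - a) / 2) - bal J b x u G ((D - a') / 2))]
    · refine (Finset.abs_sum_le_sum_abs _ _).trans ((Finset.sum_le_card_nsmul _ _ (4 * M ^ 2 * l) fun k hk => ?_).trans_eq ?_)
      · have h1 := Finset.mem_Ico.1 hk
        have hkD : k < D := by have := hgD (j + 1); omega
        rw [abs_mul, show 4 * M ^ 2 * (l : ℝ) = 2 * M * ((l : ℝ) * (2 * M)) by ring]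
        refine mul_le_mul (cor_step_le hn hG hkD) ((lip_range hcl h1.1).trans ?_) (abs_nonneg _) (by positivity)
        refine mul_le_mul_of_nonneg_right ?_ (by positivity)
        have h2 := hgs j
        have : (k : ℝ) ≤ a + l := by exact_mod_cast (show k ≤ a + l by omega)
        linarith
      · rw [Nat.card_Ico, nsmul_eq_mul, Nat.cast_sub ha]; ring
  have s2 : |∑ k ∈ Finset.Ico lo hi, (A (k + 1) - A k) * c k| ≤
      m * (∑ a ∈ Finset.Ico p (D / 2 + 1), |bal J b x u G (a + 1) - bal J b x u G a|) +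
        N * (m * (4 * M + 4 * E)) + 4 * M ^ 2 * l * D := by
    rw [← g0, ← gN, sum_grid _ hg N]
    refine (Finset.abs_sum_le_sum_abs _ _).trans
      ((Finset.sum_le_sum fun j hj => piece j (Finset.mem_range.1 hj)).trans ?_)
    rw [Finset.sum_add_distrib, Finset.sum_add_distrib, Finset.sum_const, Finset.card_range, nsmul_eq_mul,
      ← Finset.mul_sum, ← Finset.mul_sum, Finset.sum_range_sub (fun j => (g j : ℝ)) N]
    refine add_le_add (add_le_add (mul_le_mul_of_nonneg_left ?_ hm0) le_rfl)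
      (mul_le_mul_of_nonneg_left ?_ (by positivity))
    · refine (sum_var_le (bal J b x u G) (g := fun j => (D - g j) / 2)
        (fun i j h => Nat.div_le_div_right (Nat.sub_le_sub_left (hg h) D)) N).trans
        (Finset.sum_le_sum_of_subset_of_nonneg (fun a ha => ?_) fun a _ _ => abs_nonneg _)
      simp only [Finset.mem_Ico, gN, g0] at ha ⊢
      omega
    · have : (g N : ℝ) ≤ D := Nat.cast_le.2 (hgD N)
      linarith [(Nat.cast_nonneg (g 0) : (0 : ℝ) ≤ g 0)]
  have tv := bal_tv hJ hn hG (x := x) (u := u) (b := b) (D := D) (p := p) (q := D / 2 + 1) (by omega) (by omega)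
  rw [← hEd] at tv
  have hs : Real.sqrt η ≤ M := (Real.sqrt_le_one.2 (eta_mem hn u p x).2).trans hM
  -- sizes
  have hp : Real.sqrt (E / n) + N * E / n + ((D : ℝ) / n) ^ 2 / N + ((D : ℝ) / n + N + 1) / n = δ := rfl
  have q1 : 0 ≤ Real.sqrt (E / n) := Real.sqrt_nonneg _
  have q2 : 0 ≤ (N : ℝ) * E / n := by positivity
  have q3 : 0 ≤ ((D : ℝ) / n) ^ 2 / N := by positivity
  have q4 : 0 ≤ (D : ℝ) / n / n := by positivity
  have q5 : 0 ≤ (N : ℝ) / n := by positivity
  have q6 : 0 ≤ 1 / (n : ℝ) := by positivity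
  rw [add_div, add_div] at hp
  have hδ : 0 ≤ δ := by linarith
  have d1 : Real.sqrt (n * E) ≤ n * δ := by
    refine le_trans ?_ (mul_le_mul_of_nonneg_left (show Real.sqrt (E / n) ≤ δ by linarith) hn'.le)
    rw [Real.sqrt_le_left (by positivity), mul_pow, Real.sq_sqrt (div_nonneg hE hn'.le)]
    exact le_of_eq (by field_simp)
  have d2 : (N : ℝ) * E ≤ n * δ := by
    rw [← div_le_iff₀' hn']; linarith
  have d2' : E ≤ n * δ := le_trans (le_mul_of_one_le_left hE (by exact_mod_cast hN)) d2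
  have d3 : (N : ℝ) ≤ n * δ := by rw [← div_le_iff₀' hn']; linarith
  have d4 : (l : ℝ) * D ≤ (n : ℝ) ^ 2 * δ := by
    have h1 : (l : ℝ) ≤ D / N + 1 := by
      have := Nat.cast_div_le (m := D) (n := N) (α := ℝ); simp only [l, Nat.cast_add, Nat.cast_one]; linarith
    refine (mul_le_mul_of_nonneg_right h1 (Nat.cast_nonneg D)).trans ?_
    refine le_trans (le_of_eq ?_) (mul_le_mul_of_nonneg_left
      (show ((D : ℝ) / n) ^ 2 / N + (D : ℝ) / n / n ≤ δ by linarith) (sq_nonneg (n : ℝ)))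
    field_simp
  have hmn : m ≤ (n : ℝ) * M := hm
  have c1 := mul_le_mul_of_nonneg_left tv hm0
  have c2 : m * (Real.sqrt (n * E) * (Real.sqrt η + M)) ≤ 2 * (M ^ 2 * ((n : ℝ) ^ 2 * δ)) := by
    refine (mul_le_mul hmn (mul_le_mul d1 (add_le_add hs le_rfl) (by positivity) (by positivity))
      (by positivity) (by positivity)).trans (le_of_eq ?_)
    ring
  have c3 : m * E ≤ M ^ 2 * ((n : ℝ) ^ 2 * δ) := by
    refine (mul_le_mul hmn d2' hE (by positivity)).trans ?_
    have := mul_le_mul_of_nonneg_right (le_self_pow₀ hM two_ne_zero : M ≤ M ^ 2)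
      (show (0 : ℝ) ≤ n ^ 2 * δ by positivity)
    linarith
  have c4 : (N : ℝ) * (m * (4 * M + 4 * E)) ≤ 8 * (M ^ 2 * ((n : ℝ) ^ 2 * δ)) := by
    have h1 := mul_le_mul hmn (add_le_add (mul_le_mul_of_nonneg_left d3 hM0) d2) (by positivity) (by positivity)
    have := mul_le_mul_of_nonneg_right (le_self_pow₀ hM two_ne_zero : M ≤ M ^ 2)
      (show (0 : ℝ) ≤ n ^ 2 * δ by positivity)
    linarith
  have c5 : 4 * M ^ 2 * (l : ℝ) * D ≤ 4 * (M ^ 2 * ((n : ℝ) ^ 2 * δ)) := by
    rw [mul_assoc (4 * M ^ 2), mul_assoc 4]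
    exact mul_le_mul_of_nonneg_left (mul_le_mul_of_nonneg_left d4 (sq_nonneg M)) (by norm_num)
  have e : ∑ k ∈ Finset.Ico lo hi, preResp J b x u D G k * c k =
      ∑ k ∈ Finset.Ico lo hi, (preResp J b x u D G k - (A (k + 1) - A k)) * c k +
        ∑ k ∈ Finset.Ico lo hi, (A (k + 1) - A k) * c k := by
    rw [← Finset.sum_add_distrib]; exact Finset.sum_congr rfl fun k _ => by ring
  rw [e]
  refine (abs_add_le _ _).trans ((add_le_add s1 s2).trans ?_)
  have z : 0 ≤ M ^ 2 * ((n : ℝ) ^ 2 * δ) := by positivity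
  linarith

end ChPre

open ChPre

variable {J : Fin n → Fin n → ℝ} {b : Fin n → ℝ} {x : Cfg n} {u D : ℕ} {L Γ M : ℝ} {G H : Fin n → Cfg n → ℝ}

/-- before the observation the score is the product of the correlations at the observation -/
theorem pre_score (hJ : Tame J L) (hn : 0 < n) (hG : PreField G Γ M) (hH : PreField H Γ M) {τ₀ N : ℕ}
    (hτ : 3 * τ₀ ≤ D) (hN : 0 < N) :
    |∑ k ∈ Finset.range D, (preResp J b x u D G k * (preCor J b x u D H k - preCen J b x u D H k) +
        preResp J b x u D H k * (preCor J b x u D G k - preCen J b x u D G k)) -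
      preCor J b x u D G D * preCor J b x u D H D| ≤
      200 * M ^ 2 * (n : ℝ) ^ 2 * (Real.sqrt (Kpow J b u (qmean J b τ₀) x) + Real.sqrt (preEta J b x u D H) +
        preDel J b x u D L Γ M N) := by
  have hn' : (0 : ℝ) < n := Nat.cast_pos.2 hn
  have hN' : (0 : ℝ) < N := Nat.cast_pos.2 hN
  have hM := hG.one_le_bdd
  have hM0 : 0 ≤ M := by linarith
  set E := preErr J b x u D L Γ M with hEd
  have hE : 0 ≤ E := err_nonneg hM
  set δ := preDel J b x u D L Γ M N with hδd
  have hp : Real.sqrt (E / n) + N * E / n + ((D : ℝ) / n) ^ 2 / N + ((D : ℝ) / n + N + 1) / n = δ := rfl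
  have q1 : 0 ≤ Real.sqrt (E / n) := Real.sqrt_nonneg _
  have q2 : 0 ≤ (N : ℝ) * E / n := by positivity
  have q3 : 0 ≤ ((D : ℝ) / n) ^ 2 / N := by positivity
  have q4 : 0 ≤ (D : ℝ) / n / n := by positivity
  have q5 : 0 ≤ (N : ℝ) / n := by positivity
  have q6 : 0 ≤ 1 / (n : ℝ) := by positivity
  rw [add_div, add_div] at hp
  have hδ : 0 ≤ δ := by linarith
  have hEδ : E ≤ n * δ := by
    refine le_trans (le_mul_of_one_le_left hE (by exact_mod_cast hN : (1 : ℝ) ≤ N)) ?_
    rw [← div_le_iff₀' hn']; linarith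
  have hDδ : (D : ℝ) ≤ n ^ 2 * δ := by
    rw [← div_le_iff₀' (by positivity), pow_two, ← div_div]; linarith
  set sη := Real.sqrt (Kpow J b u (qmean J b τ₀) x)
  set sH := Real.sqrt (preEta J b x u D H)
  set sG := Real.sqrt (preEta J b x u D G)
  have hsη : 0 ≤ sη := Real.sqrt_nonneg _
  have hsH : 0 ≤ sH := Real.sqrt_nonneg _
  have hsη1 : sη ≤ 1 := Real.sqrt_le_one.2 (eta_mem hn u τ₀ x).2
  have hsHM : sH ≤ M := (Real.sqrt_le_left hM0).2 (preEta_mem hn hH).2
  have hsGM : sG ≤ M := (Real.sqrt_le_left hM0).2 (preEta_mem hn hG).2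
  have hk1 : ∀ k, Real.sqrt (Kpow J b u (qmean J b k) x) ≤ 1 := fun k => Real.sqrt_le_one.2 (eta_mem hn u k x).2
  -- the centring terms
  have cH : ∀ k, |preCen J b x u D H k| ≤ n * sH := fun k =>
    (cen_le hn k).trans (mul_le_mul_of_nonneg_left (mul_le_of_le_one_left hsH (hk1 k)) hn'.le)
  have cG : ∀ k, |preCen J b x u D G k| ≤ n * M := fun k =>
    (cen_le hn k).trans (mul_le_mul_of_nonneg_left
      ((mul_le_of_le_one_left (Real.sqrt_nonneg _) (hk1 k)).trans hsGM) hn'.le)
  set c₀ := min 1 (sη + δ)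
  have hc1 : c₀ ≤ 1 := min_le_left _ _
  have hc2 : c₀ ≤ sη + δ := min_le_right _ _
  have hc0 : 0 ≤ c₀ := le_min zero_le_one (by linarith)
  have cG' : ∀ k, τ₀ ≤ k → k < D → |preCen J b x u D G k| ≤ n * (M * c₀) := fun k h1 h2 => by
    refine (cen_le hn k).trans (mul_le_mul_of_nonneg_left ?_ hn'.le)
    rw [mul_comm]
    refine mul_le_mul hsGM (le_min (hk1 k) ?_) (Real.sqrt_nonneg _) hM0
    refine (Real.sqrt_le_sqrt (eta_le hJ hn hG.one_le_grad hM h1 h2.le (x := x) (u := u))).trans ?_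
    rw [Real.sqrt_le_left (by linarith), add_sq, Real.sq_sqrt (eta_mem hn u τ₀ x).1]
    have h3 : E / n ≤ δ ^ 2 := by
      rw [← Real.sqrt_le_left hδ]; linarith
    linarith [mul_nonneg (mul_nonneg zero_le_two hsη) hδ]
  set A := preCor J b x u D G
  set B := preCor J b x u D H
  have T1 := sum_parts A B (c := 2 * M) (Nat.zero_le D) fun k hk => cor_step_le hn hG (Finset.mem_Ico.1 hk).2
  rw [← Finset.range_eq_Ico] at T1
  have T1' : ∑ k ∈ Finset.range D, |B (k + 1) - B k| ≤ D * (2 * M) :=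
    (Finset.sum_le_card_nsmul _ _ (2 * M) fun k hk => cor_step_le hn hH (Finset.mem_range.1 hk)).trans_eq (by simp)
  have T2 : |A 0 * B 0| ≤ n * M * (n * sH) := by
    rw [abs_mul]
    refine mul_le_mul (abs_cor_le hn hG 0) ?_ (abs_nonneg _) (by positivity)
    simp only [B, cor_zero]
    exact cH 0
  have T3 : ∀ {F F' : Fin n → Cfg n → ℝ}, PreField F Γ M → PreField F' Γ M →
      |∑ k ∈ Finset.range D, (preResp J b x u D F k - (preCor J b x u D F (k + 1) - preCor J b x u D F k)) *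
        preCor J b x u D F' k| ≤ n * δ * (n * M) := fun {F F'} hF hF' => by
    refine (Finset.abs_sum_le_sum_abs _ _).trans ?_
    refine (Finset.sum_le_sum (g := fun k => preStep J b x u D L Γ M k * (n * M)) fun k hk => ?_).trans ?_
    · rw [abs_mul, abs_sub_comm]
      exact mul_le_mul (fdt_step hJ hn hF (Finset.mem_range.1 hk)) (abs_cor_le hn hF' k) (abs_nonneg _) (step_nonneg hM k)
    · rw [← Finset.sum_mul]
      exact mul_le_mul_of_nonneg_right ((sum_step_le hM).trans hEδ) (by positivity)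
  have T4 : |∑ k ∈ Finset.range D, preResp J b x u D G k * preCen J b x u D H k| ≤
      2 * (n * sH) * n * M + 30 * M ^ 2 * (n : ℝ) ^ 2 * δ := by
    rw [Finset.range_eq_Ico]
    refine (resp_weight hJ hn hG (p := 0) (Nat.zero_le D) (by omega) hN (m := n * sH) (by positivity)
      (mul_le_mul_of_nonneg_left hsHM hn'.le) (fun k _ => cH k) (cen_step hn hH)).trans ?_
    have := mul_le_mul_of_nonneg_left (hk1 0) (show (0 : ℝ) ≤ 2 * (n * sH) * n * M by positivity)
    linarith
  have T5 : |∑ k ∈ Finset.range D, preResp J b x u D H k * preCen J b x u D G k| ≤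
      (2 * (n * M) * n * M * sη + 30 * M ^ 2 * (n : ℝ) ^ 2 * δ) +
        (2 * (n * (M * c₀)) * n * M + 30 * M ^ 2 * (n : ℝ) ^ 2 * δ) := by
    rw [← Finset.sum_range_add_sum_Ico _ (by omega : τ₀ ≤ D), Finset.range_eq_Ico]
    refine (abs_add_le _ _).trans (add_le_add ?_ ?_)
    · exact resp_weight hJ hn hH (p := τ₀) (Nat.zero_le τ₀) (by omega) hN (by positivity) le_rfl
        (fun k _ => cG k) (cen_step hn hG)
    · refine (resp_weight hJ hn hH (p := 0) (by omega : τ₀ ≤ D) (by omega) hN (m := n * (M * c₀)) (by positivity)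
        (mul_le_mul_of_nonneg_left (mul_le_of_le_one_right hM0 hc1) hn'.le)
        (fun k hk => cG' k (Finset.mem_Ico.1 hk).1 (Finset.mem_Ico.1 hk).2) (cen_step hn hG)).trans ?_
      have := mul_le_mul_of_nonneg_left (hk1 0) (show (0 : ℝ) ≤ 2 * (n * (M * c₀)) * n * M by positivity)
      linarith
  have e : ∑ k ∈ Finset.range D, (preResp J b x u D G k * (B k - preCen J b x u D H k) +
        preResp J b x u D H k * (A k - preCen J b x u D G k)) - A D * B D =
      (∑ k ∈ Finset.range D, (A k * (B (k + 1) - B k) + B k * (A (k + 1) - A k)) - (A D * B D - A 0 * B 0)) -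
        A 0 * B 0 + ∑ k ∈ Finset.range D, (preResp J b x u D G k - (A (k + 1) - A k)) * B k +
        ∑ k ∈ Finset.range D, (preResp J b x u D H k - (B (k + 1) - B k)) * A k -
        ∑ k ∈ Finset.range D, preResp J b x u D G k * preCen J b x u D H k -
        ∑ k ∈ Finset.range D, preResp J b x u D H k * preCen J b x u D G k := by
    have e' : ∑ k ∈ Finset.range D, (preResp J b x u D G k * (B k - preCen J b x u D H k) +
          preResp J b x u D H k * (A k - preCen J b x u D G k)) =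
        ∑ k ∈ Finset.range D, (A k * (B (k + 1) - B k) + B k * (A (k + 1) - A k)) +
          ∑ k ∈ Finset.range D, (preResp J b x u D G k - (A (k + 1) - A k)) * B k +
          ∑ k ∈ Finset.range D, (preResp J b x u D H k - (B (k + 1) - B k)) * A k -
          ∑ k ∈ Finset.range D, preResp J b x u D G k * preCen J b x u D H k -
          ∑ k ∈ Finset.range D, preResp J b x u D H k * preCen J b x u D G k := by
      simp only [← Finset.sum_add_distrib, ← Finset.sum_sub_distrib]
      exact Finset.sum_congr rfl fun k _ => by ring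
    rw [e']
    ring
  show |∑ k ∈ Finset.range D, (preResp J b x u D G k * (B k - preCen J b x u D H k) +
      preResp J b x u D H k * (A k - preCen J b x u D G k)) - A D * B D| ≤ _
  rw [e]
  have T3a := abs_le.1 (T3 hG hH)
  have T3b := abs_le.1 (T3 hH hG)
  have T1b := abs_le.1 (T1.trans ((mul_le_mul_of_nonneg_left T1' (by positivity)).trans
    (mul_le_mul_of_nonneg_left (mul_le_mul_of_nonneg_right hDδ (by positivity)) (by positivity))))
  have T2b := abs_le.1 T2
  have T4b := abs_le.1 T4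
  have T5b := abs_le.1 T5
  have hM2 : M ≤ M ^ 2 := le_self_pow₀ hM two_ne_zero
  have z2 := mul_le_mul_of_nonneg_right hM2 (show (0 : ℝ) ≤ n ^ 2 * sH by positivity)
  have z3 := mul_le_mul_of_nonneg_right hM2 (show (0 : ℝ) ≤ n ^ 2 * δ by positivity)
  have z4 := mul_le_mul_of_nonneg_left hc2 (show (0 : ℝ) ≤ M ^ 2 * n ^ 2 by positivity)
  have y1 : 0 ≤ M ^ 2 * ((n : ℝ) ^ 2 * sη) := by positivity
  have y2 : 0 ≤ M ^ 2 * ((n : ℝ) ^ 2 * sH) := by positivity
  have y3 : 0 ≤ M ^ 2 * ((n : ℝ) ^ 2 * δ) := by positivity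
  rw [abs_le]
  constructor <;> linarith

end Vale.Agent.P150.PA
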