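import Vale.Agent.P150.PA.Field
import Vale.Agent.P150.PA.Pair

/-! Dissipation inside a tilted leg. The relative entropy lost by the tilted chain in `R` attempts after
an observation is at most what an auxiliary observation at large strength does not see, plus a
stationarity error at the start of the leg, so the tilted laws at the times of the leg are almost
stationary on average. -/

open MeasureTheory ProbabilityTheory

namespace Vale.Agent.P150.PA

open Ising

variable {n : ℕ} {J : Fin n → Fin n → ℝ} {b : Fin n → ℝ}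

/-- law of the noise seen after an observation of `x ~ wt J b` at strength `t` -/
noncomputable def obsMix (J : Fin n → Fin n → ℝ) (b : Fin n → ℝ) (t : ℝ) (z : Fin n → ℝ) : ℝ :=
  mix (wt J b) (fun (y : Cfg n) i => spin (y i)) (Real.sqrt t) z

/-- the tilted field -/
noncomputable def tilt (b : Fin n → ℝ) (t : ℝ) (z : Fin n → ℝ) : Fin n → ℝ := b + Real.sqrt t • z

/-- mean of an observable of the field and of the configuration after `k` attempts of the leg started
from the density `f` -/
noncomputable def legE (J : Fin n → Fin n → ℝ) (b : Fin n → ℝ) (t : ℝ) (k : ℕ) (f : Cfg n → ℝ)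
    (φ : (Fin n → ℝ) → Cfg n → ℝ) : ℝ :=
  ∫ z, obsMix J b t z *
    ∑ x, wt J (tilt b t z) x * (Kpow J (tilt b t z) k f x * φ (Real.sqrt t • z) x) ∂gauss (Fin n)

/-- averaged Dirichlet form of the root of the tilted law at the attempt `k` of the leg -/
noncomputable def legDir (J : Fin n → Fin n → ℝ) (b : Fin n → ℝ) (t : ℝ) (k : ℕ) (f : Cfg n → ℝ) : ℝ :=
  ∫ z, obsMix J b t z *
    dir J (tilt b t z) (fun x => Real.sqrt (Kpow J (tilt b t z) k f x)) ∂gauss (Fin n)

/-- log likelihood ratio of the observations of two laws -/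
noncomputable def obsLLR (ν μ : Cfg n → ℝ) (θ : ℝ) (z : Fin n → ℝ) : ℝ :=
  Real.log (mix ν (fun (y : Cfg n) i => spin (y i)) θ z / mix μ (fun (y : Cfg n) i => spin (y i)) θ z)

/-- the Lipschitz lower test for the entropy of `f`: expected log likelihood ratio of an observation at
strength `s` -/
noncomputable def obsGain (J : Fin n → Fin n → ℝ) (b : Fin n → ℝ) (s : ℝ) (f : Cfg n → ℝ) (p : Cfg n) : ℝ :=
  ∫ z, obsLLR (fun x => wt J b x * f x) (wt J b) (Real.sqrt s)
    (z + fun i => Real.sqrt s * spin (p i)) ∂gauss (Fin n)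

namespace LegDrop

lemma Kpow_sym (hs : ∀ i j, J i j = J j i) (hd : ∀ i, J i i = 0) (k : ℕ) (h φ : Cfg n → ℝ) :
    ∑ x, wt J b x * (h x * Kpow J b k φ x) = ∑ x, wt J b x * (φ x * Kpow J b k h x) := by
  induction k generalizing h φ with
  | zero => exact Finset.sum_congr rfl fun x _ => by simp only [Kpow, Function.iterate_zero, id_eq]; ring
  | succ k ih =>
    have h1 : ∀ u v : Cfg n → ℝ, ∑ x, wt J b x * (u x * K J b v x) = ∑ x, wt J b x * (v x * K J b u x) := by
      intro u v
      simp only [K, ← mul_div_assoc, ← Finset.sum_div, Finset.mul_sum]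
      congr 1
      rw [Finset.sum_comm, Finset.sum_congr rfl fun i (_ : i ∈ Finset.univ) => avg_qb_symm b hs hd i u v,
        Finset.sum_comm]
    rw [Pair.Kpow_succ, h1, Finset.sum_congr rfl fun x (_ : x ∈ Finset.univ) =>
      show wt J b x * (Kpow J b k φ x * K J b h x) = wt J b x * (K J b h x * Kpow J b k φ x) by ring, ih]
    exact Finset.sum_congr rfl fun x _ => by
      rw [show Kpow J b (k + 1) h = Kpow J b k (K J b h) from Function.iterate_succ_apply _ _ _]

lemma mix_nonneg {c : Cfg n → ℝ} (hc : ∀ x, 0 ≤ c x) (θ : ℝ) (z : Fin n → ℝ) :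
    0 ≤ mix c (fun (y : Cfg n) i => spin (y i)) θ z :=
  Finset.sum_nonneg fun x _ => mul_nonneg (hc x) (ker_pos _ _ _ _).le

lemma obsMix_nonneg (t : ℝ) (z : Fin n → ℝ) : 0 ≤ obsMix J b t z :=
  mix_nonneg (fun x => (wt_pos J b x).le) _ _

lemma abs_spin_le (c : Bool) : |spin c| ≤ 1 := by cases c <;> simp [spin]

lemma continuous_tilt (b : Fin n → ℝ) (t : ℝ) : Continuous (tilt b t) := by unfold tilt; fun_prop

lemma continuous_wt (J : Fin n → Fin n → ℝ) (x : Cfg n) : Continuous fun c => wt J c x := by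
  unfold wt qE
  refine Continuous.div (by fun_prop) (by fun_prop) fun c => ne_of_gt ?_
  exact Finset.sum_pos (fun _ _ => Real.exp_pos _) Finset.univ_nonempty

lemma continuous_wtK (t : ℝ) (x : Cfg n) (k : ℕ) (f : Cfg n → ℝ) :
    Continuous (fun z => wt J (tilt b t z) x) ∧ Continuous (fun z => Kpow J (tilt b t z) k f x) :=
  ⟨(continuous_wt J x).comp' (continuous_tilt b t),
    (FieldAux.continuous_Kpow J f k x).comp' (continuous_tilt b t)⟩

lemma integrable_mix_mul {t : ℝ} {G : (Fin n → ℝ) → ℝ} (hG : Continuous G) {B : ℝ} (hb : ∀ z, |G z| ≤ B) :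
    Integrable (fun z => obsMix J b t z * G z) (gauss (Fin n)) := by
  refine integrable_of_bound (C := (∑ x, |wt J b x|) * B) (M := |Real.sqrt t| * 1)
    ((continuous_mix _ _ _).mul hG) fun z => ?_
  have h := abs_mix_le (a := fun (y : Cfg n) i => spin (y i)) (A₀ := 1) (fun x k => abs_spin_le (x k))
    (wt J b) (Real.sqrt t) z
  have h2 := mul_le_mul h (hb z) (abs_nonneg (G z))
    (mul_nonneg (Finset.sum_nonneg fun _ _ => abs_nonneg _) (Real.exp_pos _).le)
  rw [abs_mul, obsMix]
  rw [mul_right_comm]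
  exact h2

lemma abs_sum_wt {c : Fin n → ℝ} {u : Cfg n → ℝ} {B : ℝ} (hu : ∀ x, |u x| ≤ B) :
    |∑ x, wt J c x * u x| ≤ B := by
  refine (Finset.abs_sum_le_sum_abs _ _).trans ?_
  rw [← one_mul B, ← wt_sum J c, Finset.sum_mul]
  exact Finset.sum_le_sum fun x _ => by
    rw [abs_mul, abs_of_pos (wt_pos J c x)]
    exact mul_le_mul_of_nonneg_left (hu x) (wt_pos J c x).le

lemma abs_mul_log {u B : ℝ} (hu : 0 ≤ u) (hB : u ≤ B) : |u * Real.log u| ≤ B ^ 2 + 1 := by
  rcases hu.eq_or_lt with h | h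
  · rw [← h]; simp; positivity
  have h1 := mul_le_mul_of_nonneg_left (Real.log_le_sub_one_of_pos h) h.le
  have h2 := mul_le_mul_of_nonneg_left (Real.one_sub_inv_le_log_of_pos h) h.le
  rw [mul_sub, mul_one, mul_inv_cancel₀ h.ne'] at h2
  have h3 : u ^ 2 ≤ B ^ 2 := pow_le_pow_left₀ hu hB 2
  rw [abs_le]
  constructor
  · linarith [sq_nonneg B]
  · linarith

/-- Fenchel's inequality for `u log u` -/
lemma fenchel {u : ℝ} (hu : 0 ≤ u) (s : ℝ) : u * (s + 1) - Real.exp s ≤ u * Real.log u := by
  rcases hu.eq_or_lt with h | h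
  · rw [← h]; simp [(Real.exp_pos s).le]
  have h1 := Real.log_le_sub_one_of_pos (div_pos (Real.exp_pos s) h)
  rw [Real.log_div (Real.exp_ne_zero s) h.ne', Real.log_exp] at h1
  have h2 := mul_le_mul_of_nonneg_left h1 h.le
  rw [mul_sub, mul_sub, mul_div_cancel₀ _ h.ne'] at h2
  linarith

/-- averaged mass times averaged form: Cauchy over the noise -/
lemma cauchy_mix {t : ℝ} {D Mm : (Fin n → ℝ) → ℝ} (hD : Continuous D) (hM : Continuous Mm) {B : ℝ}
    (hDb : ∀ z, 0 ≤ D z ∧ D z ≤ B) (hMb : ∀ z, 0 ≤ Mm z ∧ Mm z ≤ B)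
    (h1 : ∫ z, obsMix J b t z * Mm z ∂gauss (Fin n) ≤ 1) :
    ∫ z, obsMix J b t z * (Real.sqrt (D z) * Real.sqrt (Mm z)) ∂gauss (Fin n) ≤
      Real.sqrt (∫ z, obsMix J b t z * D z ∂gauss (Fin n)) := by
  set I := ∫ z, obsMix J b t z * D z ∂gauss (Fin n) with hI
  have hI0 : 0 ≤ I := integral_nonneg fun z => mul_nonneg (obsMix_nonneg t z) (hDb z).1
  refine le_of_forall_pos_le_add fun ε hε => ?_
  set s := Real.sqrt I + ε
  have hs : 0 < s := add_pos_of_nonneg_of_pos (Real.sqrt_nonneg _) hε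
  have iD := integrable_mix_mul (J := J) (b := b) (t := t) hD (B := B) fun z => by
    rw [abs_of_nonneg (hDb z).1]; exact (hDb z).2
  have iM := integrable_mix_mul (J := J) (b := b) (t := t) hM (B := B) fun z => by
    rw [abs_of_nonneg (hMb z).1]; exact (hMb z).2
  have iS : Integrable (fun z => obsMix J b t z * (Real.sqrt (D z) * Real.sqrt (Mm z))) (gauss (Fin n)) :=
    integrable_mix_mul (by fun_prop) (B := Real.sqrt B * Real.sqrt B) fun z => by
      rw [abs_of_nonneg (by positivity)]
      exact mul_le_mul (Real.sqrt_le_sqrt (hDb z).2) (Real.sqrt_le_sqrt (hMb z).2) (Real.sqrt_nonneg _)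
        (Real.sqrt_nonneg _)
  refine (integral_mono iS ((iD.const_mul (1 / (2 * s))).fun_add (iM.const_mul (s / 2))) fun z => ?_).trans ?_
  · have h0 := mul_nonneg (obsMix_nonneg (J := J) (b := b) t z)
      (mul_nonneg (div_nonneg zero_le_one (by positivity : (0 : ℝ) ≤ 2 * s))
        (sq_nonneg (Real.sqrt (D z) - s * Real.sqrt (Mm z))))
    have e : 1 / (2 * s) * (Real.sqrt (D z) - s * Real.sqrt (Mm z)) ^ 2 =
        1 / (2 * s) * D z + s / 2 * Mm z - Real.sqrt (D z) * Real.sqrt (Mm z) := by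
      rw [sub_sq, mul_pow, Real.sq_sqrt (hDb z).1, Real.sq_sqrt (hMb z).1]
      field_simp; ring
    rw [e] at h0
    simp only
    linarith
  rw [integral_add (iD.const_mul _) (iM.const_mul _), integral_const_mul, integral_const_mul, ← hI]
  have h2 : 1 / (2 * s) * I ≤ Real.sqrt I / 2 := by
    rw [div_mul_eq_mul_div, one_mul, div_le_div_iff₀ (by positivity) two_pos]
    have := Real.mul_self_sqrt hI0
    have := mul_nonneg (Real.sqrt_nonneg I) hε.le
    simp only [s]
    linarith
  have h3 := mul_le_mul_of_nonneg_left h1 (by positivity : (0 : ℝ) ≤ s / 2)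
  simp only [s] at h3 ⊢
  linarith

lemma continuous_dir (t : ℝ) (k : ℕ) (f : Cfg n → ℝ) :
    Continuous fun z => dir J (tilt b t z) (fun x => Real.sqrt (Kpow J (tilt b t z) k f x)) := by
  unfold dir
  refine continuous_finsetSum _ fun i _ => continuous_finsetSum _ fun x _ => ?_
  have hK := fun y => (continuous_wtK (J := J) (b := b) t y k f).2
  have hm : Continuous fun z => mag J (tilt b t z) i x :=
    (FieldAux.continuous_mag J i x).comp' (continuous_tilt b t)
  exact (continuous_wtK t x k f).1.mul ((continuous_const.sub (hm.pow 2)).mul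
    ((((hK _).sqrt).sub ((hK _).sqrt)).div_const 2 |>.pow 2))

lemma dir_bound (c : Fin n → ℝ) {g : Cfg n → ℝ} {B : ℝ} (hg : ∀ x, |g x| ≤ B) :
    0 ≤ dir J c (fun x => Real.sqrt (g x)) ∧ dir J c (fun x => Real.sqrt (g x)) ≤ n * B := by
  refine ⟨Finset.sum_nonneg fun i _ => Finset.sum_nonneg fun x _ =>
    mul_nonneg (wt_pos J c x).le (mul_nonneg (mag_sq J c i x).1 (sq_nonneg _)), ?_⟩
  have hB : 0 ≤ B := (abs_nonneg _).trans (hg fun _ => true)
  have h : ∀ i x, dd i (fun x => Real.sqrt (g x)) x ^ 2 ≤ B := fun i x => by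
    simp only [dd]
    set P := Function.update x i true
    set Q := Function.update x i false
    have hP : Real.sqrt (g P) ^ 2 ≤ B := by
      rcases le_total 0 (g P) with h | h
      · rw [Real.sq_sqrt h]; exact (le_abs_self _).trans (hg P)
      · rw [Real.sqrt_eq_zero'.2 h]; simpa using hB
    have hQ : Real.sqrt (g Q) ^ 2 ≤ B := by
      rcases le_total 0 (g Q) with h | h
      · rw [Real.sq_sqrt h]; exact (le_abs_self _).trans (hg Q)
      · rw [Real.sqrt_eq_zero'.2 h]; simpa using hB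
    rw [div_pow, div_le_iff₀ (by norm_num : (0 : ℝ) < 2 ^ 2), sub_sq]
    linarith [mul_nonneg (Real.sqrt_nonneg (g P)) (Real.sqrt_nonneg (g Q))]
  refine (Finset.sum_le_card_nsmul _ _ B fun i _ => ?_).trans_eq (by simp)
  refine (le_abs_self _).trans (abs_sum_wt fun x => ?_)
  rw [abs_of_nonneg (mul_nonneg (mag_sq J c i x).1 (sq_nonneg _))]
  exact (mul_le_of_le_one_left (sq_nonneg _) (mag_sq J c i x).2).trans (h i x)

lemma mix_avg (t : ℝ) (ht : 0 ≤ t) (F : Cfg n → ℝ) :
    ∫ z, obsMix J b t z * ∑ x, wt J (tilt b t z) x * F x ∂gauss (Fin n) = ∑ x, wt J b x * F x := by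
  have h := bayes (J := J) (b := b) ht (fun x _ => F x) (fun x => continuous_const) (B := ∑ x, |F x|)
    fun x _ => Finset.single_le_sum (f := fun x => |F x|) (fun _ _ => abs_nonneg _) (Finset.mem_univ x)
  exact h.symm.trans (by simp)

end LegDrop

open LegDrop

/-- the leg started from `f` in the tilted form -/
theorem legE_eq (hs : ∀ i j, J i j = J j i) (hd : ∀ i, J i i = 0) {t : ℝ} (ht : 0 ≤ t) (k : ℕ)
    (f : Cfg n → ℝ) (φ : (Fin n → ℝ) → Cfg n → ℝ) (hc : ∀ x, Continuous fun y => φ y x) {B : ℝ}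
    (hb : ∀ y x, |φ y x| ≤ B) :
    ∫ z, ∑ p, wt J b p * (f p * Kpow J (b + yob t p z) k (φ (yob t p z)) p) ∂gauss (Fin n) =
      legE J b t k f φ := by
  have hK : ∀ (c : Fin n → ℝ) y p, |Kpow J c k (φ y) p| ≤ ∑ _x : Cfg n, B := fun c y p =>
    (FieldAux.abs_Kpow_le J c (φ y) k p).trans (Finset.sum_le_sum fun x _ => hb y x)
  have hcont : ∀ p, Continuous fun y => Kpow J (b + y) k (φ y) p := by
    induction k with
    | zero => exact hc
    | succ k ih =>
      intro p
      simp only [Pair.Kpow_succ, K, qb_eq]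
      refine (continuous_finsetSum _ fun i _ => ?_).div_const _
      have hm : Continuous fun y => mag J (b + y) i p :=
        (FieldAux.continuous_mag J i p).comp' (by fun_prop)
      exact (((continuous_const.add hm).mul (ih (fun c y p => (FieldAux.abs_Kpow_le J c (φ y) k p).trans
          (Finset.sum_le_sum fun x _ => hb y x)) _)).add
        ((continuous_const.sub hm).mul (ih (fun c y p => (FieldAux.abs_Kpow_le J c (φ y) k p).trans
          (Finset.sum_le_sum fun x _ => hb y x)) _))).div_const _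
  rw [bayes (J := J) (b := b) ht (fun p y => f p * Kpow J (b + y) k (φ y) p)
    (fun p => continuous_const.mul (hcont p)) (B := (∑ p, |f p|) * ∑ _x : Cfg n, B) fun p y => by
      rw [abs_mul]
      exact mul_le_mul (Finset.single_le_sum (f := fun p => |f p|) (fun _ _ => abs_nonneg _) (Finset.mem_univ p))
        (hK _ y p) (abs_nonneg _) (Finset.sum_nonneg fun _ _ => abs_nonneg _)]
  refine integral_congr_ae (Filter.Eventually.of_forall fun z => ?_)
  simp only [obsMix, tilt]
  rw [Kpow_sym hs hd]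
  congr 1
  exact Finset.sum_congr rfl fun x _ => by ring

/-- entropy bounds the dissipation of the leg -/
theorem sum_legDir_le (hs : ∀ i j, J i j = J j i) (hd : ∀ i, J i i = 0) (hn : 0 < n) {t : ℝ} (ht : 0 ≤ t)
    {f : Cfg n → ℝ} (hf : ∀ x, 0 ≤ f x) (hmean : ∑ x, wt J b x * f x = 1) (R : ℕ) {h : Cfg n → ℝ}
    (hh : ∑ x, wt J b x * Real.exp (h x) ≤ 1) :
    ∑ k ∈ Finset.range R, legDir J b t k f ≤
      n * ((∑ x, wt J b x * (f x * Real.log (f x))) - legE J b t R f fun _ => h) := by
  set B := ∑ x, |f x|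
  set T := fun z => tilt b t z with hT
  have hKb : ∀ k z x, |Kpow J (T z) k f x| ≤ B := fun k z x => FieldAux.abs_Kpow_le J _ f k x
  have hK0 : ∀ k z x, 0 ≤ Kpow J (T z) k f x := fun k z x => Pair.Kpow_nonneg hf k x
  have iS : ∀ {u : (Fin n → ℝ) → Cfg n → ℝ} {C : ℝ}, (∀ x, Continuous fun z => u z x) →
      (∀ z x, |u z x| ≤ C) →
      Integrable (fun z => obsMix J b t z * ∑ x, wt J (T z) x * u z x) (gauss (Fin n)) := fun hu hC =>
    integrable_mix_mul (continuous_finsetSum _ fun x _ => (continuous_wtK t x 0 f).1.mul (hu x))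
      fun z => abs_sum_wt (hC z)
  set g := fun z x => Kpow J (T z) R f x with hg
  have hgc : ∀ x, Continuous fun z => g z x := fun x => (continuous_wtK t x R f).2
  have hglog : ∀ x, Continuous fun z => g z x * Real.log (g z x) := fun x =>
    Real.continuous_mul_log.comp' (hgc x)
  have i1 := iS (u := fun _ x => f x * Real.log (f x)) (C := B ^ 2 + 1) (fun x => continuous_const) fun z x =>
    abs_mul_log (hf x) (Finset.single_le_sum (f := fun x => |f x|) (fun _ _ => abs_nonneg _)
      (Finset.mem_univ x) |>.trans' (le_abs_self _))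
  have i2 := iS (u := fun z x => g z x * Real.log (g z x)) (C := B ^ 2 + 1) hglog fun z x =>
    abs_mul_log (hK0 R z x) ((le_abs_self _).trans (hKb R z x))
  set H := ∑ x, |h x|
  have hH : ∀ x, |h x| ≤ H := fun x =>
    Finset.single_le_sum (f := fun x => |h x|) (fun _ _ => abs_nonneg _) (Finset.mem_univ x)
  have i3 := iS (u := fun z x => g z x * h x) (C := B * H) (fun x => (hgc x).mul continuous_const) fun z x => by
    rw [abs_mul]; exact mul_le_mul (hKb R z x) (hH x) (abs_nonneg _) ((abs_nonneg _).trans (hKb R z x))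
  have i4 := iS (u := fun _ x => f x) (C := B) (fun x => continuous_const) fun z x =>
    Finset.single_le_sum (f := fun x => |f x|) (fun _ _ => abs_nonneg _) (Finset.mem_univ x)
  have i5 := iS (u := fun _ x => Real.exp (h x)) (C := Real.exp H) (fun x => continuous_const) fun z x => by
    rw [Real.abs_exp]; exact Real.exp_le_exp.2 ((le_abs_self _).trans (hH x))
  have hiD : ∀ k, Integrable (fun z => obsMix J b t z *
      dir J (T z) (fun x => Real.sqrt (Kpow J (T z) k f x))) (gauss (Fin n)) := fun k =>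
    integrable_mix_mul (continuous_dir t k f) (B := n * B) fun z => by
      rw [abs_of_nonneg (dir_bound _ (hKb k z)).1]; exact (dir_bound _ (hKb k z)).2
  have hsum : ∀ z, ∑ k ∈ Finset.range R, dir J (T z) (fun x => Real.sqrt (Kpow J (T z) k f x)) ≤
      n * ((∑ x, wt J (T z) x * (f x * Real.log (f x))) -
        ∑ x, wt J (T z) x * (g z x * Real.log (g z x))) := fun z => by
    refine (Finset.sum_le_sum fun k _ => ?_).trans
      ((Finset.sum_range_sub' (fun k => (n : ℝ) * ent (wt J (T z)) (Kpow J (T z) k f)) R).trans_le ?_)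
    · rw [← mul_sub, Pair.Kpow_succ]
      exact dir_sqrt_le_drop hs hd hn (fun x => hK0 k z x)
    · simp only [ent, Pair.avg_Kpow hs hd hn, hg, show Kpow J (T z) 0 f = f from rfl]
      exact le_of_eq (by ring)
  have key : ∑ k ∈ Finset.range R, legDir J b t k f ≤
      n * ((∫ z, obsMix J b t z * ∑ x, wt J (T z) x * (f x * Real.log (f x)) ∂gauss (Fin n)) -
        ∫ z, obsMix J b t z * ∑ x, wt J (T z) x * (g z x * Real.log (g z x)) ∂gauss (Fin n)) := by
    simp only [legDir]
    rw [← integral_finsetSum _ fun k _ => hiD k, ← integral_sub i1 i2, ← integral_const_mul]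
    refine integral_mono (integrable_finsetSum _ fun k _ => hiD k) ((i1.sub i2).const_mul _) fun z => ?_
    simp only [← Finset.mul_sum]
    refine (mul_le_mul_of_nonneg_left (hsum z) (obsMix_nonneg t z)).trans_eq ?_
    ring
  refine key.trans (mul_le_mul_of_nonneg_left ?_ (Nat.cast_nonneg n))
  rw [mix_avg t ht]
  refine sub_le_sub_left ?_ _
  have hlow : ∀ z, obsMix J b t z * (∑ x, wt J (T z) x * (g z x * h x)) +
      obsMix J b t z * (∑ x, wt J (T z) x * f x) - obsMix J b t z * (∑ x, wt J (T z) x * Real.exp (h x)) ≤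
      obsMix J b t z * ∑ x, wt J (T z) x * (g z x * Real.log (g z x)) := fun z => by
    rw [← mul_add, ← mul_sub]
    refine mul_le_mul_of_nonneg_left ?_ (obsMix_nonneg t z)
    rw [← Pair.avg_Kpow hs hd hn f R, ← Finset.sum_add_distrib, ← Finset.sum_sub_distrib]
    refine Finset.sum_le_sum fun x _ => ?_
    rw [← mul_add, ← mul_sub]
    refine mul_le_mul_of_nonneg_left ?_ (wt_pos J _ x).le
    refine le_of_eq_of_le ?_ (fenchel (hK0 R z x) (h x))
    simp only [hg, hT]; ring
  have h34 : Integrable (fun z => obsMix J b t z * (∑ x, wt J (T z) x * (g z x * h x)) +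
      obsMix J b t z * (∑ x, wt J (T z) x * f x)) (gauss (Fin n)) := i3.add i4
  refine le_trans ?_ (integral_mono (h34.sub i5) i2 hlow)
  rw [integral_sub' h34 i5, integral_add i3 i4, mix_avg t ht, mix_avg t ht, hmean]
  have e : legE J b t R f (fun _ => h) = ∫ z, obsMix J b t z *
      ∑ x, wt J (T z) x * (g z x * h x) ∂gauss (Fin n) := rfl
  linarith

/-- the test moves little along the leg -/
theorem legE_start {L A : ℝ} (hJ : Tame J L) (hn : 0 < n) {t : ℝ} (ht : 0 ≤ t) {f : Cfg n → ℝ}
    (hf : ∀ x, 0 ≤ f x) (hmean : ∑ x, wt J b x * f x = 1) {h : Cfg n → ℝ} (hA : ∀ x, gam h x ≤ A)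
    (R : ℕ) :
    |legE J b t R f (fun _ => h) - ∑ x, wt J b x * (f x * h x)| ≤
      4 * R / n * Real.sqrt ((1 + gradC L / n) ^ R * A) *
        Real.sqrt (dir J b fun x => Real.sqrt (f x)) := by
  set r := (1 + gradC L / (n : ℝ)) with hr
  have hA0 : 0 ≤ A := (gam_nonneg h fun _ => true).trans (hA _)
  have hr1 : 1 ≤ r := le_add_of_nonneg_right (div_nonneg (gradC_nonneg L) (Nat.cast_nonneg n))
  set c := 4 * (R : ℝ) / n * Real.sqrt (r ^ R * A)
  set B := ∑ x, |f x|
  have hfB : ∀ x, |f x| ≤ B := fun x =>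
    Finset.single_le_sum (f := fun x => |f x|) (fun _ _ => abs_nonneg _) (Finset.mem_univ x)
  set D := fun z => dir J (tilt b t z) fun x => Real.sqrt (f x)
  set Mm := fun z => ∑ x, wt J (tilt b t z) x * f x
  have hDc : Continuous D := continuous_dir t 0 f
  have hMc : Continuous Mm := continuous_finsetSum _ fun x _ => (continuous_wtK t x 0 f).1.mul continuous_const
  have hMb : ∀ z, 0 ≤ Mm z ∧ Mm z ≤ B := fun z =>
    ⟨Finset.sum_nonneg fun x _ => mul_nonneg (wt_pos J _ x).le (hf x), (le_abs_self _).trans (abs_sum_wt hfB)⟩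
  have hz : ∀ z, |(∑ x, wt J (tilt b t z) x * (Kpow J (tilt b t z) R f x * h x)) -
      ∑ x, wt J (tilt b t z) x * (f x * h x)| ≤ c * (Real.sqrt (D z) * Real.sqrt (Mm z)) := by
    intro z
    set T := tilt b t z
    have e : ∑ x, wt J T x * (Kpow J T R f x * h x) = ∑ x, wt J T x * (f x * Kpow J T R h x) := by
      rw [Kpow_sym hJ.symm hJ.diag R f h]
      exact Finset.sum_congr rfl fun x _ => by ring
    rw [e]
    set S := fun l => ∑ x, wt J T x * (f x * Kpow J T l h x)
    have hstep : ∀ l ∈ Finset.range R, |S (l + 1) - S l| ≤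
        4 / n * Real.sqrt (r ^ R * A) * (Real.sqrt (D z) * Real.sqrt (Mm z)) := fun l hl => by
      have hst := stat (b := T) hJ.symm hJ.diag hn hf (Kpow J T l h)
      have e2 : S (l + 1) - S l = ∑ x, wt J T x * (f x * (K J T (Kpow J T l h) x - Kpow J T l h x)) := by
        simp only [S, ← Finset.sum_sub_distrib, Pair.Kpow_succ, mul_sub]
      rw [e2]
      refine hst.trans ?_
      have h1 : ∑ x, wt J T x * (f x * gam (Kpow J T l h) x) ≤ r ^ R * A * Mm z := by
        simp only [Mm, Finset.mul_sum]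
        refine Finset.sum_le_sum fun x _ => ?_
        refine (mul_le_mul_of_nonneg_left (mul_le_mul_of_nonneg_left ((gam_Kpow_le T hJ hA l x).trans
          (mul_le_mul_of_nonneg_right (pow_le_pow_right₀ hr1 (Finset.mem_range.1 hl).le) hA0)) (hf x))
            (wt_pos J T x).le).trans_eq ?_
        ring
      refine (mul_le_mul_of_nonneg_left (Real.sqrt_le_sqrt h1) (by positivity)).trans (le_of_eq ?_)
      rw [Real.sqrt_mul (by positivity) (Mm z)]
      ring
    have htel := Finset.sum_range_sub S R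
    show |S R - S 0| ≤ _
    rw [← htel]
    refine ((Finset.abs_sum_le_sum_abs _ _).trans (Finset.sum_le_sum hstep)).trans_eq ?_
    simp [c]; ring
  have i1 : Integrable (fun z => obsMix J b t z *
      ∑ x, wt J (tilt b t z) x * (Kpow J (tilt b t z) R f x * h x)) (gauss (Fin n)) :=
    integrable_mix_mul (continuous_finsetSum _ fun x _ => (continuous_wtK t x R f).1.mul
      ((continuous_wtK t x R f).2.mul continuous_const)) (B := B * ∑ x, |h x|) fun z => abs_sum_wt fun x => by
        rw [abs_mul]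
        exact mul_le_mul (FieldAux.abs_Kpow_le J _ f R x)
          (Finset.single_le_sum (f := fun x => |h x|) (fun _ _ => abs_nonneg _) (Finset.mem_univ x))
          (abs_nonneg _) ((abs_nonneg _).trans (hfB x))
  have i2 : Integrable (fun z => obsMix J b t z * ∑ x, wt J (tilt b t z) x * (f x * h x)) (gauss (Fin n)) :=
    integrable_mix_mul (continuous_finsetSum _ fun x _ => (continuous_wtK t x R f).1.mul continuous_const)
      (B := ∑ x, |f x * h x|) fun z => abs_sum_wt fun x =>
        Finset.single_le_sum (f := fun x => |f x * h x|) (fun _ _ => abs_nonneg _) (Finset.mem_univ x)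
  rw [← mix_avg t ht fun x => f x * h x, legE, ← integral_sub i1 i2]
  have hDb : ∀ z, 0 ≤ D z ∧ D z ≤ (n + 1) * B := fun z => by
    obtain ⟨h1, h2⟩ := dir_bound (J := J) (tilt b t z) hfB
    exact ⟨h1, h2.trans (mul_le_mul_of_nonneg_right (by linarith) ((abs_nonneg _).trans (hfB fun _ => true)))⟩
  have hBn : B ≤ (n + 1) * B :=
    le_mul_of_one_le_left ((abs_nonneg _).trans (hfB fun _ => true)) (by simp)
  have hc : Continuous fun z => c * (Real.sqrt (D z) * Real.sqrt (Mm z)) := by fun_prop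
  have iR : Integrable (fun z => obsMix J b t z * (c * (Real.sqrt (D z) * Real.sqrt (Mm z)))) (gauss (Fin n)) :=
    integrable_mix_mul hc (B := c * (Real.sqrt ((n + 1) * B) * Real.sqrt B)) fun z => by
      rw [abs_of_nonneg (by positivity)]
      exact mul_le_mul_of_nonneg_left (mul_le_mul (Real.sqrt_le_sqrt (hDb z).2) (Real.sqrt_le_sqrt (hMb z).2)
        (Real.sqrt_nonneg _) (Real.sqrt_nonneg _)) (by positivity)
  refine (abs_integral_le_integral_abs.trans (integral_mono (i1.sub i2).abs iR fun z => ?_)).trans ?_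
  · simp only [Pi.sub_apply, ← mul_sub, abs_mul, abs_of_nonneg (obsMix_nonneg t z)]
    exact mul_le_mul_of_nonneg_left (hz z) (obsMix_nonneg t z)
  simp only [mul_left_comm _ c, integral_const_mul]
  refine mul_le_mul_of_nonneg_left ?_ (by positivity)
  refine (cauchy_mix hDc hMc hDb (fun z => ⟨(hMb z).1, (hMb z).2.trans hBn⟩) (le_of_eq ?_)).trans
    (Real.sqrt_le_sqrt ?_)
  · rw [mix_avg t ht, hmean]
  · exact tilt_dir_post hJ.symm hJ.diag ht fun x => Real.sqrt (f x)

namespace LegDrop

lemma ker_ratio (θ : ℝ) (z : Fin n → ℝ) (x y : Cfg n) :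
    ker (fun (u : Cfg n) i => spin (u i)) θ z x ≤
      ker (fun (u : Cfg n) i => spin (u i)) θ z y * Real.exp (2 * |θ| * l1 z) := by
  simp only [ker, ← Real.exp_add, sq (spin _), spin_mul_self]
  refine Real.exp_le_exp.2 ?_
  have h : ∀ u : Cfg n, |θ * dot (fun i => spin (u i)) z| ≤ |θ| * l1 z := fun u => by
    rw [abs_mul]
    exact mul_le_mul_of_nonneg_left ((abs_dot_le (fun i => abs_spin_le (u i)) z).trans_eq (one_mul _)) (abs_nonneg _)
  linarith [(abs_le.1 (h x)).2, (abs_le.1 (h y)).1]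

lemma mix_ratio {ν μ : Cfg n → ℝ} (hν : ∀ x, 0 ≤ ν x) (hν1 : ∑ x, ν x = 1) (hμ : ∀ x, 0 ≤ μ x)
    (hμ1 : ∑ x, μ x = 1) (θ : ℝ) (z : Fin n → ℝ) :
    mix ν (fun (u : Cfg n) i => spin (u i)) θ z ≤
      mix μ (fun (u : Cfg n) i => spin (u i)) θ z * Real.exp (2 * |θ| * l1 z) := by
  simp only [mix, Finset.sum_mul]
  rw [← one_mul (∑ y, _ * _ * _), ← hν1, Finset.sum_mul]
  refine Finset.sum_le_sum fun x _ => mul_le_mul_of_nonneg_left ?_ (hν x)
  rw [← one_mul (ker _ θ z x), ← hμ1, Finset.sum_mul]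
  exact Finset.sum_le_sum fun y _ => (mul_le_mul_of_nonneg_left (ker_ratio θ z x y) (hμ y)).trans_eq
    (mul_assoc _ _ _).symm

lemma mix_pos' {ν : Cfg n → ℝ} (hν : ∀ x, 0 ≤ ν x) (hν1 : ∑ x, ν x = 1) (θ : ℝ) (z : Fin n → ℝ) :
    0 < mix ν (fun (u : Cfg n) i => spin (u i)) θ z := by
  obtain ⟨x, hx⟩ : ∃ x, 0 < ν x := by
    by_contra h
    push Not at h
    linarith [Finset.sum_nonpos fun x (_ : x ∈ Finset.univ) => h x]
  exact Finset.sum_pos' (fun y _ => mul_nonneg (hν y) (ker_pos _ _ _ _).le)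
    ⟨x, Finset.mem_univ x, mul_pos hx (ker_pos _ _ _ _)⟩

lemma mix_shift {c : Cfg n → ℝ} (hc : ∀ x, 0 ≤ c x) (θ Δ : ℝ) (z : Fin n → ℝ) (i : Fin n) :
    mix c (fun (u : Cfg n) k => spin (u k)) θ (z + Pi.single i Δ) ≤
      mix c (fun (u : Cfg n) k => spin (u k)) θ z * Real.exp (|θ * Δ|) := by
  simp only [mix, Finset.sum_mul]
  refine Finset.sum_le_sum fun x _ => ?_
  rw [mul_assoc]
  refine mul_le_mul_of_nonneg_left ?_ (hc x)
  simp only [ker, ← Real.exp_add]
  refine Real.exp_le_exp.2 ?_
  have e : dot (fun k => spin (x k)) (z + Pi.single i Δ) = dot (fun k => spin (x k)) z + spin (x i) * Δ := by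
    simp [dot, mul_add, Finset.sum_add_distrib, Pi.single_apply]
  rw [e]
  have h : θ * (spin (x i) * Δ) ≤ |θ * Δ| := by
    refine (le_abs_self _).trans (le_of_eq_of_le ?_ (le_refl _))
    cases x i <;> simp [spin]
  linarith

lemma abs_obsLLR {ν μ : Cfg n → ℝ} (hν : ∀ x, 0 ≤ ν x) (hν1 : ∑ x, ν x = 1) (hμ : ∀ x, 0 ≤ μ x)
    (hμ1 : ∑ x, μ x = 1) (θ : ℝ) (z : Fin n → ℝ) : |obsLLR ν μ θ z| ≤ 2 * |θ| * l1 z := by
  have p1 := mix_pos' hν hν1 θ z
  have p2 := mix_pos' hμ hμ1 θ z
  have h1 := Real.log_le_log p1 (mix_ratio hν hν1 hμ hμ1 θ z)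
  have h2 := Real.log_le_log p2 (mix_ratio hμ hμ1 hν hν1 θ z)
  rw [Real.log_mul p2.ne' (Real.exp_ne_zero _), Real.log_exp] at h1
  rw [Real.log_mul p1.ne' (Real.exp_ne_zero _), Real.log_exp] at h2
  rw [obsLLR, Real.log_div p1.ne' p2.ne', abs_le]
  constructor <;> linarith

lemma continuous_obsLLR {ν μ : Cfg n → ℝ} (hν : ∀ x, 0 ≤ ν x) (hν1 : ∑ x, ν x = 1) (hμ : ∀ x, 0 ≤ μ x)
    (hμ1 : ∑ x, μ x = 1) (θ : ℝ) : Continuous (obsLLR ν μ θ) :=
  ((continuous_mix _ _ θ).div (continuous_mix _ _ θ) fun z => (mix_pos' hμ hμ1 θ z).ne').log fun z =>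
    (div_pos (mix_pos' hν hν1 θ z) (mix_pos' hμ hμ1 θ z)).ne'

variable {f : Cfg n → ℝ}

lemma integrable_gain (hf : ∀ x, 0 ≤ f x) (hmean : ∑ x, wt J b x * f x = 1) (s : ℝ) (a : Fin n → ℝ) :
    Integrable (fun z => obsLLR (fun x => wt J b x * f x) (wt J b) (Real.sqrt s) (z + a)) (gauss (Fin n)) := by
  have hν : ∀ x, 0 ≤ wt J b x * f x := fun x => mul_nonneg (wt_pos J b x).le (hf x)
  have hμ : ∀ x, 0 ≤ wt J b x := fun x => (wt_pos J b x).le
  refine integrable_of_bound (C := Real.exp (2 * |Real.sqrt s| * l1 a)) (M := 2 * |Real.sqrt s|)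
    ((continuous_obsLLR hν hmean hμ (wt_sum J b) _).comp' (by fun_prop)) fun z => ?_
  refine (abs_obsLLR hν hmean hμ (wt_sum J b) _ _).trans ?_
  rw [← Real.exp_add]
  refine le_trans ?_ ((le_add_of_nonneg_right zero_le_one).trans (Real.add_one_le_exp _))
  rw [← mul_add]
  refine mul_le_mul_of_nonneg_left ?_ (by positivity)
  simp only [l1, ← Finset.sum_add_distrib]
  exact Finset.sum_le_sum fun k _ => (abs_add_le _ _).trans_eq (add_comm _ _)

lemma log_one_add_exp_le (w : ℝ) : Real.log (1 + Real.exp w) ≤ 2 * Real.exp (w / 2) := by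
  have h0 := Real.exp_pos (w / 2)
  have h : 1 + Real.exp w ≤ (1 + Real.exp (w / 2)) ^ 2 := by
    have e : Real.exp w = Real.exp (w / 2) ^ 2 := by
      rw [← Real.exp_nat_mul]; congr 1; push_cast; ring
    rw [e, add_sq]
    linarith
  refine (Real.log_le_log (by positivity) h).trans ?_
  rw [Real.log_pow]
  have h2 := Real.log_le_sub_one_of_pos (show 0 < 1 + Real.exp (w / 2) by linarith)
  push_cast
  linarith

/-- the change of the energy under flips -/
lemma energy_diff {L : ℝ} (hJ : Tame J L) {α : ℝ} (hα : 0 < α) (x p : Cfg n) :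
    qE J 0 x - qE J 0 p ≤
      (∑ i, if x i = p i then 0 else 2 * L * (1 + α)) + n * (L / (2 * α)) := by
  set d := fun i => spin (x i) - spin (p i)
  set u := fun i => spin (p i)
  have hx : ∀ i, spin (x i) = u i + d i := fun i => by simp [u, d]
  have e : qE J 0 x - qE J 0 p = (∑ i, ∑ j, J i j * (d i * d j)) / 2 + ∑ i, ∑ j, J j i * (d i * u j) := by
    simp only [qE, Pi.zero_apply, zero_mul, Finset.sum_const_zero, add_zero, hx]
    have h1 : ∑ i, ∑ j, J i j * (u i * d j) = ∑ i, ∑ j, J j i * (d i * u j) := by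
      rw [Finset.sum_comm]
      exact Finset.sum_congr rfl fun i _ => Finset.sum_congr rfl fun j _ => by ring
    have h2 : ∑ i, ∑ j, J i j * (d i * u j) = ∑ i, ∑ j, J j i * (d i * u j) :=
      Finset.sum_congr rfl fun i _ => Finset.sum_congr rfl fun j _ => by rw [hJ.symm i j]
    simp only [mul_add, add_mul, Finset.sum_add_distrib, h1, h2]
    simp only [u]
    ring
  set a := Real.sqrt α
  have ha : 0 < a := Real.sqrt_pos.2 hα
  have hb := bilin_le hJ (fun i => a * d i) fun i => u i / a
  have e2 : ∑ i, ∑ j, J j i * (a * d i * (u j / a)) = ∑ i, ∑ j, J j i * (d i * u j) :=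
    Finset.sum_congr rfl fun i _ => Finset.sum_congr rfl fun j _ => by field_simp
  have hu : ∑ i, (u i / a) ^ 2 = n / α := by
    have : ∀ i, (u i / a) ^ 2 = 1 / α := fun i => by
      rw [div_pow, Real.sq_sqrt hα.le, sq (u i)]; simp only [u, spin_mul_self]
    rw [Finset.sum_congr rfl fun i (_ : i ∈ Finset.univ) => this i]
    simp; ring
  have hd : ∀ i, d i ^ 2 = if x i = p i then 0 else 4 := fun i => by
    simp only [d]; cases x i <;> cases p i <;> simp [spin] <;> norm_num
  rw [e2, hu] at hb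
  simp only [mul_pow, a, Real.sq_sqrt hα.le, ← Finset.mul_sum] at hb
  have hop := (abs_le.1 (hJ.op d)).2
  rw [e]
  have e3 : (∑ i, if x i = p i then 0 else 2 * L * (1 + α)) = L * (1 + α) / 2 * ∑ i, d i ^ 2 := by
    rw [Finset.mul_sum]
    exact Finset.sum_congr rfl fun i _ => by rw [hd]; split_ifs <;> ring
  rw [e3]
  have e4 : (n : ℝ) * (L / (2 * α)) = L / 2 * (n / α) := by field_simp
  rw [e4]
  linarith

/-- what an observation at strength `s` does not see -/
lemma gain_point {L : ℝ} (hJ : Tame J L) {α : ℝ} (hα : 0 < α) (θ : ℝ) (p : Cfg n) (z : Fin n → ℝ) :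
    Real.log (mix (wt J 0) (fun (u : Cfg n) i => spin (u i)) θ z /
        (wt J 0 p * ker (fun (u : Cfg n) i => spin (u i)) θ z p)) ≤
      n * (L / (2 * α)) + ∑ i, 2 * Real.exp (L * (1 + α) - θ * spin (p i) * z i) := by
  set w := fun i => 2 * L * (1 + α) - 2 * (θ * spin (p i) * z i)
  have hx : ∀ x, wt J 0 x * ker (fun (u : Cfg n) i => spin (u i)) θ z x ≤
      (∏ i, if x i = p i then 1 else Real.exp (w i)) *
        (Real.exp (n * (L / (2 * α))) * (wt J 0 p * ker (fun (u : Cfg n) i => spin (u i)) θ z p)) := by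
    intro x
    have ep : (∏ i, if x i = p i then 1 else Real.exp (w i)) =
        Real.exp (∑ i, if x i = p i then 0 else w i) := by
      rw [Real.exp_sum]; exact Finset.prod_congr rfl fun i _ => by split_ifs <;> simp
    simp only [ep, wt, ker, div_mul_eq_mul_div, mul_div_assoc', ← Real.exp_add]
    refine div_le_div_of_nonneg_right (Real.exp_le_exp.2 ?_)
      (Finset.sum_pos (fun _ _ => Real.exp_pos _) Finset.univ_nonempty).le
    have h1 := energy_diff hJ hα x p
    have h2 : (∑ i, if x i = p i then 0 else w i) =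
        (∑ i, if x i = p i then 0 else 2 * L * (1 + α)) +
          (θ * dot (fun i => spin (x i)) z - θ * dot (fun i => spin (p i)) z) := by
      simp only [dot, Finset.mul_sum, ← Finset.sum_sub_distrib, ← Finset.sum_add_distrib]
      refine Finset.sum_congr rfl fun i _ => ?_
      simp only [w]
      cases x i <;> cases p i <;> simp [spin] <;> ring
    simp only [sq (spin _), spin_mul_self] at *
    linarith [show (n : ℝ) * L / (2 * α) = n * (L / (2 * α)) from mul_div_assoc _ _ _]
  have hpos := mul_pos (wt_pos J (0 : Fin n → ℝ) p) (ker_pos (fun (u : Cfg n) i => spin (u i)) θ z p)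
  have hsum : mix (wt J 0) (fun (u : Cfg n) i => spin (u i)) θ z ≤ (∏ i, (1 + Real.exp (w i))) *
      (Real.exp (n * (L / (2 * α))) * (wt J 0 p * ker (fun (u : Cfg n) i => spin (u i)) θ z p)) := by
    refine (Finset.sum_le_sum fun x _ => hx x).trans (le_of_eq ?_)
    rw [← Finset.sum_mul]
    congr 1
    have h := Fintype.prod_sum fun i (c : Bool) => if c = p i then (1 : ℝ) else Real.exp (w i)
    rw [← h]
    exact Finset.prod_congr rfl fun i _ => by cases p i <;> simp [add_comm]
  have h1 : mix (wt J 0) (fun (u : Cfg n) i => spin (u i)) θ z /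
      (wt J 0 p * ker (fun (u : Cfg n) i => spin (u i)) θ z p) ≤
      (∏ i, (1 + Real.exp (w i))) * Real.exp (n * (L / (2 * α))) := by
    rw [div_le_iff₀ hpos, mul_assoc]; exact hsum
  refine (Real.log_le_log (div_pos (mix_pos' (fun x => (wt_pos J _ x).le) (wt_sum J _) θ z) hpos) h1).trans ?_
  rw [Real.log_mul (Finset.prod_pos fun i _ => by positivity).ne' (Real.exp_ne_zero _), Real.log_exp,
    Real.log_prod fun i _ => by positivity, add_comm]
  refine add_le_add le_rfl (Finset.sum_le_sum fun i _ => (log_one_add_exp_le (w i)).trans (le_of_eq ?_))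
  simp only [w]; ring_nf

end LegDrop

open LegDrop

/-- the test is Lipschitz -/
theorem gam_obsGain {f : Cfg n → ℝ} (hf : ∀ x, 0 ≤ f x) (hmean : ∑ x, wt J b x * f x = 1) {s : ℝ}
    (hs : 0 ≤ s) (x : Cfg n) : gam (obsGain J b s f) x ≤ 4 * s ^ 2 * n := by
  refine (Finset.sum_le_card_nsmul _ _ (4 * s ^ 2) fun i _ => ?_).trans_eq
    (by simp [Finset.card_univ]; ring)
  set θ := Real.sqrt s with hθ
  set ν := fun x => wt J b x * f x
  set Δ := -2 * θ * spin (x i)
  have hν : ∀ y, 0 ≤ ν y := fun y => mul_nonneg (wt_pos J b y).le (hf y)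
  have hμ : ∀ y, 0 ≤ wt J b y := fun y => (wt_pos J b y).le
  have hlip : ∀ w, |obsLLR ν (wt J b) θ (w + Pi.single i Δ) - obsLLR ν (wt J b) θ w| ≤ 2 * |θ * Δ| := by
    intro w
    have step : ∀ (c : Cfg n → ℝ), (∀ y, 0 ≤ c y) → ∑ y, c y = 1 →
        |Real.log (mix c (fun (u : Cfg n) k => spin (u k)) θ (w + Pi.single i Δ)) -
          Real.log (mix c (fun (u : Cfg n) k => spin (u k)) θ w)| ≤ |θ * Δ| := fun c hc hc1 => by
      have p1 := mix_pos' hc hc1 θ (w + Pi.single i Δ)
      have p2 := mix_pos' hc hc1 θ w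
      have h1 := Real.log_le_log p1 (mix_shift hc θ Δ w i)
      have h2 := Real.log_le_log p2 (le_of_eq_of_le (by simp [← Pi.single_add, add_assoc])
        (mix_shift hc θ (-Δ) (w + Pi.single i Δ) i))
      rw [Real.log_mul p2.ne' (Real.exp_ne_zero _), Real.log_exp] at h1
      rw [Real.log_mul p1.ne' (Real.exp_ne_zero _), Real.log_exp, mul_neg, abs_neg] at h2
      rw [abs_le]; constructor <;> linarith
    simp only [obsLLR, Real.log_div (mix_pos' hν hmean θ _).ne' (mix_pos' hμ (wt_sum J b) θ _).ne']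
    have a := abs_le.1 (step ν hν hmean)
    have c := abs_le.1 (step (wt J b) hμ (wt_sum J b))
    rw [abs_le]; constructor <;> linarith
  have hfl : ∀ z : Fin n → ℝ, (z + fun k => θ * spin (flip i x k)) =
      (z + fun k => θ * spin (x k)) + Pi.single i Δ := fun z => funext fun k => by
    simp only [Pi.add_apply, Pi.single_apply, flip, Δ]
    by_cases hk : k = i
    · subst hk; rw [Function.update_self, spin_not, if_pos rfl]; ring
    · rw [Function.update_of_ne hk, if_neg hk, add_zero]
  have hd : |obsGain J b s f x - obsGain J b s f (flip i x)| ≤ 2 * |θ * Δ| := by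
    simp only [obsGain, ← hθ]
    rw [← integral_sub (integrable_gain hf hmean s _) (integrable_gain hf hmean s _)]
    refine abs_integral_le_integral_abs.trans ((integral_mono ((integrable_gain hf hmean s _).sub
      (integrable_gain hf hmean s _)).abs (integrable_const (2 * |θ * Δ|)) fun z => ?_).trans_eq (by simp))
    simp only [Pi.sub_apply, ← hθ]
    rw [hfl, abs_sub_comm]
    exact hlip _
  have h4 := pow_le_pow_left₀ (abs_nonneg _) hd 2
  rw [sq_abs, FieldAux.dd_flip, mul_pow, sq_abs] at h4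
  have e : (θ * Δ) ^ 2 = 4 * s ^ 2 := by
    have h1 : spin (x i) * spin (x i) = 1 := spin_mul_self _
    have h2 : θ * θ = s := Real.mul_self_sqrt hs
    simp only [Δ]
    linear_combination 4 * (θ * θ + s) * h2 + 4 * (θ * θ) * (θ * θ) * h1
  rw [e] at h4
  linarith

/-- the test is admissible in the variational formula -/
theorem sum_exp_obsGain {f : Cfg n → ℝ} (hf : ∀ x, 0 ≤ f x) (hmean : ∑ x, wt J b x * f x = 1) (s : ℝ) :
    ∑ p, wt J b p * Real.exp (obsGain J b s f p) ≤ 1 := by
  set θ := Real.sqrt s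
  set ν := fun x => wt J b x * f x
  have hν : ∀ y, 0 ≤ ν y := fun y => mul_nonneg (wt_pos J b y).le (hf y)
  have hμ : ∀ y, 0 ≤ wt J b y := fun y => (wt_pos J b y).le
  set E := fun (a z : Fin n → ℝ) => Real.exp (obsLLR ν (wt J b) θ (z + a))
  have iE : ∀ a, Integrable (E a) (gauss (Fin n)) := fun a => by
    refine integrable_of_bound (C := Real.exp (2 * |θ| * l1 a)) (M := 2 * |θ|)
      (Real.continuous_exp.comp' ((continuous_obsLLR hν hmean hμ (wt_sum J b) θ).comp' (by fun_prop))) fun z => ?_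
    rw [Real.abs_exp, ← Real.exp_add, ← mul_add]
    refine Real.exp_le_exp.2 (((le_abs_self _).trans (abs_obsLLR hν hmean hμ (wt_sum J b) θ _)).trans
      (mul_le_mul_of_nonneg_left ?_ (by positivity)))
    simp only [l1, ← Finset.sum_add_distrib]
    exact Finset.sum_le_sum fun k _ => (abs_add_le _ _).trans_eq (add_comm _ _)
  have hjen : ∀ p, Real.exp (obsGain J b s f p) ≤ ∫ z, E (fun i => θ * spin (p i)) z ∂gauss (Fin n) := by
    intro p
    set h := obsGain J b s f p with hh
    have iL := integrable_gain (J := J) (b := b) hf hmean s fun i => θ * spin (p i)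
    refine le_of_eq_of_le ?_ (integral_mono ((iL.sub (integrable_const (h - 1))).const_mul (Real.exp h))
      (iE _) fun z => ?_)
    · simp only [integral_const_mul]
      rw [integral_sub' iL (integrable_const _)]
      simp [hh, obsGain, θ]
    · simp only [Pi.sub_apply, E]
      have h1 := mul_le_mul_of_nonneg_left (Real.add_one_le_exp (obsLLR ν (wt J b) θ
        (z + fun i => θ * spin (p i)) - h)) (Real.exp_pos h).le
      rw [← Real.exp_add, add_sub_cancel] at h1
      refine le_of_eq_of_le ?_ h1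
      simp only [ν, θ]; ring
  refine (Finset.sum_le_sum fun p _ => mul_le_mul_of_nonneg_left (hjen p) (hμ p)).trans (le_of_eq ?_)
  set K := fun (p : Cfg n) (z : Fin n → ℝ) => ker (fun (u : Cfg n) i => spin (u i)) θ z p *
    (mix ν (fun (u : Cfg n) i => spin (u i)) θ z / mix (wt J b) (fun (u : Cfg n) i => spin (u i)) θ z)
  have hsh : ∀ p, ∫ z, E (fun i => θ * spin (p i)) z ∂gauss (Fin n) = ∫ z, K p z ∂gauss (Fin n) := fun p => by
    rw [Channel.translate (fun i => θ * spin (p i)) fun z => Real.exp (obsLLR ν (wt J b) θ z)]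
    refine integral_congr_ae (Filter.Eventually.of_forall fun z => ?_)
    simp only [K, obsLLR, Real.exp_log (div_pos (mix_pos' hν hmean θ z) (mix_pos' hμ (wt_sum J b) θ z)),
      ker, dot, Channel.nsq, Finset.mul_sum, Finset.sum_div, mul_pow]
    congr 2
    exact congrArg₂ _ (Finset.sum_congr rfl fun k _ => by ring) (Finset.sum_congr rfl fun k _ => by ring)
  have iK : ∀ p, Integrable (K p) (gauss (Fin n)) := fun p => by
    refine integrable_of_bound (C := Real.exp 0) (M := 3 * |θ|) ?_ fun z => ?_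
    · exact (show Continuous fun z => ker (fun (u : Cfg n) i => spin (u i)) θ z p by unfold ker dot; fun_prop).mul
        ((continuous_mix _ _ θ).div (continuous_mix _ _ θ) fun z => (mix_pos' hμ (wt_sum J b) θ z).ne')
    · have hk : ker (fun (u : Cfg n) i => spin (u i)) θ z p ≤ Real.exp (|θ| * l1 z) := by
        refine Real.exp_le_exp.2 ?_
        have h1 : θ * dot (fun i => spin (p i)) z ≤ |θ| * (1 * l1 z) := (le_abs_self _).trans (by
          rw [abs_mul]
          exact mul_le_mul_of_nonneg_left (abs_dot_le (fun i => abs_spin_le (p i)) z) (abs_nonneg _))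
        have h2 : (0 : ℝ) ≤ θ ^ 2 / 2 * ∑ k, spin (p k) ^ 2 := by positivity
        linarith
      have hr := (div_le_iff₀ (mix_pos' hμ (wt_sum J b) θ z)).2
        ((mix_ratio hν hmean hμ (wt_sum J b) θ z).trans_eq (mul_comm _ _))
      have hp : 0 ≤ K p z := mul_nonneg (ker_pos _ _ _ _).le
        (div_nonneg (mix_pos' hν hmean θ z).le (mix_pos' hμ (wt_sum J b) θ z).le)
      rw [abs_of_nonneg hp, Real.exp_zero, one_mul, show 3 * |θ| * l1 z = |θ| * l1 z + 2 * |θ| * l1 z by ring,
        Real.exp_add]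
      exact mul_le_mul hk hr (div_nonneg (mix_pos' hν hmean θ z).le (mix_pos' hμ (wt_sum J b) θ z).le)
        (Real.exp_pos _).le
  simp only [hsh, ← integral_const_mul]
  rw [← integral_finsetSum _ fun p _ => (iK p).const_mul _,
    show (∫ z, ∑ p, wt J b p * K p z ∂gauss (Fin n)) =
      ∫ z, mix ν (fun (u : Cfg n) i => spin (u i)) θ z ∂gauss (Fin n) from
      integral_congr_ae (Filter.Eventually.of_forall fun z => by
        simp only [K, ← mul_assoc, ← Finset.sum_mul]
        exact mul_div_cancel₀ _ (mix_pos' hμ (wt_sum J b) θ z).ne'),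
    integral_mix, hmean]

/-- the entropy exceeds the test by at most what the observation does not see -/
theorem entropy_gap {L : ℝ} (hJ : Tame J L) {f : Cfg n → ℝ} (hf : ∀ x, 0 ≤ f x)
    (hmean : ∑ x, wt J 0 x * f x = 1) {s α : ℝ} (hs : 0 ≤ s) (hα : 0 < α) :
    (∑ p, wt J 0 p * (f p * Real.log (f p))) - ∑ p, wt J 0 p * (f p * obsGain J 0 s f p) ≤
      n * (L / (2 * α) + 2 * Real.exp (L * (1 + α) - s / 2)) := by
  set θ := Real.sqrt s
  set c := (n : ℝ) * (L / (2 * α) + 2 * Real.exp (L * (1 + α) - s / 2))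
  have hp : ∀ p, wt J 0 p * (f p * Real.log (f p)) - wt J 0 p * (f p * obsGain J 0 s f p) ≤
      wt J 0 p * f p * c := by
    intro p
    rcases (hf p).eq_or_lt with h | h
    · rw [← h]; simp
    rw [← mul_sub, ← mul_sub, mul_assoc]
    refine mul_le_mul_of_nonneg_left (mul_le_mul_of_nonneg_left ?_ h.le) (wt_pos J _ p).le
    set ν := fun x => wt J (0 : Fin n → ℝ) x * f x
    have hν : ∀ y, 0 ≤ ν y := fun y => mul_nonneg (wt_pos J _ y).le (hf y)
    set a := fun i => θ * spin (p i) with ha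
    have hz : ∀ z, Real.log (f p) - obsLLR ν (wt J 0) θ (z + a) ≤
        n * (L / (2 * α)) + ∑ i, 2 * Real.exp (L * (1 + α) - s) * Real.exp (-(θ * spin (p i)) * z i) := by
      intro z
      set w := z + a
      have hm := mix_pos' hν hmean θ w
      have hμ := mix_pos' (fun x => (wt_pos J (0 : Fin n → ℝ) x).le) (wt_sum J _) θ w
      have hk := ker_pos (fun (u : Cfg n) i => spin (u i)) θ w p
      have h1 : wt J 0 p * f p * ker (fun (u : Cfg n) i => spin (u i)) θ w p ≤
          mix ν (fun (u : Cfg n) i => spin (u i)) θ w :=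
        Finset.single_le_sum (f := fun x => ν x * ker (fun (u : Cfg n) i => spin (u i)) θ w x)
          (fun x _ => mul_nonneg (hν x) (ker_pos _ _ _ _).le) (Finset.mem_univ p)
      have h2 := Real.log_le_log (mul_pos (mul_pos (wt_pos J _ p) h) hk) h1
      rw [Real.log_mul (mul_pos (wt_pos J _ p) h).ne' hk.ne', Real.log_mul (wt_pos J _ p).ne' h.ne'] at h2
      have h3 := gain_point hJ hα θ p w
      rw [Real.log_div hμ.ne' (mul_pos (wt_pos J _ p) hk).ne', Real.log_mul (wt_pos J _ p).ne' hk.ne'] at h3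
      rw [obsLLR, Real.log_div hm.ne' hμ.ne']
      have e : ∀ i, 2 * Real.exp (L * (1 + α) - θ * spin (p i) * w i) =
          2 * Real.exp (L * (1 + α) - s) * Real.exp (-(θ * spin (p i)) * z i) := fun i => by
        rw [mul_assoc (2 : ℝ), ← Real.exp_add]
        congr 2
        simp only [w, a, Pi.add_apply]
        linear_combination -(θ * θ) * spin_mul_self (p i) - Real.mul_self_sqrt hs
      simp only [e] at h3
      linarith
    have iL := integrable_gain (J := J) (b := (0 : Fin n → ℝ)) hf hmean s a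
    have iE : ∀ i : Fin n, Integrable (fun z : Fin n → ℝ => Real.exp (-(θ * spin (p i)) * z i))
        (gauss (Fin n)) := fun i => by
      simpa using FieldAux.integrable_exp i (-(θ * spin (p i))) 0 (f := fun _ => (1 : ℝ)) continuous_const
        (B := 1) (by simp)
    have iS : Integrable (fun z : Fin n → ℝ => ∑ i,
        2 * Real.exp (L * (1 + α) - s) * Real.exp (-(θ * spin (p i)) * z i)) (gauss (Fin n)) :=
      integrable_finsetSum _ fun i _ => (iE i).const_mul _
    have e0 : Real.log (f p) - obsGain J 0 s f p =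
        ∫ z, (Real.log (f p) - obsLLR ν (wt J 0) θ (z + a)) ∂gauss (Fin n) := by
      rw [integral_sub (integrable_const _) iL]
      simp [obsGain, θ, a]
    rw [e0]
    refine (integral_mono ((integrable_const _).sub iL) ((integrable_const (n * (L / (2 * α)))).fun_add iS)
      hz).trans_eq ?_
    rw [integral_add (integrable_const _) iS, integral_finsetSum _ fun i _ => (iE i).const_mul _]
    simp only [integral_const_mul, FieldAux.mgf_coord, neg_sq]
    have e5 : ∀ i, 2 * Real.exp (L * (1 + α) - s) * Real.exp ((θ * spin (p i)) ^ 2 / 2) =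
        2 * Real.exp (L * (1 + α) - s / 2) := fun i => by
      rw [mul_assoc, ← Real.exp_add, mul_pow, Real.sq_sqrt hs, sq (spin _), spin_mul_self]
      ring_nf
    simp [e5, c]
    ring
  rw [← Finset.sum_sub_distrib]
  refine (Finset.sum_le_sum fun p _ => hp p).trans_eq ?_
  rw [← Finset.sum_mul, hmean, one_mul]

/-- the tilted laws at the times of the leg are almost stationary on average -/
theorem leg_dissip {L : ℝ} (hJ : Tame J L) (hn : 0 < n) {t : ℝ} (ht : 0 ≤ t) {f : Cfg n → ℝ}
    (hf : ∀ x, 0 ≤ f x) (hmean : ∑ x, wt J 0 x * f x = 1) (R : ℕ) {s α : ℝ} (hs : 0 ≤ s) (hα : 0 < α) :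
    ∑ k ∈ Finset.range R, legDir J 0 t k f ≤
      (n : ℝ) ^ 2 * (L / (2 * α) + 2 * Real.exp (L * (1 + α) - s / 2)) +
        8 * R * s * Real.sqrt ((1 + gradC L / n) ^ R) * Real.sqrt n *
          Real.sqrt (dir J 0 fun x => Real.sqrt (f x)) := by
  have h1 := sum_legDir_le (b := (0 : Fin n → ℝ)) hJ.symm hJ.diag hn ht hf hmean R
    (sum_exp_obsGain hf hmean s)
  have h2 := (abs_le.1 (legE_start (b := (0 : Fin n → ℝ)) hJ hn ht hf hmean
    (gam_obsGain hf hmean hs) R)).1
  have h3 := entropy_gap hJ hf hmean hs hα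
  refine h1.trans ?_
  set S := ∑ p, wt J (0 : Fin n → ℝ) p * (f p * Real.log (f p))
  set E := legE J 0 t R f fun _ => obsGain J 0 s f
  have h4 : S - E ≤ n * (L / (2 * α) + 2 * Real.exp (L * (1 + α) - s / 2)) +
      4 * R / n * Real.sqrt ((1 + gradC L / n) ^ R * (4 * s ^ 2 * n)) *
        Real.sqrt (dir J 0 fun x => Real.sqrt (f x)) := by linarith
  refine (mul_le_mul_of_nonneg_left h4 (Nat.cast_nonneg n)).trans_eq ?_
  have hr : 0 ≤ (1 + gradC L / (n : ℝ)) ^ R := by
    have := gradC_nonneg L; positivity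
  rw [Real.sqrt_mul hr, show 4 * s ^ 2 * (n : ℝ) = (2 * s) ^ 2 * n by ring,
    Real.sqrt_mul (sq_nonneg _), Real.sqrt_sq (by positivity)]
  have hn' : (n : ℝ) ≠ 0 := Nat.cast_ne_zero.2 hn.ne'
  field_simp
  ring

/-- at an attempt `k` of the leg the centred spins are uncorrelated with fields that do not depend on
their own site, up to the averaged Dirichlet form at that attempt -/
theorem leg_pair (hs : ∀ i j, J i j = J j i) (hd : ∀ i, J i i = 0) (hn : 0 < n) {t : ℝ} (ht : 0 ≤ t)
    {f : Cfg n → ℝ} (hf : ∀ x, 0 ≤ f x) (hmean : ∑ x, wt J b x * f x = 1) (k : ℕ)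
    (G : (Fin n → ℝ) → Fin n → Cfg n → ℝ) (hGc : ∀ i x, Continuous fun y => G y i x)
    (hGi : ∀ y i x c, G y i (Function.update x i c) = G y i x) {U : ℝ} (hU : ∀ y x, ∑ i, G y i x ^ 2 ≤ U) :
    |legE J b t k f fun y x => ∑ i, (spin (x i) - mag J (b + y) i x) * G y i x| ≤
      4 * Real.sqrt U * Real.sqrt (legDir J b t k f) := by
  set B := ∑ x, |f x|
  set T := fun z => tilt b t z with hT
  set F := fun z => Kpow J (T z) k f with hF
  have hF0 : ∀ z x, 0 ≤ F z x := fun z x => Pair.Kpow_nonneg hf k x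
  have hFb : ∀ z x, |F z x| ≤ B := fun z x => FieldAux.abs_Kpow_le J _ f k x
  have hU0 : 0 ≤ U := (Finset.sum_nonneg fun i _ => sq_nonneg _).trans (hU 0 fun _ => true)
  have hB0 : 0 ≤ B := Finset.sum_nonneg fun _ _ => abs_nonneg _
  set D := fun z => dir J (T z) fun x => Real.sqrt (F z x)
  set Mm := fun z => ∑ x, wt J (T z) x * F z x
  set φ := fun z x => ∑ i, (spin (x i) - mag J (b + Real.sqrt t • z) i x) * G (Real.sqrt t • z) i x
  have hDc : Continuous D := continuous_dir t k f
  have hMc : Continuous Mm := continuous_finsetSum _ fun x _ =>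
    (continuous_wtK t x k f).1.mul (continuous_wtK t x k f).2
  have hz : ∀ z, |∑ x, wt J (T z) x * (F z x * φ z x)| ≤
      4 * Real.sqrt U * (Real.sqrt (D z) * Real.sqrt (Mm z)) := by
    intro z
    set y := Real.sqrt t • z
    have e : ∑ x, wt J (T z) x * (F z x * φ z x) =
        ∑ x, wt J (T z) x * ∑ i, (1 - mag J (T z) i x ^ 2) * dd i (F z) x * G y i x := by
      simp only [φ, Finset.mul_sum]
      rw [Finset.sum_comm, Finset.sum_comm (s := (Finset.univ : Finset (Cfg n)))]
      refine Finset.sum_congr rfl fun i _ => ?_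
      have h1 := site_mul (T z) hs hd i (fun x => F z x * G y i x) fun x => spin (x i)
      have e1 : ∀ x : Cfg n, dd i (fun x => spin (x i)) x = 1 := fun x => by simp [dd, spin]
      have e2 : ∀ x, dd i (fun x => F z x * G y i x) x = dd i (F z) x * G y i x := fun x => by
        simp only [dd, hGi]; ring
      simp only [proj, e1, e2, mul_one] at h1
      rw [← Finset.sum_congr rfl fun x (_ : x ∈ Finset.univ) =>
        show wt J (T z) x * (F z x * G y i x * (spin (x i) - mag J (T z) i x)) =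
          wt J (T z) x * (F z x * ((spin (x i) - mag J (b + y) i x) * G y i x)) by
        simp only [hT, tilt, y]; ring, h1]
      exact Finset.sum_congr rfl fun x _ => by ring
    rw [e]
    refine (Vale.Agent.P150.PA.pair hs hd (hF0 z) (fun i x => G y i x) (hGi y)).trans ?_
    have h2 : ∑ x, wt J (T z) x * (F z x * ∑ i, G y i x ^ 2) ≤ U * Mm z := by
      simp only [Mm, Finset.mul_sum (s := (Finset.univ : Finset (Cfg n)))]
      exact Finset.sum_le_sum fun x _ => (mul_le_mul_of_nonneg_left (mul_le_mul_of_nonneg_left (hU y x) (hF0 z x))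
        (wt_pos J _ x).le).trans_eq (by ring)
    refine (mul_le_mul_of_nonneg_left (Real.sqrt_le_sqrt h2) (by positivity)).trans (le_of_eq ?_)
    rw [Real.sqrt_mul hU0]
    ring
  have hDb : ∀ z, 0 ≤ D z ∧ D z ≤ (n + 1) * B := fun z => by
    obtain ⟨h1, h2⟩ := dir_bound (J := J) (T z) (hFb z)
    exact ⟨h1, h2.trans (mul_le_mul_of_nonneg_right (by linarith) hB0)⟩
  have hMb : ∀ z, 0 ≤ Mm z ∧ Mm z ≤ (n + 1) * B := fun z =>
    ⟨Finset.sum_nonneg fun x _ => mul_nonneg (wt_pos J _ x).le (hF0 z x),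
      ((le_abs_self _).trans (abs_sum_wt (hFb z))).trans (le_mul_of_one_le_left hB0 (by simp))⟩
  have hφb : ∀ z x, |φ z x| ≤ n + U := fun z x => by
    refine (Finset.abs_sum_le_sum_abs _ _).trans ((Finset.sum_le_sum
      (g := fun i => 1 + G (Real.sqrt t • z) i x ^ 2) fun i _ => ?_).trans ?_)
    · have h1 : |spin (x i) - mag J (b + Real.sqrt t • z) i x| ≤ 2 := (abs_sub _ _).trans (by
        have h0 : |mag J (b + Real.sqrt t • z) i x| ≤ 1 := (tanh_abs_lt _).le
        linarith [abs_spin_le (x i)])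
      rw [abs_mul]
      have h2 := mul_le_mul_of_nonneg_right h1 (abs_nonneg (G (Real.sqrt t • z) i x))
      have h3 := sq_nonneg (|G (Real.sqrt t • z) i x| - 1)
      rw [sub_sq, sq_abs] at h3
      linarith
    · rw [Finset.sum_add_distrib]
      simpa using hU (Real.sqrt t • z) x
  have hφc : ∀ x, Continuous fun z => φ z x := fun x => continuous_finsetSum _ fun i _ =>
    (continuous_const.sub ((FieldAux.continuous_mag J i x).comp' (by fun_prop))).mul
      ((hGc i x).comp' (by fun_prop))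
  have i1 : Integrable (fun z => obsMix J b t z * ∑ x, wt J (T z) x * (F z x * φ z x)) (gauss (Fin n)) :=
    integrable_mix_mul (continuous_finsetSum _ fun x _ => (continuous_wtK t x k f).1.mul
      ((continuous_wtK t x k f).2.mul (hφc x))) (B := B * (n + U)) fun z => abs_sum_wt fun x => by
        rw [abs_mul]; exact mul_le_mul (hFb z x) (hφb z x) (abs_nonneg _) hB0
  have iR : Integrable (fun z => obsMix J b t z *
      (4 * Real.sqrt U * (Real.sqrt (D z) * Real.sqrt (Mm z)))) (gauss (Fin n)) :=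
    integrable_mix_mul (by fun_prop)
      (B := 4 * Real.sqrt U * (Real.sqrt ((n + 1) * B) * Real.sqrt ((n + 1) * B))) fun z => by
      rw [abs_of_nonneg (by positivity)]
      exact mul_le_mul_of_nonneg_left (mul_le_mul (Real.sqrt_le_sqrt (hDb z).2) (Real.sqrt_le_sqrt (hMb z).2)
        (Real.sqrt_nonneg _) (Real.sqrt_nonneg _)) (by positivity)
  refine (abs_integral_le_integral_abs.trans (integral_mono i1.abs iR fun z => ?_)).trans ?_
  · simp only [abs_mul, abs_of_nonneg (obsMix_nonneg t z)]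
    exact mul_le_mul_of_nonneg_left (hz z) (obsMix_nonneg t z)
  simp only [mul_left_comm _ (4 * Real.sqrt U), integral_const_mul]
  refine mul_le_mul_of_nonneg_left (cauchy_mix hDc hMc hDb hMb (le_of_eq ?_)) (by positivity)
  simp only [Mm, F, T, Pair.avg_Kpow hs hd hn]
  rw [mix_avg t ht, hmean]

/-- the root mean square of the averaged forms along the leg -/
theorem sum_sqrt_legDir {t : ℝ} {f : Cfg n → ℝ} (R : ℕ) {E : ℝ}
    (hE : ∑ k ∈ Finset.range R, legDir J b t k f ≤ E) :
    ∑ k ∈ Finset.range R, Real.sqrt (legDir J b t k f) ≤ Real.sqrt R * Real.sqrt E := by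
  have h0 : ∀ k, 0 ≤ legDir J b t k f := fun k => integral_nonneg fun z =>
    mul_nonneg (obsMix_nonneg t z) (Finset.sum_nonneg fun i _ => Finset.sum_nonneg fun x _ =>
      mul_nonneg (wt_pos J _ x).le (mul_nonneg (mag_sq J _ i x).1 (sq_nonneg _)))
  have h := Real.sum_mul_le_sqrt_mul_sqrt (Finset.range R) (fun _ => (1 : ℝ))
    fun k => Real.sqrt (legDir J b t k f)
  simp only [one_mul, one_pow, Real.sq_sqrt (h0 _), Finset.sum_const, Finset.card_range, nsmul_eq_mul,
    mul_one] at h
  exact h.trans (mul_le_mul_of_nonneg_left (Real.sqrt_le_sqrt hE) (Real.sqrt_nonneg _))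

end Vale.Agent.P150.PA
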