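import Vale.Agent.P150.PA.JointStat
import Vale.Agent.P150.PA.LegDrop
import Vale.Agent.P150.PA.ChannelPreCore
import Vale.Agent.P150.PA.LegVar
import Vale.Agent.P150.PA.ChanDefs
import Vale.Agent.P150.PA.TreePath

/-! One tilted leg seen from the configuration at the observation: overlaps along the leg, responses to
the increments, and the integration by parts in the noise that turns the responses into the noise term
of the channel identity. -/

open MeasureTheory

namespace Vale.Agent.P150.PA

open Ising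

variable {n : ℕ}

/-- mean over the configuration at time `v`, the noise of its observation and `R` tilted attempts -/
noncomputable def legMean (J : Fin n → Fin n → ℝ) (t : ℝ) (v : ℕ) (x : Cfg n) (R : ℕ)
    (X : (Fin n → ℝ) → Cfg n → Path n R → ℝ) : ℝ :=
  Kpow J 0 v (fun p => ∫ z, pex J (obsField t p z) p (X z p) ∂gauss (Fin n)) x

/-- the increment of the attempt `l` of the leg -/
noncomputable def lincr (J : Fin n → Fin n → ℝ) (t : ℝ) {R : ℕ} (z : Fin n → ℝ) (p : Cfg n) (ω : Path n R)
    (l : ℕ) (i : Fin n) : ℝ :=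
  if h : l < R then inc J (obsField t p z) (st p ω l) (ω ⟨l, h⟩) i else 0

/-- the test at the configuration `y` after the observation of `p` -/
noncomputable def psiAt (J : Fin n → Fin n → ℝ) (ψ : ChanTest) (z : Fin n → ℝ) (p y : Cfg n) (i : Fin n) : ℝ :=
  ψ.fn (fld J 0 i y) (z i) (p i)

/-- overlap of the leg at attempt `l` with its end -/
noncomputable def legOv (J : Fin n → Fin n → ℝ) (t : ℝ) (v : ℕ) (x : Cfg n) (R l : ℕ) : ℝ :=
  legMean J t v x R fun _ p ω => (∑ i, spin (st p ω l i) * spin (st p ω R i)) / n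

/-- correlation of the test at attempt `r` with the spins at attempt `l` -/
noncomputable def legCor (J : Fin n → Fin n → ℝ) (t : ℝ) (ψ : ChanTest) (v : ℕ) (x : Cfg n) (R r l : ℕ) : ℝ :=
  legMean J t v x R fun z p ω => (∑ i, psiAt J ψ z p (st p ω r) i * spin (st p ω l i)) / n

/-- response of the test to the attempt `l` -/
noncomputable def legResp (J : Fin n → Fin n → ℝ) (t : ℝ) (ψ : ChanTest) (v : ℕ) (x : Cfg n) (R r l : ℕ) : ℝ :=
  legMean J t v x R fun z p ω => ∑ i, psiAt J ψ z p (st p ω r) i * lincr J t z p ω l i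

/-- response of the spins at the end to the attempt `l` -/
noncomputable def legEnd (J : Fin n → Fin n → ℝ) (t : ℝ) (v : ℕ) (x : Cfg n) (R l : ℕ) : ℝ :=
  legMean J t v x R fun z p ω => ∑ i, spin (st p ω R i) * lincr J t z p ω l i

namespace ChanLeg

/-- continuous in the noise and of exponential growth -/
def LInt {R : ℕ} (X : (Fin n → ℝ) → Cfg n → Path n R → ℝ) : Prop :=
  ∀ p ω, Continuous (fun z => X z p ω) ∧ ∃ C, ∀ z, |X z p ω| ≤ C * Real.exp (1 * l1 z)

variable {J : Fin n → Fin n → ℝ} {t : ℝ} {v : ℕ} {x : Cfg n} {R : ℕ} {ψ : ChanTest}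
  {X Y : (Fin n → ℝ) → Cfg n → Path n R → ℝ}

lemma one_le_exp_l1 (z : Fin n → ℝ) : 1 ≤ Real.exp (1 * l1 z) := Real.one_le_exp (by linarith [l1_nonneg z])

lemma LInt.of_bound (hc : ∀ p ω, Continuous fun z => X z p ω) {B : ℝ} (hb : ∀ z p ω, |X z p ω| ≤ B) :
    LInt X := fun p ω =>
  ⟨hc p ω, B, fun z => (hb z p ω).trans (le_mul_of_one_le_right ((abs_nonneg _).trans (hb z p ω)) (one_le_exp_l1 z))⟩

lemma LInt.add (hX : LInt X) (hY : LInt Y) : LInt fun z p ω => X z p ω + Y z p ω := fun p ω => by
  obtain ⟨hc, C, hC⟩ := hX p ω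
  obtain ⟨hd, D, hD⟩ := hY p ω
  exact ⟨hc.add hd, C + D, fun z => (abs_add_le _ _).trans (by linarith [hC z, hD z])⟩

lemma LInt.const_mul (hX : LInt X) (c : ℝ) : LInt fun z p ω => c * X z p ω := fun p ω => by
  obtain ⟨hc, C, hC⟩ := hX p ω
  exact ⟨continuous_const.mul hc, |c| * C, fun z => by
    rw [abs_mul, mul_assoc]; exact mul_le_mul_of_nonneg_left (hC z) (abs_nonneg c)⟩

lemma LInt.sub (hX : LInt X) (hY : LInt Y) : LInt fun z p ω => X z p ω - Y z p ω := by
  simpa [sub_eq_add_neg] using hX.add (hY.const_mul (-1))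

lemma LInt.sum {ι : Type*} (s : Finset ι) {F : ι → (Fin n → ℝ) → Cfg n → Path n R → ℝ}
    (h : ∀ a ∈ s, LInt (F a)) : LInt fun z p ω => ∑ a ∈ s, F a z p ω := by
  induction s using Finset.cons_induction with
  | empty => exact LInt.of_bound (B := 0) (fun _ _ => by simpa using continuous_const) (by simp)
  | cons a s ha ih =>
    simp only [Finset.sum_cons]
    exact (h a (Finset.mem_cons_self a s)).add (ih fun b hb => h b (Finset.mem_cons.2 (Or.inr hb)))

lemma LInt.div_const (hX : LInt X) (c : ℝ) : LInt fun z p ω => X z p ω / c := by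
  simpa [div_eq_inv_mul] using hX.const_mul c⁻¹

lemma pw_le_one (hn : 0 < n) (c : Fin n → ℝ) (p : Cfg n) (ω : Path n R) : |pw J c p ω| ≤ 1 := by
  rw [abs_of_nonneg (pw_nonneg _ _ _ _), ← pw_sum J c hn (N := R) p]
  exact Finset.single_le_sum (fun q _ => pw_nonneg J c p q) (Finset.mem_univ ω)

lemma continuous_pw (p : Cfg n) (ω : Path n R) : Continuous fun z => pw J (obsField t p z) p ω := by
  have hm := fun i y => (FieldAux.continuous_mag J i y).comp' (Joint.continuous_obs t p)
  unfold pw sp
  fun_prop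

lemma LInt.integrable (hX : LInt X) (hn : 0 < n) (p : Cfg n) :
    Integrable (fun z => pex J (obsField t p z) p (X z p)) (gauss (Fin n)) := by
  refine integrable_finsetSum _ fun ω _ => ?_
  obtain ⟨hc, C, hC⟩ := hX p ω
  refine integrable_of_bound (C := C) (M := 1) ((continuous_pw p ω).mul hc) fun z => ?_
  rw [abs_mul]
  exact (mul_le_of_le_one_left (abs_nonneg _) (pw_le_one hn _ p ω)).trans (hC z)

lemma legMean_add (hn : 0 < n) (hX : LInt X) (hY : LInt Y) :
    legMean J t v x R (fun z p ω => X z p ω + Y z p ω) = legMean J t v x R X + legMean J t v x R Y := by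
  simp only [legMean, pex_add]
  rw [show (fun p => ∫ z, (pex J (obsField t p z) p (X z p) + pex J (obsField t p z) p (Y z p)) ∂gauss (Fin n)) =
      fun p => (∫ z, pex J (obsField t p z) p (X z p) ∂gauss (Fin n)) +
        1 * ∫ z, pex J (obsField t p z) p (Y z p) ∂gauss (Fin n) from
    funext fun p => by rw [one_mul, integral_add (hX.integrable hn p) (hY.integrable hn p)],
    Block.Kpow_add_mul]
  simp

lemma legMean_const_mul (c : ℝ) :
    legMean J t v x R (fun z p ω => c * X z p ω) = c * legMean J t v x R X := by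
  simp only [legMean, pex_const_mul, integral_const_mul, Block.Kpow_mul_const]

lemma legMean_div (c : ℝ) : legMean J t v x R (fun z p ω => X z p ω / c) = legMean J t v x R X / c := by
  simp only [div_eq_inv_mul]; exact legMean_const_mul _

lemma legMean_sub (hn : 0 < n) (hX : LInt X) (hY : LInt Y) :
    legMean J t v x R (fun z p ω => X z p ω - Y z p ω) = legMean J t v x R X - legMean J t v x R Y := by
  have e : legMean J t v x R (fun z p ω => -1 * Y z p ω) = -1 * legMean J t v x R Y := legMean_const_mul _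
  have h := legMean_add (J := J) (t := t) (v := v) (x := x) hn hX (hY.const_mul (-1))
  rw [e] at h
  simpa [sub_eq_add_neg] using h

lemma legMean_sum (hn : 0 < n) {ι : Type*} (s : Finset ι) {F : ι → (Fin n → ℝ) → Cfg n → Path n R → ℝ}
    (h : ∀ a ∈ s, LInt (F a)) :
    legMean J t v x R (fun z p ω => ∑ a ∈ s, F a z p ω) = ∑ a ∈ s, legMean J t v x R (F a) := by
  induction s using Finset.cons_induction with
  | empty =>
    have := legMean_const_mul (J := J) (t := t) (v := v) (x := x) (R := R) (X := fun _ _ _ => (0 : ℝ)) 0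
    simpa using this
  | cons a s ha ih =>
    simp only [Finset.sum_cons]
    rw [legMean_add hn (h a (Finset.mem_cons_self a s)) (LInt.sum s fun b hb => h b (Finset.mem_cons.2 (Or.inr hb))),
      ih fun b hb => h b (Finset.mem_cons.2 (Or.inr hb))]

lemma abs_legMean_le (hn : 0 < n) {B : ℝ} (hb : ∀ z p ω, |X z p ω| ≤ B) : |legMean J t v x R X| ≤ B := by
  refine LegVar.abs_Kpow_le _ hn (fun p => ?_) v x
  rw [← Real.norm_eq_abs]
  refine (norm_integral_le_of_norm_le_const (μ := gauss (Fin n)) (C := B) (Filter.Eventually.of_forall fun z => ?_)).trans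
    (by simp)
  rw [Real.norm_eq_abs]
  exact LegVar.abs_pex_le_const _ hn _ fun ω => hb z p ω

/-- the two time marginal -/
lemma legMean_two (hn : 0 < n) {k l : ℕ} (hkl : k ≤ l) (hl : l ≤ R)
    (H : (Fin n → ℝ) → Cfg n → Cfg n → Cfg n → ℝ) :
    legMean J t v x R (fun z p ω => H z p (st p ω k) (st p ω l)) =
      Kpow J 0 v (fun p => ∫ z, Kpow J (obsField t p z) k
        (fun y => Kpow J (obsField t p z) (l - k) (H z p y) y) p ∂gauss (Fin n)) x := by
  simp only [legMean]
  congr 1
  funext p
  exact integral_congr_ae (Filter.Eventually.of_forall fun z => LegVar.pex_two _ hn hkl hl p (H z p))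

/-! ### sizes -/

lemma abs_spin (c : Bool) : |spin c| = 1 := by cases c <;> simp [spin]

lemma abs_psi (z : Fin n → ℝ) (p y : Cfg n) (i : Fin n) : |psiAt J ψ z p y i| ≤ ψ.M := (ψ.bdd _ _ _).1

lemma M_nonneg (ψ : ChanTest) : 0 ≤ ψ.M := (abs_nonneg _).trans (ψ.bdd 0 0 true).1

lemma continuous_psi (p y : Cfg n) (i : Fin n) : Continuous fun z : Fin n → ℝ => psiAt J ψ z p y i :=
  (continuous_iff_continuousAt.2 fun u => (ψ.hasDerivZ _ u _).continuousAt).comp' (continuous_apply i)

lemma continuous_lincr (p : Cfg n) (ω : Path n R) (l : ℕ) (i : Fin n) :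
    Continuous fun z => lincr J t z p ω l i := by
  unfold lincr inc
  have hm := (FieldAux.continuous_mag J i (st p ω l)).comp' (Joint.continuous_obs t p)
  split_ifs <;> fun_prop

lemma sum_abs_lincr (z : Fin n → ℝ) (p : Cfg n) (ω : Path n R) (l : ℕ) {w : Fin n → ℝ} {B : ℝ}
    (hB : 0 ≤ B) (hw : ∀ i, |w i| ≤ B) : |∑ i, w i * lincr J t z p ω l i| ≤ B * 2 := by
  by_cases h : l < R
  · simp only [lincr, dif_pos h]
    rw [Finset.sum_eq_single (ω ⟨l, h⟩).1 (fun i _ hi => by simp [inc, Ne.symm hi]) (by simp), abs_mul]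
    exact mul_le_mul (hw _) (PA.abs_inc_le J _ _ _ _) (abs_nonneg _) hB
  · simp only [lincr, dif_neg h, mul_zero, Finset.sum_const_zero, abs_zero]
    linarith

lemma lint_corr (l r : ℕ) :
    LInt (R := R) fun z p ω => (∑ i, psiAt J ψ z p (st p ω r) i * spin (st p ω l i)) / (n : ℝ) :=
  (LInt.sum _ fun i _ => LInt.of_bound (fun p ω => (continuous_psi p _ i).mul continuous_const)
    (B := ψ.M) fun z p ω => show |psiAt J ψ z p (st p ω r) i * spin (st p ω l i)| ≤ ψ.M by
      rw [abs_mul, abs_spin, mul_one]; exact abs_psi z p _ i).div_const _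

lemma lint_ov (l k : ℕ) :
    LInt (n := n) (R := R) fun _ p ω => (∑ i, spin (st p ω l i) * spin (st p ω k i)) / (n : ℝ) :=
  (LInt.sum (F := fun i _ p ω => spin (st p ω l i) * spin (st p ω k i)) Finset.univ fun i _ =>
    LInt.of_bound (fun _ _ => continuous_const)
      (B := 1) fun z p ω => show |spin (st p ω l i) * spin (st p ω k i)| ≤ 1 by
        rw [abs_mul, abs_spin, abs_spin, mul_one]).div_const _

lemma abs_corr (z : Fin n → ℝ) (p y w : Cfg n) : |(∑ i, psiAt J ψ z p y i * spin (w i)) / (n : ℝ)| ≤ ψ.M := by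
  rcases Nat.eq_zero_or_pos n with rfl | hn
  · simpa using M_nonneg ψ
  rw [abs_div, Nat.abs_cast, div_le_iff₀ (Nat.cast_pos.2 hn)]
  refine (Finset.abs_sum_le_sum_abs _ _).trans ((Finset.sum_le_card_nsmul _ _ ψ.M fun i _ => ?_).trans_eq
    (by simp [mul_comm]))
  rw [abs_mul, abs_spin, mul_one]
  exact abs_psi z p y i

theorem abs_legCor_le (hn : 0 < n) (r l : ℕ) : |legCor J t ψ v x R r l| ≤ ψ.M :=
  abs_legMean_le hn fun z p _ => abs_corr z p _ _

theorem abs_legResp_le (hn : 0 < n) (r l : ℕ) : |legResp J t ψ v x R r l| ≤ 2 * ψ.M :=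
  abs_legMean_le hn fun z p ω => (sum_abs_lincr z p ω l (M_nonneg ψ) fun i => abs_psi z p _ i).trans_eq (mul_comm _ _)

theorem abs_legEnd_le (hn : 0 < n) (l : ℕ) : |legEnd J t v x R l| ≤ 2 :=
  abs_legMean_le hn fun z p ω => (sum_abs_lincr z p ω l zero_le_one fun _ => (abs_spin _).le).trans_eq (one_mul _)

/-- one attempt moves the correlation with the test by at most `2 M / n` -/
theorem legCor_step (hn : 0 < n) (r l : ℕ) :
    |legCor J t ψ v x R r (l + 1) - legCor J t ψ v x R r l| ≤ 2 * ψ.M / n := by
  simp only [legCor]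
  rw [← legMean_sub hn (lint_corr _ _) (lint_corr _ _)]
  refine abs_legMean_le hn fun z p ω => ?_
  rw [← sub_div, ← Finset.sum_sub_distrib, abs_div, Nat.abs_cast]
  refine div_le_div_of_nonneg_right ?_ (Nat.cast_nonneg n)
  simp only [← mul_sub]
  have hM := M_nonneg ψ
  by_cases h : l < R
  · rw [st, dif_pos h, Finset.sum_eq_single (ω ⟨l, h⟩).1 (fun i _ hi => by simp [Function.update_of_ne hi])
      (by simp), abs_mul, mul_comm (2 : ℝ)]
    exact mul_le_mul (abs_psi z p _ _) ((abs_sub _ _).trans (by rw [abs_spin, abs_spin]; norm_num))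
      (abs_nonneg _) hM
  · rw [st, dif_neg h]
    simp only [sub_self, mul_zero, Finset.sum_const_zero, abs_zero]
    linarith

/-- the test does not respond to later attempts -/
theorem legResp_eq_zero (hn : 0 < n) {r l : ℕ} (hrl : r ≤ l) : legResp J t ψ v x R r l = 0 := by
  by_cases h : l < R
  · have e : ∀ p z, pex J (obsField t p z) p
        (fun ω : Path n R => ∑ i, psiAt J ψ z p (st p ω r) i * lincr J t z p ω l i) = 0 := fun p z => by
      rw [pex_sum]
      refine Finset.sum_eq_zero fun i _ => ?_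
      simp only [lincr, dif_pos h]
      exact pex_inc_zero J _ hn i h p _ ((before_st p (fun y => psiAt J ψ z p y i) r).mono hrl)
    simp only [legResp, legMean, e, integral_zero]
    exact le_antisymm ((le_abs_self _).trans (LegVar.abs_Kpow_le _ hn (fun _ => (abs_zero).le) v x))
      (neg_nonpos.1 ((neg_le_abs _).trans (LegVar.abs_Kpow_le _ hn (fun _ => (abs_zero).le) v x)))
  · simp only [legResp, lincr, dif_neg h, mul_zero, Finset.sum_const_zero]
    have := legMean_const_mul (J := J) (t := t) (v := v) (x := x) (R := R) (X := fun _ _ _ => (0 : ℝ)) 0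
    simpa using this

/-! ### the noise -/

lemma hasDerivAt_pw (i : Fin n) (p : Cfg n) (ω : Path n R) (z : Fin n → ℝ) (s : ℝ) :
    HasDerivAt (fun s => pw J (obsField t p (Function.update z i s)) p ω)
      (pw J (obsField t p (Function.update z i s)) p ω *
        (Real.sqrt t * ∑ l ∈ Finset.range R, lincr J t (Function.update z i s) p ω l i)) s := by
  set c := fun s => obsField t p (Function.update z i s)
  set f := fun (l : Fin R) s => sp J (c s) (st p ω l) (ω l).1 (ω l).2 / (n : ℝ)
  have hf : ∀ l : Fin R, HasDerivAt (f l)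
      (f l s * (Real.sqrt t * inc J (c s) (st p ω l) (ω l) i)) s := fun l => by
    set j := (ω l).1
    set y := st p ω (l : ℕ)
    have hfld : HasDerivAt (fun s => fld J (c s) j y) (if j = i then Real.sqrt t else 0) s := by
      simp only [fld, c, obsField, Function.update_apply]
      by_cases hj : j = i
      · simp only [hj, if_true]
        simpa using (((hasDerivAt_id s).const_mul (Real.sqrt t)).const_add (t * spin (p i))).const_add (∑ k, J i k * spin (y k))
      · simp only [hj, if_false]
        exact hasDerivAt_const s ((∑ k, J j k * spin (y k)) + (t * spin (p j) + Real.sqrt t * z j))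
    have h := ((((hasDerivAt_tanh' (fld J (c s) j y)).comp s hfld).mul_const (spin (ω l).2)).const_add 1
      |>.div_const 2).div_const (n : ℝ)
    refine h.congr_deriv ?_
    simp only [f, sp, inc, mag, j, y, c]
    by_cases hj : (ω l).1 = i
    · simp only [hj, if_true]
      have e : spin (ω l).2 * spin (ω l).2 = 1 := spin_mul_self _
      linear_combination (-(Real.sqrt t * Real.tanh (fld J (obsField t p (Function.update z i s)) i (st p ω l))) /
        (2 * n)) * e
    · simp [hj]
  have h := HasDerivAt.fun_finsetProd (u := (Finset.univ : Finset (Fin R))) fun l _ => hf l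
  refine h.congr_deriv ?_
  rw [← Fin.sum_univ_eq_sum_range (fun l => lincr J t (Function.update z i s) p ω l i), Finset.mul_sum,
    Finset.mul_sum]
  refine Finset.sum_congr rfl fun l _ => ?_
  simp only [lincr, dif_pos l.2, smul_eq_mul]
  rw [← mul_assoc, Finset.prod_erase_mul _ _ (Finset.mem_univ l)]
  rfl

/-- integration by parts in the noise: the noise term is the response to all attempts of the leg -/
theorem noise_ibp (hn : 0 < n) (r : ℕ) :
    legMean J t v x R (fun z p ω => ∑ i, (z i * psiAt J ψ z p (st p ω r) i -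
        ψ.zfn (fld J 0 i (st p ω r)) (z i) (p i))) =
      Real.sqrt t * ∑ l ∈ Finset.range R, legResp J t ψ v x R r l := by
  have hM := M_nonneg ψ
  have hlz : ∀ i, LInt (R := R) fun z p ω => z i * psiAt J ψ z p (st p ω r) i := fun i p ω =>
    ⟨(continuous_apply i).mul (continuous_psi p _ i), ψ.M, fun z => by
      rw [abs_mul, mul_comm]
      exact mul_le_mul (abs_psi z p _ i) (by linarith [abs_le_l1 z i, Real.add_one_le_exp (1 * l1 z)])
        (abs_nonneg _) hM⟩
  have hld : ∀ i, LInt (R := R) fun z p ω => ψ.zfn (fld J 0 i (st p ω r)) (z i) (p i) := fun i =>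
    LInt.of_bound (fun p ω => (ψ.contZ _ _).comp' (continuous_apply i)) fun z p ω => (ψ.bdd _ _ _).2.2
  have hlp : ∀ i l, LInt (R := R) fun z p ω => psiAt J ψ z p (st p ω r) i * lincr J t z p ω l i := fun i l =>
    LInt.of_bound (fun p ω => (continuous_psi p _ i).mul (continuous_lincr p ω l i)) (B := ψ.M * 2)
      fun z p ω => by
        rw [abs_mul]
        refine mul_le_mul (abs_psi z p _ i) ?_ (abs_nonneg _) hM
        simp only [lincr]; split_ifs
        · exact PA.abs_inc_le J _ _ _ _
        · simp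
  have key : ∀ i, legMean J t v x R (fun z p ω => z i * psiAt J ψ z p (st p ω r) i) =
      legMean J t v x R (fun z p ω => ψ.zfn (fld J 0 i (st p ω r)) (z i) (p i) +
        Real.sqrt t * ∑ l ∈ Finset.range R, psiAt J ψ z p (st p ω r) i * lincr J t z p ω l i) := by
    intro i
    simp only [legMean]
    congr 1
    funext p
    set φ := fun z => ∑ ω : Path n R, pw J (obsField t p z) p ω * psiAt J ψ z p (st p ω r) i
    set φ' := fun z => ∑ ω : Path n R, pw J (obsField t p z) p ω * (ψ.zfn (fld J 0 i (st p ω r)) (z i) (p i) +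
      Real.sqrt t * ∑ l ∈ Finset.range R, psiAt J ψ z p (st p ω r) i * lincr J t z p ω l i)
    have e : ∀ z, pex J (obsField t p z) p (fun ω : Path n R => z i * psiAt J ψ z p (st p ω r) i) = z i * φ z :=
      fun z => by rw [pex_const_mul]; rfl
    simp only [e]
    have hb : ∀ z, |φ z| ≤ ψ.M := fun z => LegVar.abs_pex_le_const _ hn _ fun ω => abs_psi z p _ i
    have hb' : ∀ z, |φ' z| ≤ ψ.M + Real.sqrt t * (R * (ψ.M * 2)) := fun z => by
      refine LegVar.abs_pex_le_const _ hn _ fun ω => (abs_add_le _ _).trans (add_le_add (ψ.bdd _ _ _).2.2 ?_)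
      rw [abs_mul, abs_of_nonneg (Real.sqrt_nonneg t)]
      refine mul_le_mul_of_nonneg_left ((Finset.abs_sum_le_sum_abs _ _).trans
        ((Finset.sum_le_card_nsmul _ _ (ψ.M * 2) fun l _ => ?_).trans_eq (by simp))) (Real.sqrt_nonneg t)
      rw [abs_mul]
      refine mul_le_mul (abs_psi z p _ i) ?_ (abs_nonneg _) hM
      simp only [lincr]; split_ifs
      · exact PA.abs_inc_le J _ _ _ _
      · simp
    refine gauss_ibp (C := ψ.M + Real.sqrt t * (R * (ψ.M * 2))) (M := 1) i zero_le_one
      (continuous_finsetSum _ fun ω _ => (continuous_pw p ω).mul (continuous_psi p _ i))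
      (continuous_finsetSum _ fun ω _ => (continuous_pw p ω).mul
        (((hld i) p ω).1.add (continuous_const.mul (continuous_finsetSum _ fun l _ => ((hlp i l) p ω).1))))
      (fun z => ((hb z).trans (le_add_of_nonneg_right (by positivity))).trans
        (le_mul_of_one_le_right (by positivity) (one_le_exp_l1 z)))
      (fun z => (hb' z).trans (le_mul_of_one_le_right (by positivity) (one_le_exp_l1 z))) fun z s => ?_
    simp only [φ]
    refine HasDerivAt.fun_sum fun ω _ => ?_
    have h2 : HasDerivAt (fun s => psiAt J ψ (Function.update z i s) p (st p ω r) i)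
        (ψ.zfn (fld J 0 i (st p ω r)) s (p i)) s := by
      simpa [psiAt] using ψ.hasDerivZ (fld J 0 i (st p ω r)) s (p i)
    refine ((hasDerivAt_pw i p ω z s).mul h2).congr_deriv ?_
    simp only [Function.update_self, Finset.mul_sum, Finset.sum_mul, mul_add]
    rw [add_comm]
    congr 1
    exact Finset.sum_congr rfl fun l _ => by ring
  rw [legMean_sum hn _ fun i _ => (hlz i).sub (hld i)]
  simp only [legMean_sub hn (hlz _) (hld _), key,
    legMean_add hn (hld _) ((LInt.sum _ fun l _ => hlp _ l).const_mul (Real.sqrt t)), add_sub_cancel_left,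
    legMean_const_mul, legMean_sum hn _ fun l (_ : l ∈ Finset.range R) => hlp _ l, legResp]
  rw [← Finset.mul_sum, Finset.sum_comm]
  exact congrArg _ (Finset.sum_congr rfl fun l _ => (legMean_sum hn _ fun i _ => hlp i l).symm)

end ChanLeg

end Vale.Agent.P150.PA
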