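import Vale.Agent.P150.PA.ChannelLegBasic

/-! The score of the tilted attempts of one copy in global means: up to the drop of the tilted overlap
and stationarity defects it splits into the responses of the test weighted by the overlap at the
observation and the correlation of the test with the spins at the end weighted by its complement. -/

open MeasureTheory

namespace Vale.Agent.P150.PA

open Ising

variable {n : ℕ}

/-- defect of stationarity of the tilted overlaps up to the lag `hi` -/
noncomputable def legDefect (J : Fin n → Fin n → ℝ) (L : ℝ) (v : ℕ) (x : Cfg n) (hi : ℕ) : ℝ :=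
  12 * hi * vErr J L v x (4 * hi) + 8 / n

/-- squared distance of two mean magnetisations, per spin -/
noncomputable def meanDist (J : Fin n → Fin n → ℝ) (c : Fin n → ℝ) (a e : ℕ) (y : Cfg n) : ℝ :=
  (∑ i, (mean J c a y i - mean J c e y i) ^ 2) / n

namespace ChanLeg

open FieldAux

variable {J : Fin n → Fin n → ℝ} {L t : ℝ} {v : ℕ} {x : Cfg n} {R : ℕ} {ψ : ChanTest} {hi : ℕ}

lemma le_geom {X C A B : ℝ} (hA : 0 ≤ A) (hB : 0 ≤ B) (hC : 0 ≤ C)
    (h : ∀ s, 0 < s → X ≤ C * ((s * A + B / s) / 2)) : X ≤ C * (Real.sqrt A * Real.sqrt B) := by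
  set a := Real.sqrt A
  set b := Real.sqrt B
  have ha : 0 ≤ a := Real.sqrt_nonneg _
  have hb : 0 ≤ b := Real.sqrt_nonneg _
  refine le_of_forall_pos_le_add fun ε hε => ?_
  set d := ε / (C * (a + b) + 1)
  have hd : 0 < d := div_pos hε (by positivity)
  refine (h ((b + d) / (a + d)) (by positivity)).trans ?_
  have h1 : (b + d) / (a + d) * A ≤ (b + d) * a := by
    rw [div_mul_eq_mul_div, div_le_iff₀ (by positivity), mul_assoc, ← Real.mul_self_sqrt hA]
    exact mul_le_mul_of_nonneg_left (mul_le_mul_of_nonneg_left (le_add_of_nonneg_right hd.le) ha) (by positivity)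
  have h2 : B / ((b + d) / (a + d)) ≤ (a + d) * b := by
    rw [div_div_eq_mul_div, div_le_iff₀ (by positivity), mul_comm B, mul_assoc, ← Real.mul_self_sqrt hB]
    exact mul_le_mul_of_nonneg_left (mul_le_mul_of_nonneg_left (le_add_of_nonneg_right hd.le) hb) (by positivity)
  have h3 : d * (C * (a + b) + 1) = ε := div_mul_cancel₀ _ (by positivity)
  have h4 := mul_le_mul_of_nonneg_left (add_le_add h1 h2) hC
  have h5 : 0 ≤ C * (a + b) := by positivity
  have h6 := mul_nonneg hd.le h5
  linarith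

lemma tilt_abs' (hJ : Tame J L) (hn : 0 < n) (ht : 0 ≤ t) {Φ Ψ : Cfg n → (Fin n → ℝ) → ℝ}
    {B B' k K₀ : ℝ} {M : ℕ} (hc : ∀ p, Continuous (Φ p)) (hb : ∀ p c, |Φ p c| ≤ B)
    (hc' : ∀ p, Continuous (Ψ p)) (hb' : ∀ p c, |Ψ p c| ≤ B') (hk : 0 ≤ k)
    (h : ∀ (c : Fin n → ℝ) (h : Cfg n → ℝ), (∀ y, 0 ≤ h y) → ∑ y, wt J c y * h y = 1 →
      |Ef J c h (fun p => Φ p c) - Ef J c h (fun p => Ψ p c)| ≤ k * corErr J c h L M + K₀) :
    |tiltE J t v x Φ - tiltE J t v x Ψ| ≤ k * vErr J L v x M + K₀ := by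
  rw [abs_le]
  constructor
  · rw [neg_le, neg_sub, ← Joint.tiltE_sub hc' hb' hc hb]
    refine tilt_le_corErr hJ hn ht (fun p => (hc' p).sub (hc p)) (B := B' + B)
      (fun p c => (abs_sub _ _).trans (add_le_add (hb' p c) (hb p c))) hk fun c g g0 g1 => ?_
    rw [← Corr.Ef_sub]
    linarith [(abs_le.1 (h c g g0 g1)).1]
  · rw [← Joint.tiltE_sub hc hb hc' hb']
    refine tilt_le_corErr hJ hn ht (fun p => (hc p).sub (hc' p)) (B := B + B')
      (fun p c => (abs_sub _ _).trans (add_le_add (hb p c) (hb' p c))) hk fun c g g0 g1 => ?_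
    rw [← Corr.Ef_sub]
    linarith [(abs_le.1 (h c g g0 g1)).2]

lemma stat_nonneg (v : ℕ) (x : Cfg n) (hi : ℕ) : 0 ≤ (hi : ℝ) * vErr J L v x (4 * hi) :=
  mul_nonneg (Nat.cast_nonneg _) (corErr_nonneg _)

lemma stat_le {k M : ℕ} (hk : k ≤ hi) (hM : M ≤ 4 * hi) :
    (k : ℝ) * vErr J L v x M ≤ hi * vErr J L v x (4 * hi) :=
  mul_le_mul (Nat.cast_le.2 hk) (corErr_mono hM) (corErr_nonneg _) (Nat.cast_nonneg _)

/-- the tilted overlap is decreasing up to the defect -/
lemma lag_anti (hJ : Tame J L) (hn : 0 < n) (ht : 0 ≤ t) {a e : ℕ} (hae : a ≤ e) (he : e ≤ hi) :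
    tiltLag J t v e x ≤ tiltLag J t v a x + hi * vErr J L v x (4 * hi) := by
  refine (tiltLag_anti (L := L) hJ hn ht hae).trans (add_le_add le_rfl ?_)
  refine le_trans ?_ (stat_le (J := J) (L := L) (v := v) (x := x) he (by omega : 2 * e ≤ 4 * hi))
  exact mul_le_mul_of_nonneg_right (by linarith [(Nat.cast_nonneg a : (0 : ℝ) ≤ a)]) (corErr_nonneg _)

lemma lag_mem (hn : 0 < n) (a : ℕ) : 0 ≤ tiltLag J t v a x ∧ tiltLag J t v a x ≤ 1 := by
  have h1 : ∀ p : Cfg n, |∫ z, qmean J (obsField t p z) a p ∂gauss (Fin n)| ≤ 1 := fun p => by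
    rw [← Real.norm_eq_abs]
    exact (norm_integral_le_of_norm_le_const (C := 1) (Filter.Eventually.of_forall fun z => by
      rw [Real.norm_eq_abs]; exact Joint.abs_qmean_le _ a p)).trans (by simp)
  exact ⟨Pair.Kpow_nonneg (fun p => integral_nonneg fun z =>
      div_nonneg (Finset.sum_nonneg fun _ _ => sq_nonneg _) (Nat.cast_nonneg n)) v x,
    (le_abs_self _).trans (LegVar.abs_Kpow_le _ hn h1 v x)⟩

lemma legMean_const (hn : 0 < n) (c : ℝ) : legMean J t v x R (fun _ _ _ => c) = c := by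
  simp only [legMean, pex_const J _ hn, integral_const, probReal_univ, one_smul]
  rw [← pex_st J 0 hn (fun _ => c) (le_refl v) x, pex_const J _ hn]

lemma legMean_mono (hn : 0 < n) {X Y : (Fin n → ℝ) → Cfg n → Path n R → ℝ} (hX : LInt X) (hY : LInt Y)
    (h : ∀ z p ω, X z p ω ≤ Y z p ω) : legMean J t v x R X ≤ legMean J t v x R Y :=
  Block.Kpow_mono (fun p => integral_mono (hX.integrable hn p) (hY.integrable hn p) fun z =>
    pex_mono J _ p fun ω => h z p ω) v x

lemma abs_ovK (hn : 0 < n) (l a e : ℕ) (c : Fin n → ℝ) (p : Cfg n) : |Kpow J c l (ov J c a e) p| ≤ 1 :=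
  LegVar.abs_Kpow_le _ hn (fun y => Corr.abs_ov_le a e y) l p

/-! ### the overlaps along the leg -/

lemma legOv_eq (hn : 0 < n) {l : ℕ} (hl : l ≤ R) :
    legOv J t v x R l = tiltE J t v x (fun p c => Kpow J c l (ov J c 0 (R - l)) p) := by
  rw [legOv, legMean_two (J := J) (t := t) hn hl le_rfl
    (fun _ _ y w => (∑ i, spin (y i) * spin (w i)) / n)]
  simp only [tiltE, Finset.sum_div]
  congr 1
  funext p
  refine integral_congr_ae (Filter.Eventually.of_forall fun z => ?_)
  simp only
  congr 1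
  funext y
  simp only [ov, Finset.sum_div, mul_div_right_comm]
  exact congrFun (Corr.Kpow_lin (fun i => spin (y i) / (n : ℝ)) (fun i w => spin (w i)) (R - l)) y

lemma legOv_end (hn : 0 < n) : legOv J t v x R R = 1 := by
  have e : ∀ (p : Cfg n) (ω : Path n R), (∑ i, spin (st p ω R i) * spin (st p ω R i)) / (n : ℝ) = 1 :=
    fun p ω => by
      simp [spin_mul_self, (Nat.cast_pos.2 hn).ne']
  simp only [legOv, e]
  exact legMean_const hn 1

theorem legOv_near (hJ : Tame J L) (hn : 0 < n) (ht : 0 ≤ t) {l : ℕ} (hl : l ≤ R) (hR : R ≤ hi) :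
    |legOv J t v x R l - tiltLag J t v ((R - l) / 2) x| ≤ 2 * (hi * vErr J L v x (4 * hi)) + 2 / n := by
  set a := R - l
  set j := a / 2
  have h1 : |tiltE J t v x (fun p c => Kpow J c l (ov J c 0 a) p) - tiltE J t v x (fun p c => ov J c 0 a p)| ≤
      hi * vErr J L v x (4 * hi) := by
    refine (tilt_abs (J := J) (L := L) (k := (l : ℝ)) (M := l + a) hJ hn ht
      (fun p => Joint.continuous_Kpow' (fun y => Joint.continuous_ov 0 a y) l p)
      (fun p c => abs_ovK hn l 0 a c p) (Joint.continuous_ov 0 a) (fun p c => Corr.abs_ov_le 0 a p)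
      (Nat.cast_nonneg l) fun c g g0 g1 => ?_).trans (stat_le (by omega) (by omega))
    exact ov_stat hJ hn g0 g1 (by omega)
  have h2 : |tiltE J t v x (fun p c => ov J c 0 a p) - tiltE J t v x (fun p c => ov J c 0 (2 * j) p)| ≤ 2 / n := by
    refine (tilt_abs' (J := J) (L := L) (k := 0) (M := 0) (K₀ := 2 / n) hJ hn ht
      (Joint.continuous_ov 0 a) (fun p c => Corr.abs_ov_le 0 a p) (Joint.continuous_ov 0 _)
      (fun p c => Corr.abs_ov_le 0 _ p) le_rfl fun c g g0 g1 => ?_).trans_eq (by simp)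
    rw [zero_mul, zero_add]
    rcases (show a = 2 * j ∨ a = 2 * j + 1 by omega) with h | h
    · rw [h, sub_self, abs_zero]; positivity
    · rw [h]; exact Cor_step hn g0 g1 (2 * j)
  have h3 := (tilt_ov (J := J) (L := L) (t := t) (v := v) (x := x) hJ hn ht j).trans
    (stat_le (J := J) (L := L) (v := v) (x := x) (hi := hi) (by omega) (by omega))
  rw [legOv_eq hn hl]
  calc _ ≤ _ := abs_sub_le _ (tiltE J t v x (fun p c => ov J c 0 a p)) _
    _ ≤ hi * vErr J L v x (4 * hi) + (2 / n + hi * vErr J L v x (4 * hi)) :=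
      add_le_add h1 ((abs_sub_le _ _ _).trans (add_le_add h2 h3))
    _ = _ := by ring

/-- near the observation the overlap is the one at the observation, up to a short drop -/
theorem legOv_flat (hJ : Tame J L) (hn : 0 < n) (ht : 0 ≤ t) {r l w : ℕ} (hl : l ≤ r) (hw : 2 * w + r ≤ R)
    (hR : R ≤ hi) :
    |legOv J t v x R l - legOv J t v x R 0| ≤
      tiltLag J t v w x - tiltLag J t v (R / 2) x + legDefect J L v x hi := by
  have h1 := abs_le.1 (legOv_near (J := J) (L := L) (t := t) (v := v) (x := x) hJ hn ht (l := l) (by omega) hR)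
  have h0 := abs_le.1 (legOv_near (J := J) (L := L) (t := t) (v := v) (x := x) hJ hn ht (l := 0) (by omega) hR)
  rw [Nat.sub_zero] at h0
  have u1 := lag_anti (v := v) (x := x) (hi := hi) hJ hn ht (show w ≤ (R - l) / 2 by omega) (by omega)
  have u2 := lag_anti (v := v) (x := x) (hi := hi) hJ hn ht (show (R - l) / 2 ≤ R / 2 by omega) (by omega)
  have u3 := lag_anti (v := v) (x := x) (hi := hi) hJ hn ht (show w ≤ R / 2 by omega) (by omega)
  have hE := stat_nonneg (J := J) (L := L) v x hi
  have e : legDefect J L v x hi = 12 * (hi * vErr J L v x (4 * hi)) + 4 * (2 / (n : ℝ)) := by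
    simp only [legDefect]; ring
  have : (0 : ℝ) ≤ 2 / n := by positivity
  rw [abs_le]
  constructor <;> linarith

/-! ### the correlations with the test -/

lemma continuous_meanDist (a e : ℕ) (p : Cfg n) : Continuous fun c => meanDist J c a e p :=
  (continuous_finsetSum _ fun i _ => ((Joint.continuous_mean a p i).sub (Joint.continuous_mean e p i)).pow 2).div_const _

lemma meanDist_eq (c : Fin n → ℝ) (a e : ℕ) (y : Cfg n) :
    meanDist J c a e y = ov J c a a y + ov J c e e y - 2 * ov J c a e y := by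
  simp only [meanDist, ov, mul_div_assoc', Finset.mul_sum, ← add_div, ← sub_div, ← Finset.sum_add_distrib,
    ← Finset.sum_sub_distrib]
  congr 1
  exact Finset.sum_congr rfl fun i _ => by ring

lemma meanDist_mem (c : Fin n → ℝ) (a e : ℕ) (y : Cfg n) :
    0 ≤ meanDist J c a e y ∧ |meanDist J c a e y| ≤ 4 := by
  have h0 : 0 ≤ meanDist J c a e y := div_nonneg (Finset.sum_nonneg fun _ _ => sq_nonneg _) (Nat.cast_nonneg n)
  refine ⟨h0, ?_⟩
  rw [abs_of_nonneg h0, meanDist_eq]
  have := abs_le.1 (Corr.abs_ov_le (J := J) (b := c) a a y)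
  have := abs_le.1 (Corr.abs_ov_le (J := J) (b := c) e e y)
  have := abs_le.1 (Corr.abs_ov_le (J := J) (b := c) a e y)
  linarith

/-- where the tilted overlap is flat the means seen from the test are close -/
theorem dist_small (hJ : Tame J L) (hn : 0 < n) (ht : 0 ≤ t) {r a e lo : ℕ} (hae : a ≤ e) (hlo : lo ≤ a)
    (he : r + e ≤ hi) :
    tiltE J t v x (fun p c => Kpow J c r (meanDist J c a e) p) ≤
      tiltLag J t v lo x - tiltLag J t v hi x + legDefect J L v x hi := by
  have h1 : |tiltE J t v x (fun p c => Kpow J c r (meanDist J c a e) p) -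
      tiltE J t v x (fun p c => meanDist J c a e p)| ≤ 4 * r * vErr J L v x (r + 2 * e) := by
    refine tilt_abs (J := J) (L := L) hJ hn ht
      (fun p => Joint.continuous_Kpow' (continuous_meanDist a e) r p)
      (fun p c => LegVar.abs_Kpow_le _ hn (fun y => (meanDist_mem c a e y).2) r p)
      (continuous_meanDist a e) (fun p c => (meanDist_mem c a e p).2) (by positivity) fun c g g0 g1 => ?_
    have e1 : ∀ φ : Cfg n → ℝ, Ef J c g φ = ∑ y, wt J c y * (g y * φ y) := fun φ => rfl
    have eK : ∀ y, Kpow J c r (meanDist J c a e) y = Kpow J c r (ov J c a a) y + Kpow J c r (ov J c e e) y +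
        -2 * Kpow J c r (ov J c a e) y := fun y => by
      rw [show meanDist J c a e = fun y => (ov J c a a y + 1 * ov J c e e y) + -2 * ov J c a e y from
        funext fun y => by rw [meanDist_eq]; ring, Block.Kpow_add_mul]
      dsimp only
      rw [Block.Kpow_add_mul]
      ring
    have eD : Ef J c g (fun p => Kpow J c r (meanDist J c a e) p) - Ef J c g (fun p => meanDist J c a e p) =
        (Ef J c g (Kpow J c r (ov J c a a)) - Cor2 J c g a a) + (Ef J c g (Kpow J c r (ov J c e e)) - Cor2 J c g e e)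
          - 2 * (Ef J c g (Kpow J c r (ov J c a e)) - Cor2 J c g a e) := by
      simp only [Cor2, e1, eK, meanDist_eq, ← Finset.sum_sub_distrib, ← Finset.sum_add_distrib, Finset.mul_sum]
      exact Finset.sum_congr rfl fun y _ => by ring
    rw [eD]
    have k1 := abs_le.1 (ov_stat (L := L) hJ hn g0 g1 (k := r) (a := a) (c := a) (M := r + 2 * e) (by omega))
    have k2 := abs_le.1 (ov_stat (L := L) hJ hn g0 g1 (k := r) (a := e) (c := e) (M := r + 2 * e) (by omega))
    have k3 := abs_le.1 (ov_stat (L := L) hJ hn g0 g1 (k := r) (a := a) (c := e) (M := r + 2 * e) (by omega))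
    rw [abs_le]
    constructor <;> linarith
  have h2 : tiltE J t v x (fun p c => meanDist J c a e p) ≤
      tiltLag J t v a x - tiltLag J t v e x + 4 * e * vErr J L v x (2 * e) + 4 / n :=
    tilt_close hJ hn ht hae
  have u1 := lag_anti (v := v) (x := x) (hi := hi) hJ hn ht hlo (by omega)
  have u2 := lag_anti (v := v) (x := x) (hi := hi) hJ hn ht (show e ≤ hi by omega) le_rfl
  have s1 := stat_le (J := J) (L := L) (v := v) (x := x) (hi := hi) (show r ≤ hi by omega)
    (show r + 2 * e ≤ 4 * hi by omega)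
  have s2 := stat_le (J := J) (L := L) (v := v) (x := x) (hi := hi) (show e ≤ hi by omega)
    (show 2 * e ≤ 4 * hi by omega)
  have hE := stat_nonneg (J := J) (L := L) v x hi
  have : (4 : ℝ) / n ≤ 8 / n := div_le_div_of_nonneg_right (by norm_num) (Nat.cast_nonneg n)
  have h3 := (abs_le.1 h1).2
  simp only [legDefect]
  linarith

/-- late in the leg the correlation with the test has its value at the end -/
theorem legCor_flat (hJ : Tame J L) (hn : 0 < n) (ht : 0 ≤ t) {r l lo : ℕ} (hl : r + lo ≤ l) (hlR : l ≤ R)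
    (hR : R ≤ hi) :
    |legCor J t ψ v x R r l - legCor J t ψ v x R r R| ≤
      ψ.M * Real.sqrt (max 0 (tiltLag J t v lo x - tiltLag J t v hi x) + legDefect J L v x hi) := by
  set a := l - r
  set e := R - r
  set Y := max 0 (tiltLag J t v lo x - tiltLag J t v hi x) + legDefect J L v x hi
  have hY : 0 ≤ Y := by
    have := stat_nonneg (J := J) (L := L) v x hi
    have : (0 : ℝ) ≤ 8 / n := by positivity
    have := le_max_left 0 (tiltLag J t v lo x - tiltLag J t v hi x)
    simp only [Y, legDefect]; linarith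
  set G := fun (d : ℕ) (z : Fin n → ℝ) (p : Cfg n) (ω : Path n R) =>
    (∑ i, psiAt J ψ z p (st p ω r) i * mean J (obsField t p z) d (st p ω r) i) / (n : ℝ)
  have hM := M_nonneg ψ
  have hpos : (0 : ℝ) < n := Nat.cast_pos.2 hn
  have hmc : ∀ (d : ℕ) (p y : Cfg n) (i : Fin n), Continuous fun z => mean J (obsField t p z) d y i :=
    fun d p y i => (Joint.continuous_mean d y i).comp' (Joint.continuous_obs t p)
  have hm1 : ∀ (c : Fin n → ℝ) (d : ℕ) (y : Cfg n) (i : Fin n), |mean J c d y i| ≤ 1 := fun c d y i =>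
    LegVar.abs_Kpow_le _ hn (fun w => (abs_spin (w i)).le) d y
  have iG : ∀ d, LInt (G d) := fun d => (LInt.sum _ fun i _ => LInt.of_bound
    (fun p ω => (continuous_psi p _ i).mul (hmc d p _ i)) (B := ψ.M * 1) fun z p ω =>
      show |psiAt J ψ z p (st p ω r) i * mean J (obsField t p z) d (st p ω r) i| ≤ ψ.M * 1 by
        rw [abs_mul]; exact mul_le_mul (abs_psi z p _ i) (hm1 _ _ _ _) (abs_nonneg _) hM).div_const _
  have eG : ∀ k, r ≤ k → k ≤ R → legCor J t ψ v x R r k = legMean J t v x R (G (k - r)) := by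
    intro k hk hkR
    rw [legCor, legMean_two hn hk hkR (fun z p y w => (∑ i, psiAt J ψ z p y i * spin (w i)) / n),
      legMean_two hn le_rfl (hk.trans hkR)
        (fun z p y _ => (∑ i, psiAt J ψ z p y i * mean J (obsField t p z) (k - r) y i) / n)]
    congr 1; funext p
    refine integral_congr_ae (Filter.Eventually.of_forall fun z => ?_)
    simp only
    congr 1; funext y
    rw [Nat.sub_self]
    simp only [Finset.sum_div, mul_div_right_comm]
    exact congrFun (Corr.Kpow_lin (fun i => psiAt J ψ z p y i / (n : ℝ)) (fun i w => spin (w i)) (k - r)) y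
  rw [eG l (by omega) hlR, eG R (by omega) le_rfl, ← legMean_sub hn (iG _) (iG _)]
  set Q := fun (z : Fin n → ℝ) (p : Cfg n) (ω : Path n R) => meanDist J (obsField t p z) a e (st p ω r)
  have iQ : LInt Q := LInt.of_bound (fun p ω => (continuous_meanDist a e _).comp' (Joint.continuous_obs t p))
    fun z p ω => (meanDist_mem _ a e _).2
  have hQ : legMean J t v x R Q ≤ Y := by
    refine le_trans (le_of_eq ?_) ((dist_small (v := v) (x := x) (hi := hi) hJ hn ht (r := r)
      (show a ≤ e by omega) (show lo ≤ a by omega) (by omega)).trans (add_le_add (le_max_right _ _) le_rfl))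
    rw [legMean_two hn le_rfl (by omega : r ≤ R) (fun z p y _ => meanDist J (obsField t p z) a e y)]
    simp only [tiltE, Nat.sub_self]
    rfl
  have key : ∀ s, 0 < s → |legMean J t v x R (fun z p ω => G a z p ω - G e z p ω)| ≤
      ψ.M * ((s * Y + 1 / s) / 2) := by
    intro s hs
    have hb : ∀ z p ω, |G a z p ω - G e z p ω| ≤ ψ.M * ((s * Q z p ω + 1 / s) / 2) := by
      intro z p ω
      simp only [G, Q, meanDist]
      rw [← sub_div, ← Finset.sum_sub_distrib, abs_div, Nat.abs_cast, div_le_iff₀ hpos]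
      refine (Finset.abs_sum_le_sum_abs _ _).trans ((Finset.sum_le_sum (g := fun i => ψ.M *
        ((s * (mean J (obsField t p z) a (st p ω r) i - mean J (obsField t p z) e (st p ω r) i) ^ 2 + 1 / s) / 2))
        fun i _ => ?_).trans_eq ?_)
      · rw [← mul_sub, abs_mul]
        refine mul_le_mul (abs_psi z p _ i) ?_ (abs_nonneg _) hM
        set Δ := mean J (obsField t p z) a (st p ω r) i - mean J (obsField t p z) e (st p ω r) i
        have h0 : 0 ≤ (s * |Δ| - 1) ^ 2 / s := div_nonneg (sq_nonneg _) hs.le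
        have h1 : (s * |Δ| - 1) ^ 2 / s = s * Δ ^ 2 + 1 / s - 2 * |Δ| := by
          rw [← sq_abs Δ]; field_simp; ring
        linarith
      · rw [← Finset.mul_sum, ← Finset.sum_div, Finset.sum_add_distrib, ← Finset.mul_sum]
        simp only [Finset.sum_const, Finset.card_univ, Fintype.card_fin, nsmul_eq_mul]
        field_simp
    have iU : LInt fun z p ω => ψ.M * ((s * Q z p ω + 1 / s) / 2) :=
      (((iQ.const_mul s).add (LInt.of_bound (fun _ _ => continuous_const) (B := |1 / s|)
        fun _ _ _ => le_rfl)).div_const 2).const_mul _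
    have eU : legMean J t v x R (fun z p ω => ψ.M * ((s * Q z p ω + 1 / s) / 2)) =
        ψ.M * ((s * legMean J t v x R Q + 1 / s) / 2) := by
      rw [legMean_const_mul, legMean_div, legMean_add hn (iQ.const_mul s)
        (LInt.of_bound (fun _ _ => continuous_const) (B := |1 / s|) fun _ _ _ => le_rfl),
        legMean_const_mul, legMean_const hn]
    have hU : ψ.M * ((s * legMean J t v x R Q + 1 / s) / 2) ≤ ψ.M * ((s * Y + 1 / s) / 2) :=
      mul_le_mul_of_nonneg_left (by linarith [mul_le_mul_of_nonneg_left hQ hs.le]) hM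
    rw [abs_le]
    constructor
    · have h := legMean_mono (J := J) (t := t) (v := v) (x := x) hn (iU.const_mul (-1)) ((iG a).sub (iG e))
        fun z p ω => by linarith [(abs_le.1 (hb z p ω)).1]
      rw [legMean_const_mul, eU] at h
      linarith
    · have h := legMean_mono (J := J) (t := t) (v := v) (x := x) hn ((iG a).sub (iG e)) iU
        fun z p ω => (abs_le.1 (hb z p ω)).2
      rw [eU] at h
      linarith
  have := le_geom hY zero_le_one hM key
  simpa using this

/-! ### the increments of the overlap -/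

lemma tiltE_legE (hJ : Tame J L) (ht : 0 ≤ t) (k : ℕ) (φ : (Fin n → ℝ) → Cfg n → ℝ)
    (hc : ∀ y, Continuous fun c => φ c y) {B : ℝ} (hb : ∀ c y, |φ c y| ≤ B) :
    tiltE J t v x (fun p c => Kpow J c k (φ c) p) = legE J 0 t k (dens J v x) φ := by
  rw [tiltE, start_density hJ.symm hJ.diag, ← legE_eq hJ.symm hJ.diag ht k (dens J v x) φ hc hb]
  have hi : ∀ p : Cfg n, Integrable (fun z => wt J 0 p * (dens J v x p *
      Kpow J (obsField t p z) k (φ (obsField t p z)) p)) (gauss (Fin n)) := fun p =>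
    ((FieldAux.integrable_bdd ((Joint.continuous_Kpow' hc k p).comp' (Joint.continuous_obs t p)) fun z =>
      (FieldAux.abs_Kpow_le J _ _ k p).trans (Finset.sum_le_sum fun y _ => hb _ y)).const_mul _).const_mul _
  have ey : ∀ (p : Cfg n) (z : Fin n → ℝ), yob t p z = obsField t p z := fun _ _ => rfl
  simp only [ey, zero_add]
  rw [integral_finsetSum _ fun p _ => hi p]
  simp only [Ef, integral_const_mul]
  rfl

lemma Kdiv (c : Fin n → ℝ) (f : Cfg n → ℝ) (a : ℝ) (y : Cfg n) :
    K J c (fun w => f w / a) y = K J c f y / a := by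
  simp only [K, qb_eq, Finset.sum_div]
  exact Finset.sum_congr rfl fun i _ => by ring

lemma ov_incr (hn : 0 < n) (c : Fin n → ℝ) (a : ℕ) (y : Cfg n) :
    K J c (ov J c 0 a) y - ov J c 0 (a + 1) y =
      ((∑ i, (1 - mag J c i y ^ 2) * dd i (fun w => mean J c a w i) y / n) -
        (∑ i, (spin (y i) - mag J c i y) * qb c J i (fun w => mean J c a w i) y) / n) / n := by
  have e0 : ov J c 0 a = fun w => (∑ i, spin (w i) * mean J c a w i) / (n : ℝ) := rfl
  have e1 : ov J c 0 (a + 1) y = (∑ i, spin (y i) * K J c (fun w => mean J c a w i) y) / (n : ℝ) := by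
    simp only [ov, mean, Pair.Kpow_succ]
    rfl
  rw [e1, e0, Kdiv, Block.K_sum, ← sub_div, ← Finset.sum_sub_distrib]
  simp only [ChPre.spin_step hn, ChPre.spin_qb, Finset.sum_div, ← Finset.sum_sub_distrib]
  exact Finset.sum_congr rfl fun i _ => by ring

/-- the overlap grows by the response of the end, up to the averaged Dirichlet form of the leg -/
theorem legOv_incr (hJ : Tame J L) (hn : 0 < n) (ht : 0 ≤ t) {l : ℕ} (hl : l < R) :
    |legOv J t v x R (l + 1) - legOv J t v x R l - legEnd J t v x R l / n| ≤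
      4 * Real.sqrt n / (n : ℝ) ^ 2 * Real.sqrt (legDir J 0 t l (dens J v x)) := by
  set a := R - l - 1
  set h := fun (c : Fin n → ℝ) (i : Fin n) (w : Cfg n) => mean J c a w i
  set φ₁ := fun (c : Fin n → ℝ) (y : Cfg n) => ∑ i, (1 - mag J c i y ^ 2) * dd i (h c i) y / (n : ℝ)
  set φ₂ := fun (c : Fin n → ℝ) (y : Cfg n) => ∑ i, (spin (y i) - mag J c i y) * qb c J i (h c i) y
  have hend : legEnd J t v x R l = tiltE J t v x (fun p c => Kpow J c l (φ₁ c) p) := by
    simp only [legEnd, legMean, tiltE]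
    congr 1; funext p
    refine integral_congr_ae (Filter.Eventually.of_forall fun z => ?_)
    simp only [lincr, dif_pos hl]
    rw [pex_sum]
    simp only [φ₁]
    rw [Block.Kpow_sum l fun i y => (1 - mag J (obsField t p z) i y ^ 2) * dd i (h (obsField t p z) i) y / (n : ℝ)]
    refine Finset.sum_congr rfl fun i _ => ?_
    simp only [mul_comm (spin _)]
    exact pex_response J _ hn i (fun w => spin (w i)) hl hl le_rfl p
  have hmag : ∀ i y, Continuous fun c => mag J c i y := fun i y => continuous_mag J i y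
  have hh1 : ∀ c i y, |h c i y| ≤ 1 := fun c i y => LegVar.abs_Kpow_le _ hn (fun w => (abs_spin (w i)).le) a y
  have hqb : ∀ c i y, |qb c J i (h c i) y| ≤ 1 := fun c i y => ChPre.abs_qb_le (hh1 c i) i y
  have hc2 : ∀ y, Continuous fun c => φ₂ c y := fun y => by
    simp only [φ₂, qb_eq, h]
    have := fun i w => Joint.continuous_mean (J := J) a w i
    fun_prop
  have hb2 : ∀ c y, |φ₂ c y| ≤ (n : ℝ) * 2 := fun c y => by
    refine (Finset.abs_sum_le_sum_abs _ _).trans ((Finset.sum_le_card_nsmul _ _ 2 fun i _ => ?_).trans_eq (by simp))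
    rw [abs_mul, ← mul_one (2 : ℝ)]
    refine mul_le_mul ((abs_sub _ _).trans ?_) (hqb c i y) (abs_nonneg _) (by norm_num)
    have : |mag J c i y| ≤ 1 := (tanh_abs_lt _).le
    rw [abs_spin]; linarith
  have hc1 : ∀ y, Continuous fun c => φ₁ c y := fun y => by
    simp only [φ₁, dd, h]
    have := fun i w => Joint.continuous_mean (J := J) a w i
    fun_prop
  have hb1 : ∀ c y, |φ₁ c y| ≤ (n : ℝ) * (2 / n) := fun c y => by
    refine (Finset.abs_sum_le_sum_abs _ _).trans ((Finset.sum_le_card_nsmul _ _ (2 / (n : ℝ)) fun i _ => ?_).trans_eq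
      (by simp))
    rw [abs_div, Nat.abs_cast, abs_mul, abs_of_nonneg (mag_sq J c i y).1]
    refine div_le_div_of_nonneg_right ((mul_le_of_le_one_left (abs_nonneg _) (mag_sq J c i y).2).trans ?_)
      (Nat.cast_nonneg n)
    simp only [dd, abs_div, abs_two]
    have := abs_sub (h c i (Function.update y i true)) (h c i (Function.update y i false))
    have := hh1 c i (Function.update y i true)
    have := hh1 c i (Function.update y i false)
    linarith
  have cK : ∀ (k e : ℕ) p, Continuous fun c => Kpow J c k (ov J c 0 e) p := fun k e p =>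
    Joint.continuous_Kpow' (fun y => Joint.continuous_ov 0 e y) k p
  have eC : legOv J t v x R (l + 1) - legOv J t v x R l =
      legEnd J t v x R l / n - tiltE J t v x (fun p c => Kpow J c l (φ₂ c) p) / (n : ℝ) ^ 2 := by
    rw [legOv_eq hn (by omega : l + 1 ≤ R), legOv_eq hn hl.le,
      ← Joint.tiltE_sub (fun p => cK _ _ p) (fun p c => abs_ovK hn _ 0 _ c p) (fun p => cK _ _ p)
        (fun p c => abs_ovK hn _ 0 _ c p), hend, ← Joint.tiltE_div, ← Joint.tiltE_div,
      ← Joint.tiltE_sub (B := (n : ℝ) * (2 / n) / n) (B' := (n : ℝ) * 2 / (n : ℝ) ^ 2)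
        (fun p => (Joint.continuous_Kpow' hc1 l p).div_const _)
        (fun p c => by
          rw [abs_div, Nat.abs_cast]
          exact div_le_div_of_nonneg_right (LegVar.abs_Kpow_le _ hn (hb1 c) l p) (Nat.cast_nonneg n))
        (fun p => (Joint.continuous_Kpow' hc2 l p).div_const _)
        (fun p c => by
          rw [abs_div, abs_of_nonneg (sq_nonneg (n : ℝ))]
          exact div_le_div_of_nonneg_right (LegVar.abs_Kpow_le _ hn (hb2 c) l p) (sq_nonneg _))]
    congr 1; funext p c
    rw [show R - (l + 1) = a by omega, show R - l = a + 1 by omega, Block.Kpow_comm,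
      ← congrFun (Block.Kpow_sub (J := J) (b := c) l _ _) p]
    have e : (fun y => K J c (ov J c 0 a) y - ov J c 0 (a + 1) y) =
        fun y => (n : ℝ)⁻¹ * φ₁ c y + -((n : ℝ) ^ 2)⁻¹ * φ₂ c y := funext fun y => by
      rw [ov_incr hn]; simp only [φ₁, φ₂, h]; ring
    rw [e, Block.Kpow_add_mul]
    dsimp only
    rw [Block.Kpow_mul_const]
    ring
  rw [eC, show legEnd J t v x R l / n - tiltE J t v x (fun p c => Kpow J c l (φ₂ c) p) / (n : ℝ) ^ 2 -
      legEnd J t v x R l / n = -(tiltE J t v x (fun p c => Kpow J c l (φ₂ c) p) / (n : ℝ) ^ 2) by ring,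
    abs_neg, abs_div, abs_of_nonneg (sq_nonneg (n : ℝ)), tiltE_legE hJ ht l φ₂ hc2 hb2, div_mul_eq_mul_div]
  refine div_le_div_of_nonneg_right ?_ (sq_nonneg _)
  have e2 : φ₂ = fun y z => ∑ i, (spin (z i) - mag J (0 + y) i z) * qb y J i (h y i) z := by
    funext y z; simp [φ₂]
  rw [e2]
  refine leg_pair (b := (0 : Fin n → ℝ)) hJ.symm hJ.diag hn ht (Joint.dens_nonneg v x) (Joint.dens_sum hJ hn v x) l
    (fun y i z => qb y J i (h y i) z) (fun i z => ?_) (fun y i z c => ?_) fun y z => ?_
  · simp only [qb_eq, h]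
    have := fun w => Joint.continuous_mean (J := J) a w i
    fun_prop
  · simp only [qb_eq, Function.update_idem, mag_update y hJ.diag]
  · refine (Finset.sum_le_card_nsmul _ _ 1 fun i _ => ?_).trans_eq (by simp)
    rw [sq_le_one_iff_abs_le_one]
    exact hqb y i z

/-! ### summation along the leg -/

lemma abel_mono {C U Dd : ℕ → ℝ} {R h : ℕ} {B η δ c : ℝ} (hh : h ≤ R) (hU : ∀ l < R, U l ≤ U (l + 1))
    (hCU : ∀ l ≤ R, |C l - U l| ≤ δ) (hB : ∀ l ≤ R, |Dd l| ≤ B) (hη : ∀ l, h ≤ l → l < R → |Dd l| ≤ η)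
    (hc : ∀ l < R, |Dd (l + 1) - Dd l| ≤ c) :
    |∑ l ∈ Finset.range R, (C (l + 1) - C l) * Dd l| ≤
      B * (U h - U 0) + η * (U R - U h) + δ * (2 * B + R * c) := by
  have e : ∑ l ∈ Finset.range R, (C (l + 1) - C l) * Dd l =
      ∑ l ∈ Finset.range R, (U (l + 1) - U l) * Dd l + ((C R - U R) * Dd R - (C 0 - U 0) * Dd 0) -
        ∑ l ∈ Finset.range R, (C (l + 1) - U (l + 1)) * (Dd (l + 1) - Dd l) := by
    rw [← Finset.sum_range_sub (fun l => (C l - U l) * Dd l) R, ← Finset.sum_add_distrib,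
      ← Finset.sum_sub_distrib]
    exact Finset.sum_congr rfl fun l _ => by ring
  have h1 : |∑ l ∈ Finset.range R, (U (l + 1) - U l) * Dd l| ≤ B * (U h - U 0) + η * (U R - U h) := by
    rw [← Finset.sum_range_add_sum_Ico _ hh]
    refine (abs_add_le _ _).trans (add_le_add ?_ ?_)
    · rw [← Finset.sum_range_sub U h, Finset.mul_sum]
      refine (Finset.abs_sum_le_sum_abs _ _).trans (Finset.sum_le_sum fun l hl => ?_)
      rw [Finset.mem_range] at hl
      rw [abs_mul, abs_of_nonneg (sub_nonneg.2 (hU l (by omega))), mul_comm B]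
      exact mul_le_mul_of_nonneg_left (hB l (by omega)) (sub_nonneg.2 (hU l (by omega)))
    · rw [← Finset.sum_Ico_sub U hh, Finset.mul_sum]
      refine (Finset.abs_sum_le_sum_abs _ _).trans (Finset.sum_le_sum fun l hl => ?_)
      rw [Finset.mem_Ico] at hl
      rw [abs_mul, abs_of_nonneg (sub_nonneg.2 (hU l hl.2)), mul_comm η]
      exact mul_le_mul_of_nonneg_left (hη l hl.1 hl.2) (sub_nonneg.2 (hU l hl.2))
  have hδ : 0 ≤ δ := (abs_nonneg _).trans (hCU 0 (Nat.zero_le R))
  have h2 : |(C R - U R) * Dd R - (C 0 - U 0) * Dd 0| ≤ δ * B + δ * B := (abs_sub _ _).trans (add_le_add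
    (by rw [abs_mul]; exact mul_le_mul (hCU R le_rfl) (hB R le_rfl) (abs_nonneg _) hδ)
    (by rw [abs_mul]; exact mul_le_mul (hCU 0 (Nat.zero_le R)) (hB 0 (Nat.zero_le R)) (abs_nonneg _) hδ))
  have h3 : |∑ l ∈ Finset.range R, (C (l + 1) - U (l + 1)) * (Dd (l + 1) - Dd l)| ≤ R * (δ * c) :=
    (Finset.abs_sum_le_sum_abs _ _).trans ((Finset.sum_le_card_nsmul _ _ (δ * c) fun l hl => by
      rw [Finset.mem_range] at hl
      rw [abs_mul]; exact mul_le_mul (hCU _ hl) (hc l hl) (abs_nonneg _) hδ).trans_eq (by simp))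
  rw [e]
  refine ((abs_sub _ _).trans (add_le_add ((abs_add_le _ _).trans (add_le_add h1 h2)) h3)).trans (le_of_eq ?_)
  ring

/-- the defects of the increments along the leg -/
theorem sum_incr (hJ : Tame J L) (hn : 0 < n) (ht : 0 ≤ t) (hR : R ≤ hi) {s α : ℝ} (hs : 0 ≤ s) (hα : 0 < α) :
    ∑ l ∈ Finset.range R, |legOv J t v x R (l + 1) - legOv J t v x R l - legEnd J t v x R l / n| ≤
      4 * Real.sqrt (R / n) *
        Real.sqrt (L / (2 * α) + 2 * Real.exp (L * (1 + α) - s / 2) + s * legDefect J L v x hi) := by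
  set f := dens J v x
  set ξ := L / (2 * α) + 2 * Real.exp (L * (1 + α) - s / 2)
  have hn' : (0 : ℝ) < n := Nat.cast_pos.2 hn
  set X := ξ + s * legDefect J L v x hi
  have hd : ∑ k ∈ Finset.range R, legDir J 0 t k f ≤ (n : ℝ) ^ 2 * X := by
    refine (leg_dissip hJ hn ht (Joint.dens_nonneg v x) (Joint.dens_sum hJ hn v x) R hs hα).trans ?_
    simp only [X]
    rw [show (n : ℝ) ^ 2 * (ξ + s * legDefect J L v x hi) = (n : ℝ) ^ 2 * ξ + (n : ℝ) ^ 2 * (s * legDefect J L v x hi) from mul_add _ _ _]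
    refine add_le_add le_rfl ?_
    have hE : 8 * (R : ℝ) * Real.sqrt ((1 + gradC L / n) ^ R) * Real.sqrt n *
        Real.sqrt (dir J 0 fun y => Real.sqrt (f y)) ≤ (n : ℝ) ^ 2 * (hi * vErr J L v x (4 * hi)) := by
      rw [vErr, Joint.corErr_eq, corK]
      have h1 : Real.sqrt ((1 + gradC L / (n : ℝ)) ^ R) ≤ (1 + gradC L / (n : ℝ)) ^ (4 * hi) :=
        (Corr.sqrt_pow_le Corr.one_le_base R).trans (pow_le_pow_right₀ Corr.one_le_base (by omega))
      have h2 : 8 * (R : ℝ) ≤ 20 * hi := by linarith [(Nat.cast_le (α := ℝ)).2 hR, (Nat.cast_nonneg hi : (0:ℝ) ≤ hi)]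
      calc 8 * (R : ℝ) * Real.sqrt ((1 + gradC L / n) ^ R) * Real.sqrt n * Real.sqrt (dir J 0 fun y => Real.sqrt (f y))
          ≤ 20 * hi * (1 + gradC L / (n : ℝ)) ^ (4 * hi) * Real.sqrt n * Real.sqrt (dir J 0 fun y => Real.sqrt (f y)) :=
            mul_le_mul_of_nonneg_right (mul_le_mul_of_nonneg_right
              (mul_le_mul h2 h1 (Real.sqrt_nonneg _) (by positivity)) (Real.sqrt_nonneg _)) (Real.sqrt_nonneg _)
        _ = _ := by simp only [f]; field_simp
    have h3 : (hi : ℝ) * vErr J L v x (4 * hi) ≤ legDefect J L v x hi := by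
      have := stat_nonneg (J := J) (L := L) v x hi
      have : (0 : ℝ) ≤ 8 / n := by positivity
      simp only [legDefect]; linarith
    calc 8 * (R : ℝ) * s * Real.sqrt ((1 + gradC L / n) ^ R) * Real.sqrt n * Real.sqrt (dir J 0 fun y => Real.sqrt (f y))
        = s * (8 * (R : ℝ) * Real.sqrt ((1 + gradC L / n) ^ R) * Real.sqrt n *
            Real.sqrt (dir J 0 fun y => Real.sqrt (f y))) := by ring
      _ ≤ s * ((n : ℝ) ^ 2 * legDefect J L v x hi) :=
          mul_le_mul_of_nonneg_left (hE.trans (mul_le_mul_of_nonneg_left h3 (sq_nonneg _))) hs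
      _ = _ := by ring
  refine (Finset.sum_le_sum fun l hl => legOv_incr hJ hn ht (Finset.mem_range.1 hl)).trans ?_
  rw [← Finset.mul_sum]
  refine (mul_le_mul_of_nonneg_left (sum_sqrt_legDir R hd) (by positivity)).trans (le_of_eq ?_)
  rw [Real.sqrt_mul (sq_nonneg _), Real.sqrt_sq hn'.le, Real.sqrt_div' _ hn'.le]
  have h2 := Real.sqrt_pos.2 hn'
  have h3 := Real.mul_self_sqrt hn'.le
  field_simp
  rw [Real.sq_sqrt hn'.le]

/-- the score of the tilted attempts in global means -/
theorem leg_core (hJ : Tame J L) (hn : 0 < n) (ht : 0 ≤ t) {r lo w : ℕ} (h1 : 4 * lo ≤ R)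
    (h2 : 2 * (lo + r) ≤ R) (h3 : R ≤ hi) (hw : 2 * w + r ≤ R) {s α : ℝ} (hs : 0 ≤ s) (hα : 0 < α) :
    |∑ l ∈ Finset.range R, (legResp J t ψ v x R r l * legOv J t v x R l + legEnd J t v x R l * legCor J t ψ v x R r l)
        - legOv J t v x R 0 * ∑ l ∈ Finset.range R, legResp J t ψ v x R r l
        - (1 - legOv J t v x R 0) * (n * legCor J t ψ v x R r R)| ≤
      n * (ψ.M * (2 * r / n * (tiltLag J t v w x - tiltLag J t v (R / 2) x + legDefect J L v x hi)
        + 3 * Real.sqrt (max 0 (tiltLag J t v lo x - tiltLag J t v hi x) + legDefect J L v x hi)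
        + legDefect J L v x hi * (4 + 2 * R / n)
        + 4 * Real.sqrt (R / n) *
          Real.sqrt (L / (2 * α) + 2 * Real.exp (L * (1 + α) - s / 2) + s * legDefect J L v x hi))) := by
  set C := legOv J t v x R
  set A := legCor J t ψ v x R r
  set P := legResp J t ψ v x R r
  set Q := legEnd J t v x R
  set δ := legDefect J L v x hi with hδdef
  set E := (hi : ℝ) * vErr J L v x (4 * hi)
  set Y := max 0 (tiltLag J t v lo x - tiltLag J t v hi x) + δ
  have hn' : (0 : ℝ) < n := Nat.cast_pos.2 hn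
  have hE : 0 ≤ E := stat_nonneg v x hi
  have hM := M_nonneg ψ
  have hδ : δ = 12 * E + 8 / n := by simp only [hδdef, legDefect, E]; ring
  have h8 : (0 : ℝ) ≤ 8 / n := by positivity
  have hY : 0 ≤ Y := add_nonneg (le_max_left _ _) (by linarith)
  have ep : |∑ l ∈ Finset.range R, P l * (C l - C 0)| ≤
      2 * ψ.M * r * (tiltLag J t v w x - tiltLag J t v (R / 2) x + δ) := by
    rw [← Finset.sum_range_add_sum_Ico _ (show r ≤ R by omega), Finset.sum_eq_zero (s := Finset.Ico r R)
      fun l hl => by simp [P, legResp_eq_zero hn (Finset.mem_Ico.1 hl).1], add_zero]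
    refine (Finset.abs_sum_le_sum_abs _ _).trans ((Finset.sum_le_card_nsmul _ _
      (2 * ψ.M * (tiltLag J t v w x - tiltLag J t v (R / 2) x + δ)) fun l hl => ?_).trans_eq
        (by simp; ring))
    rw [abs_mul]
    exact mul_le_mul (abs_legResp_le hn r l) (legOv_flat hJ hn ht (Finset.mem_range.1 hl).le hw h3)
      (abs_nonneg _) (by positivity)
  have eq2 : |∑ l ∈ Finset.range R, (C (l + 1) - C l) * (A l - A R)| ≤
      3 * ψ.M * Real.sqrt Y + ψ.M * δ * (4 + 2 * R / n) := by
    set T := fun k => tiltLag J t v ((R - k) / 2) x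
    set U := fun l => (Finset.range (l + 1)).sup' Finset.nonempty_range_add_one T
    have hTU : ∀ l, T l ≤ U l := fun l => Finset.le_sup' T (Finset.self_mem_range_succ l)
    have hUT : ∀ l ≤ R, U l ≤ T l + E := fun l hl => Finset.sup'_le _ _ fun k hk => by
      rw [Finset.mem_range] at hk
      exact lag_anti hJ hn ht (show (R - l) / 2 ≤ (R - k) / 2 by omega) (by omega)
    have hU1 : ∀ l, U l ≤ 1 := fun l => Finset.sup'_le _ _ fun k _ => (lag_mem hn _).2
    have hU0 : ∀ l, 0 ≤ U l := fun l => (lag_mem hn _).1.trans (hTU l)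
    have hCU : ∀ l ≤ R, |C l - U l| ≤ δ := fun l hl => by
      have a1 := abs_le.1 (legOv_near (J := J) (L := L) (t := t) (v := v) (x := x) hJ hn ht hl h3)
      have a2 := hTU l
      have a3 := hUT l hl
      have e8 : (2 : ℝ) / n = 8 / n / 4 := by ring
      simp only [T] at a2 a3
      rw [abs_le]; constructor <;> linarith
    set h := R / 2
    have hUd : U h - U 0 ≤ Real.sqrt Y := by
      have a1 := hUT h (Nat.div_le_self R 2)
      have a2 := hTU 0
      have a3 := lag_anti (t := t) (v := v) (x := x) (hi := hi) hJ hn ht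
        (show lo ≤ (R - h) / 2 by omega) (by omega)
      have a4 := lag_anti (t := t) (v := v) (x := x) (hi := hi) hJ hn ht (show (R - 0) / 2 ≤ hi by omega) le_rfl
      simp only [T] at a1 a2
      have a5 := le_max_right 0 (tiltLag J t v lo x - tiltLag J t v hi x)
      have hle : U h - U 0 ≤ Y := by simp only [Y]; linarith
      refine (le_total (U h - U 0) 0).elim (fun h' => h'.trans (Real.sqrt_nonneg _)) fun h' => ?_
      refine Real.le_sqrt_of_sq_le (le_trans ?_ hle)
      exact pow_le_of_le_one h' (by linarith [hU0 0, hU1 h]) two_ne_zero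
    refine (abel_mono (C := C) (U := U) (Dd := fun l => A l - A R) (h := h) (B := 2 * ψ.M)
      (η := ψ.M * Real.sqrt Y) (c := 2 * ψ.M / n) (Nat.div_le_self R 2) (fun l _ => ?_) hCU
      (fun l _ => (abs_sub _ _).trans (by
        linarith [abs_legCor_le (J := J) (t := t) (ψ := ψ) (v := v) (x := x) (R := R) hn r l,
          abs_legCor_le (J := J) (t := t) (ψ := ψ) (v := v) (x := x) (R := R) hn r R]))
      (fun l hl hlR => legCor_flat hJ hn ht (by omega) hlR.le h3)
      (fun l _ => by rw [sub_sub_sub_cancel_right]; exact legCor_step hn r l)).trans ?_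
    · exact Finset.sup'_mono T (Finset.range_mono (Nat.le_succ (l + 1))) _
    · have b1 := mul_le_mul_of_nonneg_left hUd (by positivity : (0 : ℝ) ≤ 2 * ψ.M)
      have b2 := mul_le_mul_of_nonneg_left (show U R - U h ≤ 1 by linarith [hU1 R, hU0 h])
        (by positivity : (0 : ℝ) ≤ ψ.M * Real.sqrt Y)
      have e : δ * (2 * (2 * ψ.M) + R * (2 * ψ.M / n)) = ψ.M * δ * (4 + 2 * R / n) := by ring
      linarith
  have ee : |∑ l ∈ Finset.range R, (C (l + 1) - C l - Q l / n) * A l| ≤ ψ.M *
      (4 * Real.sqrt (R / n) * Real.sqrt (L / (2 * α) + 2 * Real.exp (L * (1 + α) - s / 2) + s * δ)) := by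
    refine ((Finset.abs_sum_le_sum_abs _ _).trans ?_).trans
      (mul_le_mul_of_nonneg_left (sum_incr (J := J) (L := L) (t := t) (v := v) (x := x) hJ hn ht h3 hs hα) hM)
    rw [Finset.mul_sum]
    exact Finset.sum_le_sum fun l _ => by
      rw [abs_mul, mul_comm ψ.M]
      exact mul_le_mul_of_nonneg_left (abs_legCor_le hn r l) (abs_nonneg _)
  have hCR : C R = 1 := legOv_end hn
  have key : ∑ l ∈ Finset.range R, (P l * C l + Q l * A l) - C 0 * ∑ l ∈ Finset.range R, P l -
      (1 - C 0) * (n * A R) = ∑ l ∈ Finset.range R, P l * (C l - C 0) +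
        n * (∑ l ∈ Finset.range R, (C (l + 1) - C l) * (A l - A R)) -
        n * (∑ l ∈ Finset.range R, (C (l + 1) - C l - Q l / n) * A l) := by
    rw [← hCR, ← Finset.sum_range_sub C R]
    simp only [Finset.mul_sum, Finset.sum_mul, ← Finset.sum_add_distrib, ← Finset.sum_sub_distrib]
    exact Finset.sum_congr rfl fun l _ => by field_simp; ring
  rw [key]
  refine ((abs_sub _ _).trans (add_le_add (abs_add_le _ _) le_rfl)).trans ?_
  rw [abs_mul, abs_mul, Nat.abs_cast]
  refine (add_le_add (add_le_add ep (mul_le_mul_of_nonneg_left eq2 hn'.le))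
    (mul_le_mul_of_nonneg_left ee hn'.le)).trans (le_of_eq ?_)
  field_simp
  ring

end ChanLeg

end Vale.Agent.P150.PA
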