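import Vale.Agent.P150.PA.ChannelPreCore
import Vale.Agent.P150.PA.ChannelMeans

/-! The score of the attempts before the observation in one copy, in global means: up to centring and
stationarity defects it is the product of the correlation of the test with the observed spins and the
overlap of the observed spins with the spins at the end of the copy. -/

namespace Vale.Agent.P150.PA

open Ising MeasureTheory LegVar

variable {n : ℕ}

/-- gradient bound of the test as a function of the observed configuration -/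
noncomputable def preGrad (M L τ : ℝ) : ℝ := max 1 (Real.sqrt (meanC τ * linA M L τ))

/-- mean of an observable of the tilted attempts as a function of the observed configuration -/
noncomputable def preTilt (S : Sched) (J : Fin n → Fin n → ℝ) (b : Fin n → ℝ) (m : ℕ)
    (Ψ : Cfg n → (Fin n → ℝ) → Cfg n → ℝ) (p : Cfg n) : ℝ :=
  ∫ z, Kpow J (hf b S.t p z) m (Ψ p z) p ∂gauss (Fin n)

namespace ChPre

variable {S : Sched} {J : Fin n → Fin n → ℝ} {b : Fin n → ℝ} {F x : Cfg n} {L M τ : ℝ}
  {Φ : Cfg n → (Fin n → ℝ) → Cfg n → Fin n → ℝ}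

/-- a weight of the untilted attempts times an observable of the tilted ones -/
lemma lex_leg (hn : 0 < n) {m : ℕ} (hm : m ≤ S.R) (w : Path n S.D → ℝ)
    {Ψ : Cfg n → (Fin n → ℝ) → Cfg n → ℝ} (hc : ∀ p y, Continuous fun z => Ψ p z y) {B : ℝ}
    (hb : ∀ p z y, |Ψ p z y| ≤ B) :
    lex S J b F (fun a => w a.2.1 * Ψ (st F a.2.1 S.D) a.1 (cpos S F a (S.D + m))) =
      pex J b F (fun l => w l * preTilt S J b m Ψ (st F l S.D)) := by
  obtain ⟨W, hW⟩ : ∃ W, ∀ l, |w l| ≤ W := ⟨∑ l, |w l|, fun l =>
    Finset.single_le_sum (f := fun l => |w l|) (fun _ _ => abs_nonneg _) (Finset.mem_univ l)⟩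
  have hcp : ∀ (u : Fin n → ℝ) (l : Leg S n), cpos S F (u, l) (S.D + m) = st (st F l.1 S.D) l.2 m := fun u l => by
    rw [cpos_high (Nat.le_add_right _ _), Nat.add_sub_cancel_left]
  rw [lex_eq hn (B := |W| * |B|) (fun l => by simp only [hcp]; exact (hc _ _).const_mul _) fun a => by
    rw [abs_mul]
    exact mul_le_mul ((hW _).trans (le_abs_self _)) ((hb _ _ _).trans (le_abs_self _)) (abs_nonneg _) (abs_nonneg _)]
  congr 1
  funext l
  rw [preTilt, ← integral_const_mul]
  refine integral_congr_ae (Filter.Eventually.of_forall fun u => ?_)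
  simp only [hcp]
  rw [pex_const_mul, pex_st J _ hn _ hm]

lemma pex_two_pre (hn : 0 < n) {k : ℕ} (hk : k ≤ S.D) (f g : Cfg n → ℝ) :
    pex J b F (fun l : Path n S.D => f (st F l k) * g (st F l S.D)) =
      Kpow J b k (fun y => f y * Kpow J b (S.D - k) g y) F := by
  rw [pex_markov J b hn g hk le_rfl F (fun l => f (st F l k)) (before_st F f k)]
  exact pex_st J b hn (fun y => f y * Kpow J b (S.D - k) g y) hk F

/-- the test or the end spins as a field of the observed configuration -/
noncomputable def obsFld (S : Sched) (J : Fin n → Fin n → ℝ) (b : Fin n → ℝ) (m : ℕ)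
    (Φ : Cfg n → (Fin n → ℝ) → Cfg n → Fin n → ℝ) (i : Fin n) : Cfg n → ℝ :=
  preTilt S J b m fun p z y => Φ p z y i

lemma obsFld_field (hJ : Tame J L) (hn : 0 < n) {m : ℕ} (hm : (m : ℝ) ≤ τ * n) (ht0 : 0 ≤ S.t) (ht : S.t ≤ τ)
    (hΦ : Fac M L Φ) : PreField (obsFld S J b m Φ) (preGrad M L τ) (facB M) := by
  have hτ : 0 ≤ τ := ht0.trans ht
  refine ⟨le_max_left _ _, one_le_facB, fun v y => ?_, fun i p => ?_⟩
  · have e : (fun p => ∑ i, v i * obsFld S J b m Φ i p) =
        fun p => ∫ u, Kpow J (hf b S.t p u) m (fun z => ∑ j, v j * Φ p u z j) p ∂gauss (Fin n) := funext fun p => by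
      simp only [obsFld, preTilt, Corr.Kpow_lin, ← integral_const_mul]
      rw [integral_finsetSum]
      exact fun j _ => (LegVar.integrable_bdd (contDiff_Kpow (contDiff_hf b S.t p) (fun z => hΦ.smooth p z j) m p).continuous
        fun u => LegVar.abs_Kpow_le _ hn (fun z => hΦ.abs_le p u z j) m p).const_mul _
    rw [e]
    refine ((lin_sec hJ hn hm hΦ v).gam_mean b ht0 ht y).trans ?_
    rw [← mul_assoc]
    refine mul_le_mul_of_nonneg_right ?_ (Finset.sum_nonneg fun _ _ => sq_nonneg _)
    exact (Real.sq_sqrt (mul_nonneg meanC_nonneg linA_nonneg)).symm.le.trans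
      (pow_le_pow_left₀ (Real.sqrt_nonneg _) (le_max_right _ _) 2)
  · rw [obsFld, preTilt, ← Real.norm_eq_abs]
    refine (norm_integral_le_of_norm_le_const (μ := gauss (Fin n)) (C := facB M) (Filter.Eventually.of_forall fun u => ?_)).trans_eq ?_
    · rw [Real.norm_eq_abs]
      exact LegVar.abs_Kpow_le _ hn (fun z => hΦ.abs_le p u z i) m p
    · simp

lemma mean_two (hn : 0 < n) {m k : ℕ} (hm : m ≤ S.R) (hk : k ≤ S.D) (hΦ : Fac M L Φ) (i : Fin n) :
    lex S J b F (fun a => spin (cpos S F a k i) * Φ (st F a.2.1 S.D) a.1 (cpos S F a (S.D + m)) i) =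
      Kpow J b k (fun y => spin (y i) * Kpow J b (S.D - k) (obsFld S J b m Φ i) y) F := by
  simp only [cpos_low hk]
  rw [lex_leg hn hm (fun l => spin (st F l k i)) (Ψ := fun p z y => Φ p z y i)
    (fun p y => (hΦ.smooth p y i).continuous) (B := facB M) fun p z y => hΦ.abs_le p z y i]
  exact pex_two_pre hn hk (fun y => spin (y i)) (obsFld S J b m Φ i)

lemma mean_one (hn : 0 < n) {m : ℕ} (hm : m ≤ S.R) (hΦ : Fac M L Φ) (i : Fin n) :
    lex S J b F (fun a => Φ (st F a.2.1 S.D) a.1 (cpos S F a (S.D + m)) i) =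
      Kpow J b S.D (obsFld S J b m Φ i) F := by
  have h := lex_leg (J := J) (b := b) (F := F) hn hm (fun _ => 1) (Ψ := fun p z y => Φ p z y i)
    (fun p y => (hΦ.smooth p y i).continuous) (B := facB M) fun p z y => hΦ.abs_le p z y i
  simp only [one_mul] at h
  exact h.trans (pex_st J b hn (obsFld S J b m Φ i) le_rfl F)

lemma mean_resp (hn : 0 < n) {m : ℕ} (hm : m ≤ S.R) (k : Fin (S.D + S.R)) (hk : (k : ℕ) < S.D)
    (hΦ : Fac M L Φ) (i : Fin n) :
    lex S J b F (fun a => Φ (st F a.2.1 S.D) a.1 (cpos S F a (S.D + m)) i * cinc S J b F a k i) =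
      Kpow J b k (fun y => (1 - mag J b i y ^ 2) * dd i (Kpow J b (S.D - k - 1) (obsFld S J b m Φ i)) y / n) F := by
  simp only [cinc, dif_pos hk, mul_comm (Φ _ _ _ i)]
  rw [lex_leg hn hm (fun l => inc J b (st F l k) (l ⟨k, hk⟩) i) (Ψ := fun p z y => Φ p z y i)
    (fun p y => (hΦ.smooth p y i).continuous) (B := facB M) fun p z y => hΦ.abs_le p z y i]
  exact pex_response J b hn i (obsFld S J b m Φ i) hk hk le_rfl F

lemma mean_spin (hn : 0 < n) {k : ℕ} (hk : k ≤ S.D) (i : Fin n) :
    lex S J b F (fun a => spin (cpos S F a k i)) = mean J b k F i := by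
  simp only [cpos_low hk]
  rw [lex_fst S J b hn F fun l => spin (st F l k i), pex_st J b hn (fun y => spin (y i)) hk, mean]

lemma Kpow_sum_comp (u k : ℕ) (g : Fin n → Cfg n → ℝ) :
    Kpow J b u (fun F => ∑ i, Kpow J b k (g i) F) x = Kpow J b (u + k) (fun y => ∑ i, g i y) x := by
  rw [show Kpow J b (u + k) (fun y => ∑ i, g i y) = Kpow J b u (Kpow J b k fun y => ∑ i, g i y) from
    Function.iterate_add_apply (K J b) u k _, Block.Kpow_sum k g]

end ChPre

open ChPre

variable {S : Sched} {J : Fin n → Fin n → ℝ} {b : Fin n → ℝ} {L M τ : ℝ}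

/-- before the observation the score of a copy is, in global means, the correlation of the test with
the observed spins times the overlap of the observed spins with the spins at the end -/
theorem channel_pre (hJ : Tame J L) (hn : 0 < n) {φ : Test n} (hφ : φ.Bdd M)
    (hu : ∀ i h c, ContDiff ℝ 1 fun u => φ.fn i h u c) (hr : S.r ≤ S.R)
    (hτ : (S.D : ℝ) + S.R ≤ τ * n) (ht0 : 0 ≤ S.t) (ht : S.t ≤ τ) {τ₀ : ℕ} (hτ₀ : 3 * τ₀ ≤ S.D) {N : ℕ} (hN : 0 < N)
    (u : ℕ) (x : Cfg n) :
    |∑ k ∈ Finset.univ.filter (fun k : Fin (S.D + S.R) => (k : ℕ) < S.D),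
        (meanSum S J b u x (fun F a i => cval S J φ F a i * cinc S J b F a k i) *
            meanCov S J b u x (xsp S k) (xsp S (S.D + S.R)) +
          meanSum S J b u x (fun F a i => xsp S (S.D + S.R) F a i * cinc S J b F a k i) *
            meanCov S J b u x (cval S J φ) (xsp S k))
      - meanSum S J b u x (fun F a i => cval S J φ F a i * spin (st F a.2.1 S.D i)) *
          meanSum S J b u x (fun F a i => spin (st F a.2.1 S.D i) * xsp S (S.D + S.R) F a i)| ≤
      200 * facB M ^ 2 * (n : ℝ) ^ 2 * (Real.sqrt (Kpow J b u (qmean J b τ₀) x) +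
        Real.sqrt (Kpow J b u (fun F => (∑ i, lex S J b F (fun a => xsp S (S.D + S.R) F a i) ^ 2) / n) x) +
        preDel J b x u S.D L (preGrad M L τ) (facB M) N) := by
  have hD0 : (0 : ℝ) ≤ S.D := Nat.cast_nonneg _
  have hR0 : (0 : ℝ) ≤ S.R := Nat.cast_nonneg _
  have hr' : (S.r : ℝ) ≤ S.R := Nat.cast_le.2 hr
  have hΦ := Fac.test hJ hφ hu
  have hΦ' : Fac M L (fun _ _ (z : Cfg n) j => spin (z j)) := Fac.ofSpin
  set G := obsFld S J b S.r fun p u (z : Cfg n) j => φ.fn j (fld J 0 j z) (u j) (p j) with hG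
  set H := obsFld S J b S.R fun _ _ (z : Cfg n) j => spin (z j) with hH
  have gG : PreField G (preGrad M L τ) (facB M) := obsFld_field hJ hn (by linarith) ht0 ht hΦ
  have gH : PreField H (preGrad M L τ) (facB M) := obsFld_field hJ hn (by linarith) ht0 ht hΦ'
  have eA : ∀ k ≤ S.D, meanSum S J b u x (fun F a i => xsp S k F a i * cval S J φ F a i) =
      preCor J b x u S.D G k := fun k hk => by
    simp only [meanSum, xsp, cval, mean_two hn hr hk hΦ, preCor, hG]
    exact Kpow_sum_comp u k _
  have eB : ∀ k ≤ S.D, meanSum S J b u x (fun F a i => xsp S k F a i * xsp S (S.D + S.R) F a i) =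
      preCor J b x u S.D H k := fun k hk => by
    simp only [meanSum, xsp, mean_two hn le_rfl hk hΦ', preCor, hH]
    exact Kpow_sum_comp u k _
  have cA : ∀ k : ℕ, k ≤ S.D → meanCov S J b u x (cval S J φ) (xsp S k) =
      preCor J b x u S.D G k - preCen J b x u S.D G k := fun k hk => by
    rw [← eA k hk, meanCov, meanSum, preCen, ← congrFun (Block.Kpow_sub (J := J) (b := b) u _ _) x]
    congr 1; funext F
    rw [← Finset.sum_sub_distrib]
    refine Finset.sum_congr rfl fun i _ => ?_
    rw [show (fun a => cval S J φ F a i * xsp S k F a i) = fun a => xsp S k F a i * cval S J φ F a i from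
        funext fun a => mul_comm _ _,
      show lex S J b F (fun a => xsp S k F a i) = mean J b k F i from mean_spin hn hk i,
      show lex S J b F (fun a => cval S J φ F a i) = Kpow J b S.D (G i) F from mean_one hn hr hΦ i,
      mul_comm (Kpow J b S.D (G i) F)]
  have cB : ∀ k : ℕ, k ≤ S.D → meanCov S J b u x (xsp S k) (xsp S (S.D + S.R)) =
      preCor J b x u S.D H k - preCen J b x u S.D H k := fun k hk => by
    rw [← eB k hk, meanCov, meanSum, preCen, ← congrFun (Block.Kpow_sub (J := J) (b := b) u _ _) x]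
    congr 1; funext F
    rw [← Finset.sum_sub_distrib]
    refine Finset.sum_congr rfl fun i _ => ?_
    rw [show lex S J b F (fun a => xsp S k F a i) = mean J b k F i from mean_spin hn hk i,
      show lex S J b F (fun a => xsp S (S.D + S.R) F a i) = Kpow J b S.D (H i) F from mean_one hn le_rfl hΦ' i]
  have rA : ∀ k : Fin (S.D + S.R), (k : ℕ) < S.D →
      meanSum S J b u x (fun F a i => cval S J φ F a i * cinc S J b F a k i) = preResp J b x u S.D G k :=
    fun k hk => by
      simp only [meanSum, cval, mean_resp hn hr k hk hΦ, preResp, hG]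
      exact Kpow_sum_comp u k _
  have rB : ∀ k : Fin (S.D + S.R), (k : ℕ) < S.D →
      meanSum S J b u x (fun F a i => xsp S (S.D + S.R) F a i * cinc S J b F a k i) = preResp J b x u S.D H k :=
    fun k hk => by
      simp only [meanSum, xsp, mean_resp hn le_rfl k hk hΦ', preResp, hH]
      exact Kpow_sum_comp u k _
  have eD : meanSum S J b u x (fun F a i => cval S J φ F a i * spin (st F a.2.1 S.D i)) =
      preCor J b x u S.D G S.D := by
    rw [← eA S.D le_rfl]
    simp only [xsp, cpos_low le_rfl, mul_comm]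
  have eD' : meanSum S J b u x (fun F a i => spin (st F a.2.1 S.D i) * xsp S (S.D + S.R) F a i) =
      preCor J b x u S.D H S.D := by
    rw [← eB S.D le_rfl]
    simp only [xsp, cpos_low le_rfl]
  have eη : Kpow J b u (fun F => (∑ i, lex S J b F (fun a => xsp S (S.D + S.R) F a i) ^ 2) / n) x =
      preEta J b x u S.D H := by
    simp only [preEta, xsp, mean_one hn le_rfl hΦ', hH]
  rw [eD, eD', eη, Finset.sum_bij (s := Finset.univ.filter fun k : Fin (S.D + S.R) => (k : ℕ) < S.D) (t := Finset.range S.D) (g := fun k =>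
      preResp J b x u S.D G k * (preCor J b x u S.D H k - preCen J b x u S.D H k) +
        preResp J b x u S.D H k * (preCor J b x u S.D G k - preCen J b x u S.D G k))
    (fun k _ => (k : ℕ)) (fun k hk => Finset.mem_range.2 (Finset.mem_filter.1 hk).2)
    (fun _ _ _ _ h => Fin.ext h)
    (fun k hk => ⟨⟨k, by rw [Finset.mem_range] at hk; omega⟩,
      Finset.mem_filter.2 ⟨Finset.mem_univ _, Finset.mem_range.1 hk⟩, rfl⟩)
    fun k hk => by
      rw [rA k (Finset.mem_filter.1 hk).2, rB k (Finset.mem_filter.1 hk).2,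
        cA k (Finset.mem_filter.1 hk).2.le, cB k (Finset.mem_filter.1 hk).2.le]]
  exact pre_score hJ hn gG gH hτ₀ hN

end Vale.Agent.P150.PA
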