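import Vale.Agent.P150.Mixing

/-! Part A of the mixing proof below the critical temperature: the discrete random-scan heat-bath chain
with couplings `J` and external field `b`, and its finite path space. -/

namespace Vale.Agent.P150.PA

open Ising

variable {n : ℕ}

/-- probability that the update at site `i` in configuration `x` selects the value `c` -/
noncomputable def sp (J : Fin n → Fin n → ℝ) (b : Fin n → ℝ) (x : Cfg n) (i : Fin n) (c : Bool) : ℝ :=
  (1 + mag J b i x * spin c) / 2

/-- one update attempt at a uniformly chosen site -/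
noncomputable def K (J : Fin n → Fin n → ℝ) (b : Fin n → ℝ) (f : Cfg n → ℝ) (x : Cfg n) : ℝ :=
  (∑ i, qb b J i f x) / n

/-- `k` update attempts -/
noncomputable def Kpow (J : Fin n → Fin n → ℝ) (b : Fin n → ℝ) (k : ℕ) (f : Cfg n → ℝ) : Cfg n → ℝ :=
  (K J b)^[k] f

/-- an update attempt: site and new value -/
abbrev Move (n : ℕ) := Fin n × Bool

/-- `N` update attempts -/
abbrev Path (n N : ℕ) := Fin N → Move n

/-- the configuration after `k` attempts of the path `ω` from `x` (constant after the end of the path) -/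
def st {N : ℕ} (x : Cfg n) (ω : Path n N) : ℕ → Cfg n
  | 0 => x
  | k + 1 => if h : k < N then Function.update (st x ω k) (ω ⟨k, h⟩).1 (ω ⟨k, h⟩).2 else st x ω k

/-- probability of the path `ω` from `x` -/
noncomputable def pw (J : Fin n → Fin n → ℝ) (b : Fin n → ℝ) {N : ℕ} (x : Cfg n) (ω : Path n N) : ℝ :=
  ∏ k : Fin N, sp J b (st x ω k) (ω k).1 (ω k).2 / n

/-- expectation of a path functional -/
noncomputable def pex (J : Fin n → Fin n → ℝ) (b : Fin n → ℝ) {N : ℕ} (x : Cfg n) (F : Path n N → ℝ) : ℝ :=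
  ∑ ω, pw J b x ω * F ω

/-- squared gradient `∑ i (dd_i f)²` -/
noncomputable def gam (f : Cfg n → ℝ) (x : Cfg n) : ℝ := ∑ i, dd i f x ^ 2

/-- martingale increment at site `i`: spin after an update minus its conditional mean -/
noncomputable def inc (J : Fin n → Fin n → ℝ) (b : Fin n → ℝ) (x : Cfg n) (m : Move n) (i : Fin n) : ℝ :=
  if m.1 = i then spin m.2 - mag J b i x else 0

/-- mean magnetisation vector after `k` attempts from `x` -/
noncomputable def mean (J : Fin n → Fin n → ℝ) (b : Fin n → ℝ) (k : ℕ) (x : Cfg n) (i : Fin n) : ℝ :=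
  Kpow J b k (fun y => spin (y i)) x

/-- the couplings are uniformly small and of bounded operator norm -/
structure Tame (J : Fin n → Fin n → ℝ) (Λ : ℝ) : Prop where
  symm : ∀ i j, J i j = J j i
  diag : ∀ i, J i i = 0
  op : ∀ v : Fin n → ℝ, |∑ i, ∑ j, J i j * (v i * v j)| ≤ Λ * ∑ i, v i ^ 2
  row2 : ∀ i, ∑ j, J i j ^ 2 ≤ Λ
  small : ∀ i j, |J i j| ≤ 1 / 64

end Vale.Agent.P150.PA
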