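import Vale.Agent.P150.Fast.Channel
import Vale.Agent.P150.PA.Targets

/-! The entropy of a law on the cube from the magnetisation along the Gaussian channel. -/

open MeasureTheory ProbabilityTheory

namespace Vale.Agent.P150.PA

section Channel

open Vale.Agent.P150.Channel

variable {κ : Type*} [Fintype κ]

/-- rotation invariance of the standard Gaussian measure -/
lemma gauss_rotate {c d : ℝ} (h : c ^ 2 + d ^ 2 = 1) :
    MeasurePreserving (fun p : (κ → ℝ) × (κ → ℝ) => fun i => c * p.1 i + d * p.2 i)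
      ((gauss κ).prod (gauss κ)) (gauss κ) := by
  have hpm : MeasurePreserving (fun p : ℝ × ℝ => c * p.1 + d * p.2)
      ((gaussianReal 0 1).prod (gaussianReal 0 1)) (gaussianReal 0 1) := by
    refine ⟨by fun_prop, ?_⟩
    have h2 : (gaussianReal 0 1).map (c * ·) ∗ (gaussianReal 0 1).map (d * ·) = gaussianReal 0 1 := by
      rw [gaussianReal_map_const_mul, gaussianReal_map_const_mul, gaussianReal_conv_gaussianReal]
      congr 1
      · ring
      · ext; simp; exact h
    conv_rhs => rw [← h2, Measure.conv, Measure.map_prod_map _ _ (by fun_prop) (by fun_prop),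
      Measure.map_map (by fun_prop) (by fun_prop)]
    rfl
  have h1 := (measurePreserving_arrowProdEquivProdArrow ℝ ℝ κ
    (fun _ => gaussianReal 0 1) (fun _ => gaussianReal 0 1)).symm
  have h2 : MeasurePreserving (fun (u : κ → ℝ × ℝ) i => c * (u i).1 + d * (u i).2)
      (Measure.pi fun _ : κ => (gaussianReal 0 1).prod (gaussianReal 0 1)) (gauss κ) :=
    measurePreserving_pi _ _ fun _ => hpm
  exact h2.comp h1

variable {S : Type*} [Fintype S] {p : S → ℝ} {a : S → κ → ℝ}

/-- the true posterior mean replaces the signal in any correlation with the observation -/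
lemma overlap_fun (hp : Wt p) (t : ℝ) (k : κ) {φ : (κ → ℝ) → ℝ} (hφ : Continuous φ) {B : ℝ}
    (hb : ∀ y, |φ y| ≤ B) :
    ∑ x, p x * ∫ g, a x k * φ (obs (a x) t g) ∂gauss κ =
      ∑ x, p x * ∫ g, pm p a t (obs (a x) t g) k * φ (obs (a x) t g) ∂gauss κ := by
  set K := bnd a
  have hK : 0 ≤ K := bnd_nonneg a
  have hB : 0 ≤ B := (abs_nonneg _).trans (hb 0)
  have hone : ∀ g : κ → ℝ, (1 : ℝ) ≤ Real.exp (0 * l1 g) := fun g => by simp
  have hL : ∑ x, p x * ∫ g, a x k * φ (obs (a x) t g) ∂gauss κ =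
      ∫ g, wsum (fun x => p x * a x k) (en a t fun j => t * g j) 1 * φ (fun j => t * g j) ∂gauss κ := by
    rw [← bayes (fun x => p x * a x k) a t hφ (C := B) (M := 0) fun g =>
      (hb _).trans (le_mul_of_one_le_right hB (hone g))]
    exact Finset.sum_congr rfl fun x _ => by rw [integral_const_mul]; ring
  have hR := bayes p a t (Φ := fun y => pm p a t y k * φ y) ((hp.continuous_pm t k).mul hφ)
    (C := K * B) (M := 0) fun g => by
      rw [abs_mul]
      exact (mul_le_mul (hp.abs_pm _ _ _) (hb _) (abs_nonneg _) hK).trans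
        (le_mul_of_one_le_right (mul_nonneg hK hB) (hone g))
  rw [hL, hR]
  refine integral_congr_ae (Filter.Eventually.of_forall fun g => ?_)
  set E := en a t fun j => t * g j
  have h := (hp.wsum_pos E).ne'
  have e : wsum (fun x => p x * a x k) E 1 = wsum p E 1 * pm p a t (fun j => t * g j) k := by
    show _ = wsum p E 1 * wavg p E _
    rw [wavg, mul_div_cancel₀ _ h]
    exact Finset.sum_congr rfl fun x _ => by simp; ring
  simp only [E] at e
  dsimp only
  rw [e, mul_assoc]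

/-- the coarser channel is the finer one with independent noise added -/
lemma degrade (hp : Wt p) {t t' : ℝ} {c d : ℝ} (htc : t = c * t') (hcd : c ^ 2 + d ^ 2 = 1) (k : κ)
    (a₀ : κ → ℝ) {F : ℝ → ℝ} (hF : Continuous F) {B : ℝ} (hB : ∀ u, |u| ≤ bnd a → |F u| ≤ B) :
    ∫ g, F (pm p a t (obs a₀ t g) k) ∂gauss κ =
      ∫ w, ∫ g, F (pm p a t (fun j => c ^ 2 * obs a₀ t' g j + t * d * w j) k) ∂gauss κ ∂gauss κ := by
  have hG : Continuous fun g => F (pm p a t (obs a₀ t g) k) :=
    hF.comp ((hp.continuous_pm t k).comp (continuous_obs _ _))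
  have hR := gauss_rotate (κ := κ) (c := c) (d := d) hcd
  have hi : Integrable (fun q : (κ → ℝ) × (κ → ℝ) =>
      F (pm p a t (obs a₀ t fun i => c * q.1 i + d * q.2 i) k)) ((gauss κ).prod (gauss κ)) :=
    Integrable.of_bound (hG.comp (by fun_prop : Continuous fun q : (κ → ℝ) × (κ → ℝ) =>
      fun i => c * q.1 i + d * q.2 i)).aestronglyMeasurable B
      (Filter.Eventually.of_forall fun q => hB _ (hp.abs_pm _ _ _))
  have e1 : ∫ g, F (pm p a t (obs a₀ t g) k) ∂gauss κ =
      ∫ q : (κ → ℝ) × (κ → ℝ), F (pm p a t (obs a₀ t fun i => c * q.1 i + d * q.2 i) k)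
        ∂(gauss κ).prod (gauss κ) := by
    conv_lhs => rw [← hR.map_eq]
    exact integral_map hR.measurable.aemeasurable hG.aestronglyMeasurable
  rw [e1, integral_prod _ hi, integral_integral_swap hi]
  have e : ∀ w g : κ → ℝ, (obs a₀ t fun i => c * g i + d * w i)
      = fun j => c ^ 2 * obs a₀ t' g j + t * d * w j := fun w g => by
    funext j
    simp only [obs]
    rw [htc]
    ring
  simp only [e]

/-- one step of the Cauchy-Schwarz bound -/
lemma overlap_le (hp : Wt p) (t' : ℝ) (k : κ) {φ : (κ → ℝ) → ℝ} (hφ : Continuous φ)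
    (hb : ∀ y, |φ y| ≤ bnd a) :
    ∑ x, p x * ∫ g, a x k * φ (obs (a x) t' g) ∂gauss κ ≤
      (∑ x, p x * ∫ g, pm p a t' (obs (a x) t' g) k ^ 2 ∂gauss κ) / 2 +
        (∑ x, p x * ∫ g, φ (obs (a x) t' g) ^ 2 ∂gauss κ) / 2 := by
  rw [overlap_fun hp t' k hφ hb, Finset.sum_div, Finset.sum_div, ← Finset.sum_add_distrib]
  refine Finset.sum_le_sum fun x _ => ?_
  have hK := bnd_nonneg a
  have ib : ∀ {f : (κ → ℝ) → ℝ} {B : ℝ}, Continuous f → (∀ g, |f g| ≤ B) → Integrable f (gauss κ) :=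
    fun hf hb => Integrable.of_bound hf.aestronglyMeasurable _ (Filter.Eventually.of_forall hb)
  have hm : Continuous fun g => pm p a t' (obs (a x) t' g) k :=
    (hp.continuous_pm t' k).comp (continuous_obs _ _)
  have hf : Continuous fun g => φ (obs (a x) t' g) := hφ.comp (continuous_obs _ _)
  have hsq : ∀ {u : ℝ}, |u| ≤ bnd a → |u ^ 2| ≤ bnd a ^ 2 := fun {u} hu => by
    rw [abs_pow]; exact pow_le_pow_left₀ (abs_nonneg _) hu 2
  have j1 : Integrable (fun g => pm p a t' (obs (a x) t' g) k ^ 2) (gauss κ) :=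
    ib (hm.pow 2) fun g => hsq (hp.abs_pm _ _ _)
  have j2 : Integrable (fun g => φ (obs (a x) t' g) ^ 2) (gauss κ) := ib (hf.pow 2) fun g => hsq (hb _)
  have j3 : Integrable (fun g => pm p a t' (obs (a x) t' g) k * φ (obs (a x) t' g)) (gauss κ) :=
    ib (hm.mul hf) fun g =>
      (abs_mul _ _).trans_le (mul_le_mul (hp.abs_pm _ _ _) (hb _) (abs_nonneg _) hK)
  have h2 := integral_mono j3 ((j1.div_const 2).fun_add (j2.div_const 2)) fun g => by
    linarith [two_mul_le_add_sq (pm p a t' (obs (a x) t' g) k) (φ (obs (a x) t' g))]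
  rw [integral_add (j1.div_const 2) (j2.div_const 2), integral_div, integral_div] at h2
  refine (mul_le_mul_of_nonneg_left h2 (hp.nn x)).trans (le_of_eq ?_)
  ring

/-- the squared posterior mean of a coordinate grows along the channel -/
lemma pm_sq_mono (hp : Wt p) {t t' : ℝ} (ht : 0 ≤ t) (htt : t ≤ t') (k : κ) :
    ∑ x, p x * ∫ g, pm p a t (obs (a x) t g) k ^ 2 ∂gauss κ ≤
      ∑ x, p x * ∫ g, pm p a t' (obs (a x) t' g) k ^ 2 ∂gauss κ := by
  rcases htt.eq_or_lt with rfl | hlt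
  · exact le_rfl
  have ht' : 0 < t' := ht.trans_lt hlt
  obtain ⟨c, hc0, hc1, htc⟩ : ∃ c, 0 ≤ c ∧ c ≤ 1 ∧ t = c * t' :=
    ⟨t / t', div_nonneg ht ht'.le, (div_le_one ht').2 htt, (div_mul_cancel₀ _ ht'.ne').symm⟩
  obtain ⟨d, hd2⟩ : ∃ d, c ^ 2 + d ^ 2 = 1 :=
    ⟨Real.sqrt (1 - c ^ 2), by rw [Real.sq_sqrt (by nlinarith)]; ring⟩
  set Φ := fun (w : κ → ℝ) (y : κ → ℝ) => pm p a t (fun j => c ^ 2 * y j + t * d * w j) k with hΦ
  have hΦc : Continuous fun q : (κ → ℝ) × (κ → ℝ) => Φ q.1 q.2 :=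
    (hp.continuous_pm t k).comp (by fun_prop)
  have hΦw : ∀ w, Continuous (Φ w) := fun w => (hp.continuous_pm t k).comp (by fun_prop)
  have hbd : ∀ w y, |Φ w y| ≤ bnd a := fun w y => hp.abs_pm t _ k
  have iF : ∀ x, ∀ {F : ℝ → ℝ} {B : ℝ}, Continuous F → (∀ u, |u| ≤ bnd a → |F u| ≤ B) →
      Integrable (fun w => ∫ g, F (Φ w (obs (a x) t' g)) ∂gauss κ) (gauss κ) := fun x {F} {B} hF hB =>
    (Integrable.of_bound (f := fun q : (κ → ℝ) × (κ → ℝ) => F (Φ q.1 (obs (a x) t' q.2)))
      (μ := (gauss κ).prod (gauss κ))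
      (hF.comp (hΦc.comp (continuous_fst.prodMk ((continuous_obs _ _).comp continuous_snd)))).aestronglyMeasurable
      B (Filter.Eventually.of_forall fun q => hB _ (hbd _ _))).integral_prod_left
  have bL : ∀ x : S, ∀ u, |u| ≤ bnd a → |a x k * u| ≤ |a x k| * bnd a := fun x u hu => by
    rw [abs_mul]; exact mul_le_mul_of_nonneg_left hu (abs_nonneg _)
  have bR : ∀ u, |u| ≤ bnd a → |u ^ 2| ≤ bnd a ^ 2 := fun u hu => by
    rw [abs_pow]; exact pow_le_pow_left₀ (abs_nonneg _) hu 2
  have eL : ∀ x, ∫ g, a x k * pm p a t (obs (a x) t g) k ∂gauss κ =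
      ∫ w, ∫ g, a x k * Φ w (obs (a x) t' g) ∂gauss κ ∂gauss κ := fun x =>
    degrade hp htc hd2 k (a x) (F := fun u => a x k * u) (by fun_prop) (bL x)
  have eR : ∀ x, ∫ g, pm p a t (obs (a x) t g) k ^ 2 ∂gauss κ =
      ∫ w, ∫ g, Φ w (obs (a x) t' g) ^ 2 ∂gauss κ ∂gauss κ := fun x =>
    degrade hp htc hd2 k (a x) (F := fun u => u ^ 2) (by fun_prop) bR
  set A' := ∑ x, p x * ∫ g, pm p a t' (obs (a x) t' g) k ^ 2 ∂gauss κ
  have iL : ∀ x, Integrable (fun w => p x * ∫ g, a x k * Φ w (obs (a x) t' g) ∂gauss κ) (gauss κ) :=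
    fun x => (iF x (F := fun u => a x k * u) (by fun_prop) (bL x)).const_mul _
  have iR : ∀ x, Integrable (fun w => p x * ∫ g, Φ w (obs (a x) t' g) ^ 2 ∂gauss κ) (gauss κ) :=
    fun x => (iF x (F := fun u => u ^ 2) (by fun_prop) bR).const_mul _
  have i2 := (integrable_finsetSum Finset.univ fun x _ => iR x).div_const 2
  have hint := integral_mono (integrable_finsetSum Finset.univ fun x _ => iL x)
    ((integrable_const (A' / 2)).fun_add i2) fun w => overlap_le hp t' k (hΦw w) (hbd w)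
  rw [integral_finsetSum _ fun x _ => iL x, integral_add (integrable_const _) i2] at hint
  simp only [integral_div] at hint
  rw [integral_finsetSum _ fun x _ => iR x, integral_const, probReal_univ, one_smul] at hint
  simp only [integral_const_mul] at hint eL
  simp only [← eR] at hint
  have e1 : ∑ x, p x * ∫ g, pm p a t (obs (a x) t g) k ^ 2 ∂gauss κ =
      ∑ x, p x * (a x k * ∫ g, pm p a t (obs (a x) t g) k ∂gauss κ) := by
    have := hp.overlap hp t k (a := a)
    simp only [integral_const_mul, ← sq] at this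
    exact this.symm
  simp only [eL] at e1
  linarith

end Channel

open Vale.Agent.P150.Channel

variable {n : ℕ}

/-- the signal of a configuration -/
noncomputable def sig (x : Cfg n) (i : Fin n) : ℝ := spin (x i)

/-- point mass -/
noncomputable def pt (x : Cfg n) (y : Cfg n) : ℝ := if y = x then 1 else 0

lemma wt_pt (x : Cfg n) : Wt (pt x) :=
  ⟨fun y => by unfold pt; split <;> norm_num, by simp [pt]⟩

lemma wsum_pt (x : Cfg n) (E f : Cfg n → ℝ) : wsum (pt x) E f = Real.exp (E x) * f x := by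
  simp [wsum, pt]

lemma sq_sig (x : Cfg n) (i : Fin n) : sig x i ^ 2 = 1 := by
  unfold sig spin; cases x i <;> norm_num

lemma msq_eq {ν : Cfg n → ℝ} (hν : Wt ν) (t : ℝ) :
    msq t ν = ∑ x, ν x * ∫ g, ∑ k, pm ν sig (Real.sqrt t) (obs (sig x) (Real.sqrt t) g) k ^ 2 ∂gauss (Fin n) := by
  set θ := Real.sqrt t
  show ∫ z, mix ν sig θ z * ∑ i, (∑ x, post ν sig θ z x * spin (x i)) ^ 2 ∂gauss (Fin n) = _
  rw [bayes ν sig θ (Φ := fun y => ∑ k, pm ν sig θ y k ^ 2)
    (continuous_finsetSum _ fun k _ => (hν.continuous_pm θ k).pow 2)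
    (C := ∑ _k : Fin n, bnd (sig (n := n)) ^ 2) (M := 0) fun g => by
      rw [zero_mul, Real.exp_zero, mul_one]
      refine (Finset.abs_sum_le_sum_abs _ _).trans (Finset.sum_le_sum fun k _ => ?_)
      rw [abs_pow]
      exact pow_le_pow_left₀ (abs_nonneg _) (hν.abs_pm _ _ _) 2]
  have he : ∀ (z : Fin n → ℝ) (x : Cfg n),
      Real.exp (en sig θ (fun k => θ * z k) x) = ker sig θ z x := fun z x => by
    have : dot (sig x) (fun k => θ * z k) = θ * dot (sig x) z := by
      simp only [dot, Finset.mul_sum]; exact Finset.sum_congr rfl fun k _ => by ring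
    rw [ker, en, this, nsq]; ring_nf
  have hm : ∀ z : Fin n → ℝ, wsum ν (en sig θ fun k => θ * z k) 1 = mix ν sig θ z := fun z => by
    simp only [wsum, Pi.one_apply, mul_one, he, mix]
  refine integral_congr_ae (Filter.Eventually.of_forall fun z => ?_)
  dsimp only
  rw [hm z]
  congr 1
  refine Finset.sum_congr rfl fun i _ => congrArg (· ^ 2) ?_
  simp only [pm, wavg, hm z, post]
  simp only [wsum, he, Finset.sum_div, div_mul_eq_mul_div]
  rfl

lemma msq_mono {ν : Cfg n → ℝ} (hν : Wt ν) {s t : ℝ} (hst : s ≤ t) : msq s ν ≤ msq t ν := by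
  have ib : ∀ r x k, Integrable (fun g => pm ν sig r (obs (sig x) r g) k ^ 2) (gauss (Fin n)) := fun r x k =>
    Integrable.of_bound (((hν.continuous_pm r k).comp (continuous_obs _ _)).pow 2).aestronglyMeasurable
      (bnd (sig (n := n)) ^ 2) (Filter.Eventually.of_forall fun g => by
        rw [norm_pow, Real.norm_eq_abs]; exact pow_le_pow_left₀ (abs_nonneg _) (hν.abs_pm _ _ _) 2)
  rw [msq_eq hν, msq_eq hν]
  simp only [integral_finsetSum _ fun k _ => ib _ _ k, Finset.mul_sum]
  rw [Finset.sum_comm]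
  conv_rhs => rw [Finset.sum_comm]
  exact Finset.sum_le_sum fun k _ => pm_sq_mono hν (Real.sqrt_nonneg s) (Real.sqrt_le_sqrt hst) k

/-- mutual information of the channel -/
noncomputable def minfo (ν : Cfg n → ℝ) (θ : ℝ) : ℝ := ∑ x, ν x * klc (pt x) ν sig θ

lemma minfo_zero {ν : Cfg n → ℝ} (h1 : ∑ x, ν x = 1) : minfo ν 0 = 0 :=
  Finset.sum_eq_zero fun x _ => by rw [klc_zero (by simp [pt]) h1, mul_zero]

lemma minfo_le {ν : Cfg n → ℝ} (hν : Wt ν) (θ : ℝ) : minfo ν θ ≤ -∑ x, ν x * Real.log (ν x) := by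
  rw [minfo, ← Finset.sum_neg_distrib]
  refine Finset.sum_le_sum fun x _ => ?_
  rcases (hν.nn x).eq_or_lt with h | h
  · simp [← h]
  rw [← mul_neg]
  refine mul_le_mul_of_nonneg_left ?_ h.le
  simp only [klc, pt, ite_mul, one_mul, zero_mul, Finset.sum_ite_eq', Finset.mem_univ, if_true]
  have hpt : ∀ g, lz (pt x) sig θ (obs (sig x) θ g) - lz ν sig θ (obs (sig x) θ g) ≤ -Real.log (ν x) := by
    intro g
    set E := en sig θ (obs (sig x) θ g)
    have h1 : ν x * Real.exp (E x) ≤ wsum ν E 1 :=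
      (le_of_eq (by simp)).trans (Finset.single_le_sum (f := fun y => ν y * Real.exp (E y) * (1 : Cfg n → ℝ) y)
        (fun y _ => mul_nonneg (mul_nonneg (hν.nn y) (Real.exp_pos _).le) (by simp)) (Finset.mem_univ x))
    have h2 := Real.log_le_log (mul_pos h (Real.exp_pos _)) h1
    rw [Real.log_mul h.ne' (Real.exp_ne_zero _), Real.log_exp] at h2
    show Real.log (wsum (pt x) E 1) - Real.log (wsum ν E 1) ≤ -Real.log (ν x)
    rw [wsum_pt]
    simp only [Pi.one_apply, mul_one, Real.log_exp]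
    linarith
  refine (integral_mono (((wt_pt x).integrable_lz _ _).sub (hν.integrable_lz _ _))
    (integrable_const _) hpt).trans (le_of_eq ?_)
  simp

lemma minfo_hasDerivAt {ν : Cfg n → ℝ} (hν : Wt ν) (h1 : ∑ x, ν x = 1) {s : ℝ} (hs : 0 < s) :
    HasDerivAt (fun u => minfo ν (Real.sqrt u)) ((n - msq s ν) / 2) s := by
  refine (HasDerivAt.fun_sum fun x (_ : x ∈ Finset.univ) =>
    (klc_sqrt_hasDerivAt (wt_pt x) hν hs).const_mul (ν x)).congr_deriv ?_
  set θ := Real.sqrt s
  have hpm : ∀ (x : Cfg n) y k, pm (pt x) sig θ y k = sig x k := fun x y k => by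
    simp only [pm, wavg, wsum_pt, Pi.one_apply, mul_one]
    rw [mul_div_cancel_left₀ _ (Real.exp_ne_zero _)]
  simp only [hpm]
  simp only [pt, ite_mul, one_mul, zero_mul, Finset.sum_ite_eq', Finset.mem_univ, if_true]
  have ib : ∀ {f : (Fin n → ℝ) → ℝ} {B : ℝ}, Continuous f → (∀ g, |f g| ≤ B) → Integrable f (gauss (Fin n)) :=
    fun hf hb => Integrable.of_bound hf.aestronglyMeasurable _ (Filter.Eventually.of_forall hb)
  have hc : ∀ x k, Continuous fun g => pm ν sig θ (obs (sig x) θ g) k := fun x k =>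
    (hν.continuous_pm θ k).comp (continuous_obs _ _)
  have i1 : ∀ x k, Integrable (fun g => pm ν sig θ (obs (sig x) θ g) k) (gauss (Fin n)) := fun x k =>
    ib (hc x k) fun g => hν.abs_pm _ _ _
  have i2 : ∀ x k, Integrable (fun g => pm ν sig θ (obs (sig x) θ g) k ^ 2) (gauss (Fin n)) := fun x k =>
    ib ((hc x k).pow 2) (B := bnd (sig (n := n)) ^ 2) fun g => by
      rw [abs_pow]; exact pow_le_pow_left₀ (abs_nonneg _) (hν.abs_pm _ _ _) 2
  have e : ∀ x, ∫ g, ∑ k, (sig x k - pm ν sig θ (obs (sig x) θ g) k) ^ 2 ∂gauss (Fin n) =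
      (n : ℝ) + (∫ g, ∑ k, pm ν sig θ (obs (sig x) θ g) k ^ 2 ∂gauss (Fin n))
        - 2 * ∑ k, ∫ g, sig x k * pm ν sig θ (obs (sig x) θ g) k ∂gauss (Fin n) := by
    intro x
    have e2 : ∀ g k, (sig x k - pm ν sig θ (obs (sig x) θ g) k) ^ 2 =
        1 + pm ν sig θ (obs (sig x) θ g) k ^ 2 - 2 * (sig x k * pm ν sig θ (obs (sig x) θ g) k) := fun g k => by
      rw [← sq_sig x k]; ring
    simp only [e2]
    have i3 : ∀ k, Integrable (fun g => 1 + pm ν sig θ (obs (sig x) θ g) k ^ 2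
        - 2 * (sig x k * pm ν sig θ (obs (sig x) θ g) k)) (gauss (Fin n)) := fun k =>
      ((integrable_const (1:ℝ)).fun_add (i2 x k)).sub (((i1 x k).const_mul _).const_mul 2)
    rw [integral_finsetSum _ fun k _ => i2 x k, integral_finsetSum _ fun k _ => i3 k, Finset.mul_sum,
      show (n : ℝ) = ∑ _k : Fin n, (1 : ℝ) by simp, ← Finset.sum_add_distrib, ← Finset.sum_sub_distrib]
    exact Finset.sum_congr rfl fun k _ => by
      rw [integral_sub ((integrable_const (1:ℝ)).fun_add (i2 x k)) (((i1 x k).const_mul _).const_mul 2),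
        integral_add (integrable_const _) (i2 x k), integral_const_mul]
      simp
  have hov : ∑ x, ν x * ∑ k, ∫ g, sig x k * pm ν sig θ (obs (sig x) θ g) k ∂gauss (Fin n) = msq s ν := by
    rw [msq_eq hν]
    simp only [show Real.sqrt s = θ from rfl]
    simp only [integral_finsetSum _ fun k _ => i2 _ k, Finset.mul_sum]
    rw [Finset.sum_comm]
    conv_rhs => rw [Finset.sum_comm]
    exact Finset.sum_congr rfl fun k _ => by rw [hν.overlap hν θ k]; simp only [sq]
  simp only [e, mul_div_assoc']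
  rw [← Finset.sum_div]
  congr 1
  simp only [mul_sub, mul_add, Finset.sum_sub_distrib, Finset.sum_add_distrib, ← Finset.sum_mul, h1,
    one_mul, mul_left_comm _ (2:ℝ), ← Finset.mul_sum, hov]
  rw [msq_eq hν]
  simp only [show Real.sqrt s = θ from rfl]
  ring

/-- the entropy is at least the integrated minimal mean square error, on any grid -/
theorem entropy_ge {ν : Cfg n → ℝ} (h0 : ∀ x, 0 ≤ ν x) (h1 : ∑ x, ν x = 1) (N : ℕ) (t u : ℕ → ℝ)
    (ht0 : t 0 = 0) (ht : ∀ k < N, t k ≤ t (k + 1))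
    (hu : ∀ k < N, msq (t (k + 1)) ν ≤ n * u (k + 1)) :
    (n : ℝ) / 2 * ∑ k ∈ Finset.range N, (t (k + 1) - t k) * (1 - u (k + 1)) ≤
      -∑ x, ν x * Real.log (ν x) := by
  have hν : Wt ν := ⟨h0, h1 ▸ one_pos⟩
  set f := fun s => minfo ν (Real.sqrt s) with hf
  have hpos : ∀ k ≤ N, 0 ≤ t k := by
    intro k hk
    induction k with
    | zero => rw [ht0]
    | succ k ih => exact (ih (Nat.le_of_succ_le hk)).trans (ht k hk)
  have hcont : Continuous f := by
    have hk : ∀ x, Continuous (klc (pt x) ν sig) := fun x =>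
      continuous_iff_continuousAt.2 fun θ => (klc_hasDerivAt (wt_pt x) hν θ).continuousAt
    have hm : Continuous (minfo ν) :=
      continuous_finsetSum _ fun x _ => continuous_const.mul (hk x)
    exact hm.comp Real.continuous_sqrt
  have step : ∀ k < N, (n : ℝ) / 2 * ((t (k + 1) - t k) * (1 - u (k + 1))) ≤ f (t (k + 1)) - f (t k) := by
    intro k hk
    have hk0 := hpos k hk.le
    have hi : interior (Set.Icc (t k) (t (k + 1))) = Set.Ioo (t k) (t (k + 1)) := interior_Icc
    have hd : ∀ s ∈ Set.Ioo (t k) (t (k + 1)), HasDerivAt f ((n - msq s ν) / 2) s := fun s hs =>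
      minfo_hasDerivAt hν h1 (hk0.trans_lt hs.1)
    refine le_trans (le_of_eq ?_) ((convex_Icc (t k) (t (k + 1))).mul_sub_le_image_sub_of_le_deriv
      hcont.continuousOn (fun s hs => ((hd s (hi ▸ hs)).differentiableAt).differentiableWithinAt)
      (C := (n : ℝ) * (1 - u (k + 1)) / 2) (fun s hs => ?_)
      (t k) (Set.left_mem_Icc.2 (ht k hk)) (t (k + 1)) (Set.right_mem_Icc.2 (ht k hk)) (ht k hk))
    · ring
    · rw [(hd s (hi ▸ hs)).deriv]
      have := msq_mono hν (hi ▸ hs : s ∈ Set.Ioo (t k) (t (k + 1))).2.le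
      linarith [hu k hk]
  refine le_trans ?_ (minfo_le hν (Real.sqrt (t N)))
  rw [Finset.mul_sum]
  refine (Finset.sum_le_sum fun k hk => step k (Finset.mem_range.1 hk)).trans_eq ?_
  rw [Finset.sum_range_sub (fun k => f (t k)), hf]
  simp [ht0, minfo_zero h1]

/-- relative entropy to the Gibbs weights as free energy minus entropy and energy -/
theorem kl_eq {J : Fin n → Fin n → ℝ} {b : Fin n → ℝ} {f : Cfg n → ℝ} (hf : ∀ x, 0 ≤ f x)
    (h1 : ∑ x, Ising.wt J b x * f x = 1) :
    ent (Ising.wt J b) f =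
      (∑ x, Ising.wt J b x * f x * Real.log (Ising.wt J b x * f x))
        - (∑ x, Ising.wt J b x * f x * Ising.qE J b x)
        + Real.log (∑ x, Real.exp (Ising.qE J b x)) := by
  rw [ent, h1, Real.log_one, mul_zero, sub_zero]
  set L := Real.log (∑ x, Real.exp (Ising.qE J b x))
  rw [show L = ∑ x, Ising.wt J b x * f x * L by rw [← Finset.sum_mul, h1, one_mul],
    ← Finset.sum_sub_distrib, ← Finset.sum_add_distrib]
  refine Finset.sum_congr rfl fun x _ => ?_
  rcases (hf x).eq_or_lt with h | h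
  · simp [← h]
  · have hw := Ising.wt_pos J b x
    rw [Real.log_mul hw.ne' h.ne']
    have e : Real.log (Ising.wt J b x) = Ising.qE J b x - L := by
      rw [Ising.wt, Real.log_div (Real.exp_ne_zero _)
        (Finset.sum_pos (fun _ _ => Real.exp_pos _) Finset.univ_nonempty).ne', Real.log_exp]
    rw [e]
    ring

/-- relative entropy to the Gibbs weights from the magnetisation bounds along the channel -/
theorem kl_le {J : Fin n → Fin n → ℝ} {b : Fin n → ℝ} {f : Cfg n → ℝ} (hf : ∀ x, 0 ≤ f x)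
    (h1 : ∑ x, Ising.wt J b x * f x = 1) (N : ℕ) (t u : ℕ → ℝ)
    (ht0 : t 0 = 0) (ht : ∀ k < N, t k ≤ t (k + 1))
    (hu : ∀ k < N, msq (t (k + 1)) (fun x => Ising.wt J b x * f x) ≤ n * u (k + 1)) :
    ent (Ising.wt J b) f ≤ Real.log (∑ x, Real.exp (Ising.qE J b x))
      - (∑ x, Ising.wt J b x * f x * Ising.qE J b x)
      - (n : ℝ) / 2 * ∑ k ∈ Finset.range N, (t (k + 1) - t k) * (1 - u (k + 1)) := by
  have h := entropy_ge (ν := fun x => Ising.wt J b x * f x)
    (fun x => mul_nonneg (Ising.wt_pos J b x).le (hf x)) h1 N t u ht0 ht hu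
  rw [kl_eq hf h1]
  linarith

end Vale.Agent.P150.PA
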