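import Mathlib

/-! Approximate Stein equations for a pair identify its law: `(a, g)` is close to `N(μ, A) ⊗ N(0, 1)`. -/

open MeasureTheory ProbabilityTheory Filter Set Complex
open scoped Topology

namespace Vale.Agent.P150.PA

/-- `e^{i (α a + γ g)}` -/
noncomputable def wave (α γ : ℝ) (p : ℝ × ℝ) : ℂ := cexp (((α * p.1 + γ * p.2 : ℝ) : ℂ) * I)

lemma norm_wave (α γ : ℝ) (p : ℝ × ℝ) : ‖wave α γ p‖ = 1 := norm_exp_ofReal_mul_I _

lemma continuous_wave (α γ : ℝ) : Continuous (wave α γ) := by unfold wave; fun_prop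

/-- `w e^{iμα - Aα²/2 - γ²/2}` -/
noncomputable def gchar (A μ w α γ : ℝ) : ℂ :=
  (w : ℂ) * cexp (((μ * α : ℝ) : ℂ) * I - ((A * α ^ 2 / 2 + γ ^ 2 / 2 : ℝ) : ℂ))

/-- the map sending two standard Gaussians to the target pair -/
noncomputable def gmap (A μ : ℝ) (z : ℝ × ℝ) : ℝ × ℝ := (μ + Real.sqrt A * z.1, z.2)

lemma continuous_gmap (A μ : ℝ) : Continuous (gmap A μ) := by unfold gmap; fun_prop

lemma integral_wave_gmap {A : ℝ} (hA : 0 ≤ A) (μ α γ : ℝ) :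
    ∫ z, wave α γ (gmap A μ z) ∂(gaussianReal 0 1).prod (gaussianReal 0 1) = gchar A μ 1 α γ := by
  have e : ∀ z : ℝ × ℝ, wave α γ (gmap A μ z) = cexp (((α * μ : ℝ) : ℂ) * I) *
      (cexp (((α * Real.sqrt A : ℝ) : ℂ) * (z.1 : ℂ) * I) * cexp ((γ : ℂ) * (z.2 : ℂ) * I)) := fun z => by
    simp only [wave, gmap, ← Complex.exp_add]
    congr 1
    push_cast; ring
  simp only [e]
  rw [integral_const_mul, integral_prod_mul (fun x : ℝ => cexp (((α * Real.sqrt A : ℝ) : ℂ) * (x : ℂ) * I))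
    (fun y : ℝ => cexp ((γ : ℂ) * (y : ℂ) * I)), ← charFun_apply_real, ← charFun_apply_real,
    charFun_gaussianReal, charFun_gaussianReal, ← Complex.exp_add, ← Complex.exp_add, gchar, ofReal_one, one_mul]
  congr 1
  have hs : ((Real.sqrt A : ℝ) : ℂ) ^ 2 = (A : ℂ) := by rw [← ofReal_pow, Real.sq_sqrt hA]
  push_cast
  linear_combination (-(α : ℂ) ^ 2 / 2) * hs

/-- the characteristic function follows the Gaussian one along the lines `γ + c α = const` -/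
lemma char_close {Kc R₀ δ A c μ w : ℝ} (hR₀ : 0 ≤ R₀) (hδ : 0 ≤ δ) (hA0 : 0 ≤ A) (hA1 : A ≤ 1)
    (hc : |c| ≤ Kc) (π : Measure (ℝ × ℝ)) [IsFiniteMeasure π]
    (ha : Integrable (fun p : ℝ × ℝ => p.1) π) (hg : Integrable (fun p : ℝ × ℝ => p.2) π)
    (h1 : ∀ α γ : ℝ, |α| ≤ R₀ → |γ| ≤ (1 + 2 * Kc) * R₀ →
      ‖∫ p, ((((p.1 - μ - c * p.2 : ℝ)) : ℂ) - I * ((α * A - c * γ : ℝ) : ℂ)) * wave α γ p ∂π‖ ≤ δ)
    (h2 : ∀ γ : ℝ, |γ| ≤ (1 + 2 * Kc) * R₀ → ‖∫ p, wave 0 γ p ∂π - gchar A μ w 0 γ‖ ≤ δ)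
    {α γ : ℝ} (hα : |α| ≤ R₀) (hγ : |γ| ≤ R₀) :
    ‖∫ p, wave α γ p ∂π - gchar A μ w α γ‖ ≤
      Real.exp ((Kc * (1 + Kc) + (1 + Kc ^ 2) / 2) * R₀ ^ 2) *
        (1 + R₀ * Real.exp ((Kc * (1 + Kc) + (1 + Kc ^ 2) / 2) * R₀ ^ 2)) * δ := by
  have hKc : 0 ≤ Kc := (abs_nonneg c).trans hc
  set γ₀ := γ + c * α with hγ₀
  set B := (Kc * (1 + Kc) + (1 + Kc ^ 2) / 2) * R₀ ^ 2 with hB
  have hγ₀b : |γ₀| ≤ (1 + Kc) * R₀ := by
    refine (abs_add_le _ _).trans ?_
    rw [abs_mul]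
    linarith [mul_le_mul hc hα (abs_nonneg _) hKc]
  have hline : ∀ t : ℝ, |t| ≤ R₀ → |γ₀ - c * t| ≤ (1 + 2 * Kc) * R₀ := fun t ht => by
    refine (abs_sub _ _).trans ?_
    rw [abs_mul]
    linarith [mul_le_mul hc ht (abs_nonneg _) hKc]
  set L : ℝ → ℂ := fun t => ((μ * t : ℝ) : ℂ) * I + ((c * γ₀ * t - (A + c ^ 2) * t ^ 2 / 2 : ℝ) : ℂ) with hL
  have hLre : ∀ t, |t| ≤ R₀ → |(L t).re| ≤ B := fun t ht => by
    have e : (L t).re = c * γ₀ * t - (A + c ^ 2) * t ^ 2 / 2 := by simp [hL, ← ofReal_pow]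
    rw [e]
    refine (abs_sub _ _).trans ?_
    have a1 : |c * γ₀ * t| ≤ Kc * ((1 + Kc) * R₀) * R₀ := by
      rw [abs_mul, abs_mul]
      exact mul_le_mul (mul_le_mul hc hγ₀b (abs_nonneg _) hKc) ht (abs_nonneg _) (by positivity)
    have a2 : (A + c ^ 2) * t ^ 2 ≤ (1 + Kc ^ 2) * R₀ ^ 2 := by
      refine mul_le_mul (add_le_add hA1 (sq_le_sq.2 (by rwa [abs_of_nonneg hKc]))) ?_ (sq_nonneg _) (by positivity)
      exact sq_le_sq.2 (by rwa [abs_of_nonneg hR₀])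
    rw [abs_of_nonneg (by positivity : 0 ≤ (A + c ^ 2) * t ^ 2 / 2), hB]
    linarith
  set h : ℝ → ℂ := fun t => ∫ p, wave t (γ₀ - c * t) p ∂π with hh
  have hd : ∀ t, HasDerivAt h (∫ p, I * ((p.1 - c * p.2 : ℝ) : ℂ) * wave t (γ₀ - c * t) p ∂π) t := fun t => by
    refine (hasDerivAt_integral_of_dominated_loc_of_deriv_le (F := fun s p => wave s (γ₀ - c * s) p)
      (F' := fun s p => I * ((p.1 - c * p.2 : ℝ) : ℂ) * wave s (γ₀ - c * s) p)
      (bound := fun p => |p.1| + |c| * |p.2|) (Metric.ball_mem_nhds t one_pos)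
      (Eventually.of_forall fun s => (continuous_wave _ _).aestronglyMeasurable)
      ((integrable_const (1:ℝ)).mono' (continuous_wave _ _).aestronglyMeasurable (ae_of_all _ fun p => (norm_wave _ _ p).le))
      (by unfold wave; fun_prop) (ae_of_all _ fun p s _ => ?_) (ha.abs.add (hg.abs.const_mul _))
      (ae_of_all _ fun p s _ => ?_)).2
    · rw [norm_mul, norm_mul, norm_wave, Complex.norm_I, one_mul, mul_one, norm_real, Real.norm_eq_abs]
      exact (abs_sub _ _).trans (le_of_eq (by rw [abs_mul]))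
    · have h0 : HasDerivAt (fun s : ℝ => s * p.1 + (γ₀ - c * s) * p.2) (p.1 - c * p.2) s :=
        (((hasDerivAt_id s).mul_const p.1).add ((((hasDerivAt_id s).const_mul c).const_sub γ₀).mul_const p.2)).congr_deriv (by ring)
      refine ((h0.ofReal_comp.mul_const I).cexp).congr_deriv ?_
      simp only [wave]; ring
  set D : ℝ → ℂ := fun t => ∫ p, ((((p.1 - μ - c * p.2 : ℝ)) : ℂ) - I * ((t * A - c * (γ₀ - c * t) : ℝ) : ℂ)) *
    wave t (γ₀ - c * t) p ∂π with hD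
  have hlin : ∀ t, ∫ p, I * ((p.1 - c * p.2 : ℝ) : ℂ) * wave t (γ₀ - c * t) p ∂π =
      I * D t + ((μ : ℂ) * I + ((c * (γ₀ - c * t) - t * A : ℝ) : ℂ)) * h t := fun t => by
    have iw : Integrable (fun p => wave t (γ₀ - c * t) p) π :=
      (integrable_const (1:ℝ)).mono' (continuous_wave _ _).aestronglyMeasurable (ae_of_all _ fun p => (norm_wave _ _ p).le)
    have il : Integrable (fun p : ℝ × ℝ => (((p.1 - c * p.2 : ℝ)) : ℂ) * wave t (γ₀ - c * t) p) π :=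
      (ha.abs.add (hg.abs.const_mul |c|)).mono' (by unfold wave; fun_prop) (ae_of_all _ fun p => by
        rw [norm_mul, norm_wave, mul_one, norm_real, Real.norm_eq_abs]
        exact (abs_sub _ _).trans (le_of_eq (by rw [abs_mul]; rfl)))
    have e : ∀ p : ℝ × ℝ, ((((p.1 - μ - c * p.2 : ℝ)) : ℂ) - I * ((t * A - c * (γ₀ - c * t) : ℝ) : ℂ)) *
        wave t (γ₀ - c * t) p = ((p.1 - c * p.2 : ℝ) : ℂ) * wave t (γ₀ - c * t) p -
          ((μ : ℂ) + I * ((t * A - c * (γ₀ - c * t) : ℝ) : ℂ)) * wave t (γ₀ - c * t) p := fun p => by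
      push_cast; ring
    simp only [hD, e, hh]
    rw [integral_sub il (iw.const_mul _), integral_const_mul]
    simp only [mul_assoc, integral_const_mul]
    have hz : ((c * (γ₀ - c * t) - t * A : ℝ) : ℂ) + ((t * A - c * (γ₀ - c * t) : ℝ) : ℂ) = 0 := by
      push_cast; ring
    linear_combination (((t * A - c * (γ₀ - c * t) : ℝ) : ℂ) * ∫ p, wave t (γ₀ - c * t) p ∂π) * I_sq
      - (∫ p, wave t (γ₀ - c * t) p ∂π) * hz
  set G : ℝ → ℂ := fun t => h t * cexp (-L t) with hG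
  have hG' : ∀ t, HasDerivAt G (I * D t * cexp (-L t)) t := fun t => by
    have l1 : HasDerivAt L ((μ : ℂ) * I + ((c * (γ₀ - c * t) - t * A : ℝ) : ℂ)) t :=
      ((((hasDerivAt_id t).const_mul μ).ofReal_comp.mul_const I).add
        ((((hasDerivAt_id t).const_mul (c * γ₀)).sub
          (((hasDerivAt_pow 2 t).const_mul (A + c ^ 2)).div_const 2)).ofReal_comp)).congr_deriv (by simp; ring)
    refine ((hd t).mul l1.neg.cexp).congr_deriv ?_
    rw [hlin]
    simp only [Pi.neg_apply]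
    ring
  have hbound : ∀ t ∈ uIcc (0:ℝ) α, ‖I * D t * cexp (-L t)‖ ≤ δ * Real.exp B := fun t ht => by
    have ht' : |t| ≤ R₀ := by
      have := abs_sub_left_of_mem_uIcc ht
      simp only [sub_zero] at this
      linarith
    rw [norm_mul, norm_mul, Complex.norm_I, one_mul, Complex.norm_exp]
    refine mul_le_mul (h1 t _ ht' (hline t ht')) (Real.exp_le_exp.2 ?_) (Real.exp_pos _).le hδ
    rw [neg_re]; exact (neg_le_abs _).trans (hLre t ht')
  have hdiff := (convex_uIcc (0:ℝ) α).norm_image_sub_le_of_norm_hasDerivWithin_le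
    (fun t _ => (hG' t).hasDerivWithinAt) hbound left_mem_uIcc right_mem_uIcc
  rw [sub_zero, Real.norm_eq_abs] at hdiff
  have hG0 : G 0 = ∫ p, wave 0 γ₀ p ∂π := by simp [hG, hh, hL]
  have hG1 : G α = (∫ p, wave α γ p ∂π) * cexp (-L α) := by simp [hG, hh, hγ₀]
  have hT : gchar A μ w α γ = gchar A μ w 0 γ₀ * cexp (L α) := by
    simp only [gchar, hL, mul_assoc, ← Complex.exp_add]
    congr 2
    rw [show γ = γ₀ - c * α by rw [hγ₀]; ring]
    push_cast; ring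
  have e : ∫ p, wave α γ p ∂π - gchar A μ w α γ =
      cexp (L α) * ((G α - G 0) + (∫ p, wave 0 γ₀ p ∂π - gchar A μ w 0 γ₀)) := by
    rw [hG1, hG0, hT]
    have : cexp (L α) * cexp (-L α) = 1 := by rw [← Complex.exp_add]; simp
    linear_combination (-(∫ p, wave α γ p ∂π)) * this
  rw [e, norm_mul, Complex.norm_exp]
  have k1 : Real.exp (L α).re ≤ Real.exp B := Real.exp_le_exp.2 ((le_abs_self _).trans (hLre α hα))
  refine (mul_le_mul k1 ((norm_add_le _ _).trans (add_le_add (hdiff.trans (mul_le_mul_of_nonneg_left hα (by positivity)))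
    (h2 γ₀ (hγ₀b.trans (mul_le_mul_of_nonneg_right (by linarith) hR₀))))) (norm_nonneg _) (Real.exp_pos _).le).trans (le_of_eq ?_)
  ring

/-- pad to a probability measure on the inner product space `ℝ²` -/
noncomputable def padLaw (π : Measure (ℝ × ℝ)) (w : ℝ) : Measure (WithLp 2 (ℝ × ℝ)) :=
  (π + ENNReal.ofReal (1 - w) • Measure.dirac 0).map (WithLp.toLp 2)

lemma padLaw_prob (π : Measure (ℝ × ℝ)) [IsFiniteMeasure π] (h : π.real univ ≤ 1) :
    IsProbabilityMeasure (padLaw π (π.real univ)) := by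
  refine ⟨?_⟩
  rw [padLaw, Measure.map_apply (WithLp.prod_continuous_toLp 2 ℝ ℝ).measurable MeasurableSet.univ, preimage_univ,
    Measure.add_apply, Measure.smul_apply, measure_univ (μ := Measure.dirac (0 : ℝ × ℝ)), smul_eq_mul, mul_one,
    show π univ = ENNReal.ofReal (π.real univ) from (ofReal_measureReal).symm,
    ← ENNReal.ofReal_add measureReal_nonneg (sub_nonneg.2 h), add_sub_cancel, ENNReal.ofReal_one]

lemma integral_padLaw {E : Type*} [NormedAddCommGroup E] [NormedSpace ℝ E] [CompleteSpace E] (π : Measure (ℝ × ℝ))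
    [IsFiniteMeasure π] {w : ℝ} (hw : w ≤ 1) {F : WithLp 2 (ℝ × ℝ) → E} (hF : Continuous F) {B : ℝ} (hB : ∀ x, ‖F x‖ ≤ B) :
    ∫ x, F x ∂padLaw π w = ∫ p, F (WithLp.toLp 2 p) ∂π + (1 - w) • F (WithLp.toLp 2 0) := by
  have hc := WithLp.prod_continuous_toLp 2 ℝ ℝ
  have hi : ∀ (μ : Measure (ℝ × ℝ)) [IsFiniteMeasure μ], Integrable (fun p => F (WithLp.toLp 2 p)) μ := fun μ _ =>
    (integrable_const B).mono' (hF.comp hc).aestronglyMeasurable (ae_of_all _ fun p => hB _)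
  rw [padLaw, integral_map hc.aemeasurable hF.aestronglyMeasurable,
    integral_add_measure (hi π) ((hi (Measure.dirac 0)).smul_measure ENNReal.ofReal_ne_top), integral_smul_measure,
    integral_dirac, ENNReal.toReal_ofReal (sub_nonneg.2 hw)]

lemma charFun_padLaw (π : Measure (ℝ × ℝ)) [IsFiniteMeasure π] {w : ℝ} (hw : w ≤ 1) (t : WithLp 2 (ℝ × ℝ)) :
    charFun (padLaw π w) t = ∫ p, wave t.fst t.snd p ∂π + ((1 - w : ℝ) : ℂ) := by
  rw [charFun_apply, integral_padLaw π hw (F := fun x => cexp ((inner ℝ x t : ℝ) * I)) (by fun_prop) (B := 1) fun x => (norm_exp_ofReal_mul_I _).le]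
  refine congrArg₂ (fun a b : ℂ => a + b) (integral_congr_ae (ae_of_all _ fun p => ?_)) ?_
  · simp [wave, WithLp.prod_inner_apply, mul_comm]
  · simp [Complex.real_smul]

/-- Approximate Stein equations identify the law of the pair. -/
theorem law_close (M Kc : ℝ) (f : ℝ × ℝ → ℝ) (hf : Continuous f) {Bf : ℝ} (hB : ∀ p, |f p| ≤ Bf) {ε : ℝ} (hε : 0 < ε) :
    ∃ δ > 0, ∃ R : ℝ, ∀ A c μ : ℝ, 0 ≤ A → A ≤ 1 → |c| ≤ Kc → |μ| ≤ 1 →
      ∀ π : Measure (ℝ × ℝ), IsFiniteMeasure π → π.real univ ≤ 1 →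
        Integrable (fun p : ℝ × ℝ => p.1 ^ 2 + p.2 ^ 2) π → ∫ p, p.1 ^ 2 + p.2 ^ 2 ∂π ≤ M →
        (∀ α γ : ℝ, |α| ≤ R → |γ| ≤ R →
          ‖∫ p, ((((p.1 - μ : ℝ) : ℂ) - I * α * A - c * ((p.2 : ℂ) - I * γ)) *
            cexp (I * ((α * p.1 + γ * p.2 : ℝ) : ℂ))) ∂π‖ ≤ δ ∧
          ‖(∫ p : ℝ × ℝ, cexp (I * ((γ * p.2 : ℝ) : ℂ)) ∂π) - (π.real univ : ℂ) * ((Real.exp (-(γ ^ 2 / 2)) : ℝ) : ℂ)‖ ≤ δ) →
        |∫ p, f p ∂π - π.real univ * ∫ z, f (μ + Real.sqrt A * z.1, z.2) ∂(gaussianReal 0 1).prod (gaussianReal 0 1)| ≤ ε := by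
  by_contra hcon
  push Not at hcon
  choose A c μ hA0 hA1 hc hμ π hπ hw hint _hM hhyp hbad using fun k : ℕ =>
    hcon (1 / ((k:ℝ) + 1)) (by positivity) ((k:ℝ) + 1)
  set w := fun k => (π k).real univ
  obtain ⟨⟨A', μ', w'⟩, ⟨⟨hA'0, hA'1⟩, -, hw'0, hw'1⟩, φ, hφ, hlim⟩ :=
    (isCompact_Icc.prod (isCompact_Icc.prod isCompact_Icc) :
      IsCompact (Icc (0:ℝ) 1 ×ˢ (Icc (-1:ℝ) 1 ×ˢ Icc (0:ℝ) 1))).tendsto_subseq
      (x := fun k => (A k, μ k, w k)) fun k => ⟨⟨hA0 k, hA1 k⟩, abs_le.1 (hμ k), measureReal_nonneg, hw k⟩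
  obtain ⟨lA, lμ', lw⟩ : Tendsto (A ∘ φ) atTop (𝓝 A') ∧ Tendsto (μ ∘ φ) atTop (𝓝 μ') ∧ Tendsto (w ∘ φ) atTop (𝓝 w') :=
    ⟨(continuous_fst.tendsto _).comp hlim, ((continuous_fst.comp continuous_snd).tendsto _).comp hlim,
      ((continuous_snd.comp continuous_snd).tendsto _).comp hlim⟩
  set γ2 := (gaussianReal 0 1).prod (gaussianReal 0 1)
  set π' : Measure (ℝ × ℝ) := ENNReal.ofReal w' • γ2.map (gmap A' μ') with hπ'
  have : IsProbabilityMeasure (γ2.map (gmap A' μ')) :=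
    Measure.isProbabilityMeasure_map (continuous_gmap A' μ').measurable.aemeasurable
  have hπ'fin : IsFiniteMeasure π' := by rw [hπ']; exact Measure.smul_finite _ ENNReal.ofReal_ne_top
  have hπ'u : π'.real univ = w' := by
    simp [hπ', measureReal_def, Measure.smul_apply, ENNReal.toReal_ofReal hw'0]
  have hπ'i : ∀ {E : Type} [NormedAddCommGroup E] [NormedSpace ℝ E] [CompleteSpace E] {F : ℝ × ℝ → E}, Continuous F →
      ∫ p, F p ∂π' = w' • ∫ z, F (gmap A' μ' z) ∂γ2 := fun {E} _ _ _ {F} hF => by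
    rw [hπ', integral_smul_measure, ENNReal.toReal_ofReal hw'0,
      integral_map (continuous_gmap A' μ').measurable.aemeasurable hF.aestronglyMeasurable]
  set ν : ℕ → ProbabilityMeasure (WithLp 2 (ℝ × ℝ)) := fun k =>
    ⟨padLaw (π (φ k)) ((π (φ k)).real univ), haveI := hπ (φ k); padLaw_prob _ (hw _)⟩
  set ν' : ProbabilityMeasure (WithLp 2 (ℝ × ℝ)) :=
    ⟨padLaw π' (π'.real univ), haveI := hπ'fin; padLaw_prob _ (hπ'u ▸ hw'1)⟩
  have hν : Tendsto ν atTop (𝓝 ν') := by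
    refine ProbabilityMeasure.tendsto_iff_tendsto_charFun.2 fun t => ?_
    show Tendsto (fun k => charFun (padLaw (π (φ k)) ((π (φ k)).real univ)) t) atTop (𝓝 (charFun (padLaw π' (π'.real univ)) t))
    rw [charFun_padLaw _ (hπ'u ▸ hw'1), hπ'i (continuous_wave _ _), integral_wave_gmap hA'0, hπ'u]
    have e : ∀ k, charFun (padLaw (π (φ k)) ((π (φ k)).real univ)) t =
        (∫ p, wave t.fst t.snd p ∂π (φ k)) + ((1 - w (φ k) : ℝ) : ℂ) := fun k => by
      haveI := hπ (φ k); exact charFun_padLaw _ (hw _) t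
    simp only [e]
    refine Tendsto.add ?_ ((continuous_ofReal.tendsto _).comp (lw.const_sub 1))
    rw [show w' • gchar A' μ' 1 t.fst t.snd = gchar A' μ' w' t.fst t.snd by simp [gchar, Complex.real_smul]]
    have hg : Tendsto (fun k => gchar (A (φ k)) (μ (φ k)) (w (φ k)) t.fst t.snd) atTop (𝓝 (gchar A' μ' w' t.fst t.snd)) :=
      ((show Continuous fun q : ℝ × ℝ × ℝ => gchar q.1 q.2.1 q.2.2 t.fst t.snd by unfold gchar; fun_prop).tendsto
        (A', μ', w')).comp hlim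
    set R₀ := max |t.fst| |t.snd|
    set C := Real.exp ((Kc * (1 + Kc) + (1 + Kc ^ 2) / 2) * R₀ ^ 2) *
      (1 + R₀ * Real.exp ((Kc * (1 + Kc) + (1 + Kc ^ 2) / 2) * R₀ ^ 2))
    have hsmall : Tendsto (fun k => (∫ p, wave t.fst t.snd p ∂π (φ k)) -
        gchar (A (φ k)) (μ (φ k)) (w (φ k)) t.fst t.snd) atTop (𝓝 0) := by
      refine squeeze_zero_norm' ?_ (a := fun k => C * (1 / ((φ k : ℝ) + 1))) ?_
      · obtain ⟨N, hN⟩ := exists_nat_ge ((1 + 2 * Kc) * R₀)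
        filter_upwards [eventually_ge_atTop N] with k hk
        haveI := hπ (φ k)
        have hR₀ : 0 ≤ R₀ := le_max_of_le_left (abs_nonneg _)
        have hKR : R₀ ≤ (1 + 2 * Kc) * R₀ := le_mul_of_one_le_left hR₀ (by linarith [(abs_nonneg _).trans (hc 0)])
        have hk' : (1 + 2 * Kc) * R₀ ≤ (φ k : ℝ) + 1 := by
          have : (N:ℝ) ≤ φ k := by exact_mod_cast hk.trans (hφ.id_le k)
          linarith
        have hi1 : Integrable (fun p : ℝ × ℝ => |p.1| + |p.2|) (π (φ k)) :=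
          ((integrable_const (2:ℝ)).add (hint (φ k))).mono' (by fun_prop) (ae_of_all _ fun p => by
            rw [Real.norm_eq_abs, abs_of_nonneg (by positivity)]
            show _ ≤ 2 + (p.1 ^ 2 + p.2 ^ 2)
            nlinarith [sq_nonneg (|p.1| - 1), sq_nonneg (|p.2| - 1), sq_abs p.1, sq_abs p.2])
        refine char_close hR₀ (by positivity) (hA0 _) (hA1 _) (hc (φ k)) (π (φ k))
          (hi1.mono' (by fun_prop) (ae_of_all _ fun p => by simp))
          (hi1.mono' (by fun_prop) (ae_of_all _ fun p => by simp))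
          (fun α γ hα hγ => ?_) (fun γ hγ => ?_) (le_max_left _ _) (le_max_right _ _)
        · refine le_of_eq_of_le ?_ (hhyp (φ k) α γ ((hα.trans hKR).trans hk') (hγ.trans hk')).1
          congr 1
          refine integral_congr_ae (ae_of_all _ fun p => ?_)
          simp only [wave, mul_comm I]
          push_cast; ring
        · refine le_of_eq_of_le ?_ (hhyp (φ k) 0 γ (by simpa using by positivity) (hγ.trans hk')).2
          congr 2
          · refine integral_congr_ae (ae_of_all _ fun p => ?_)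
            simp [wave, mul_comm I]
          · simp [gchar, w, Complex.ofReal_exp]
      · simpa using ((tendsto_one_div_add_atTop_nhds_zero_nat.comp hφ.tendsto_atTop).const_mul C)
    simpa using hsmall.add hg
  have hfB : ∀ x : WithLp 2 (ℝ × ℝ), ‖f (WithLp.ofLp x)‖ ≤ Bf := fun x => hB _
  have hfc : Continuous fun x : WithLp 2 (ℝ × ℝ) => f (WithLp.ofLp x) := hf.comp (WithLp.prod_continuous_ofLp 2 ℝ ℝ)
  have h := ProbabilityMeasure.tendsto_iff_forall_integral_tendsto.1 hν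
    (BoundedContinuousFunction.ofNormedAddCommGroup _ hfc Bf hfB)
  have e1 : ∀ k, ∫ x, f (WithLp.ofLp x) ∂(padLaw (π (φ k)) ((π (φ k)).real univ)) =
      ∫ p, f p ∂π (φ k) + (1 - w (φ k)) * f 0 := fun k => by
    haveI := hπ (φ k)
    rw [integral_padLaw _ (hw _) hfc hfB]; simp [w]
  have e2 : ∫ x, f (WithLp.ofLp x) ∂(padLaw π' (π'.real univ)) =
      w' * (∫ z, f (gmap A' μ' z) ∂γ2) + (1 - w') * f 0 := by
    rw [integral_padLaw _ (hπ'u ▸ hw'1) hfc hfB]; simp [hπ'i hf, hπ'u]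
  have h' : Tendsto (fun k => ∫ p, f p ∂π (φ k) + (1 - w (φ k)) * f 0) atTop
      (𝓝 (w' * (∫ z, f (gmap A' μ' z) ∂γ2) + (1 - w') * f 0)) := by
    simpa [ν, ν', e1, e2] using h
  have hI : Tendsto (fun k => ∫ z, f (gmap (A (φ k)) (μ (φ k)) z) ∂γ2) atTop (𝓝 (∫ z, f (gmap A' μ' z) ∂γ2)) := by
    refine tendsto_integral_of_dominated_convergence (fun _ => Bf)
      (fun k => (hf.comp (continuous_gmap _ _)).aestronglyMeasurable) (integrable_const _)
      (fun k => ae_of_all _ fun z => hB _) (ae_of_all _ fun z => (hf.tendsto _).comp ?_)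
    exact ((lμ'.add (((Real.continuous_sqrt.tendsto _).comp lA).mul_const z.1)).prodMk_nhds tendsto_const_nhds)
  have hz : Tendsto (fun k => ∫ p, f p ∂π (φ k) - w (φ k) * ∫ z, f (gmap (A (φ k)) (μ (φ k)) z) ∂γ2) atTop (𝓝 0) := by
    simpa using (h'.sub (((lw.const_sub 1).mul_const (f 0)))).sub (lw.mul hI)
  obtain ⟨k, hk⟩ := ((Metric.tendsto_nhds.1 hz) ε hε).exists
  rw [Real.dist_eq, sub_zero] at hk
  exact absurd (hbad (φ k)) (not_lt.2 hk.le)

end Vale.Agent.P150.PA
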