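import Vale.Agent.P150.PA.MmseLaw

/-! The law of a single site: a uniform site, a start drawn from `ν`, Gaussian noise on all sites and a
state drawn from the weights `w` given start and noise. -/

open MeasureTheory ProbabilityTheory Filter Complex
open scoped Topology

namespace Vale.Agent.P150.PA.MmseLaw

variable {n : ℕ} {Ω Ω' : Type*} [Fintype Ω] [MeasurableSpace Ω] [MeasurableSingletonClass Ω]
  [Fintype Ω'] [MeasurableSpace Ω'] [MeasurableSingletonClass Ω']

/-- the law of (site, start, state) together with the noise -/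
noncomputable def siteLaw (ν : Ω → ℝ) (w : (Fin n → ℝ) → Ω → Ω' → ℝ) :
    Measure ((Fin n × Ω × Ω') × (Fin n → ℝ)) :=
  ∑ e : Fin n × Ω × Ω', ((gauss (Fin n)).withDensity fun z => ENNReal.ofReal (ν e.2.1 * w z e.2.1 e.2.2 / n)).map
    fun z => (e, z)

/-- what is assumed of the weights -/
structure SiteWts (ν : Ω → ℝ) (w : (Fin n → ℝ) → Ω → Ω' → ℝ) : Prop where
  npos : 0 < n
  ν_nonneg : ∀ p, 0 ≤ ν p
  ν_sum : ∑ p, ν p = 1
  w_nonneg : ∀ z p y, 0 ≤ w z p y
  w_sum : ∀ z p, ∑ y, w z p y = 1
  w_meas : ∀ p y, Measurable fun z => w z p y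

variable {ν : Ω → ℝ} {w : (Fin n → ℝ) → Ω → Ω' → ℝ}

lemma SiteWts.w_le (H : SiteWts ν w) (z : Fin n → ℝ) (p : Ω) (y : Ω') : w z p y ≤ 1 :=
  (Finset.single_le_sum (fun y _ => H.w_nonneg z p y) (Finset.mem_univ y)).trans_eq (H.w_sum z p)

lemma SiteWts.piece {E : Type*} [NormedAddCommGroup E] [NormedSpace ℝ E] (H : SiteWts ν w) (e : Fin n × Ω × Ω')
    {F : (Fin n × Ω × Ω') × (Fin n → ℝ) → E} (hF : StronglyMeasurable F) :
    (Integrable F (((gauss (Fin n)).withDensity fun z => ENNReal.ofReal (ν e.2.1 * w z e.2.1 e.2.2 / n)).map fun z => (e, z)) ↔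
      Integrable (fun z => (ν e.2.1 * w z e.2.1 e.2.2 / n) • F (e, z)) (gauss (Fin n))) ∧
    ∫ x, F x ∂(((gauss (Fin n)).withDensity fun z => ENNReal.ofReal (ν e.2.1 * w z e.2.1 e.2.2 / n)).map fun z => (e, z)) =
      ∫ z, (ν e.2.1 * w z e.2.1 e.2.2 / n) • F (e, z) ∂gauss (Fin n) := by
  have hm : Measurable fun z : Fin n → ℝ => (e, z) := measurable_const.prodMk measurable_id
  have hd : Measurable fun z => ENNReal.ofReal (ν e.2.1 * w z e.2.1 e.2.2 / n) :=
    ((((H.w_meas e.2.1 e.2.2).const_mul _).div_const _)).ennreal_ofReal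
  have h0 : ∀ z, (ENNReal.ofReal (ν e.2.1 * w z e.2.1 e.2.2 / n)).toReal = ν e.2.1 * w z e.2.1 e.2.2 / n := fun z =>
    ENNReal.toReal_ofReal (div_nonneg (mul_nonneg (H.ν_nonneg _) (H.w_nonneg _ _ _)) (Nat.cast_nonneg n))
  constructor
  · rw [integrable_map_measure hF.aestronglyMeasurable hm.aemeasurable,
      integrable_withDensity_iff_integrable_smul' hd (ae_of_all _ fun _ => ENNReal.ofReal_lt_top)]
    simp only [h0, Function.comp_def]
  · rw [integral_map hm.aemeasurable hF.aestronglyMeasurable,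
      integral_withDensity_eq_integral_toReal_smul hd (ae_of_all _ fun _ => ENNReal.ofReal_lt_top)]
    simp only [h0]

lemma SiteWts.integrable {E : Type*} [NormedAddCommGroup E] [NormedSpace ℝ E] (H : SiteWts ν w)
    {F : (Fin n × Ω × Ω') × (Fin n → ℝ) → E} (hF : StronglyMeasurable F)
    (hi : ∀ e, Integrable (fun z => F (e, z)) (gauss (Fin n))) : Integrable F (siteLaw ν w) := by
  refine integrable_finsetSum_measure.2 fun e _ => (H.piece e hF).1.2 ?_
  refine (hi e).bdd_smul (|ν e.2.1| / n) (((H.w_meas _ _).const_mul _).div_const _).aestronglyMeasurable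
    (ae_of_all _ fun z => ?_)
  rw [Real.norm_eq_abs, abs_div, abs_mul, Nat.abs_cast]
  refine div_le_div_of_nonneg_right (mul_le_of_le_one_right (abs_nonneg _) ?_) (Nat.cast_nonneg n)
  rw [abs_of_nonneg (H.w_nonneg _ _ _)]; exact H.w_le _ _ _

/-- integrals under the law of a site -/
theorem SiteWts.integral_eq {E : Type*} [NormedAddCommGroup E] [NormedSpace ℝ E] (H : SiteWts ν w)
    {F : (Fin n × Ω × Ω') × (Fin n → ℝ) → E} (hF : StronglyMeasurable F)
    (hi : ∀ e, Integrable (fun z => F (e, z)) (gauss (Fin n))) :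
    ∫ x, F x ∂siteLaw ν w =
      ∫ z, ∑ p, ∑ y, ∑ i, (ν p * w z p y / n) • F ((i, p, y), z) ∂gauss (Fin n) := by
  have h := integrable_finsetSum_measure.1 (H.integrable hF hi)
  have hterm := fun e => (H.piece e hF).1.1 (h e (Finset.mem_univ e))
  rw [siteLaw, integral_finsetSum_measure h, Finset.sum_congr rfl fun e _ => (H.piece e hF).2,
    ← integral_finsetSum _ fun e _ => hterm e]
  refine integral_congr_ae (ae_of_all _ fun z => ?_)
  simp only
  rw [Fintype.sum_prod_type, Finset.sum_comm, Fintype.sum_prod_type]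

theorem SiteWts.isProbability (H : SiteWts ν w) : IsProbabilityMeasure (siteLaw ν w) := by
  have hn : (n : ℝ) ≠ 0 := Nat.cast_ne_zero.2 H.npos.ne'
  have hf : IsFiniteMeasure (siteLaw ν w) := by
    have hi := H.integrable (F := fun _ => (1 : ℝ)) stronglyMeasurable_const fun _ => integrable_const _
    exact ⟨by simpa [HasFiniteIntegral] using hi.hasFiniteIntegral⟩
  have h := H.integral_eq (F := fun _ => (1 : ℝ)) stronglyMeasurable_const fun _ => integrable_const _
  simp only [integral_const, smul_eq_mul, mul_one, Finset.sum_const, Finset.card_univ, Fintype.card_fin,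
    nsmul_eq_mul, mul_div_cancel₀ _ hn, ← Finset.mul_sum, H.w_sum, H.ν_sum, probReal_univ] at h
  exact ⟨by rw [← ofReal_measureReal (measure_ne_top _ _), h, ENNReal.ofReal_one]⟩

/-- the noise at the site is standard Gaussian given the observed spin -/
theorem SiteWts.gauss_marginal (H : SiteWts ν w) (σ : Ω → Fin n → Bool) (γ : ℝ) (c : Bool) :
    ∫ x in {x | σ x.1.2.1 x.1.1 = c}, cexp (I * ((γ * x.2 x.1.1 : ℝ) : ℂ)) ∂siteLaw ν w =
      ((siteLaw ν w).real {x | σ x.1.2.1 x.1.1 = c} : ℂ) * ((Real.exp (-(γ ^ 2 / 2)) : ℝ) : ℂ) := by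
  have := H.isProbability
  set S : Set ((Fin n × Ω × Ω') × (Fin n → ℝ)) := {x | σ x.1.2.1 x.1.1 = c}
  have hS : MeasurableSet S := by
    have : S = (fun x => x.1) ⁻¹' {e : Fin n × Ω × Ω' | σ e.2.1 e.1 = c} := rfl
    rw [this]; exact measurable_fst (Set.toFinite _).measurableSet
  have hev : Measurable fun x : (Fin n × Ω × Ω') × (Fin n → ℝ) => x.2 x.1.1 :=
    measurable_from_prod_countable_right fun e => measurable_pi_apply e.1
  set f := fun x : (Fin n × Ω × Ω') × (Fin n → ℝ) => cexp (I * ((γ * x.2 x.1.1 : ℝ) : ℂ))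
  have hfm : StronglyMeasurable (S.indicator f) := by
    refine (Measurable.indicator ?_ hS).stronglyMeasurable
    exact measurable_exp.comp ((measurable_ofReal.comp (hev.const_mul γ)).const_mul I)
  have hfi : ∀ e, Integrable (fun z => S.indicator f (e, z)) (gauss (Fin n)) := fun e =>
    Integrable.of_bound (hfm.comp_measurable (measurable_const.prodMk measurable_id)).aestronglyMeasurable 1
      (ae_of_all _ fun z => (norm_indicator_le_norm_self _ _).trans (le_of_eq (by
        simp only [f]; rw [mul_comm I]; exact norm_exp_ofReal_mul_I _)))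
  rw [← integral_indicator hS, H.integral_eq hfm hfi]
  have h1 := H.integral_eq (F := S.indicator fun _ => (1 : ℝ)) (stronglyMeasurable_const.indicator hS) fun e =>
    Integrable.of_bound ((stronglyMeasurable_const.indicator hS).comp_measurable (measurable_const.prodMk measurable_id)).aestronglyMeasurable 1
      (ae_of_all _ fun z => (norm_indicator_le_norm_self _ _).trans (by simp))
  rw [integral_indicator hS, setIntegral_const, smul_eq_mul, mul_one] at h1
  have hone : ∀ i : Fin n, ∫ z, cexp (I * ((γ * z i : ℝ) : ℂ)) ∂gauss (Fin n) = ((Real.exp (-(γ ^ 2 / 2)) : ℝ) : ℂ) := by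
    intro i
    have hp : MeasurePreserving (Function.eval i) (gauss (Fin n)) (gaussianReal 0 1) := measurePreserving_eval _ i
    have := integral_map (μ := gauss (Fin n)) hp.measurable.aemeasurable
      (f := fun u : ℝ => cexp (I * ((γ * u : ℝ) : ℂ))) (by fun_prop)
    rw [hp.map_eq] at this
    refine this.symm.trans ?_
    have hc := charFun_gaussianReal (μ := 0) (v := 1) γ
    rw [charFun_apply_real] at hc
    refine (Eq.trans ?_ hc).trans ?_
    · exact integral_congr_ae (ae_of_all _ fun u => by congr 1; push_cast; ring)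
    · rw [Complex.ofReal_exp]; congr 1; simp
  classical
  set g := fun p i => if σ p i = c then ν p / n else 0 with hg
  have eL : ∀ z, (∑ p, ∑ y, ∑ i, (ν p * w z p y / n) • S.indicator f ((i, p, y), z)) =
      ∑ p, ∑ i, (g p i : ℂ) * cexp (I * ((γ * z i : ℝ) : ℂ)) := fun z => by
    refine Finset.sum_congr rfl fun p _ => ?_
    rw [Finset.sum_comm]
    refine Finset.sum_congr rfl fun i _ => ?_
    simp only [Set.indicator, S, Set.mem_ofPred_eq, hg, f, Complex.real_smul]
    split_ifs
    · rw [← Finset.sum_mul, ← ofReal_sum, ← Finset.sum_div, ← Finset.mul_sum, H.w_sum, mul_one]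
    · simp
  have eR : ∀ z, (∑ p, ∑ y, ∑ i, (ν p * w z p y / n) • S.indicator (fun _ => (1 : ℝ)) ((i, p, y), z)) =
      ∑ p, ∑ i, g p i := fun z => by
    refine Finset.sum_congr rfl fun p _ => ?_
    rw [Finset.sum_comm]
    refine Finset.sum_congr rfl fun i _ => ?_
    simp only [Set.indicator, S, Set.mem_ofPred_eq, hg, smul_eq_mul]
    split_ifs
    · rw [← Finset.sum_mul, ← Finset.sum_div, ← Finset.mul_sum, H.w_sum, mul_one, mul_one]
    · simp
  simp only [eR, integral_const, probReal_univ, one_smul] at h1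
  rw [integral_congr_ae (ae_of_all _ eL), h1, ofReal_sum, Finset.sum_mul]
  have hint : ∀ i : Fin n, Integrable (fun z : Fin n → ℝ => cexp (I * ((γ * z i : ℝ) : ℂ))) (gauss (Fin n)) := fun i =>
    Integrable.of_bound (show Continuous fun z : Fin n → ℝ => cexp (I * ((γ * z i : ℝ) : ℂ)) by fun_prop).aestronglyMeasurable 1
      (ae_of_all _ fun z => le_of_eq (by rw [mul_comm I]; exact norm_exp_ofReal_mul_I _))
  rw [integral_finsetSum _ fun p _ => integrable_finsetSum _ fun i _ => (hint i).const_mul _]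
  refine Finset.sum_congr rfl fun p _ => ?_
  rw [integral_finsetSum _ fun i _ => (hint i).const_mul _, ofReal_sum, Finset.sum_mul]
  exact Finset.sum_congr rfl fun i _ => by rw [integral_const_mul, hone]

end Vale.Agent.P150.PA.MmseLaw
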