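import Vale.Agent.P150.PA.MmseTests
import Vale.Agent.P150.PA.Law

/-! The analytic half of the bound on posterior means: the field identity and the channel identity on the
law of a site identify the pair (cavity field, noise) as Gaussian, and the overlap as the fixed point. -/

open MeasureTheory ProbabilityTheory Filter Complex
open scoped Topology

namespace Vale.Agent.P150.PA

open Ising

namespace MmseLaw

variable {Θ : Type*} [MeasurableSpace Θ] {ρ : Measure Θ}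

lemma sq_bound (x y : ℝ) : (1 + |x| + |y|) ^ 2 ≤ 3 * (1 + x ^ 2 + y ^ 2) := by
  nlinarith [sq_nonneg (|x| - 1), sq_nonneg (|y| - 1), sq_nonneg (|x| - |y|), sq_abs x, sq_abs y]

lemma lin_bound (x y : ℝ) : 1 + |x| + |y| ≤ 3 * (1 + x ^ 2 + y ^ 2) :=
  le_trans (by nlinarith [abs_nonneg x, abs_nonneg y]) (sq_bound x y)

/-- functions bounded by a multiple of `1 + a² + z²` -/
lemma int_le [IsFiniteMeasure ρ] {a z : Θ → ℝ} (h2 : Integrable (fun θ => a θ ^ 2 + z θ ^ 2) ρ) {M : ℝ}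
    (hM : ∫ θ, 1 + a θ ^ 2 + z θ ^ 2 ∂ρ ≤ M) {f : Θ → ℂ} (hf : Measurable f) {C : ℝ} (hC : 0 ≤ C)
    (hb : ∀ θ, ‖f θ‖ ≤ C * (1 + a θ ^ 2 + z θ ^ 2)) : Integrable f ρ ∧ ‖∫ θ, f θ ∂ρ‖ ≤ C * M := by
  have hi : Integrable (fun θ => C * (1 + a θ ^ 2 + z θ ^ 2)) ρ := by
    refine (((integrable_const (1:ℝ)).add h2).const_mul C).congr (Eventually.of_forall fun θ => ?_)
    simp only [Pi.add_apply]; ring
  have hfi := hi.mono' hf.aestronglyMeasurable (Eventually.of_forall hb)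
  refine ⟨hfi, (norm_integral_le_integral_norm _).trans ((integral_mono hfi.norm hi hb).trans ?_)⟩
  rw [integral_const_mul]
  exact mul_le_mul_of_nonneg_left hM hC

lemma norm_exp_sub_one (x : ℂ) : ‖cexp x - 1‖ ≤ ‖x‖ * Real.exp ‖x‖ := by
  have hd : ∀ s : ℝ, HasDerivAt (fun u : ℝ => cexp ((u : ℂ) * x)) (cexp ((s : ℂ) * x) * (1 * x)) s := fun s =>
    ((hasDerivAt_id s).ofReal_comp.mul_const x).cexp
  have h := Stein.lip_of_deriv (C := ‖x‖ * Real.exp ‖x‖) (convex_Icc (0:ℝ) 1) (fun s hs => ⟨_, hd s, by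
    rw [one_mul, norm_mul, mul_comm, norm_exp]
    refine mul_le_mul_of_nonneg_left (Real.exp_le_exp.2 ?_) (norm_nonneg _)
    refine (le_abs_self _).trans ((abs_re_le_norm _).trans ?_)
    rw [norm_mul, norm_real, Real.norm_of_nonneg hs.1]
    exact mul_le_of_le_one_left (norm_nonneg _) hs.2⟩) (Set.left_mem_Icc.2 zero_le_one) (Set.right_mem_Icc.2 zero_le_one)
  simpa using h

/-- the constant of one frequency -/
noncomputable def freqC (R : ℝ) : ℝ := Real.exp (((1 + R) ^ 2 + 1) / 2)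

lemma one_le_freqC (R : ℝ) : 1 ≤ freqC R := Real.one_le_exp (by positivity)

/-- frequency `±1 + iα` -/
def freq (e : Bool) (α : ℝ) : ℂ := ⟨spin e, α⟩

lemma freq_exponent_le {R α : ℝ} (hα : |α| ≤ R) (e : Bool) :
    ‖(freq e α ^ 2 - 1) / 2‖ ≤ ((1 + R) ^ 2 + 1) / 2 := by
  have h1 : ‖freq e α‖ ≤ 1 + R := by
    refine (norm_le_abs_re_add_abs_im _).trans ?_
    cases e <;> simpa [freq, spin] using hα
  rw [norm_div, show ‖(2:ℂ)‖ = 2 by simp]
  refine div_le_div_of_nonneg_right ((norm_sub_le _ _).trans ?_) two_pos.le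
  rw [norm_pow, norm_one]
  exact add_le_add (pow_le_pow_left₀ (norm_nonneg _) h1 2) le_rfl

/-- the coefficient of a frequency -/
noncomputable def coef0 (o₀ : ℝ) (e : Bool) (α : ℝ) : ℂ := cexp (-((o₀ : ℂ) * ((freq e α ^ 2 - 1) / 2)))

lemma norm_coef0_le {o₀ R α : ℝ} (ho : |o₀| ≤ 1) (hα : |α| ≤ R) (e : Bool) : ‖coef0 o₀ e α‖ ≤ freqC R := by
  rw [coef0, norm_exp]
  refine Real.exp_le_exp.2 ((le_abs_self _).trans ((abs_re_le_norm _).trans ?_))
  rw [norm_neg, norm_mul, norm_real, Real.norm_eq_abs]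
  exact (mul_le_of_le_one_left (norm_nonneg _) ho).trans (freq_exponent_le hα e)

lemma coef0_close {o o₀ R α : ℝ} (ho : 0 ≤ o ∧ o ≤ 1) (ho₀ : 0 ≤ o₀ ∧ o₀ ≤ 1) (hα : |α| ≤ R) (e : Bool) :
    ‖coef0 o₀ e α * cexp ((o : ℂ) * freq e α ^ 2 / 2) - cexp ((o : ℂ) / 2)‖ ≤ 2 * freqC R ^ 2 * |o - o₀| := by
  set w := (freq e α ^ 2 - 1) / 2
  have e1 : coef0 o₀ e α * cexp ((o : ℂ) * freq e α ^ 2 / 2) - cexp ((o : ℂ) / 2) =
      cexp ((o : ℂ) / 2) * (cexp (((o - o₀ : ℝ) : ℂ) * w) - 1) := by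
    rw [coef0, mul_sub, ← Complex.exp_add, ← Complex.exp_add, mul_one]
    congr 2
    simp only [w]; push_cast; ring
  have hd : |o - o₀| ≤ 1 := abs_le.2 ⟨by linarith [ho.1, ho₀.2], by linarith [ho.2, ho₀.1]⟩
  have hw := freq_exponent_le hα e
  have h2 : ‖cexp ((o : ℂ) / 2)‖ ≤ 2 := by
    rw [norm_exp, show ((o : ℂ) / 2).re = o / 2 by simp]
    calc Real.exp (o / 2) ≤ Real.exp (1 / 2) := Real.exp_le_exp.2 (by linarith [ho.2])
      _ ≤ 1 / (1 - 1 / 2) := Real.exp_bound_div_one_sub_of_interval (by norm_num) (by norm_num)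
      _ = 2 := by norm_num
  have h3 : ‖((o - o₀ : ℝ) : ℂ) * w‖ ≤ |o - o₀| * (((1 + R) ^ 2 + 1) / 2) := by
    rw [norm_mul, norm_real, Real.norm_eq_abs]; exact mul_le_mul_of_nonneg_left hw (abs_nonneg _)
  have h4 : Real.exp ‖((o - o₀ : ℝ) : ℂ) * w‖ ≤ freqC R :=
    Real.exp_le_exp.2 (h3.trans (mul_le_of_le_one_left (by positivity) hd))
  have h5 : ((1 + R) ^ 2 + 1) / 2 ≤ freqC R := (le_add_of_nonneg_right zero_le_one).trans (Real.add_one_le_exp _)
  rw [e1, norm_mul]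
  refine (mul_le_mul h2 ((norm_exp_sub_one _).trans (mul_le_mul (h3.trans (mul_le_mul_of_nonneg_left h5 (abs_nonneg _))) h4
    (Real.exp_pos _).le (mul_nonneg (abs_nonneg _) (zero_le_one.trans (one_le_freqC R))))) (norm_nonneg _) two_pos.le).trans (le_of_eq ?_)
  ring

variable {t L : ℝ} {c : Bool}

/-- the Stein factor applied to a weight, at a site -/
lemma wgt_sfac (ht : 0 < t) (hL : 0 < L) (e : Bool) (j : Fin 4) (α γ α' o h a z : ℝ) :
    wgt t L c e j α γ a (obsY t c z) * sfac o (freq e α') h a (obsY t c z) =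
      ((cut L a * cut L (obsY t c z) * Pfac j a z (obsY t c z) : ℝ) : ℂ) * osc α γ a z *
          cexp (((α' * (h - a) : ℝ) : ℂ) * I) * (((1 + spin e * Real.tanh (h + obsY t c z)) / 2 : ℝ) : ℂ) -
        wgt t L c e j α γ a (obsY t c z) * (((Real.cosh (h + obsY t c z) * Real.cosh (a + obsY t c z))⁻¹ : ℝ) : ℂ) *
          cexp ((o : ℂ) * freq e α' ^ 2 / 2) := by
  set y := obsY t c z with hy
  rw [sfac, mul_sub, mul_sub, ← mul_assoc, ← mul_assoc]
  congr 1
  have hw := wgt_eq ht hL c e j α γ a z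
  rw [← hy] at hw
  have hk : cexp (freq e α' * ((h - a : ℝ) : ℂ)) =
      ((Real.exp (spin e * (h - a)) : ℝ) : ℂ) * cexp (((α' * (h - a) : ℝ) : ℂ) * I) := by
    rw [ofReal_exp, ← Complex.exp_add, freq, mk_eq_add_mul_I]
    congr 1; push_cast; ring
  have hE : Real.exp (spin e * (a + y)) * Real.exp (spin e * (h - a)) =
      Real.cosh (h + y) * (1 + spin e * Real.tanh (h + y)) := by
    rw [← Real.exp_add, mul_comm (spin e) (Real.tanh _), ← exp_spin]; congr 1; ring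
  have h1 := (Real.cosh_pos (h + y)).ne'
  have h2 := (Real.cosh_pos (a + y)).ne'
  have key : cut L a * cut L y * (Pfac j a z y * Real.exp (spin e * (a + y)) * Real.cosh (a + y) / 2) *
      (Real.cosh (h + y) * Real.cosh (a + y))⁻¹ * Real.exp (spin e * (h - a)) =
      cut L a * cut L y * Pfac j a z y * ((1 + spin e * Real.tanh (h + y)) / 2) := by
    rw [show cut L a * cut L y * (Pfac j a z y * Real.exp (spin e * (a + y)) * Real.cosh (a + y) / 2) *
      (Real.cosh (h + y) * Real.cosh (a + y))⁻¹ * Real.exp (spin e * (h - a)) =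
      cut L a * cut L y * Pfac j a z y * (Real.exp (spin e * (a + y)) * Real.exp (spin e * (h - a))) *
        (Real.cosh (a + y) / (2 * (Real.cosh (h + y) * Real.cosh (a + y)))) by ring, hE]
    field_simp
  rw [hw, hk]
  have key' := congrArg (fun r : ℝ => (r : ℂ)) key
  simp only [ofReal_mul] at key' ⊢
  linear_combination (osc α γ a z * cexp ((α' : ℂ) * ((h - a : ℝ) : ℂ) * I)) * key'

/-- the combined test -/
noncomputable def comb (t : ℝ) (c : Bool) (o₀ α γ h z : ℝ) : ℂ :=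
  coef0 o₀ true α * psiC t c true α γ h z + coef0 o₀ false α * psiC t c false α γ h z

lemma norm_psiC_le (e : Bool) (α γ h z : ℝ) : ‖psiC t c e α γ h z‖ ≤ 1 := by
  have he : |spin e| = 1 := by cases e <;> simp [spin]
  rw [psiC, opol, norm_mul, norm_osc, one_mul]
  refine (norm_tpol_le _ _ _ _).trans ?_
  rw [norm_div, norm_div, norm_real, Real.norm_eq_abs, he]
  norm_num

lemma norm_comb_le {o₀ R α : ℝ} (ho : |o₀| ≤ 1) (hα : |α| ≤ R) (γ h z : ℝ) :
    ‖comb t c o₀ α γ h z‖ ≤ 2 * freqC R := by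
  refine (norm_add_le _ _).trans ?_
  rw [norm_mul, norm_mul, two_mul]
  exact add_le_add ((mul_le_of_le_one_right (norm_nonneg _) (norm_psiC_le ..)).trans (norm_coef0_le ho hα _))
    ((mul_le_of_le_one_right (norm_nonneg _) (norm_psiC_le ..)).trans (norm_coef0_le ho hα _))

lemma measurable_opol {h z : Θ → ℝ} (hh : Measurable h) (hz : Measurable z) (c : Bool) (α γ : ℝ) (c₀ c₁ c₂ : ℂ) :
    Measurable fun θ => opol t c α γ c₀ c₁ c₂ (h θ) (z θ) :=
  have H := (continuous_opol t c α γ c₀ c₁ c₂).measurable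
  have H2 := H.comp (hh.prodMk hz)
  by simpa only [Function.comp_def] using H2

lemma measurable_obsY {z : Θ → ℝ} (hz : Measurable z) : Measurable fun θ => obsY t c (z θ) := by
  unfold obsY; fun_prop

lemma measurable_sfac {h a z o : Θ → ℝ} (hh : Measurable h) (ha : Measurable a) (hz : Measurable z)
    (ho : Measurable o) (k : ℂ) : Measurable fun θ => sfac (o θ) k (h θ) (a θ) (obsY t c (z θ)) := by
  have : Continuous fun q : ℝ × ℝ × ℝ × ℝ => sfac q.1 k q.2.1 q.2.2.1 q.2.2.2 := by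
    unfold sfac
    refine (continuous_ofReal.comp (Continuous.inv₀ (by fun_prop) fun q =>
      (mul_pos (Real.cosh_pos _) (Real.cosh_pos _)).ne')).mul (by fun_prop)
  have H := this.measurable
  have H2 := H.comp (ho.prodMk (hh.prodMk (ha.prodMk (measurable_obsY (t := t) (c := c) hz))))
  simpa only [Function.comp_def] using H2

lemma measurable_Pfac {a z : Θ → ℝ} (ha : Measurable a) (hz : Measurable z) (j : Fin 4) :
    Measurable fun θ => (Pfac j (a θ) (z θ) (obsY t c (z θ)) : ℂ) := by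
  have hy := measurable_obsY (t := t) (c := c) hz
  have := continuous_tanh'.measurable
  refine measurable_ofReal.comp ?_
  unfold Pfac
  fin_cases j <;>
    simp only [Fin.zero_eta, Fin.mk_one, Fin.reduceFinMk, Matrix.cons_val, Matrix.cons_val_zero, Matrix.cons_val_one] <;>
    fun_prop

lemma continuous_wgt {W : ℝ → ℝ → ℂ} {C : ℝ} (hW : BLip W C) : Continuous fun q : ℝ × ℝ => W q.1 q.2 := by
  refine (LipschitzWith.of_dist_le_mul (K := Real.toNNReal (2 * C)) fun p q => ?_).continuous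
  rw [dist_eq_norm, Real.coe_toNNReal _ (by linarith [hW.nonneg]), mul_comm 2 C, mul_assoc]
  refine (hW.2 _ _ _ _).trans (mul_le_mul_of_nonneg_left ?_ hW.nonneg)
  rw [two_mul]
  exact add_le_add (by rw [← Real.dist_eq]; exact le_max_left _ _) (by rw [← Real.dist_eq]; exact le_max_right _ _)

/-- everything used about the restriction of the law of a site to one value of the observed spin -/
structure Site (ρ : Measure Θ) (t L δ M : ℝ) (c : Bool) (o₀ : ℝ) (h a z o : Θ → ℝ) : Prop where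
  ht : 0 < t
  hL : 1 ≤ L
  mh : Measurable h
  ma : Measurable a
  mz : Measurable z
  mo : Measurable o
  o_mem : ∀ θ, 0 ≤ o θ ∧ o θ ≤ 1
  o₀_mem : 0 ≤ o₀ ∧ o₀ ≤ 1
  sq : Integrable (fun θ => a θ ^ 2 + z θ ^ 2) ρ
  mom : ∫ θ, 1 + a θ ^ 2 + z θ ^ 2 ∂ρ ≤ M
  o_close : ∫ θ, |o θ - o₀| ∂ρ ≤ δ

variable {δ M o₀ : ℝ} {h a z o : Θ → ℝ}

lemma Site.M_nonneg (S : Site ρ t L δ M c o₀ h a z o) : 0 ≤ M :=
  (integral_nonneg fun θ => by positivity).trans S.mom

lemma Site.wgt_bound (S : Site ρ t L δ M c o₀ h a z o) (e : Bool) (j : Fin 4) (α γ : ℝ) (θ : Θ) :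
    ‖wgt t L c e j α γ (a θ) (obsY t c (z θ)) *
      (((Real.cosh (h θ + obsY t c (z θ)) * Real.cosh (a θ + obsY t c (z θ)))⁻¹ : ℝ) : ℂ)‖ ≤ wC t L c e j α γ := by
  rw [norm_mul, norm_real, Real.norm_of_nonneg (by positivity)]
  refine mul_le_of_le_one_right (norm_nonneg _) (inv_le_one_of_one_le₀ ?_) |>.trans ((blip_wgt S.hL c e j α γ).1 _ _)
  nlinarith [Real.one_le_cosh (h θ + obsY t c (z θ)), Real.one_le_cosh (a θ + obsY t c (z θ))]

lemma Site.int_sfac [IsFiniteMeasure ρ] (S : Site ρ t L δ M c o₀ h a z o) (e : Bool) (j : Fin 4) (α γ α' : ℝ) :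
    Integrable (fun θ => wgt t L c e j α γ (a θ) (obsY t c (z θ)) * sfac (o θ) (freq e α') (h θ) (a θ) (obsY t c (z θ))) ρ := by
  have hm : Measurable fun θ => wgt t L c e j α γ (a θ) (obsY t c (z θ)) *
      sfac (o θ) (freq e α') (h θ) (a θ) (obsY t c (z θ)) :=
    ((continuous_wgt (blip_wgt S.hL c e j α γ)).measurable.comp (S.ma.prodMk (measurable_obsY S.mz))).mul
      (measurable_sfac S.mh S.ma S.mz S.mo _)
  refine (int_le S.sq S.mom hm (C := 3 * (1 + |t|) + wC t L c e j α γ * Real.exp ((1 + (|α'| + 1) ^ 2) / 2))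
    (by have := (blip_wgt (t := t) S.hL c e j α γ).nonneg; positivity) fun θ => ?_).1
  rw [wgt_sfac S.ht (zero_lt_one.trans_le S.hL)]
  refine (norm_sub_le _ _).trans ?_
  have h1 : ‖((cut L (a θ) * cut L (obsY t c (z θ)) * Pfac j (a θ) (z θ) (obsY t c (z θ)) : ℝ) : ℂ) * osc α γ (a θ) (z θ) *
      cexp (((α' * (h θ - a θ) : ℝ) : ℂ) * I) * (((1 + spin e * Real.tanh (h θ + obsY t c (z θ))) / 2 : ℝ) : ℂ)‖ ≤
      3 * (1 + |t|) * (1 + a θ ^ 2 + z θ ^ 2) := by
    rw [norm_mul, norm_mul, norm_mul, norm_osc, norm_exp_ofReal_mul_I, mul_one, mul_one, norm_real, norm_real,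
      Real.norm_eq_abs, Real.norm_eq_abs]
    have hc1 := cut_mem (zero_lt_one.trans_le S.hL) (a θ)
    have hc2 := cut_mem (zero_lt_one.trans_le S.hL) (obsY t c (z θ))
    have hT := abs_le.1 (abs_tanh_le_one' (h θ + obsY t c (z θ)))
    have h2 : |(1 + spin e * Real.tanh (h θ + obsY t c (z θ))) / 2| ≤ 1 := by
      cases e <;> simp [spin, abs_le] <;> constructor <;> linarith
    refine (mul_le_of_le_one_right (abs_nonneg _) h2).trans ?_
    rw [abs_mul, abs_of_nonneg (mul_nonneg hc1.1 hc2.1)]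
    refine ((mul_le_of_le_one_left (abs_nonneg _) (mul_le_one₀ hc1.2 hc2.1 hc2.2)).trans (abs_Pfac_le ..)).trans
      ((lin_bound _ _).trans ?_)
    refine mul_le_mul_of_nonneg_right ?_ (by positivity)
    linarith [abs_nonneg t]
  rw [add_mul]
  refine add_le_add h1 ?_
  rw [norm_mul, norm_exp, mul_assoc]
  refine mul_le_mul (S.wgt_bound e j α γ θ) ?_ (Real.exp_pos _).le (blip_wgt S.hL c e j α γ).nonneg
  refine (Real.exp_le_exp.2 ?_).trans (le_mul_of_one_le_right (Real.exp_pos _).le (by linarith [sq_nonneg (a θ), sq_nonneg (z θ)]))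
  refine (le_abs_self _).trans ((abs_re_le_norm _).trans ?_)
  rw [norm_div, norm_mul, norm_pow, norm_real, Real.norm_of_nonneg (S.o_mem θ).1, show ‖(2:ℂ)‖ = 2 by simp]
  have hf : ‖freq e α'‖ ≤ |α'| + 1 := by
    refine (norm_le_abs_re_add_abs_im _).trans (le_of_eq ?_)
    cases e <;> simp [freq, spin, add_comm]
  refine div_le_div_of_nonneg_right ((mul_le_of_le_one_left (by positivity) (S.o_mem θ).2).trans ?_) two_pos.le
  linarith [pow_le_pow_left₀ (norm_nonneg _) hf 2]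

/-- replacing the tests by their Gaussian values, one factor -/
lemma Site.swap [IsFiniteMeasure ρ] (S : Site ρ t L δ M c o₀ h a z o) (hρ : ρ.real Set.univ ≤ 1) {R α γ : ℝ}
    (hα : |α| ≤ R) (j : Fin 4) {CW : ℝ} (hCW : ∀ e, wC t L c e j α γ ≤ CW)
    (hblock : ∀ e α', α' = α ∨ α' = 0 → ‖∫ θ, wgt t L c e j α γ (a θ) (obsY t c (z θ)) *
      sfac (o θ) (freq e α') (h θ) (a θ) (obsY t c (z θ)) ∂ρ‖ ≤ 2 * δ) :
    ‖∫ θ, (Pfac j (a θ) (z θ) (obsY t c (z θ)) : ℂ) * (comb t c o₀ α γ (h θ) (z θ) - osc α γ (a θ) (z θ)) ∂ρ‖ ≤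
      (4 * freqC R + 4 + 4 * CW * freqC R ^ 2) * δ + 3 * (1 + t) * (2 * freqC R + 1) / L * M := by
  have hL0 : 0 < L := zero_lt_one.trans_le S.hL
  have hE : 0 ≤ freqC R := zero_le_one.trans (one_le_freqC R)
  have hCW0 : 0 ≤ CW := (blip_wgt S.hL c true j α γ).nonneg.trans (hCW true)
  have ho1 : |o₀| ≤ 1 := by rw [abs_of_nonneg S.o₀_mem.1]; exact S.o₀_mem.2
  set X := fun θ => (Pfac j (a θ) (z θ) (obsY t c (z θ)) : ℂ) * (comb t c o₀ α γ (h θ) (z θ) - osc α γ (a θ) (z θ))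
  set B := fun (e : Bool) (α' : ℝ) θ =>
    wgt t L c e j α γ (a θ) (obsY t c (z θ)) * sfac (o θ) (freq e α') (h θ) (a θ) (obsY t c (z θ))
  set E := fun θ => X θ - (coef0 o₀ true α * B true α θ + coef0 o₀ false α * B false α θ - B true 0 θ - B false 0 θ)
  have hB : ∀ e α', Integrable (B e α') ρ := fun e α' => S.int_sfac e j α γ α'
  have hEb : ∀ θ, ‖E θ‖ ≤ 3 * (1 + t) * (2 * freqC R + 1) / L * (1 + a θ ^ 2 + z θ ^ 2) +
      4 * CW * freqC R ^ 2 * |o θ - o₀| := by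
    intro θ
    set y := obsY t c (z θ) with hy
    set χ := cut L (a θ) * cut L y
    set V := fun e => wgt t L c e j α γ (a θ) y * (((Real.cosh (h θ + y) * Real.cosh (a θ + y))⁻¹ : ℝ) : ℂ)
    have e0 : ∀ e, cexp ((o θ : ℂ) * freq e 0 ^ 2 / 2) = cexp ((o θ : ℂ) / 2) := fun e => by
      have : freq e 0 ^ 2 = 1 := by
        rw [freq, mk_eq_add_mul_I]; cases e <;> simp [spin]
      rw [this, mul_one]
    have eα : osc α γ (a θ) (z θ) * cexp (((α * (h θ - a θ) : ℝ) : ℂ) * I) = osc α γ (h θ) (z θ) := by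
      rw [osc, osc, ← Complex.exp_add]; congr 1; push_cast; ring
    have eE : E θ = ((1 - χ : ℝ) : ℂ) * X θ +
        (V true * (coef0 o₀ true α * cexp ((o θ : ℂ) * freq true α ^ 2 / 2) - cexp ((o θ : ℂ) / 2)) +
          V false * (coef0 o₀ false α * cexp ((o θ : ℂ) * freq false α ^ 2 / 2) - cexp ((o θ : ℂ) / 2))) := by
      simp only [E, B, wgt_sfac S.ht hL0, ← hy, zero_mul, ofReal_zero, Complex.exp_zero, mul_one, e0, X, comb, psiC,
        opol, tpol, V, χ]
      rw [mul_assoc _ (osc α γ (a θ) (z θ)) (cexp _), eα]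
      simp only [spin, if_true, Bool.false_eq_true, if_false]
      push_cast
      ring
    have hV : ∀ e, ‖V e * (coef0 o₀ e α * cexp ((o θ : ℂ) * freq e α ^ 2 / 2) - cexp ((o θ : ℂ) / 2))‖ ≤
        CW * (2 * freqC R ^ 2 * |o θ - o₀|) := fun e => by
      rw [norm_mul]
      exact mul_le_mul ((S.wgt_bound e j α γ θ).trans (hCW e)) (coef0_close (S.o_mem θ) S.o₀_mem hα e)
        (norm_nonneg _) hCW0
    have hX : ‖((1 - χ : ℝ) : ℂ) * X θ‖ ≤ 3 * (1 + t) * (2 * freqC R + 1) / L * (1 + a θ ^ 2 + z θ ^ 2) := by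
      have hc1 := cut_mem hL0 (a θ)
      have hc2 := cut_mem hL0 y
      have hy' : |y| ≤ (1 + t) * (1 + |z θ|) := by
        rw [hy, obsY]
        refine (abs_add_le _ _).trans ?_
        rw [abs_mul, abs_mul, abs_of_nonneg S.ht.le, abs_of_nonneg (Real.sqrt_nonneg t),
          show |spin c| = 1 by cases c <;> simp [spin]]
        have hst : Real.sqrt t ≤ 1 + t := Real.sqrt_le_iff.2 ⟨by linarith [S.ht], by nlinarith [S.ht]⟩
        nlinarith [mul_le_mul_of_nonneg_right hst (abs_nonneg (z θ)), S.ht]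
      have hχ : 1 - χ ≤ (1 + t) * (1 + |a θ| + |z θ|) / L := by
        have h1 := one_sub_cut_le hL0 (a θ)
        have h2 := one_sub_cut_le hL0 y
        have h3 : 0 ≤ (1 - cut L (a θ)) * (1 - cut L y) := mul_nonneg (by linarith [hc1.2]) (by linarith [hc2.2])
        have h4 : (|a θ| + |y|) / L ≤ (1 + t) * (1 + |a θ| + |z θ|) / L := by
          refine div_le_div_of_nonneg_right ?_ hL0.le
          nlinarith [mul_nonneg S.ht.le (abs_nonneg (a θ))]
        rw [add_div] at h4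
        simp only [χ]; linarith
      rw [norm_mul, norm_real, Real.norm_of_nonneg (by simp only [χ]; linarith [mul_le_one₀ hc1.2 hc2.1 hc2.2]), norm_mul,
        norm_real, Real.norm_eq_abs]
      have hn : ‖comb t c o₀ α γ (h θ) (z θ) - osc α γ (a θ) (z θ)‖ ≤ 2 * freqC R + 1 :=
        (norm_sub_le _ _).trans (add_le_add (norm_comb_le ho1 hα _ _ _) (norm_osc ..).le)
      have hP := abs_Pfac_le j (a θ) (z θ) y
      refine (mul_le_mul hχ (mul_le_mul hP hn (norm_nonneg _) (by positivity))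
        (by positivity) (div_nonneg (mul_nonneg (by linarith [S.ht]) (by positivity)) hL0.le)).trans ?_
      have h5 := mul_le_mul_of_nonneg_left (sq_bound (a θ) (z θ))
        (show 0 ≤ (1 + t) * (2 * freqC R + 1) / L by have := S.ht; positivity)
      refine (le_of_eq ?_).trans (h5.trans (le_of_eq ?_)) <;> ring
    rw [eE]
    refine (norm_add_le _ _).trans ((add_le_add hX ((norm_add_le _ _).trans (add_le_add (hV true) (hV false)))).trans (le_of_eq ?_))
    ring
  have hmX : Measurable X := by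
    have hP := measurable_Pfac (t := t) (c := c) S.ma S.mz j
    have hosc : Measurable fun θ => osc α γ (a θ) (z θ) := by have := S.ma; have := S.mz; unfold osc; fun_prop
    exact hP.mul ((((measurable_opol S.mh S.mz c α γ _ _ _).const_mul _).add
      ((measurable_opol S.mh S.mz c α γ _ _ _).const_mul _)).sub hosc)
  have hXi := (int_le S.sq S.mom hmX (C := 3 * (2 * freqC R + 1)) (by positivity) fun θ => by
    rw [norm_mul, norm_real, Real.norm_eq_abs, mul_right_comm]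
    exact mul_le_mul ((abs_Pfac_le ..).trans (lin_bound _ _))
      ((norm_sub_le _ _).trans (add_le_add (norm_comb_le ho1 hα _ _ _) (norm_osc ..).le)) (norm_nonneg _) (by positivity)).1
  have i1 : Integrable (fun θ => coef0 o₀ true α * B true α θ + coef0 o₀ false α * B false α θ - B true 0 θ - B false 0 θ) ρ :=
    ((((hB true α).const_mul (coef0 o₀ true α)).add ((hB false α).const_mul (coef0 o₀ false α))).sub (hB true 0)).sub (hB false 0)
  have hEi : Integrable E ρ := hXi.sub i1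
  have hoi : Integrable (fun θ => |o θ - o₀|) ρ := Integrable.of_bound (S.mo.sub_const o₀).abs.aestronglyMeasurable 1
    (Eventually.of_forall fun θ => by
      rw [Real.norm_eq_abs, abs_abs, abs_le]
      constructor <;> linarith [(S.o_mem θ).1, (S.o_mem θ).2, S.o₀_mem.1, S.o₀_mem.2])
  have hi2 : Integrable (fun θ => 3 * (1 + t) * (2 * freqC R + 1) / L * (1 + a θ ^ 2 + z θ ^ 2)) ρ := by
    refine (((integrable_const (1:ℝ)).add S.sq).const_mul (3 * (1 + t) * (2 * freqC R + 1) / L)).congr (Eventually.of_forall fun θ => ?_)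
    simp only [Pi.add_apply, add_assoc]
  have hEint := (norm_integral_le_integral_norm E).trans (integral_mono hEi.norm (hi2.add (hoi.const_mul _)) hEb)
  simp only [Pi.add_apply] at hEint
  rw [integral_add hi2 (hoi.const_mul _), integral_const_mul, integral_const_mul] at hEint
  have hC : ∀ e, ‖coef0 o₀ e α * ∫ θ, B e α θ ∂ρ‖ ≤ freqC R * (2 * δ) := fun e => by
    rw [norm_mul]; exact mul_le_mul (norm_coef0_le ho1 hα e) (hblock e α (Or.inl rfl)) (norm_nonneg _) hE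
  have heq : ∫ θ, X θ ∂ρ = ∫ θ, E θ ∂ρ + (coef0 o₀ true α * ∫ θ, B true α θ ∂ρ + coef0 o₀ false α * ∫ θ, B false α θ ∂ρ
      - ∫ θ, B true 0 θ ∂ρ - ∫ θ, B false 0 θ ∂ρ) := by
    simp only [E]
    rw [integral_sub hXi i1, integral_sub _ (hB false 0), integral_sub _ (hB true 0),
      integral_add ((hB true α).const_mul _) ((hB false α).const_mul _), integral_const_mul, integral_const_mul]
    · ring
    · exact ((hB true α).const_mul _).add ((hB false α).const_mul _)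
    · exact (((hB true α).const_mul _).add ((hB false α).const_mul _)).sub (hB true 0)
  rw [heq]
  have n1 := norm_add_le (∫ θ, E θ ∂ρ) (coef0 o₀ true α * ∫ θ, B true α θ ∂ρ + coef0 o₀ false α * ∫ θ, B false α θ ∂ρ
      - ∫ θ, B true 0 θ ∂ρ - ∫ θ, B false 0 θ ∂ρ)
  have n2 := norm_sub_le (coef0 o₀ true α * ∫ θ, B true α θ ∂ρ + coef0 o₀ false α * ∫ θ, B false α θ ∂ρ
      - ∫ θ, B true 0 θ ∂ρ) (∫ θ, B false 0 θ ∂ρ)
  have n3 := norm_sub_le (coef0 o₀ true α * ∫ θ, B true α θ ∂ρ + coef0 o₀ false α * ∫ θ, B false α θ ∂ρ) (∫ θ, B true 0 θ ∂ρ)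
  have n4 := norm_add_le (coef0 o₀ true α * ∫ θ, B true α θ ∂ρ) (coef0 o₀ false α * ∫ θ, B false α θ ∂ρ)
  have h5 := mul_le_mul_of_nonneg_left S.o_close (show 0 ≤ 4 * CW * freqC R ^ 2 by positivity)
  have h6 := mul_le_mul_of_nonneg_left S.mom (show 0 ≤ 3 * (1 + t) * (2 * freqC R + 1) / L by have := S.ht; positivity)
  linarith [hC true, hC false, hblock true 0 (Or.inr rfl), hblock false 0 (Or.inr rfl)]

/-- the characteristic equation -/
noncomputable def charInt (A μ c' α γ : ℝ) (a z : ℝ) : ℂ :=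
  osc α γ a z * ((((a - μ : ℝ)) : ℂ) - I * α * A - (c' : ℂ) * ((z : ℂ) - I * γ))

/-- the approximate characteristic equation at one frequency -/
lemma Site.char_eq [IsFiniteMeasure ρ] (S : Site ρ t L δ M c o₀ h a z o) (hρ : ρ.real Set.univ ≤ 1) {R α γ A : ℝ}
    (hα : |α| ≤ R) (hγ : |γ| ≤ R) (hA : 0 ≤ A ∧ A ≤ 1) {CW : ℝ} (hCW : ∀ e j, wC t L c e j α γ ≤ CW)
    (hblock : ∀ e j α', α' = α ∨ α' = 0 → ‖∫ θ, wgt t L c e j α γ (a θ) (obsY t c (z θ)) *
      sfac (o θ) (freq e α') (h θ) (a θ) (obsY t c (z θ)) ∂ρ‖ ≤ 2 * δ)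
    (hchan : ∀ e, ‖∫ θ, psiC t c e α γ (h θ) (z θ) * a θ
      - A * (psiC t c e α γ (h θ) (z θ) * spin c + psiH t c e α γ (h θ) (z θ))
      - (A / Real.sqrt t : ℝ) * (z θ * psiC t c e α γ (h θ) (z θ) - psiZ t c e α γ (h θ) (z θ)) ∂ρ‖ ≤ 2 * δ) :
    ‖∫ θ, charInt A (A * spin c) (A / Real.sqrt t) α γ (a θ) (z θ) ∂ρ‖ ≤
      4 * freqC R * δ + (3 + R + (R + 1) / Real.sqrt t) *
        ((4 * freqC R + 4 + 4 * CW * freqC R ^ 2) * δ + 3 * (1 + t) * (2 * freqC R + 1) / L * M) := by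
  set c' := A / Real.sqrt t
  have hs := Real.sqrt_pos.2 S.ht
  have hE : 0 ≤ freqC R := zero_le_one.trans (one_le_freqC R)
  have ho1 : |o₀| ≤ 1 := by rw [abs_of_nonneg S.o₀_mem.1]; exact S.o₀_mem.2
  set κ : ℂ := -((A * spin c : ℝ) : ℂ) - I * α * A + (c' : ℂ) * (I * γ)
  set X := fun (e : Bool) θ => psiC t c e α γ (h θ) (z θ) * a θ
      - A * (psiC t c e α γ (h θ) (z θ) * spin c + psiH t c e α γ (h θ) (z θ))
      - (c' : ℂ) * (z θ * psiC t c e α γ (h θ) (z θ) - psiZ t c e α γ (h θ) (z θ))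
  set D := fun θ => comb t c o₀ α γ (h θ) (z θ) - osc α γ (a θ) (z θ)
  have hcs : (c' : ℂ) * (Real.sqrt t : ℂ) = A := by rw [← ofReal_mul, div_mul_cancel₀ _ hs.ne']
  have eX : ∀ e θ, X e θ = psiC t c e α γ (h θ) (z θ) * ((a θ : ℂ) + κ - (c' : ℂ) * z θ) := fun e θ => by
    simp only [X, κ, psiC, psiH, psiZ, opol, tpol]
    generalize Real.tanh (h θ + obsY t c (z θ)) = T
    push_cast
    linear_combination (osc α γ (h θ) (z θ) * ((spin e : ℂ) / 2) * (1 - (T : ℂ) ^ 2)) * hcs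
  have eG : ∀ θ, charInt A (A * spin c) c' α γ (a θ) (z θ) =
      coef0 o₀ true α * X true θ + coef0 o₀ false α * X false θ - D θ * ((a θ : ℂ) + κ - (c' : ℂ) * z θ) := fun θ => by
    simp only [eX, D, comb, charInt, κ]
    push_cast; ring
  have hm : ∀ e, Measurable fun θ => psiC t c e α γ (h θ) (z θ) := fun e => measurable_opol S.mh S.mz c α γ _ _ _
  have hmD : Measurable D := by
    have hosc : Measurable fun θ => osc α γ (a θ) (z θ) := by have := S.ma; have := S.mz; unfold osc; fun_prop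
    exact (((hm true).const_mul _).add ((hm false).const_mul _)).sub hosc
  have hDb : ∀ θ, ‖D θ‖ ≤ 2 * freqC R + 1 := fun θ =>
    (norm_sub_le _ _).trans (add_le_add (norm_comb_le ho1 hα _ _ _) (norm_osc ..).le)
  have hiX : ∀ e, Integrable (X e) ρ := fun e => by
    simp only [funext (eX e)]
    refine (int_le S.sq S.mom (f := fun θ => psiC t c e α γ (h θ) (z θ) * ((a θ : ℂ) + κ - (c' : ℂ) * z θ))
      ((hm e).mul (by have := S.ma; have := S.mz; fun_prop)) (C := 3 * (1 + ‖κ‖ + |c'|)) (by positivity) fun θ => ?_).1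
    rw [norm_mul]
    refine (mul_le_of_le_one_left (norm_nonneg _) (norm_psiC_le ..)).trans ((norm_sub_le _ _).trans
      ((add_le_add (norm_add_le _ _) le_rfl).trans ?_))
    rw [norm_mul, norm_real, norm_real, norm_real, Real.norm_eq_abs, Real.norm_eq_abs, Real.norm_eq_abs]
    have := mul_le_mul_of_nonneg_left (lin_bound (a θ) (z θ)) (show 0 ≤ 1 + ‖κ‖ + |c'| by positivity)
    nlinarith [abs_nonneg (a θ), abs_nonneg (z θ), norm_nonneg κ, abs_nonneg c', mul_nonneg (norm_nonneg κ) (abs_nonneg (a θ)),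
      mul_nonneg (norm_nonneg κ) (abs_nonneg (z θ)), mul_nonneg (abs_nonneg c') (abs_nonneg (a θ))]
  have hiP : ∀ j, Integrable (fun θ => (Pfac j (a θ) (z θ) (obsY t c (z θ)) : ℂ) * D θ) ρ := fun j => by
    refine (int_le S.sq S.mom (f := fun θ => (Pfac j (a θ) (z θ) (obsY t c (z θ)) : ℂ) * D θ)
      ((measurable_Pfac S.ma S.mz j).mul hmD)
      (C := 3 * (2 * freqC R + 1)) (by positivity) fun θ => ?_).1
    rw [norm_mul, norm_real, Real.norm_eq_abs, mul_right_comm]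
    exact mul_le_mul ((abs_Pfac_le ..).trans (lin_bound _ _)) (hDb θ) (norm_nonneg _) (by positivity)
  have s0 := S.swap hρ hα 0 (fun e => hCW e 0) fun e α' => hblock e 0 α'
  have s1 := S.swap hρ hα 1 (fun e => hCW e 1) fun e α' => hblock e 1 α'
  have s2 := S.swap hρ hα 2 (fun e => hCW e 2) fun e α' => hblock e 2 α'
  have h0 := hiP 0; have h1 := hiP 1; have h2 := hiP 2
  simp only [Pfac, Matrix.cons_val_zero, Matrix.cons_val_one, Matrix.cons_val, ofReal_one, one_mul] at s0 s1 s2 h0 h1 h2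
  have eD : ∀ θ, D θ * ((a θ : ℂ) + κ - (c' : ℂ) * z θ) = (a θ : ℂ) * D θ + κ * D θ - (c' : ℂ) * ((z θ : ℂ) * D θ) :=
    fun θ => by ring
  simp only [eG, eD]
  have iD : Integrable (fun θ => (a θ : ℂ) * D θ + κ * D θ - (c' : ℂ) * ((z θ : ℂ) * D θ)) ρ :=
    (h1.add (h0.const_mul κ)).sub (h2.const_mul _)
  rw [integral_sub (((hiX true).const_mul _).fun_add ((hiX false).const_mul _)) iD,
    integral_add ((hiX true).const_mul _) ((hiX false).const_mul _),
    integral_sub (h1.fun_add (h0.const_mul κ)) (h2.const_mul _), integral_add h1 (h0.const_mul κ),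
    integral_const_mul, integral_const_mul, integral_const_mul, integral_const_mul]
  have hC : ∀ e, ‖coef0 o₀ e α * ∫ θ, X e θ ∂ρ‖ ≤ freqC R * (2 * δ) := fun e => by
    rw [norm_mul]; exact mul_le_mul (norm_coef0_le ho1 hα e) (hchan e) (norm_nonneg _) hE
  have hR : 0 ≤ R := (abs_nonneg _).trans hα
  have hc' : |c'| ≤ 1 / Real.sqrt t := by
    rw [abs_div, abs_of_nonneg hA.1, abs_of_pos hs]; exact div_le_div_of_nonneg_right hA.2 hs.le
  have hκ : ‖κ‖ ≤ 1 + R + R / Real.sqrt t := by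
    refine (norm_add_le _ _).trans ((add_le_add (norm_sub_le _ _) le_rfl).trans ?_)
    simp only [norm_neg, norm_mul, norm_real, norm_I, Real.norm_eq_abs, one_mul, abs_mul, abs_of_nonneg hA.1,
      show |spin c| = 1 by cases c <;> simp [spin], mul_one]
    refine add_le_add (add_le_add hA.2 ((mul_le_of_le_one_right (abs_nonneg _) hA.2).trans hα)) ?_
    exact (mul_le_mul hc' hγ (abs_nonneg _) (by positivity)).trans_eq (by ring)
  set η := (4 * freqC R + 4 + 4 * CW * freqC R ^ 2) * δ + 3 * (1 + t) * (2 * freqC R + 1) / L * M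
  have k0 : ‖κ * ∫ θ, D θ ∂ρ‖ ≤ (1 + R + R / Real.sqrt t) * η := by
    rw [norm_mul]; exact mul_le_mul hκ s0 (norm_nonneg _) (by positivity)
  have k2 : ‖(c' : ℂ) * ∫ θ, (z θ : ℂ) * D θ ∂ρ‖ ≤ 1 / Real.sqrt t * η := by
    rw [norm_mul, norm_real, Real.norm_eq_abs]; exact mul_le_mul hc' s2 (norm_nonneg _) (by positivity)
  have n1 := norm_sub_le (coef0 o₀ true α * ∫ θ, X true θ ∂ρ + coef0 o₀ false α * ∫ θ, X false θ ∂ρ)
    (∫ θ, (a θ : ℂ) * D θ ∂ρ + κ * ∫ θ, D θ ∂ρ - (c' : ℂ) * ∫ θ, (z θ : ℂ) * D θ ∂ρ)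
  have n2 := norm_add_le (coef0 o₀ true α * ∫ θ, X true θ ∂ρ) (coef0 o₀ false α * ∫ θ, X false θ ∂ρ)
  have n3 := norm_sub_le (∫ θ, (a θ : ℂ) * D θ ∂ρ + κ * ∫ θ, D θ ∂ρ) ((c' : ℂ) * ∫ θ, (z θ : ℂ) * D θ ∂ρ)
  have n4 := norm_add_le (∫ θ, (a θ : ℂ) * D θ ∂ρ) (κ * ∫ θ, D θ ∂ρ)
  have hη : 0 ≤ η := (norm_nonneg _).trans s0
  have e : (3 + R + (R + 1) / Real.sqrt t) * η =
      η + (1 + R + R / Real.sqrt t) * η + 1 / Real.sqrt t * η + η := by ring
  linarith [hC true, hC false]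

/-- the magnetisation seen by the field is that of the cavity field -/
lemma Site.tanh_eq [IsFiniteMeasure ρ] (S : Site ρ t L δ M c o₀ h a z o)
    (hblock : ∀ e j, ‖∫ θ, wgt t L c e j 0 0 (a θ) (obsY t c (z θ)) *
      sfac (o θ) (freq e 0) (h θ) (a θ) (obsY t c (z θ)) ∂ρ‖ ≤ 2 * δ) :
    |∫ θ, Real.tanh (h θ + obsY t c (z θ)) ∂ρ - ∫ θ, Real.tanh (a θ + obsY t c (z θ)) ∂ρ| ≤
      8 * δ + 6 * (1 + t) / L * M := by
  have hL0 : 0 < L := zero_lt_one.trans_le S.hL
  set B := fun (e : Bool) (j : Fin 4) θ =>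
    wgt t L c e j 0 0 (a θ) (obsY t c (z θ)) * sfac (o θ) (freq e 0) (h θ) (a θ) (obsY t c (z θ))
  have hB : ∀ e j, Integrable (B e j) ρ := fun e j => S.int_sfac e j 0 0 0
  set Y := fun θ => ((Real.tanh (h θ + obsY t c (z θ)) - Real.tanh (a θ + obsY t c (z θ)) : ℝ) : ℂ)
  have hmy : Measurable fun θ => obsY t c (z θ) := measurable_obsY S.mz
  have hT : ∀ f : Θ → ℝ, Measurable f → Integrable (fun θ => Real.tanh (f θ + obsY t c (z θ))) ρ := fun f hf =>
    Integrable.of_bound (continuous_tanh'.measurable.comp (hf.add hmy)).aestronglyMeasurable 1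
      (Eventually.of_forall fun θ => abs_tanh_le_one' _)
  have hYi : Integrable Y ρ := ((hT h S.mh).sub (hT a S.ma)).ofReal
  set E := fun θ => Y θ - (B true 0 θ - B false 0 θ - B true 3 θ - B false 3 θ)
  have hEb : ∀ θ, ‖E θ‖ ≤ 6 * (1 + t) / L * (1 + a θ ^ 2 + z θ ^ 2) := by
    intro θ
    set y := obsY t c (z θ) with hy
    have eE : E θ = (((1 - cut L (a θ) * cut L y) * (Real.tanh (h θ + y) - Real.tanh (a θ + y)) : ℝ) : ℂ) := by
      have e0 : ∀ e, cexp ((o θ : ℂ) * freq e 0 ^ 2 / 2) = cexp ((o θ : ℂ) / 2) := fun e => by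
        have : freq e 0 ^ 2 = 1 := by
          rw [freq, mk_eq_add_mul_I]; cases e <;> simp [spin]
        rw [this, mul_one]
      have hw : ∀ e j, wgt t L c e j 0 0 (a θ) y = ((cut L (a θ) * cut L y * (Pfac j (a θ) (z θ) y *
          Real.exp (spin e * (a θ + y)) * Real.cosh (a θ + y) / 2) : ℝ) : ℂ) * osc 0 0 (a θ) (z θ) := fun e j =>
        wgt_eq S.ht hL0 c e j 0 0 (a θ) (z θ)
      have hV : wgt t L c true 0 0 0 (a θ) y - wgt t L c false 0 0 0 (a θ) y -
          wgt t L c true 3 0 0 (a θ) y - wgt t L c false 3 0 0 (a θ) y = 0 := by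
        have hP0 : Pfac 0 (a θ) (z θ) y = 1 := rfl
        have hP3 : Pfac 3 (a θ) (z θ) y = Real.tanh (a θ + y) := rfl
        have hr : Real.exp (spin true * (a θ + y)) - Real.exp (spin false * (a θ + y)) -
            Real.tanh (a θ + y) * Real.exp (spin true * (a θ + y)) - Real.tanh (a θ + y) * Real.exp (spin false * (a θ + y)) = 0 := by
          rw [mul_comm (spin true), mul_comm (spin false), exp_spin, exp_spin]
          simp only [spin, if_true, Bool.false_eq_true, if_false]; ring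
        have hr' := congrArg (fun r : ℝ => (r : ℂ)) hr
        simp only [hw, hP0, hP3]
        push_cast at hr' ⊢
        linear_combination ((cut L (a θ) : ℂ) * (cut L y : ℂ) * Complex.cosh ((a θ : ℂ) + (y : ℂ)) / 2 * osc 0 0 (a θ) (z θ)) * hr'
      have hP0 : Pfac 0 (a θ) (z θ) y = 1 := rfl
      have hP3 : Pfac 3 (a θ) (z θ) y = Real.tanh (a θ + y) := rfl
      have ho : osc 0 0 (a θ) (z θ) = 1 := by simp [osc]
      simp only [E, B, wgt_sfac S.ht hL0, ← hy, e0, zero_mul, ofReal_zero, Complex.exp_zero, mul_one, Y, hP0, hP3, ho]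
      simp only [spin, if_true, Bool.false_eq_true, if_false]
      generalize (Real.cosh (h θ + y) * Real.cosh (a θ + y))⁻¹ = K
      push_cast
      linear_combination ((K : ℂ) * cexp ((o θ : ℂ) / 2)) * hV
    rw [eE, norm_real, Real.norm_eq_abs, abs_mul]
    have hc1 := cut_mem hL0 (a θ)
    have hc2 := cut_mem hL0 y
    have h1 := one_sub_cut_le hL0 (a θ)
    have h2 := one_sub_cut_le hL0 y
    have h3 : 0 ≤ (1 - cut L (a θ)) * (1 - cut L y) := mul_nonneg (by linarith [hc1.2]) (by linarith [hc2.2])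
    have h4 : |Real.tanh (h θ + y) - Real.tanh (a θ + y)| ≤ 2 :=
      (abs_sub _ _).trans (by linarith [abs_tanh_le_one' (h θ + y), abs_tanh_le_one' (a θ + y)])
    rw [abs_of_nonneg (by linarith [mul_le_one₀ hc1.2 hc2.1 hc2.2])]
    refine (mul_le_mul (show 1 - cut L (a θ) * cut L y ≤ (|a θ| + |y|) / L by rw [add_div]; linarith)
      h4 (abs_nonneg _) (by positivity)).trans ?_
    have hy' : |a θ| + |y| ≤ (1 + t) * (1 + |a θ| + |z θ|) := by
      have : |y| ≤ t + Real.sqrt t * |z θ| := by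
        rw [hy, obsY]; refine (abs_add_le _ _).trans (le_of_eq ?_)
        rw [abs_mul, abs_mul, abs_of_nonneg S.ht.le, abs_of_nonneg (Real.sqrt_nonneg t),
          show |spin c| = 1 by cases c <;> simp [spin], mul_one]
      have hst : Real.sqrt t ≤ 1 + t := Real.sqrt_le_iff.2 ⟨by linarith [S.ht], by nlinarith [S.ht]⟩
      nlinarith [mul_le_mul_of_nonneg_right hst (abs_nonneg (z θ)), mul_nonneg S.ht.le (abs_nonneg (a θ))]
    have h5 := mul_le_mul_of_nonneg_left (lin_bound (a θ) (z θ)) (show 0 ≤ 2 * (1 + t) / L by have := S.ht; positivity)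
    refine (mul_le_mul_of_nonneg_right (div_le_div_of_nonneg_right hy' hL0.le) two_pos.le).trans ?_
    refine (le_of_eq ?_).trans (h5.trans (le_of_eq ?_)) <;> ring
  have iB : Integrable (fun θ => B true 0 θ - B false 0 θ - B true 3 θ - B false 3 θ) ρ := (((hB true 0).sub (hB false 0)).sub (hB true 3)).sub (hB false 3)
  have hEi : Integrable E ρ := hYi.sub iB
  have hm := (norm_integral_le_integral_norm E).trans (integral_mono hEi.norm
    ((((integrable_const (1:ℝ)).add S.sq).const_mul (6 * (1 + t) / L)).congr (Eventually.of_forall fun θ => by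
      simp only [Pi.add_apply, add_assoc])) hEb)
  rw [integral_const_mul] at hm
  have hm' := hm.trans (mul_le_mul_of_nonneg_left S.mom (show 0 ≤ 6 * (1 + t) / L by have := S.ht; positivity))
  have heq : ∫ θ, E θ ∂ρ = ∫ θ, Y θ ∂ρ - (∫ θ, B true 0 θ ∂ρ - ∫ θ, B false 0 θ ∂ρ - ∫ θ, B true 3 θ ∂ρ - ∫ θ, B false 3 θ ∂ρ) := by
    simp only [E]
    rw [integral_sub hYi iB, integral_sub _ (hB false 3), integral_sub _ (hB true 3), integral_sub (hB true 0) (hB false 0)]
    · exact (hB true 0).sub (hB false 0)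
    · exact ((hB true 0).sub (hB false 0)).sub (hB true 3)
  have hY : ∫ θ, Y θ ∂ρ = ((∫ θ, Real.tanh (h θ + obsY t c (z θ)) ∂ρ - ∫ θ, Real.tanh (a θ + obsY t c (z θ)) ∂ρ : ℝ) : ℂ) := by
    rw [← integral_sub (hT h S.mh) (hT a S.ma)]; exact integral_ofReal
  rw [← Real.norm_eq_abs, ← norm_real, ← hY]
  have n0 : ‖∫ θ, Y θ ∂ρ‖ ≤ ‖∫ θ, E θ ∂ρ‖ +
      ‖∫ θ, B true 0 θ ∂ρ - ∫ θ, B false 0 θ ∂ρ - ∫ θ, B true 3 θ ∂ρ - ∫ θ, B false 3 θ ∂ρ‖ := by
    rw [heq]; exact norm_le_norm_sub_add _ _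
  have n1 := norm_sub_le (∫ θ, B true 0 θ ∂ρ - ∫ θ, B false 0 θ ∂ρ - ∫ θ, B true 3 θ ∂ρ) (∫ θ, B false 3 θ ∂ρ)
  have n2 := norm_sub_le (∫ θ, B true 0 θ ∂ρ - ∫ θ, B false 0 θ ∂ρ) (∫ θ, B true 3 θ ∂ρ)
  have n3 := norm_sub_le (∫ θ, B true 0 θ ∂ρ) (∫ θ, B false 0 θ ∂ρ)
  linarith [hblock true 0, hblock false 0, hblock true 3, hblock false 3]

end MmseLaw

end Vale.Agent.P150.PA
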