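import Vale.Agent.P150.PA.MmseSite
import Vale.Agent.P150.PA.AvgDir
import Vale.Agent.P150.PA.QSmall
import Vale.Agent.P150.PA.Scalar

/-! The deterministic part of the bound on the posterior overlap at one scale: wherever the hypotheses of
the law step fail, an averaged error pays for it. -/

open MeasureTheory Finset

namespace Vale.Agent.P150.PA.Mmse

open Ising

variable {n : ℕ}

/-- parameters of the kernel of one colour at one site -/
noncomputable def obsPar (L : ℝ) (c : Bool) (a y o : ℝ) (s : Bool) : Fin 3 → ℝ :=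
  if s = c then ![clip L a, clip L y, o] else ![L, 0, 0]

lemma obsPar_two {L : ℝ} (c s : Bool) (a y : ℝ) {o : ℝ} (ho : |o| ≤ 1) : |obsPar L c a y o s 2| ≤ 2 := by
  unfold obsPar; split_ifs <;> simp; linarith

lemma abs_obsPar_le {L : ℝ} (hL : 0 ≤ L) (c s : Bool) (a y : ℝ) {o : ℝ} (ho : |o| ≤ 1) (i : Fin 3) :
    |obsPar L c a y o s i| ≤ max L 1 := by
  unfold obsPar
  split_ifs <;> fin_cases i <;>
    simp [abs_of_nonneg hL, clip_abs hL, ho, le_max_of_le_left hL]

/-- the average over the window of the sum over sites of the field term of one kernel and colour -/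
noncomputable def fieldSum (β t L : ℝ) (c : Bool) (Ψ : Kern) (J : Fin n → Fin n → ℝ) (A M : ℕ) (p : Cfg n)
    (z : Fin n → ℝ) : ℝ :=
  ∑ q, winLaw J (obsField t p z) A p q * ∑ i,
    (Ψ.fn (obsPar L c (cav β J (obsField t p z) M p i) (obsField t p z i) (onsager β J (obsField t p z) M p) (p i))
        (fld J 0 i q) *
      (fld J 0 i q - cav β J (obsField t p z) M p i
        - onsager β J (obsField t p z) M p * Real.tanh (fld J 0 i q + obsField t p z i))
      - onsager β J (obsField t p z) M p *
        Ψ.dfn (obsPar L c (cav β J (obsField t p z) M p i) (obsField t p z i) (onsager β J (obsField t p z) M p) (p i))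
          (fld J 0 i q))

/-- The law step seen from one time: small defects make `q` an approximate fixed point. -/
def LawSite (β t δ ε L : ℝ) {N N' : ℕ} (Ψ : Fin N → Kern) (ψ : Fin N' → ChanTest) : Prop :=
  ∀ (n : ℕ) (J : Fin n → Fin n → ℝ), Tame J 3 → 0 < n → ∀ (v : ℕ) (x : Cfg n) (A M : ℕ) (q : ℝ), 2 ≤ A →
    0 ≤ q → q ≤ 1 →
    jex J v x (fun p z => |onsager β J (obsField t p z) M p - β ^ 2 * (1 - q)|) ≤ δ →
    |jex J v x (fun p z => ∑ y, winLaw J (obsField t p z) A p y *
      ∑ i, spin (p i) * Real.tanh (fld J (obsField t p z) i y)) - n * q| ≤ n * δ →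
    (∀ j c, |jex J v x (fieldSum β t L c (Ψ j) J A M)| ≤ n * δ) →
    (∀ j, |jex J v x (fun p z => ∑ y, winLaw J (obsField t p z) A p y *
      chanTerm β t q (ψ j) (cav β J (obsField t p z) M p) J z p y)| ≤ n * δ) →
    |q - Fq (t + β ^ 2 * q)| ≤ ε

/-- the linear coefficient of the total error -/
noncomputable def totK (t Kc : ℝ) {N N' : ℕ} (Ψ : Fin N → Kern) (ψ : Fin N' → ChanTest) (Kψ : Fin N' → ℝ) : ℝ :=
  2 + 2 * |Kc| + 8 * (bundle Ψ).M + ∑ j, ((17 + 2 / Real.sqrt t) * (ψ j).M + 2 * |Kψ j|)

/-- One scale: the posterior overlap averaged over the block of times. -/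
theorem one_scale {β t : ℝ} (hβ0 : 0 ≤ β) (hβ : β < 1) (ht : 0 < t) {ε δ L : ℝ} (hδ : 0 < δ) (hL : 0 ≤ L)
    {N N' : ℕ} {Ψ : Fin N → Kern} {ψ : Fin N' → ChanTest}
    (hlaw : LawSite β t δ ((1 - β ^ 2) * ε) L Ψ ψ) {η ε₁ Kc : ℝ} {Kψ : Fin N' → ℝ} (hη : 0 < η) (hη1 : η ≤ 1)
    (hε : 0 ≤ ε) (hε₁ : 0 ≤ ε₁) {n : ℕ} {J : Fin n → Fin n → ℝ} (hJ : Tame J 3) (hn : 0 < n) {x : Cfg n}
    {Tn Dn G A lo : ℕ} {Jn : Fin N' → ℕ} {Jm : ℕ} (hA2 : 2 ∣ A) (hA : 4 / η * n ≤ A) (hA0 : 2 ≤ A)
    (hlo : lo ≤ A / 2) (hG : lo ≤ G) (hGA : G ≤ A) (hD : 0 < Dn) (hDT : 2 * Dn ≤ Tn) (hJm : 1 ≤ Jm)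
    (hJn : ∀ j, 1 ≤ Jn j ∧ Jn j ≤ Jm) {a₀ : ℕ} (ha₀ : lo ≤ a₀) (ha₀' : a₀ ≤ A)
    (hblk : ∀ (p : Cfg n) (θ : (Fin n → ℝ) → ℕ → Fin n → Fin 3 → ℝ), (∀ w, Continuous fun u => θ u w) →
      (∀ u w i l, |θ u w i l| ≤ max L 1 + 10 * N) →
      ∫ u, blockAvg A (fun w => |fieldErr β J (obsField t p u) (bundle Ψ) (θ u w) w p|) ∂gauss (Fin n) ≤
        (ε₁ + Kc * Real.sqrt (∫ u, defect J (obsField t p u) G A p ∂gauss (Fin n))) * n)
    (hchan : ∀ j, chanAvgErr J β t (ψ j) Tn Dn A (Jn j) x ≤ (ε₁ + Kψ j * Real.sqrt (max 0 (blockAvg Tn fun v =>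
      tiltLag J t v a₀ x - tiltLag J t v (8 * Jn j * A) x))) * n)
    (hconc : ∀ v ∈ Ico Tn (2 * Tn),
      jex J v x (fun p z => |qmean J (obsField t p z) (4 * Jm * A) p - tiltLag J t v (4 * Jm * A) x|) ≤ η)
    {s : ℝ} (hs : blockAvg Tn (fun v => slack J t v x lo (8 * Jm * A)) ≤ s) :
    blockAvg Tn (fun v => msq t (lawAt J 0 v x)) ≤
      n * (qstar β t + ε + (2 * (N' + 1) * ε₁ + totK t Kc Ψ ψ Kψ * (η + s / η)) / δ + s) := by
  have hn' : (0 : ℝ) < n := Nat.cast_pos.2 hn
  have hTn : 0 < Tn := by omega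
  have hb2 : β ^ 2 < 1 := by nlinarith
  have hb2' : β ^ 2 ≤ 1 := hb2.le
  set Aj := 8 * Jm * A
  have hAJ : A ≤ Jm * A := Nat.le_mul_of_pos_left A hJm
  have hM : 4 * Jm * A ≤ Aj := Nat.mul_le_mul_right A (by omega)
  have hloh : lo ≤ Aj := by
    have : 8 * Jm * A = 8 * (Jm * A) := mul_assoc _ _ _
    omega
  set sl := fun v => slack J t v x lo Aj
  have sl0 : ∀ v, 0 ≤ sl v := fun v => slack_nonneg hJ hn ht.le hloh
  have hMΨ : 0 ≤ (bundle Ψ).M := (abs_nonneg _).trans ((bundle Ψ).bdd (fun _ => 0) 0).1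
  have hMψ : ∀ j, 0 ≤ (ψ j).M := fun j => (abs_nonneg _).trans ((ψ j).bdd 0 0 true).1
  have hct : ∀ j, 0 ≤ (17 + 2 / Real.sqrt t) * (ψ j).M := fun j => mul_nonneg (by positivity) (hMψ j)
  set K₁ := 2 + 2 * |Kc| + 8 * (bundle Ψ).M + ∑ j, (17 + 2 / Real.sqrt t) * (ψ j).M
  have hsum0 : 0 ≤ ∑ j, (17 + 2 / Real.sqrt t) * (ψ j).M := sum_nonneg fun j _ => hct j
  have hK₁ : 2 ≤ K₁ := by simp only [K₁]; linarith [abs_nonneg Kc]
  set cE := fun (j : Fin N') v => chanErrAt J β t (ψ j) Dn A (Jn j) v x
  have cE0 : ∀ j v, 0 ≤ cE j v := fun j v => BlockAvg.nonneg fun d _ => BlockAvg.nonneg fun k _ =>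
    BlockAvg.nonneg fun r _ => abs_nonneg _
  set Tot := fun v => 2 * ε₁ + K₁ * (η + sl v / η) + 2 / (n : ℝ) * ∑ j, cE j v
  have hpoint : ∀ v ∈ Ico Tn (2 * Tn),
      msq t (lawAt J 0 v x) ≤ n * (qstar β t + ε + Tot v / δ + sl v) := by
    intro v hv
    set q₀ := tiltLag J t v (4 * Jm * A) x
    obtain ⟨q0, q1⟩ := tiltLag_mem (J := J) (t := t) (v := v) (x := x) hJ hn (4 * Jm * A)
    have hvT : Tn ≤ v := (mem_Ico.1 hv).1
    have hse : sl v / η ≥ sl v := by
      rw [ge_iff_le, le_div_iff₀ hη]; exact mul_le_of_le_one_right (sl0 v) hη1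
    have hTot0 : 0 ≤ Tot v := by
      have h1 : 0 ≤ 2 / (n : ℝ) * ∑ j, cE j v := mul_nonneg (by positivity) (sum_nonneg fun j _ => cE0 j v)
      have h2 : 0 ≤ K₁ * (η + sl v / η) := mul_nonneg (by linarith) (by linarith [sl0 v])
      simp only [Tot]; linarith
    have hq : q₀ ≤ qstar β t + ε + Tot v / δ := by
      obtain ⟨qs0, -, -⟩ := qstar_spec (β := β) ht.le
      by_cases hT : Tot v ≤ δ
      · have hd0 : 0 ≤ Tot v / δ := div_nonneg hTot0 hδ.le
        have hfix : |q₀ - Fq (t + β ^ 2 * q₀)| ≤ (1 - β ^ 2) * ε := by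
          have hcEn : ∀ j, 2 * cE j v ≤ n * (2 / (n : ℝ) * ∑ k, cE k v) := fun j => by
            rw [← mul_assoc, mul_div_cancel₀ _ hn'.ne']
            exact mul_le_mul_of_nonneg_left (single_le_sum (fun k _ => cE0 k v) (mem_univ j)) zero_le_two
          refine hlaw n J hJ hn v x A (4 * Jm * A) q₀ hA0 q0 q1 ?_ ?_ (fun j c => ?_) fun j => ?_
          · refine le_trans ?_ hT
            refine (jex_mono hJ hn (Ψ := fun p z => |qmean J (obsField t p z) (4 * Jm * A) p - q₀|)
              (fun p => ?_) (fun p => ((nice_qmean hJ hn t _ p p).sub (nice_const _)).abs) fun p z => ?_).trans ?_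
            · refine ((((nice_const (1 : ℝ)).sub (nice_qmean hJ hn t _ p p)).const_mul _).sub (nice_const _)).abs
            · rw [onsager, ← mul_sub, abs_mul, abs_of_nonneg (sq_nonneg β),
                show (1 : ℝ) - qmean J (obsField t p z) (4 * Jm * A) p - (1 - q₀) =
                  -(qmean J (obsField t p z) (4 * Jm * A) p - q₀) by ring, abs_neg]
              exact mul_le_of_le_one_left (abs_nonneg _) hb2'
            · refine (hconc v hv).trans ?_
              have h1 : 0 ≤ 2 / (n : ℝ) * ∑ j, cE j v := mul_nonneg (by positivity) (sum_nonneg fun j _ => cE0 j v)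
              have h2 : 2 * (η + sl v / η) ≤ K₁ * (η + sl v / η) :=
                mul_le_mul_of_nonneg_right hK₁ (by linarith [sl0 v])
              simp only [Tot]; linarith [sl0 v]
          · have e4 : 4 * Jm * A = 2 * (2 * Jm * A) := by ring
            have e2 : 2 * Jm * A = 2 * (Jm * A) := mul_assoc _ _ _
            have h := q_site (v := v) (x := x) (lo := lo) (hi := Aj) (a := 2 * Jm * A) hJ hn ht.le hη hA0
              (by omega) (by omega) (by omega) (by omega)
            rw [← e4] at h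
            refine h.trans (mul_le_mul_of_nonneg_left (le_trans ?_ hT) hn'.le)
            have hA' : 2 * (n : ℝ) / (A / 2 : ℕ) ≤ η := by
              have : ((A / 2 : ℕ) : ℝ) * 2 = A := by exact_mod_cast Nat.div_mul_cancel hA2
              rw [div_le_iff₀ (by exact_mod_cast (by omega : 0 < A / 2))]
              have h4 := mul_le_mul_of_nonneg_left hA hη.le
              rw [← mul_assoc, mul_div_cancel₀ _ hη.ne'] at h4
              nlinarith
            have h1 : 0 ≤ 2 / (n : ℝ) * ∑ j, cE j v := mul_nonneg (by positivity) (sum_nonneg fun j _ => cE0 j v)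
            have h2 : 2 * (η + sl v / η) ≤ K₁ * (η + sl v / η) :=
              mul_le_mul_of_nonneg_right hK₁ (by linarith [sl0 v])
            have h3 : (1 + 1 / (4 * η)) * sl v ≤ 2 * (sl v / η) := by
              rw [add_mul, one_mul, div_mul_eq_mul_div, one_mul]
              have : sl v / (4 * η) ≤ sl v / η := div_le_div_of_nonneg_left (sl0 v) hη (by linarith)
              linarith
            simp only [Tot]
            show 2 * (n : ℝ) / (A / 2 : ℕ) + η + (1 + 1 / (4 * η)) * sl v ≤ _
            linarith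
          · set θ := fun (p : Cfg n) (z : Fin n → ℝ) i => shift3 (j : ℕ) (obsPar L c
              (cav β J (obsField t p z) (4 * Jm * A) p i) (obsField t p z i)
              (onsager β J (obsField t p z) (4 * Jm * A) p) (p i))
            have hob : ∀ p z, |onsager β J (obsField t p z) (4 * Jm * A) p| ≤ 1 := fun p z => by
              obtain ⟨o0, o1⟩ := onsager_mem (b := obsField t p z) hJ hn hβ0 hβ.le (4 * Jm * A) p
              exact abs_le.2 ⟨by linarith, o1⟩
            have hθc : ∀ p, Continuous (θ p) := fun p => by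
              refine continuous_pi fun i => ?_
              have c1 := (nice_cav hJ hn β t (4 * Jm * A) p i).1
              have c2 : Continuous fun z => obsField t p z i := (continuous_apply i).comp (continuous_obsField t p)
              have c3 : Continuous fun z => onsager β J (obsField t p z) (4 * Jm * A) p := by
                simp only [onsager]
                exact continuous_const.mul
                  (continuous_const.sub ((Joint.continuous_qmean _ p).comp (continuous_obsField t p)))
              simp only [θ, shift3, obsPar]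
              by_cases hpc : p i = c <;> simp only [hpc, if_true, if_false] <;>
                refine continuous_pi fun k => ?_ <;> fin_cases k <;> simp <;>
                first
                  | exact continuous_const
                  | exact (continuous_clip L).comp c1
                  | exact (continuous_clip L).comp c2
                  | exact c3.add continuous_const
            have h := field_site (v := v) (x := x) (lo := lo) (hi := Aj) (G := G) (M := 4 * Jm * A) (ε := ε₁)
              (Kc := Kc) hJ hn hβ0 hβ.le ht.le hη hA2 hA0 hG hGA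
              (by have : 4 * Jm * A = 4 * (Jm * A) := mul_assoc _ _ _; omega) hM (bundle Ψ) θ hθc fun p =>
              hblk p (fun u _ => θ p u) (fun _ => hθc p) fun u w i l =>
                abs_shift3_le j (abs_obsPar_le hL c (p i) _ _ (hob p u)) l
            have e : (fieldSum β t L c (Ψ j) J A (4 * Jm * A)) = fun p z => ∑ q, winLaw J (obsField t p z) A p q *
                ∑ i, ((bundle Ψ).fn (θ p z i) (fld J 0 i q) * (fld J 0 i q - cav β J (obsField t p z) (4 * Jm * A) p i
                  - onsager β J (obsField t p z) (4 * Jm * A) p * Real.tanh (fld J 0 i q + obsField t p z i))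
                - onsager β J (obsField t p z) (4 * Jm * A) p * (bundle Ψ).dfn (θ p z i) (fld J 0 i q)) := by
              funext p z
              simp only [fieldSum]
              refine sum_congr rfl fun q _ => congrArg _ (sum_congr rfl fun i _ => ?_)
              obtain ⟨b1, b2⟩ := bundle_shift Ψ j (obsPar_two (L := L) c (p i) (cav β J (obsField t p z) (4 * Jm * A) p i)
                (obsField t p z i) (hob p z)) (fld J 0 i q)
              simp only [θ, b1, b2]
            rw [e]
            refine h.trans ?_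
            rw [mul_assoc 2 (n : ℝ), mul_left_comm 2 (n : ℝ), mul_assoc (n : ℝ), ← mul_add]
            refine mul_le_mul_of_nonneg_left (le_trans ?_ hT) hn'.le
            have h1 : 0 ≤ 2 / (n : ℝ) * ∑ j, cE j v := mul_nonneg (by positivity) (sum_nonneg fun j _ => cE0 j v)
            have h2 : (2 * |Kc| + 8 * (bundle Ψ).M) * (η + sl v / η) ≤ K₁ * (η + sl v / η) :=
              mul_le_mul_of_nonneg_right (by simp only [K₁]; linarith) (by linarith [sl0 v])
            have h3 : |Kc| * (sl v / (4 * η)) ≤ |Kc| * (sl v / η) :=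
              mul_le_mul_of_nonneg_left (div_le_div_of_nonneg_left (sl0 v) hη (by linarith)) (abs_nonneg _)
            have h4 : (bundle Ψ).M * (4 / η * sl v) ≤ 8 * (bundle Ψ).M * (sl v / η) := by
              rw [show 4 / η * sl v = 4 * (sl v / η) by ring]
              nlinarith [mul_nonneg hMΨ (div_nonneg (sl0 v) hη.le)]
            simp only [Tot]
            show 2 * (ε₁ + |Kc| * (η + sl v / (4 * η))) + (bundle Ψ).M * (8 * η + 4 / η * sl v) ≤ _
            linarith
          · obtain ⟨hj1, hj2⟩ := hJn j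
            have hJA : 4 * Jn j * A ≤ 4 * Jm * A := Nat.mul_le_mul_right A (by omega)
            have h := chan_site (v := v) (x := x) (lo := lo) (hi := Aj) hJ hn hβ0 hβ.le ht hη (D := Dn) (Jn := Jn j)
              hA2 hA0 hD (hDT.trans hvT) hj1 hlo hJA hM (ψ j) (hconc v hv)
            refine h.trans ?_
            refine le_trans ?_ (mul_le_mul_of_nonneg_left hT hn'.le)
            rw [show (n : ℝ) * Tot v = n * (2 * ε₁ + K₁ * (η + sl v / η)) + n * (2 / (n : ℝ) * ∑ k, cE k v) from
              mul_add _ _ _, add_comm]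
            refine add_le_add ?_ (hcEn j)
            rw [mul_assoc]
            refine mul_le_mul_of_nonneg_left ?_ hn'.le
            have h5 : (17 + 2 / Real.sqrt t) * (ψ j).M ≤ K₁ := by
              have := single_le_sum (f := fun j => (17 + 2 / Real.sqrt t) * (ψ j).M) (fun k _ => hct k) (mem_univ j)
              simp only [K₁]; linarith [abs_nonneg Kc]
            have h6 := mul_le_mul_of_nonneg_right h5 (show 0 ≤ η + sl v / η by linarith [sl0 v])
            have h7 : 2 * η + (14 / η + 3 + 2 / Real.sqrt t) * sl v + η ≤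
                (17 + 2 / Real.sqrt t) * (η + sl v / η) := by
              have hs : 0 ≤ 2 / Real.sqrt t := by positivity
              have := mul_le_mul_of_nonneg_left hse hs
              rw [show (14 / η + 3 + 2 / Real.sqrt t) * sl v = 14 * (sl v / η) + 3 * sl v + 2 / Real.sqrt t * sl v
                by ring]
              linarith [mul_nonneg hs hη.le]
            have h8 := mul_le_mul_of_nonneg_left h7 (hMψ j)
            show (ψ j).M * (2 * η + (14 / η + 3 + 2 / Real.sqrt t) * sl v + η) ≤ _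
            linarith
        have hd := abs_sub_qstar_le hb2 ht.le q0 hfix
        rw [mul_div_cancel_left₀ _ (by linarith : (1 : ℝ) - β ^ 2 ≠ 0)] at hd
        linarith [(abs_le.1 hd).2]
      · have : 1 < Tot v / δ := (one_lt_div hδ).2 (not_le.1 hT)
        linarith
    refine (stat_msq (lo := lo) (hi := Aj) hJ hn ht.le hloh hM).trans (mul_le_mul_of_nonneg_left ?_ hn'.le)
    linarith
  refine (BlockAvg.mono hpoint).trans ?_
  have hTot : blockAvg Tn Tot ≤ 2 * (N' + 1) * ε₁ + totK t Kc Ψ ψ Kψ * (η + s / η) := by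
    simp only [Tot]
    simp only [BlockAvg.add, BlockAvg.const hTn, BlockAvg.smul, BlockAvg.sum, div_eq_inv_mul (a := sl _)]
    have hs' : blockAvg Tn sl ≤ s := hs
    have hcj : ∀ j, blockAvg Tn (cE j) ≤ n * (ε₁ + |Kψ j| * (η + s / η)) := by
      intro j
      refine (show chanAvgErr J β t (ψ j) Tn Dn A (Jn j) x ≤ _ from hchan j).trans ?_
      rw [mul_comm _ (n : ℝ)]
      refine mul_le_mul_of_nonneg_left (add_le_add le_rfl ?_) hn'.le
      obtain ⟨hj1, hj2⟩ := hJn j
      have hs0 : 0 ≤ s := (BlockAvg.nonneg fun v _ => sl0 v).trans hs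
      have hdrop : max 0 (blockAvg Tn fun v => tiltLag J t v a₀ x - tiltLag J t v (8 * Jn j * A) x) ≤ s := by
        refine max_le hs0 ((BlockAvg.mono fun v _ => ?_).trans hs)
        have hjA : 8 * Jn j * A ≤ Aj := Nat.mul_le_mul_right A (by omega)
        have e8 : 8 * Jn j * A = 8 * (Jn j * A) := mul_assoc _ _ _
        have e8' : A ≤ Jn j * A := Nat.le_mul_of_pos_left A hj1
        have h := stat_near (v := v) (x := x) hJ hn ht.le ha₀ (show a₀ ≤ Aj by omega)
          (show lo ≤ 8 * Jn j * A by omega) hjA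
        have := le_abs_self (tiltLag J t v a₀ x - tiltLag J t v (8 * Jn j * A) x)
        have := (slack_aux (v := v) (x := x) hJ hn ht.le le_rfl le_rfl hloh).1
        linarith
      refine (mul_le_mul_of_nonneg_right (le_abs_self _) (Real.sqrt_nonneg _)).trans
        (mul_le_mul_of_nonneg_left ?_ (abs_nonneg _))
      refine (sqrt_le_eta hη (le_max_left _ _)).trans (add_le_add le_rfl ?_)
      exact (div_le_div_of_nonneg_right hdrop (by positivity)).trans
        (div_le_div_of_nonneg_left hs0 hη (by linarith))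
    have hcs : 2 / (n : ℝ) * ∑ j, blockAvg Tn (cE j) ≤ 2 * N' * ε₁ + (∑ j, 2 * |Kψ j|) * (η + s / η) := by
      refine (mul_le_mul_of_nonneg_left (sum_le_sum fun j _ => hcj j) (by positivity)).trans_eq ?_
      rw [← mul_sum, ← mul_assoc, div_mul_cancel₀ _ hn'.ne', sum_add_distrib, sum_mul, mul_add, mul_sum]
      simp [mul_assoc, ← mul_sum]; ring
    have h9 := mul_le_mul_of_nonneg_left (mul_le_mul_of_nonneg_left hs' (inv_nonneg.2 hη.le)) (by linarith : 0 ≤ K₁)
    rw [← div_eq_inv_mul s] at h9
    have e : totK t Kc Ψ ψ Kψ = K₁ + ∑ j, 2 * |Kψ j| := by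
      simp only [totK, K₁, sum_add_distrib]; ring
    rw [e]
    linarith
  simp only [BlockAvg.smul, BlockAvg.add, BlockAvg.const hTn]
  refine mul_le_mul_of_nonneg_left ?_ hn'.le
  have h := div_le_div_of_nonneg_right hTot hδ.le
  have e : blockAvg Tn (fun v => Tot v / δ) = blockAvg Tn Tot / δ := by
    simp only [div_eq_inv_mul, BlockAvg.smul]
  rw [e]
  show _ + _ + _ + blockAvg Tn sl ≤ _
  linarith [show blockAvg Tn sl ≤ s from hs]

end Vale.Agent.P150.PA.Mmse
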