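import Vale.Agent.P150.PA.MmseKern
import Vale.Agent.P150.PA.BlockDrop
import Vale.Agent.P150.PA.BurnAssembly
import Vale.Agent.P150.PA.Field

/-! The field identity on the window `[A, A + A / 2)` of a block makes the Stein defects of the law of
the field small, site by site, around the magnetisation at a reference time. -/

open MeasureTheory Finset

namespace Vale.Agent.P150.PA.Mmse

open Ising

variable {n : ℕ} {J : Fin n → Fin n → ℝ} {b : Fin n → ℝ}

lemma law_apply (hJ : Tame J 3) (k : ℕ) (φ : Cfg n → ℝ) (x : Cfg n) :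
    Kpow J b k φ x = ∑ q, lawAt J b k x q * φ q := by
  rw [← Burn.avg_density hJ.symm hJ.diag k x φ]
  exact sum_congr rfl fun q _ => by rw [Burn.lawAt_eq hJ.symm hJ.diag]; ring

/-- the law of the chain averaged over the window `[A, A + A / 2)` -/
noncomputable def winLaw (J : Fin n → Fin n → ℝ) (b : Fin n → ℝ) (A : ℕ) (p q : Cfg n) : ℝ :=
  (∑ w ∈ Ico A (A + A / 2), lawAt J b w p q) / (A / 2 : ℕ)

lemma win_nonneg (A : ℕ) (p q : Cfg n) : 0 ≤ winLaw J b A p q :=
  div_nonneg (sum_nonneg fun w _ => Burn.lawAt_nonneg w p q) (Nat.cast_nonneg _)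

lemma win_apply (hJ : Tame J 3) (A : ℕ) (φ : Cfg n → ℝ) (p : Cfg n) :
    ∑ q, winLaw J b A p q * φ q = (∑ w ∈ Ico A (A + A / 2), Kpow J b w φ p) / (A / 2 : ℕ) := by
  simp only [winLaw, div_mul_eq_mul_div, ← sum_div, sum_mul]
  rw [sum_comm]
  congr 1
  exact sum_congr rfl fun w _ => (law_apply hJ w φ p).symm

lemma win_sum (hJ : Tame J 3) (hn : 0 < n) {A : ℕ} (hA : 2 ≤ A) (p : Cfg n) :
    ∑ q, winLaw J b A p q = 1 := by
  simp only [winLaw, ← sum_div]
  rw [sum_comm, sum_congr rfl fun w _ => Burn.lawAt_sum hJ.symm hJ.diag hn w p]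
  have : (A / 2 : ℕ) ≠ 0 := by omega
  simp [this]

/-- the window is at most twice the block -/
lemma win_le_block {A : ℕ} (hA : 2 ∣ A) (h0 : 0 < A) (f : ℕ → ℝ) (hf : ∀ w, 0 ≤ f w) :
    (∑ w ∈ Ico A (A + A / 2), f w) / (A / 2 : ℕ) ≤ 2 * blockAvg A f := by
  obtain ⟨m, rfl⟩ := hA
  have hm : (0 : ℝ) < m := by exact_mod_cast (by omega : 0 < m)
  have h : ∑ w ∈ Ico (2 * m) (2 * m + 2 * m / 2), f w ≤ ∑ w ∈ Ico (2 * m) (2 * (2 * m)), f w :=
    sum_le_sum_of_subset_of_nonneg (Ico_subset_Ico le_rfl (by omega)) fun w _ _ => hf w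
  rw [blockAvg, show 2 * m / 2 = m by omega]
  push_cast
  rw [← mul_div_assoc, mul_div_mul_left _ _ (two_ne_zero' ℝ)]
  refine div_le_div_of_nonneg_right (le_of_eq_of_le ?_ h) hm.le
  rw [show 2 * m / 2 = m by omega]

/-- the couplings as an operator -/
lemma sum_sq_apply_le (hJ : Tame J 3) (v : Fin n → ℝ) :
    ∑ i, (∑ j, J i j * v j) ^ 2 ≤ 9 * ∑ i, v i ^ 2 := by
  set u := fun i => ∑ j, J i j * v j
  have h := bilin_le hJ (fun i => u i / 3) v
  have e : ∑ i, ∑ j, J j i * (u i / 3 * v j) = (∑ i, u i ^ 2) / 3 := by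
    rw [sum_div]
    refine sum_congr rfl fun i _ => ?_
    rw [sq, show u i * u i / 3 = u i / 3 * u i by ring]
    simp only [u]
    rw [mul_sum (a := (∑ j, J i j * v j) / 3)]
    exact sum_congr rfl fun j _ => by rw [hJ.symm j i]; ring
  have e2 : ∑ i, (u i / 3) ^ 2 = (∑ i, u i ^ 2) / 9 := by
    rw [sum_div]; exact sum_congr rfl fun i _ => by ring
  rw [e, e2] at h
  linarith

lemma abs_le_eta {η : ℝ} (hη : 0 < η) (a : ℝ) : |a| ≤ η + a ^ 2 / (4 * η) := by
  rw [← sub_nonneg, show η + a ^ 2 / (4 * η) - |a| = (2 * η - |a|) ^ 2 / (4 * η) by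
    rw [sub_sq, sq_abs]; field_simp; ring]
  positivity

lemma sum_abs_le_eta {η : ℝ} (hη : 0 < η) (v : Fin n → ℝ) :
    ∑ i, |v i| ≤ η * n + (∑ i, v i ^ 2) / (4 * η) := by
  refine (sum_le_sum fun i _ => abs_le_eta hη (v i)).trans (le_of_eq ?_)
  rw [sum_add_distrib, sum_div]
  simp [mul_comm]

lemma abs_mean_le (hJ : Tame J 3) (hn : 0 < n) (k : ℕ) (x : Cfg n) (i : Fin n) : |mean J b k x i| ≤ 1 := by
  rw [mean, law_apply hJ]
  refine (abs_sum_le_sum_abs _ _).trans (le_of_eq ?_)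
  refine (sum_congr rfl fun q _ => ?_).trans (Burn.lawAt_sum (b := b) hJ.symm hJ.diag hn k x)
  rw [abs_mul, abs_of_nonneg (Burn.lawAt_nonneg k x q)]
  cases q i <;> simp [spin]

lemma qmean_mem (hJ : Tame J 3) (hn : 0 < n) (k : ℕ) (x : Cfg n) :
    0 ≤ qmean J b k x ∧ qmean J b k x ≤ 1 := by
  refine ⟨div_nonneg (sum_nonneg fun i _ => sq_nonneg _) (Nat.cast_nonneg n), ?_⟩
  rw [qmean, div_le_one (Nat.cast_pos.2 hn)]
  refine (sum_le_sum (g := fun _ => (1 : ℝ)) fun i _ => ?_).trans (by simp)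
  exact (sq_le_one_iff_abs_le_one _).2 (abs_mean_le hJ hn k x i)

lemma onsager_mem (hJ : Tame J 3) (hn : 0 < n) {β : ℝ} (hβ0 : 0 ≤ β) (hβ : β ≤ 1) (k : ℕ) (x : Cfg n) :
    0 ≤ onsager β J b k x ∧ onsager β J b k x ≤ 1 := by
  obtain ⟨h0, h1⟩ := qmean_mem (b := b) hJ hn k x
  exact ⟨mul_nonneg (sq_nonneg β) (by linarith), mul_le_one₀ (pow_le_one₀ hβ0 hβ) (by linarith) (by linarith)⟩

/-- squared distance of the magnetisations at two times -/
noncomputable def dist2 (J : Fin n → Fin n → ℝ) (b : Fin n → ℝ) (a c : ℕ) (p : Cfg n) : ℝ :=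
  ∑ i, (mean J b a p i - mean J b c p i) ^ 2

/-- the cavity fields at two times are close if the magnetisations are -/
lemma sum_abs_cav_sub_le (hJ : Tame J 3) (hn : 0 < n) {β η : ℝ} (hβ0 : 0 ≤ β) (hβ : β ≤ 1) (hη : 0 < η)
    (a c : ℕ) (p : Cfg n) :
    ∑ i, |cav β J b a p i - cav β J b c p i| ≤ 4 * η * n + 3 / η * dist2 J b a c p ∧
      n * |onsager β J b a p - onsager β J b c p| ≤ 2 * η * n + 1 / (2 * η) * dist2 J b a c p := by
  set δ := fun i => mean J b a p i - mean J b c p i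
  have hb2 : β ^ 2 ≤ 1 := pow_le_one₀ hβ0 hβ
  have hB : n * |onsager β J b a p - onsager β J b c p| ≤ 2 * ∑ i, |δ i| := by
    have e : (n : ℝ) * (onsager β J b a p - onsager β J b c p) =
        -(β ^ 2) * ∑ i, (mean J b a p i + mean J b c p i) * δ i := by
      have hn' : (n : ℝ) ≠ 0 := by exact_mod_cast hn.ne'
      simp only [onsager, qmean, δ]
      rw [sum_congr rfl fun i _ => (show (mean J b a p i + mean J b c p i) * (mean J b a p i - mean J b c p i) =
        mean J b a p i ^ 2 - mean J b c p i ^ 2 by ring), sum_sub_distrib]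
      field_simp
      ring
    rw [show (n : ℝ) * |onsager β J b a p - onsager β J b c p| = |(n : ℝ) * (onsager β J b a p - onsager β J b c p)| by
      rw [abs_mul, Nat.abs_cast], e, abs_mul, abs_neg, abs_of_nonneg (sq_nonneg β)]
    refine (mul_le_of_le_one_left (abs_nonneg _) hb2).trans ((abs_sum_le_sum_abs _ _).trans ?_)
    rw [mul_sum]
    refine sum_le_sum fun i _ => ?_
    rw [abs_mul]
    refine mul_le_mul_of_nonneg_right ((abs_add_le _ _).trans ?_) (abs_nonneg _)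
    linarith [abs_mean_le (b := b) hJ hn a p i, abs_mean_le (b := b) hJ hn c p i]
  have hS := sum_abs_le_eta hη δ
  have hJ1 : ∑ i, |∑ j, J i j * δ j| ≤ η * n + 9 * dist2 J b a c p / (4 * η) := by
    refine (sum_abs_le_eta hη _).trans (add_le_add le_rfl ?_)
    exact div_le_div_of_nonneg_right (sum_sq_apply_le hJ δ) (by linarith)
  have hD : ∑ i, δ i ^ 2 = dist2 J b a c p := rfl
  rw [hD] at hS
  refine ⟨?_, ?_⟩
  · have e : ∀ i, cav β J b a p i - cav β J b c p i = (∑ j, J i j * δ j) - onsager β J b a p * δ i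
        - (onsager β J b a p - onsager β J b c p) * mean J b c p i := fun i => by
      simp only [cav, δ, mul_sub, sum_sub_distrib]; ring
    have h : ∀ i, |cav β J b a p i - cav β J b c p i| ≤ |∑ j, J i j * δ j| + |δ i|
        + |onsager β J b a p - onsager β J b c p| := fun i => by
      rw [e]
      refine (abs_sub _ _).trans (add_le_add ((abs_sub _ _).trans (add_le_add le_rfl ?_)) ?_) <;>
        rw [abs_mul]
      · exact mul_le_of_le_one_left (abs_nonneg _) (abs_le.2 ⟨by linarith [(onsager_mem (b := b) hJ hn hβ0 hβ a p).1],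
          (onsager_mem (b := b) hJ hn hβ0 hβ a p).2⟩)
      · exact mul_le_of_le_one_right (abs_nonneg _) (abs_mean_le hJ hn c p i)
    refine (sum_le_sum fun i _ => h i).trans ?_
    simp only [sum_add_distrib, sum_const, card_univ, Fintype.card_fin, nsmul_eq_mul]
    refine (add_le_add (add_le_add hJ1 hS) (hB.trans (mul_le_mul_of_nonneg_left hS zero_le_two))).trans
      (le_of_eq ?_)
    field_simp
    ring
  · refine (hB.trans (mul_le_mul_of_nonneg_left hS zero_le_two)).trans (le_of_eq ?_)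
    field_simp
    ring

/-- one kernel carrying a finite family: the third parameter is shifted by ten times the index -/
noncomputable def bundle {N : ℕ} (Ψ : Fin N → Kern) : Kern where
  fn p h := ∑ j : Fin N, taper 2 (p 2 - 10 * (j : ℕ)) * (Ψ j).fn ![p 0, p 1, p 2 - 10 * (j : ℕ)] h
  dfn p h := ∑ j : Fin N, taper 2 (p 2 - 10 * (j : ℕ)) * (Ψ j).dfn ![p 0, p 1, p 2 - 10 * (j : ℕ)] h
  hasDeriv p h := HasDerivAt.fun_sum fun j _ => ((Ψ j).hasDeriv _ h).const_mul _
  M := 2 * ∑ j, (Ψ j).M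
  bdd p h := by
    have key : ∀ g : Fin N → ℝ, (∀ j, |g j| ≤ (Ψ j).M) →
        |∑ j : Fin N, taper 2 (p 2 - 10 * (j : ℕ)) * g j| ≤ 2 * ∑ j, (Ψ j).M := fun g hg => by
      rw [mul_sum]
      refine (abs_sum_le_sum_abs _ _).trans (sum_le_sum fun j _ => ?_)
      rw [abs_mul, abs_of_nonneg (taper_mem 2 _).1]
      linarith [mul_le_of_le_one_left (abs_nonneg (g j)) (taper_mem 2 (p 2 - 10 * (j : ℕ))).2, hg j,
        abs_nonneg (g j)]
    exact ⟨key _ fun j => ((Ψ j).bdd _ h).1, key _ fun j => ((Ψ j).bdd _ h).2⟩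
  lip p p' h h' := by
    have key : ∀ g g' : Fin N → ℝ, (∀ j, |g' j| ≤ (Ψ j).M) →
        (∀ j, |g j - g' j| ≤ (Ψ j).M * ((∑ i, |p i - p' i|) + |h - h'|)) →
        |(∑ j : Fin N, taper 2 (p 2 - 10 * (j : ℕ)) * g j) - ∑ j : Fin N, taper 2 (p' 2 - 10 * (j : ℕ)) * g' j|
          ≤ (2 * ∑ j, (Ψ j).M) * ((∑ i, |p i - p' i|) + |h - h'|) := fun g g' hg' hgg => by
      rw [← sum_sub_distrib, mul_sum, sum_mul]
      refine (abs_sum_le_sum_abs _ _).trans (sum_le_sum fun j _ => ?_)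
      set u := taper 2 (p 2 - 10 * (j : ℕ))
      set u' := taper 2 (p' 2 - 10 * (j : ℕ))
      set S := (∑ i, |p i - p' i|) + |h - h'|
      rw [show u * g j - u' * g' j = u * (g j - g' j) + (u - u') * g' j by ring]
      refine (abs_add_le _ _).trans ?_
      rw [abs_mul, abs_mul, abs_of_nonneg (taper_mem 2 _).1]
      have h1 := mul_le_mul (taper_mem 2 (p 2 - 10 * (j : ℕ))).2 (hgg j) (abs_nonneg _) zero_le_one
      have h2 : |u - u'| ≤ S := by
        refine (abs_max_sub_max_le_max _ _ _ _).trans (max_le (by simp; positivity) ?_)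
        refine (abs_min_sub_min_le_max _ _ _ _).trans (max_le (by simp; positivity) ?_)
        have hp : |p 2 - p' 2| ≤ S := (single_le_sum (f := fun i => |p i - p' i|) (fun i _ => abs_nonneg _)
          (mem_univ (2 : Fin 3))).trans (le_add_of_nonneg_right (abs_nonneg _))
        have h3 := abs_abs_sub_abs_le_abs_sub (p 2 - 10 * (j : ℕ)) (p' 2 - 10 * (j : ℕ))
        rw [show p 2 - 10 * ((j : ℕ) : ℝ) - (p' 2 - 10 * ((j : ℕ) : ℝ)) = p 2 - p' 2 by ring] at h3
        have h4 := abs_le.1 h3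
        rw [abs_le]
        constructor <;> linarith [abs_nonneg (p 2 - p' 2)]
      have h3 := mul_le_mul h2 (hg' j) (abs_nonneg _) (by positivity)
      linarith
    have hS : ∀ j : Fin N, (∑ i, |(![p 0, p 1, p 2 - 10 * (j : ℕ)] : Fin 3 → ℝ) i
        - (![p' 0, p' 1, p' 2 - 10 * (j : ℕ)] : Fin 3 → ℝ) i|) = ∑ i, |p i - p' i| := fun j => by
      simp [Fin.sum_univ_three]
    refine ⟨key _ _ (fun j => ((Ψ j).bdd _ h').1) fun j => ?_, key _ _ (fun j => ((Ψ j).bdd _ h').2) fun j => ?_⟩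
    · rw [← hS j]; exact ((Ψ j).lip _ _ h h').1
    · rw [← hS j]; exact ((Ψ j).lip _ _ h h').2

/-- the parameters selecting the member `j` of a bundle -/
noncomputable def shift3 (j : ℕ) (θ : Fin 3 → ℝ) : Fin 3 → ℝ := ![θ 0, θ 1, θ 2 + 10 * j]

lemma bundle_shift {N : ℕ} (Ψ : Fin N → Kern) (j : Fin N) {θ : Fin 3 → ℝ} (hθ : |θ 2| ≤ 2) (h : ℝ) :
    (bundle Ψ).fn (shift3 j θ) h = (Ψ j).fn θ h ∧ (bundle Ψ).dfn (shift3 j θ) h = (Ψ j).dfn θ h := by
  have h0 : ∀ i : Fin N, i ≠ j → taper 2 (shift3 j θ 2 - 10 * (i : ℕ)) = 0 := fun i hij => by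
    refine taper_zero two_pos ?_
    have h1 : (1 : ℝ) ≤ |((j : ℕ) : ℝ) - ((i : ℕ) : ℝ)| := by
      rcases lt_or_gt_of_ne (fun e => hij (Fin.ext e) : (i : ℕ) ≠ (j : ℕ)) with h | h
      · have : ((i : ℕ) : ℝ) + 1 ≤ (j : ℕ) := by exact_mod_cast h
        rw [abs_of_nonneg (by linarith)]; linarith
      · have : ((j : ℕ) : ℝ) + 1 ≤ (i : ℕ) := by exact_mod_cast h
        rw [abs_of_nonpos (by linarith)]; linarith
    have h2 := abs_sub_abs_le_abs_sub (10 * ((j : ℕ) : ℝ) - 10 * ((i : ℕ) : ℝ)) (-θ 2)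
    rw [← mul_sub, abs_mul, abs_neg, sub_neg_eq_add, mul_sub] at h2
    rw [shift3, show (![θ 0, θ 1, θ 2 + 10 * ((j : ℕ) : ℝ)] : Fin 3 → ℝ) 2 - 10 * ((i : ℕ) : ℝ)
      = 10 * ((j : ℕ) : ℝ) - 10 * ((i : ℕ) : ℝ) + θ 2 by simp; ring]
    norm_num at h2
    linarith
  have h1 : taper 2 (shift3 j θ 2 - 10 * (j : ℕ)) = 1 := taper_one two_pos (by simpa [shift3] using hθ)
  have h2 : (![shift3 j θ 0, shift3 j θ 1, shift3 j θ 2 - 10 * (j : ℕ)] : Fin 3 → ℝ) = θ := by
    funext i; fin_cases i <;> simp [shift3]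
  constructor <;> simp only [bundle] <;>
    rw [sum_eq_single j (fun i _ hij => by rw [h0 i hij, zero_mul]) (by simp), h1, one_mul, h2]

lemma abs_shift3_le {N : ℕ} (j : Fin N) {θ : Fin 3 → ℝ} {R : ℝ} (hθ : ∀ i, |θ i| ≤ R) (i : Fin 3) :
    |shift3 j θ i| ≤ R + 10 * N := by
  have hj : ((j : ℕ) : ℝ) ≤ N := by exact_mod_cast j.2.le
  have hj0 : (0 : ℝ) ≤ ((j : ℕ) : ℝ) := Nat.cast_nonneg _
  have := abs_le.1 (hθ 2)
  fin_cases i <;> simp [shift3]
  · linarith [hθ 0]
  · linarith [hθ 1]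
  · rw [abs_le]; constructor <;> linarith

/-- The field identity on a window, around the cavity field and the reaction coefficient at time `M`. -/
theorem block_site (hJ : Tame J 3) (hn : 0 < n) {β : ℝ} (hβ0 : 0 ≤ β) (hβ : β ≤ 1) {A : ℕ} (hA : 2 ∣ A)
    (hA0 : 0 < A) (M : ℕ) {η : ℝ} (hη : 0 < η) (Ψ : Kern) (θ : Fin n → Fin 3 → ℝ) (p : Cfg n) :
    |∑ q, winLaw J b A p q * ∑ i, (Ψ.fn (θ i) (fld J 0 i q) * (fld J 0 i q - cav β J b M p i
          - onsager β J b M p * Real.tanh (fld J 0 i q + b i))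
        - onsager β J b M p * Ψ.dfn (θ i) (fld J 0 i q))| ≤
      2 * blockAvg A (fun w => |fieldErr β J b Ψ θ w p|)
      + Ψ.M * (8 * η * n + 4 / η * ((∑ w ∈ Ico A (A + A / 2), dist2 J b w M p) / (A / 2 : ℕ))) := by
  have hM : 0 ≤ Ψ.M := (abs_nonneg _).trans (Ψ.bdd (fun _ => 0) 0).1
  set BM := onsager β J b M p
  set G := fun (q : Cfg n) => ∑ i, (Ψ.fn (θ i) (fld J 0 i q) * (fld J 0 i q - cav β J b M p i
      - BM * Real.tanh (fld J 0 i q + b i)) - BM * Ψ.dfn (θ i) (fld J 0 i q))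
  have h3 : ∀ w, |Kpow J b w G p| ≤ |fieldErr β J b Ψ θ w p| + Ψ.M * (8 * η * n + 4 / η * dist2 J b w M p) := by
    intro w
    refine le_trans ?_ (add_le_add le_rfl (le_refl _))
    refine sub_le_iff_le_add'.1 ((abs_sub_abs_le_abs_sub _ _).trans ?_)
    simp only [fieldErr]
    rw [law_apply hJ, law_apply hJ, ← sum_sub_distrib]
    set E := Ψ.M * (8 * η * n + 4 / η * dist2 J b w M p)
    refine (abs_sum_le_sum_abs _ _).trans ((sum_le_sum (g := fun q => lawAt J b w p q * E) fun q _ => ?_).trans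
      (le_of_eq ?_))
    · rw [← mul_sub, abs_mul, abs_of_nonneg (Burn.lawAt_nonneg w p q)]
      refine mul_le_mul_of_nonneg_left ?_ (Burn.lawAt_nonneg w p q)
      simp only [G]
      rw [← sum_sub_distrib]
      set Bw := onsager β J b w p
      have hfld : ∀ i, fld J b i q = fld J 0 i q + b i := fun i => by simp [fld]
      refine (abs_sum_le_sum_abs _ _).trans ((sum_le_sum (g := fun i =>
        Ψ.M * (|cav β J b w p i - cav β J b M p i| + 2 * |Bw - BM|)) fun i _ => ?_).trans ?_)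
      · rw [hfld]
        set h := fld J 0 i q
        have hf := (Ψ.bdd (θ i) h).1
        have hd := (Ψ.bdd (θ i) h).2
        rw [show Ψ.fn (θ i) h * (h - cav β J b M p i - BM * Real.tanh (h + b i)) - BM * Ψ.dfn (θ i) h -
            (Ψ.fn (θ i) h * (h - cav β J b w p i - Bw * Real.tanh (h + b i)) - Bw * Ψ.dfn (θ i) h) =
          Ψ.fn (θ i) h * (cav β J b w p i - cav β J b M p i) + Ψ.fn (θ i) h * ((Bw - BM) * Real.tanh (h + b i))
            + (Bw - BM) * Ψ.dfn (θ i) h by ring]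
        refine (abs_add_three _ _ _).trans ?_
        rw [abs_mul, abs_mul, abs_mul, abs_mul (Bw - BM)]
        have h1 := mul_le_mul_of_nonneg_right hf (abs_nonneg (cav β J b w p i - cav β J b M p i))
        have h2 := mul_le_mul hf (mul_le_of_le_one_right (abs_nonneg (Bw - BM))
          (Real.abs_tanh_lt_one (h + b i)).le) (by positivity) hM
        have h4 := mul_le_mul_of_nonneg_left hd (abs_nonneg (Bw - BM))
        linarith
      rw [← mul_sum]
      refine mul_le_mul_of_nonneg_left ?_ hM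
      obtain ⟨c1, c2⟩ := sum_abs_cav_sub_le (b := b) hJ hn hβ0 hβ hη w M p
      simp only [sum_add_distrib, ← mul_sum, sum_const, card_univ, Fintype.card_fin, nsmul_eq_mul]
      have e : 4 / η * dist2 J b w M p = 3 / η * dist2 J b w M p + 2 * (1 / (2 * η) * dist2 J b w M p) := by
        field_simp; ring
      linarith
    · rw [← sum_mul, Burn.lawAt_sum hJ.symm hJ.diag hn, one_mul]
  have hN : (0 : ℝ) < ((A / 2 : ℕ) : ℝ) := by exact_mod_cast (by omega : 0 < A / 2)
  show |∑ q, winLaw J b A p q * G q| ≤ _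
  rw [win_apply hJ, abs_div, abs_of_pos hN]
  refine (div_le_div_of_nonneg_right ((abs_sum_le_sum_abs _ _).trans (sum_le_sum fun w _ => h3 w)) hN.le).trans ?_
  rw [sum_add_distrib, add_div]
  refine add_le_add (win_le_block hA hA0 _ fun w => abs_nonneg _) (le_of_eq ?_)
  simp only [← mul_sum, sum_add_distrib, sum_const, Nat.card_Ico, add_tsub_cancel_left, nsmul_eq_mul]
  field_simp

/-- on the window the mean of the conditional magnetisation is the magnetisation, up to one sweep -/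
lemma win_tanh (hJ : Tame J 3) (hn : 0 < n) {A : ℕ} (hA : 2 ≤ A) (p : Cfg n) (i : Fin n) :
    |(∑ q, winLaw J b A p q * Real.tanh (fld J b i q)) -
        (∑ w ∈ Ico A (A + A / 2), mean J b w p i) / (A / 2 : ℕ)| ≤ 2 * n / (A / 2 : ℕ) := by
  have hN : (0 : ℝ) < ((A / 2 : ℕ) : ℝ) := by exact_mod_cast (by omega : 0 < A / 2)
  have hn' : (n : ℝ) ≠ 0 := by exact_mod_cast hn.ne'
  have step : ∀ w, Kpow J b w (fun y => Real.tanh (fld J b i y)) p - mean J b w p i =
      n * (mean J b (w + 1) p i - mean J b w p i) := by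
    intro w
    have e : K J b (fun y => spin (y i)) = fun y => spin (y i) + (Real.tanh (fld J b i y) - spin (y i)) / n := by
      funext y
      simp only [K, qb_eq, spin_update]
      rw [sum_congr rfl fun j _ => (show ((1 + mag J b j y) * (spin (y i) + if i = j then spin true - spin (y j) else 0) +
          (1 - mag J b j y) * (spin (y i) + if i = j then spin false - spin (y j) else 0)) / 2 =
          spin (y i) + (if i = j then mag J b i y - spin (y i) else 0) by
        by_cases h : i = j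
        · subst h; simp [spin]; ring
        · simp [h]; ring)]
      simp [sum_add_distrib, mag]
      field_simp
    simp only [mean]
    rw [Block.Kpow_comm, e, law_apply hJ, law_apply hJ, law_apply hJ, mul_sub, mul_sum, mul_sum,
      ← sum_sub_distrib, ← sum_sub_distrib]
    refine sum_congr rfl fun q _ => ?_
    field_simp
    ring
  rw [win_apply hJ, ← sub_div, ← sum_sub_distrib, sum_congr rfl fun w _ => step w, ← mul_sum,
    sum_Ico_sub (fun w => mean J b w p i) (by omega), abs_div, abs_of_pos hN, abs_mul, Nat.abs_cast,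
    mul_comm 2 (n : ℝ)]
  refine div_le_div_of_nonneg_right (mul_le_mul_of_nonneg_left ((abs_sub _ _).trans ?_) (Nat.cast_nonneg n)) hN.le
  linarith [abs_mean_le (b := b) hJ hn A p i, abs_mean_le (b := b) hJ hn (A + A / 2) p i]

end Vale.Agent.P150.PA.Mmse
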