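import Vale.Agent.P150.PA.MmseBlock
import Vale.Agent.P150.PA.TreePath

/-! The defect of the channel identity as an expectation over the configuration at the observation
time, with the spins at the end of the copy replaced by the magnetisation at a reference time. -/

open MeasureTheory Finset

namespace Vale.Agent.P150.PA.Mmse

open Ising

variable {n : ℕ} {J : Fin n → Fin n → ℝ} {b : Fin n → ℝ}

/-- expectation over the configuration at time `v` and the noise of its observation -/
noncomputable def jex (J : Fin n → Fin n → ℝ) (v : ℕ) (x : Cfg n) (Φ : Cfg n → (Fin n → ℝ) → ℝ) : ℝ :=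
  ∑ p, lawAt J 0 v x p * ∫ z, Φ p z ∂gauss (Fin n)

/-- continuous functions of the noise of exponential growth -/
def Nice (f : (Fin n → ℝ) → ℝ) : Prop := Continuous f ∧ ∃ C, ∀ z, |f z| ≤ C * Real.exp (1 * l1 z)

lemma one_le_exp_l1 (z : Fin n → ℝ) : 1 ≤ Real.exp (1 * l1 z) := Real.one_le_exp (by linarith [l1_nonneg z])

lemma nice_bdd {f : (Fin n → ℝ) → ℝ} (hc : Continuous f) {B : ℝ} (hb : ∀ z, |f z| ≤ B) : Nice f :=
  ⟨hc, B, fun z => (hb z).trans (le_mul_of_one_le_right ((abs_nonneg _).trans (hb z)) (one_le_exp_l1 z))⟩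

lemma nice_const (c : ℝ) : Nice fun _ : Fin n → ℝ => c := nice_bdd continuous_const fun _ => le_rfl

lemma nice_coord (i : Fin n) : Nice fun z => z i :=
  ⟨continuous_apply i, 1, fun z => by
    linarith [abs_le_l1 z i, Real.add_one_le_exp (1 * l1 z)]⟩

lemma Nice.add {f g : (Fin n → ℝ) → ℝ} (hf : Nice f) (hg : Nice g) : Nice fun z => f z + g z := by
  obtain ⟨C, hC⟩ := hf.2
  obtain ⟨D, hD⟩ := hg.2
  exact ⟨hf.1.add hg.1, C + D, fun z => (abs_add_le _ _).trans (by linarith [hC z, hD z])⟩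

lemma Nice.mul_bdd {f g : (Fin n → ℝ) → ℝ} (hf : Nice f) (hc : Continuous g) {B : ℝ} (hb : ∀ z, |g z| ≤ B) :
    Nice fun z => g z * f z := by
  obtain ⟨C, hC⟩ := hf.2
  refine ⟨hc.mul hf.1, B * C, fun z => ?_⟩
  rw [abs_mul, mul_assoc]
  exact mul_le_mul (hb z) (hC z) (abs_nonneg _) ((abs_nonneg _).trans (hb z))

lemma Nice.const_mul {f : (Fin n → ℝ) → ℝ} (hf : Nice f) (c : ℝ) : Nice fun z => c * f z :=
  hf.mul_bdd continuous_const fun _ => le_rfl

lemma Nice.sub {f g : (Fin n → ℝ) → ℝ} (hf : Nice f) (hg : Nice g) : Nice fun z => f z - g z := by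
  simpa [sub_eq_add_neg] using hf.add (hg.const_mul (-1))

lemma Nice.abs {f : (Fin n → ℝ) → ℝ} (hf : Nice f) : Nice fun z => |f z| := by
  obtain ⟨C, hC⟩ := hf.2
  exact ⟨hf.1.abs, C, fun z => by rw [abs_abs]; exact hC z⟩

lemma nice_sum {ι : Type*} (s : Finset ι) {f : ι → (Fin n → ℝ) → ℝ} (hf : ∀ i ∈ s, Nice (f i)) :
    Nice fun z => ∑ i ∈ s, f i z := by
  classical
  induction s using Finset.induction with
  | empty => simpa using nice_const (n := n) 0
  | insert a s ha ih =>
    simp only [sum_insert ha]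
    exact (hf a (mem_insert_self a s)).add (ih fun i hi => hf i (mem_insert_of_mem hi))

lemma Nice.integrable {f : (Fin n → ℝ) → ℝ} (hf : Nice f) : Integrable f (gauss (Fin n)) := by
  obtain ⟨C, hC⟩ := hf.2
  exact integrable_of_bound hf.1 hC

lemma lawAt_le_one (hJ : Tame J 3) (hn : 0 < n) (k : ℕ) (p q : Cfg n) : |lawAt J b k p q| ≤ 1 := by
  rw [abs_of_nonneg (Burn.lawAt_nonneg k p q), ← Burn.lawAt_sum (b := b) hJ.symm hJ.diag hn k p]
  exact single_le_sum (fun y _ => Burn.lawAt_nonneg k p y) (mem_univ q)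

lemma continuous_obsField (t : ℝ) (p : Cfg n) : Continuous fun z => obsField t p z := by
  unfold obsField; fun_prop

lemma continuous_lawAt (J : Fin n → Fin n → ℝ) (t : ℝ) (k : ℕ) (p y q : Cfg n) :
    Continuous fun z => lawAt J (obsField t p z) k y q :=
  (FieldAux.continuous_Kpow J _ k y).comp (continuous_obsField t p)

/-- the chain in the observed field preserves the class -/
lemma nice_Kpow (hJ : Tame J 3) (hn : 0 < n) (t : ℝ) (k : ℕ) (p y : Cfg n) {φ : (Fin n → ℝ) → Cfg n → ℝ}
    (hφ : ∀ q, Nice fun z => φ z q) : Nice fun z => Kpow J (obsField t p z) k (φ z) y := by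
  simp only [law_apply hJ]
  exact nice_sum _ fun q _ => (hφ q).mul_bdd (continuous_lawAt J t k p y q) fun z => lawAt_le_one hJ hn k y q

lemma nice_mean (hJ : Tame J 3) (hn : 0 < n) (t : ℝ) (k : ℕ) (p y : Cfg n) (i : Fin n) :
    Nice fun z => mean J (obsField t p z) k y i :=
  nice_bdd ((FieldAux.continuous_Kpow J _ k y).comp (continuous_obsField t p)) fun _ => abs_mean_le hJ hn k y i

/-- the end of a copy, seen from the configuration at the observation -/
theorem gmean_eq (hJ : Tame J 3) (hn : 0 < n) (t : ℝ) {W d j r v : ℕ} (hd : d ≤ v) (hr : r ≤ 2 * j * W)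
    (x : Cfg n) (G : (Fin n → ℝ) → Cfg n → Cfg n → Cfg n → ℝ) (hG : ∀ p y e, Nice fun z => G z p y e) :
    gmean (chanSched 1 t W d j r) J (v - d) x (fun F a => G a.1 (st F a.2.1 d)
        (cpos (chanSched 1 t W d j r) F a (d + r)) (cpos (chanSched 1 t W d j r) F a (d + 2 * j * W))) =
      jex J v x (fun p z => Kpow J (obsField t p z) r (fun y =>
        Kpow J (obsField t p z) (2 * j * W - r) (G z p y) y) p) := by
  set S := chanSched 1 t W d j r
  set R := 2 * j * W
  set H := fun (p : Cfg n) (z : Fin n → ℝ) => Kpow J (obsField t p z) r (fun y =>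
    Kpow J (obsField t p z) (R - r) (G z p y) y) p
  have hcpos : ∀ (F : Cfg n) (a : Copy S n) (k : ℕ), cpos S F a (d + k) = st (st F a.2.1 d) a.2.2 k := by
    intro F a k
    simp only [cpos]
    rcases Nat.eq_zero_or_pos k with rfl | hk
    · rw [if_pos (show d + 0 ≤ S.D from le_rfl)]; rfl
    · rw [if_neg (show ¬ d + k ≤ S.D from not_le.2 (Nat.lt_add_of_pos_right hk)),
        show d + k - S.D = k from Nat.add_sub_cancel_left d k]
      rfl
  have inner : ∀ (b : Fin n → ℝ) (m : Cfg n) (g : Cfg n → Cfg n → ℝ),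
      pex J b m (fun c : Path n R => g (st m c r) (st m c R)) =
        Kpow J b r (fun y => Kpow J b (R - r) (g y) y) m := by
    intro b m g
    have e : (fun c : Path n R => g (st m c r) (st m c R)) =
        fun c => ∑ y, (if st m c r = y then (1 : ℝ) else 0) * g y (st m c R) := by
      funext c; simp
    rw [e, pex_sum]
    rw [sum_congr rfl fun y _ => pex_markov (J := J) (b := b) hn (g y) hr le_rfl m _
      (before_st m (fun q => if q = y then (1 : ℝ) else 0) r)]
    rw [← pex_sum]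
    rw [← pex_st J b hn (fun y => Kpow J b (R - r) (g y) y) hr m]
    congr 1
    funext c
    simp
  have key : ∀ F, lex S J 0 F (fun a => G a.1 (st F a.2.1 d) (cpos S F a (d + r)) (cpos S F a (d + R))) =
      Kpow J 0 d (fun p => ∫ z, H p z ∂gauss (Fin n)) F := by
    intro F
    simp only [hcpos]
    have e : ∀ u, (∑ l : Leg S n, pw J 0 F l.1 *
        pw J (fun i => (0 : Fin n → ℝ) i + obsField S.t (st F l.1 S.D) u i) (st F l.1 S.D) l.2 *
          G u (st F l.1 d) (st (st F l.1 d) l.2 r) (st (st F l.1 d) l.2 R)) =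
        ∑ l₁ : Path n d, pw J 0 F l₁ * H (st F l₁ d) u := by
      intro u
      rw [Fintype.sum_prod_type]
      refine sum_congr rfl fun l₁ _ => ?_
      simp only [H, ← inner, pex, mul_sum]
      refine sum_congr rfl fun c _ => ?_
      have : (fun i => (0 : Fin n → ℝ) i + obsField S.t (st F l₁ S.D) u i) = obsField t (st F l₁ d) u := by
        funext i; simp [S, chanSched]
      rw [this]
      simp only [S, chanSched]
      ring
    simp only [lex]
    rw [show (∫ u, ∑ l : Leg S n, pw J 0 F l.1 *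
        pw J (fun i => (0 : Fin n → ℝ) i + obsField S.t (st F l.1 S.D) u i) (st F l.1 S.D) l.2 *
          G u (st F l.1 d) (st (st F l.1 d) l.2 r) (st (st F l.1 d) l.2 R) ∂gauss (Fin n)) =
        ∫ u, ∑ l₁ : Path n d, pw J 0 F l₁ * H (st F l₁ d) u ∂gauss (Fin n) from by simp only [e]]
    have hH : ∀ p, Nice (H p) := fun p =>
      nice_Kpow hJ hn t r p p fun y => nice_Kpow hJ hn t (R - r) p y fun e => hG p y e
    rw [integral_finsetSum _ fun l₁ _ => ((hH _).integrable.const_mul _)]
    simp only [integral_const_mul]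
    exact pex_st J 0 hn (fun p => ∫ z, H p z ∂gauss (Fin n)) le_rfl F
  simp only [gmean, key]
  have hKK : ∀ f : Cfg n → ℝ, Kpow J 0 (v - d) (Kpow J 0 d f) x = Kpow J 0 v f x := fun f => by
    simp only [Kpow]
    rw [← Function.iterate_add_apply, Nat.sub_add_cancel hd]
  rw [hKK, law_apply hJ]
  rfl

/-- the summand of the channel identity at one site, with the magnetisation at the reference time -/
noncomputable def chanTerm (β t q : ℝ) (ψ : ChanTest) (a : Fin n → ℝ) (J : Fin n → Fin n → ℝ)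
    (z : Fin n → ℝ) (p y : Cfg n) : ℝ :=
  ∑ i, (ψ.fn (fld J 0 i y) (z i) (p i) * a i
    - β ^ 2 * q * (ψ.fn (fld J 0 i y) (z i) (p i) * spin (p i) + ψ.dfn (fld J 0 i y) (z i) (p i))
    - β ^ 2 * q / Real.sqrt t * (z i * ψ.fn (fld J 0 i y) (z i) (p i) - ψ.zfn (fld J 0 i y) (z i) (p i)))

lemma continuous_fn (ψ : ChanTest) (h : ℝ) (c : Bool) :
    Continuous (fun u => ψ.fn h u c) ∧ Continuous (fun u => ψ.dfn h u c) := by
  refine ⟨continuous_iff_continuousAt.2 fun u => (ψ.hasDerivZ h u c).continuousAt, ?_⟩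
  have : LipschitzWith (Real.toNNReal ψ.M) fun u => ψ.dfn h u c :=
    LipschitzWith.of_dist_le_mul fun u u' => by
      have := (ψ.lip h h u u' c).2
      rw [sub_self, abs_zero, zero_add] at this
      rw [Real.dist_eq, Real.dist_eq, Real.coe_toNNReal _ ((abs_nonneg _).trans (ψ.bdd h u c).1)]
      exact this
  exact this.continuous

lemma nice_cav (hJ : Tame J 3) (hn : 0 < n) (β t : ℝ) (M : ℕ) (p : Cfg n) (i : Fin n) :
    Nice fun z => cav β J (obsField t p z) M p i := by
  have hq : Nice fun z => onsager β J (obsField t p z) M p := by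
    refine nice_bdd (B := β ^ 2) ?_ fun z => ?_
    · simp only [onsager, qmean, mean]
      have := fun i => (FieldAux.continuous_Kpow J (fun y : Cfg n => spin (y i)) M p).comp (continuous_obsField t p)
      simp only [Function.comp_def] at this
      fun_prop
    · obtain ⟨h0, h1⟩ := qmean_mem (b := obsField t p z) hJ hn M p
      rw [onsager, abs_mul, abs_of_nonneg (sq_nonneg β), abs_of_nonneg (by linarith : 0 ≤ 1 - qmean J (obsField t p z) M p)]
      exact mul_le_of_le_one_right (sq_nonneg β) (by linarith)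
  refine (nice_sum _ fun j _ => (nice_mean hJ hn t M p p j).const_mul (J i j)).sub ?_
  simpa only [mul_comm] using hq.mul_bdd (nice_mean hJ hn t M p p i).1 fun z => abs_mean_le hJ hn M p i

lemma jex_abs_le (hJ : Tame J 3) (hn : 0 < n) (v : ℕ) (x : Cfg n) {Φ Ψ : Cfg n → (Fin n → ℝ) → ℝ}
    (hΦ : ∀ p, Nice (Φ p)) (hΨ : ∀ p, Nice (Ψ p)) (h : ∀ p z, |Φ p z| ≤ Ψ p z) :
    |jex J v x Φ| ≤ jex J v x Ψ := by
  refine (abs_sum_le_sum_abs _ _).trans (sum_le_sum fun p _ => ?_)
  rw [abs_mul, abs_of_nonneg (Burn.lawAt_nonneg v x p)]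
  refine mul_le_mul_of_nonneg_left ?_ (Burn.lawAt_nonneg v x p)
  exact abs_integral_le_integral_abs.trans (integral_mono (hΦ p).abs.integrable (hΨ p).integrable (h p))

lemma jex_add (v : ℕ) (x : Cfg n) {Φ Ψ : Cfg n → (Fin n → ℝ) → ℝ}
    (hΦ : ∀ p, Nice (Φ p)) (hΨ : ∀ p, Nice (Ψ p)) :
    jex J v x (fun p z => Φ p z + Ψ p z) = jex J v x Φ + jex J v x Ψ := by
  simp only [jex, ← sum_add_distrib, ← mul_add]
  exact sum_congr rfl fun p _ => by rw [integral_add (hΦ p).integrable (hΨ p).integrable]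

lemma jex_const_mul (v : ℕ) (x : Cfg n) (c : ℝ) (Φ : Cfg n → (Fin n → ℝ) → ℝ) :
    jex J v x (fun p z => c * Φ p z) = c * jex J v x Φ := by
  simp only [jex, integral_const_mul, mul_sum]
  exact sum_congr rfl fun p _ => by ring

lemma jex_sub (v : ℕ) (x : Cfg n) {Φ Ψ : Cfg n → (Fin n → ℝ) → ℝ}
    (hΦ : ∀ p, Nice (Φ p)) (hΨ : ∀ p, Nice (Ψ p)) :
    jex J v x (fun p z => Φ p z - Ψ p z) = jex J v x Φ - jex J v x Ψ := by
  simp only [jex, ← sum_sub_distrib, ← mul_sub]
  exact sum_congr rfl fun p _ => by rw [integral_sub (hΦ p).integrable (hΨ p).integrable]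

lemma jex_const (hJ : Tame J 3) (hn : 0 < n) (v : ℕ) (x : Cfg n) (c : ℝ) :
    jex J v x (fun _ _ => c) = c := by
  simp [jex, ← sum_mul, Burn.lawAt_sum hJ.symm hJ.diag hn v x]

lemma Kpow_sq_dist (hJ : Tame J 3) (hn : 0 < n) (r c : ℕ) (p : Cfg n) :
    Kpow J b r (fun y => ∑ i, (mean J b c y i - mean J b (r + c) p i) ^ 2) p =
      n * (Kpow J b r (qmean J b c) p - qmean J b (r + c) p) := by
  have hm : ∀ i, mean J b (r + c) p i = ∑ q, lawAt J b r p q * mean J b c q i := fun i => by
    rw [← law_apply hJ]; simp only [mean, Kpow]; rw [← Function.iterate_add_apply]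
  have hn' : (n : ℝ) ≠ 0 := by exact_mod_cast hn.ne'
  rw [law_apply hJ, law_apply hJ, mul_sub, mul_sum]
  simp only [qmean, mul_div_cancel₀ _ hn', mul_left_comm _ (lawAt J b r p _)]
  have e : ∀ q, ∑ i, (mean J b c q i - mean J b (r + c) p i) ^ 2 = (∑ i, mean J b c q i ^ 2)
      - 2 * ∑ i, mean J b c q i * mean J b (r + c) p i + ∑ i, mean J b (r + c) p i ^ 2 := fun q => by
    rw [mul_sum, ← sum_sub_distrib, ← sum_add_distrib]
    exact sum_congr rfl fun i _ => by ring
  simp only [e, mul_add, mul_sub, sum_add_distrib, sum_sub_distrib, ← sum_mul,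
    Burn.lawAt_sum hJ.symm hJ.diag hn r p, one_mul]
  have h2 : ∑ q, lawAt J b r p q * (2 * ∑ i, mean J b c q i * mean J b (r + c) p i) =
      2 * ∑ i, mean J b (r + c) p i ^ 2 := by
    simp only [mul_sum]
    rw [sum_comm]
    refine sum_congr rfl fun i _ => ?_
    rw [sq]
    conv_rhs => rw [← mul_assoc]; arg 1; rw [hm i, mul_sum]
    rw [sum_mul]
    exact sum_congr rfl fun q _ => by ring
  linarith

/-- what replacing the end of the copy by the magnetisation at the reference time costs -/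
noncomputable def endCost (J : Fin n → Fin n → ℝ) (t : ℝ) (η q : ℝ) (r c M : ℕ) (p : Cfg n)
    (z : Fin n → ℝ) : ℝ :=
  2 * η * n + 7 / η * (n * (Kpow J (obsField t p z) r (qmean J (obsField t p z) c) p
      - qmean J (obsField t p z) (r + c) p) + dist2 J (obsField t p z) (r + c) M p)
    + n * |q - qmean J (obsField t p z) M p|

/-- at one start and noise, the end of the copy may be replaced -/
lemma end_replace (hJ : Tame J 3) (hn : 0 < n) {β t : ℝ} (hβ0 : 0 ≤ β) (hβ : β ≤ 1) {η q : ℝ} (hη : 0 < η)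
    (hq : |q| ≤ 1) (r c M : ℕ) (p : Cfg n) (z : Fin n → ℝ) (ψ : ChanTest) :
    let b := obsField t p z
    |Kpow J b r (fun y => Kpow J b c (fun e => ∑ i, ψ.fn (fld J 0 i y) (z i) (p i) *
        (fld J 0 i e - β ^ 2 * (1 - q) * spin (e i))) y) p
      - Kpow J b r (fun y => ∑ i, ψ.fn (fld J 0 i y) (z i) (p i) * cav β J b M p i) p| ≤
      ψ.M * endCost J t η q r c M p z := by
  intro b
  have hM : 0 ≤ ψ.M := (abs_nonneg _).trans (ψ.bdd 0 0 true).1
  have hb2 : β ^ 2 ≤ 1 := pow_le_one₀ hβ0 hβ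
  set Bq := β ^ 2 * (1 - q)
  have hBq : |Bq| ≤ 2 := by
    rw [abs_mul, abs_of_nonneg (sq_nonneg β)]
    have := abs_le.1 hq
    exact (mul_le_mul hb2 (abs_le.2 ⟨by linarith, by linarith⟩ : |1 - q| ≤ 2) (abs_nonneg _) zero_le_one).trans
      (by norm_num)
  have hin : ∀ y, Kpow J b c (fun e => ∑ i, ψ.fn (fld J 0 i y) (z i) (p i) *
      (fld J 0 i e - Bq * spin (e i))) y =
      ∑ i, ψ.fn (fld J 0 i y) (z i) (p i) * ((∑ j, J i j * mean J b c y j) - Bq * mean J b c y i) := by
    intro y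
    have hfld : ∀ i, ∑ j, J i j * mean J b c y j = ∑ e, lawAt J b c y e * fld J 0 i e := fun i => by
      simp only [mean, law_apply hJ, fld, Pi.zero_apply, add_zero, mul_sum]
      rw [sum_comm]
      exact sum_congr rfl fun e _ => sum_congr rfl fun j _ => by ring
    have hsp : ∀ i, mean J b c y i = ∑ e, lawAt J b c y e * spin (e i) := fun i => law_apply hJ _ _ _
    simp only [hfld]
    simp only [hsp, law_apply hJ, mul_sum]
    rw [sum_comm]
    refine sum_congr rfl fun i _ => ?_
    rw [← sum_sub_distrib, mul_sum]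
    exact sum_congr rfl fun e _ => by ring
  simp only [hin]
  rw [law_apply hJ, law_apply hJ, ← sum_sub_distrib]
  set μ := fun y i => mean J b c y i - mean J b M p i
  refine (abs_sum_le_sum_abs _ _).trans ((sum_le_sum (g := fun y => lawAt J b r p y * (ψ.M * (2 * η * n
    + (13 / (4 * η)) * (∑ i, μ y i ^ 2) + n * |q - qmean J b M p|))) fun y _ => ?_).trans ?_)
  · rw [← mul_sub, abs_mul, abs_of_nonneg (Burn.lawAt_nonneg r p y), ← sum_sub_distrib]
    refine mul_le_mul_of_nonneg_left ?_ (Burn.lawAt_nonneg r p y)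
    refine (abs_sum_le_sum_abs _ _).trans ((sum_le_sum (g := fun i =>
      ψ.M * (|∑ j, J i j * μ y j| + 2 * |μ y i| + |q - qmean J b M p|)) fun i _ => ?_).trans ?_)
    · rw [← mul_sub, abs_mul]
      refine mul_le_mul (ψ.bdd _ _ _).1 ?_ (abs_nonneg _) hM
      have e : (∑ j, J i j * mean J b c y j) - Bq * mean J b c y i - cav β J b M p i =
          (∑ j, J i j * μ y j) - Bq * μ y i + β ^ 2 * ((q - qmean J b M p) * mean J b M p i) := by
        simp only [cav, onsager, μ, Bq, mul_sub, sum_sub_distrib]; ring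
      rw [e]
      refine (abs_add_le _ _).trans (add_le_add ((abs_sub _ _).trans (add_le_add le_rfl ?_)) ?_)
      · rw [abs_mul]; exact mul_le_mul_of_nonneg_right hBq (abs_nonneg _)
      · rw [abs_mul, abs_mul, abs_of_nonneg (sq_nonneg β)]
        exact (mul_le_of_le_one_left (by positivity) hb2).trans
          (mul_le_of_le_one_right (abs_nonneg _) (abs_mean_le hJ hn M p i))
    rw [← mul_sum]
    refine mul_le_mul_of_nonneg_left ?_ hM
    simp only [sum_add_distrib, ← mul_sum, sum_const, card_univ, Fintype.card_fin, nsmul_eq_mul]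
    have h1 := sum_abs_le_eta hη (fun i => ∑ j, J i j * μ y j)
    have h2 := div_le_div_of_nonneg_right (sum_sq_apply_le hJ (μ y)) (by linarith : (0 : ℝ) ≤ 4 * η)
    have h3 := sum_abs_le_eta (half_pos hη) (μ y)
    have e : (∑ i, μ y i ^ 2) * (13 / (4 * η)) = 9 * (∑ i, μ y i ^ 2) / (4 * η) + 2 * ((∑ i, μ y i ^ 2) / (4 * (η / 2))) := by
      field_simp; ring
    linarith
  · simp only [endCost]
    rw [show (obsField t p z) = b from rfl]
    simp only [mul_left_comm (lawAt J b r p _) ψ.M, ← mul_sum, mul_add, sum_add_distrib, ← sum_mul,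
      Burn.lawAt_sum hJ.symm hJ.diag hn r p, one_mul]
    have hsq : ∑ y, lawAt J b r p y * (13 / (4 * η) * ∑ i, μ y i ^ 2) ≤
        7 / η * (n * (Kpow J b r (qmean J b c) p - qmean J b (r + c) p) + dist2 J b (r + c) M p) := by
      have h : ∀ y, ∑ i, μ y i ^ 2 ≤ 2 * ∑ i, (mean J b c y i - mean J b (r + c) p i) ^ 2 + 2 * dist2 J b (r + c) M p := by
        intro y
        simp only [dist2, mul_sum, ← sum_add_distrib]
        refine sum_le_sum fun i _ => ?_
        simp only [μ]
        nlinarith [sq_nonneg (mean J b c y i - 2 * mean J b (r + c) p i + mean J b M p i)]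
      refine (sum_le_sum fun y _ => mul_le_mul_of_nonneg_left (mul_le_mul_of_nonneg_left (h y)
        (by positivity)) (Burn.lawAt_nonneg r p y)).trans ?_
      simp only [mul_add, sum_add_distrib, ← mul_assoc, ← sum_mul, mul_comm _ (13 / (4 * η) : ℝ)]
      have e := Kpow_sq_dist (b := b) hJ hn r c p
      rw [law_apply hJ] at e
      simp only [mul_assoc, mul_left_comm (lawAt J b r p _) (2 : ℝ), ← mul_sum, e, ← sum_mul, Burn.lawAt_sum hJ.symm hJ.diag hn r p, one_mul]
      have h0 : 0 ≤ n * (Kpow J b r (qmean J b c) p - qmean J b (r + c) p) := by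
        rw [← Kpow_sq_dist (b := b) hJ hn r c p, law_apply hJ]
        exact sum_nonneg fun y _ => mul_nonneg (Burn.lawAt_nonneg r p y) (sum_nonneg fun _ _ => sq_nonneg _)
      have h1 : 0 ≤ dist2 J b (r + c) M p := sum_nonneg fun _ _ => sq_nonneg _
      rw [show (7 : ℝ) / η = 28 / (4 * η) by field_simp; ring]
      have h4 : 0 ≤ (4 * η)⁻¹ := by positivity
      simp only [div_eq_mul_inv]
      nlinarith [mul_nonneg h4 h0, mul_nonneg h4 h1]
    nlinarith

end Vale.Agent.P150.PA.Mmse
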