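import Vale.Agent.P150.PA.MmseStat

/-! The hypotheses of the law step as bounds by the channel defect and the slack of stationarity. -/

open MeasureTheory Finset

namespace Vale.Agent.P150.PA.Mmse

open Ising

variable {n : ℕ} {J : Fin n → Fin n → ℝ} {t : ℝ} {v : ℕ} {x : Cfg n}

lemma sq_coord (i : Fin n) :
    Integrable (fun z => z i ^ 2) (gauss (Fin n)) ∧ ∫ z, z i ^ 2 ∂gauss (Fin n) = 1 := by
  have hb : ∀ z : Fin n → ℝ, |z i| ≤ 1 * Real.exp (1 * l1 z) := fun z => by
    linarith [abs_le_l1 z i, Real.add_one_le_exp (1 * l1 z)]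
  refine ⟨integrable_of_bound (C := 1) (M := 2) (by fun_prop) fun z => ?_, ?_⟩
  · rw [abs_pow, show (2 : ℝ) * l1 z = 1 * l1 z + 1 * l1 z by ring, Real.exp_add, sq]
    exact (mul_le_mul (hb z) (hb z) (abs_nonneg _) (by positivity)).trans (le_of_eq (by ring))
  · have := gauss_ibp i (φ := fun z : Fin n → ℝ => z i) (φ' := fun _ => 1) (C := 1) zero_le_one
      (continuous_apply i) continuous_const hb
      (fun z => by rw [abs_one, one_mul]; exact one_le_exp_l1 z) fun z s => by simpa using hasDerivAt_id' s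
    simpa [sq] using this

lemma nice_l1 : Nice (l1 : (Fin n → ℝ) → ℝ) := nice_sum univ fun i _ => (nice_coord i).abs

lemma l1_int_le : ∫ z, l1 z ∂gauss (Fin n) ≤ n := by
  have hi : ∀ i : Fin n, Integrable (fun z : Fin n → ℝ => |z i|) (gauss (Fin n)) :=
    fun i => (nice_coord i).abs.integrable
  simp only [l1]
  rw [integral_finsetSum _ fun i _ => hi i]
  refine (sum_le_sum (g := fun _ => (1 : ℝ)) fun i _ => ?_).trans_eq (by simp)
  obtain ⟨h1, h2⟩ := sq_coord i
  refine (integral_mono (hi i) (((integrable_const (1 : ℝ)).add h1).div_const 2) fun z => ?_).trans_eq ?_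
  · simp only [Pi.add_apply]
    nlinarith [sq_nonneg (|z i| - 1), sq_abs (z i)]
  · simp only [Pi.add_apply]
    rw [integral_div, integral_add (integrable_const _) h1, h2]
    simp

lemma jex_mono (hJ : Tame J 3) (hn : 0 < n) {Φ Ψ : Cfg n → (Fin n → ℝ) → ℝ}
    (hΦ : ∀ p, Nice (Φ p)) (hΨ : ∀ p, Nice (Ψ p)) (h : ∀ p z, Φ p z ≤ Ψ p z) :
    jex J v x Φ ≤ jex J v x Ψ :=
  sum_le_sum fun p _ => mul_le_mul_of_nonneg_left
    (integral_mono (hΦ p).integrable (hΨ p).integrable (h p)) (Burn.lawAt_nonneg v x p)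

lemma nice_qmean (hJ : Tame J 3) (hn : 0 < n) (t : ℝ) (a : ℕ) (p y : Cfg n) :
    Nice fun z => qmean J (obsField t p z) a y :=
  nice_bdd ((Joint.continuous_qmean a y).comp (continuous_obsField t p)) fun _ => Joint.abs_qmean_le _ a y

lemma nice_jensen (hJ : Tame J 3) (hn : 0 < n) (t : ℝ) (r c : ℕ) (p : Cfg n) :
    Nice fun z => Kpow J (obsField t p z) r (qmean J (obsField t p z) c) p
      - qmean J (obsField t p z) (r + c) p :=
  (nice_Kpow hJ hn t r p p fun q => nice_qmean hJ hn t c p q).sub (nice_qmean hJ hn t _ p p)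

lemma nice_dist2 (hJ : Tame J 3) (hn : 0 < n) (t : ℝ) (a c : ℕ) (p : Cfg n) :
    Nice fun z => dist2 J (obsField t p z) a c p :=
  nice_sum univ fun i _ => by
    simp only [sq]
    exact ((nice_mean hJ hn t a p p i).sub (nice_mean hJ hn t c p p i)).mul_bdd
      ((nice_mean hJ hn t a p p i).1.sub (nice_mean hJ hn t c p p i).1) (B := 1 + 1) fun z =>
      (abs_sub _ _).trans (add_le_add (abs_mean_le hJ hn a p i) (abs_mean_le hJ hn c p i))

lemma nice_endCost (hJ : Tame J 3) (hn : 0 < n) (t η q : ℝ) (r c M : ℕ) (p : Cfg n) :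
    Nice fun z => endCost J t η q r c M p z :=
  ((nice_const _).add ((((nice_jensen hJ hn t r c p).const_mul _).add
    (nice_dist2 hJ hn t (r + c) M p)).const_mul _)).add
      (((nice_const q).sub (nice_qmean hJ hn t M p p)).abs.const_mul _)

lemma nice_test (ψ : ChanTest) (h : Fin n → ℝ) (p : Cfg n) {a : (Fin n → ℝ) → Fin n → ℝ}
    (ha : ∀ i, Nice fun z => a z i) :
    Nice fun z => ∑ i, ψ.fn (h i) (z i) (p i) * a z i :=
  nice_sum univ fun i _ => (ha i).mul_bdd
    ((continuous_fn ψ (h i) (p i)).1.comp (continuous_apply i)) fun z => (ψ.bdd _ _ _).1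

/-- the part of the summand of the channel identity that multiplies the overlap -/
noncomputable def chanLin (t : ℝ) (ψ : ChanTest) (J : Fin n → Fin n → ℝ) (z : Fin n → ℝ) (p y : Cfg n) : ℝ :=
  ∑ i, (ψ.fn (fld J 0 i y) (z i) (p i) * spin (p i) + ψ.dfn (fld J 0 i y) (z i) (p i)
    + (z i * ψ.fn (fld J 0 i y) (z i) (p i) - ψ.zfn (fld J 0 i y) (z i) (p i)) / Real.sqrt t)

lemma chanTerm_eq (β t q : ℝ) (ψ : ChanTest) (a : Fin n → ℝ) (z : Fin n → ℝ) (p y : Cfg n) :
    chanTerm β t q ψ a J z p y =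
      (∑ i, ψ.fn (fld J 0 i y) (z i) (p i) * a i) - β ^ 2 * q * chanLin t ψ J z p y := by
  simp only [chanTerm, chanLin, mul_sum, ← sum_sub_distrib]
  exact sum_congr rfl fun i _ => by ring

lemma abs_chanLin_le (ψ : ChanTest) (z : Fin n → ℝ) (p y : Cfg n) :
    |chanLin t ψ J z p y| ≤ ψ.M * (2 * n + (l1 z + n) / Real.sqrt t) := by
  refine (abs_sum_le_sum_abs _ _).trans ((sum_le_sum (g := fun i => ψ.M * (2 + (|z i| + 1) / Real.sqrt t))
    fun i _ => ?_).trans_eq ?_)
  · set h := fld J 0 i y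
    obtain ⟨b1, b2, b3⟩ := ψ.bdd h (z i) (p i)
    refine (abs_add_le _ _).trans ?_
    rw [mul_add, mul_div_assoc' ψ.M, abs_div, abs_of_nonneg (Real.sqrt_nonneg t)]
    refine add_le_add ((abs_add_le _ _).trans ?_) (div_le_div_of_nonneg_right ?_ (Real.sqrt_nonneg t))
    · have : |ψ.fn h (z i) (p i) * spin (p i)| ≤ ψ.M := by
        cases p i <;> simp [spin] <;> exact (ψ.bdd _ _ _).1
      linarith
    · refine (abs_sub _ _).trans ?_
      rw [mul_add, mul_one, abs_mul, mul_comm ψ.M]
      exact add_le_add (mul_le_mul_of_nonneg_left b1 (abs_nonneg _)) b3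
  · simp only [← mul_sum, sum_add_distrib, sum_const, card_univ, Fintype.card_fin, nsmul_eq_mul, ← sum_div, l1]
    ring

lemma nice_chanLin (ψ : ChanTest) (t : ℝ) (p y : Cfg n) : Nice fun z => chanLin t ψ J z p y := by
  refine nice_sum univ fun i _ => ?_
  have h1 := (continuous_fn ψ (fld J 0 i y) (p i)).1.comp (continuous_apply (A := fun _ : Fin n => ℝ) i)
  have h2 := (continuous_fn ψ (fld J 0 i y) (p i)).2.comp (continuous_apply (A := fun _ : Fin n => ℝ) i)
  have h3 := (ψ.contZ (fld J 0 i y) (p i)).comp (continuous_apply (A := fun _ : Fin n => ℝ) i)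
  have n1 : Nice fun z => ψ.fn (fld J 0 i y) (z i) (p i) := nice_bdd h1 fun z => (ψ.bdd _ _ _).1
  have n2 : Nice fun z => ψ.dfn (fld J 0 i y) (z i) (p i) := nice_bdd h2 fun z => (ψ.bdd _ _ _).2.1
  have n3 : Nice fun z => ψ.zfn (fld J 0 i y) (z i) (p i) := nice_bdd h3 fun z => (ψ.bdd _ _ _).2.2
  have n4 := ((nice_coord i).mul_bdd n1.1 fun z => (ψ.bdd _ _ _).1).sub n3
  simpa [div_eq_inv_mul, mul_comm] using
    ((n1.const_mul (spin (p i))).add n2).add (n4.const_mul (Real.sqrt t)⁻¹)

lemma nice_chanTerm (ψ : ChanTest) (β t q : ℝ) (p y : Cfg n) {a : (Fin n → ℝ) → Fin n → ℝ}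
    (ha : ∀ i, Nice fun z => a z i) : Nice fun z => chanTerm β t q ψ (a z) J z p y := by
  simp only [chanTerm_eq]
  exact (nice_test ψ _ p ha).sub ((nice_chanLin ψ t p y).const_mul _)

lemma chanQ_eq (hJ : Tame J 3) (hn : 0 < n) (t : ℝ) {W d j r : ℕ} (hd : d ≤ v) (hr : r ≤ 2 * j * W) :
    chanQ (chanSched 1 t W d j r) J (v - d) x =
      jex J v x (fun p z => ov J (obsField t p z) 0 (2 * j * W) p) := by
  have h : gmean (chanSched 1 t W d j r) J (v - d) x (fun F a => ∑ i, spin (st F a.2.1 d i) *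
      spin (cpos (chanSched 1 t W d j r) F a (d + 2 * j * W) i)) = _ :=
    gmean_eq (J := J) hJ hn t hd hr x (fun _ p _ e => ∑ i, spin (p i) * spin (e i)) fun p y e => nice_const _
  refine (congrArg (· / (n : ℝ)) h).trans ?_
  rw [div_eq_inv_mul, ← jex_const_mul]
  congr 1
  funext p z
  have e : ∀ (G : Cfg n → ℝ), Kpow J (obsField t p z) r (fun y => Kpow J (obsField t p z) (2 * j * W - r) G y) p =
      Kpow J (obsField t p z) (2 * j * W) G p := fun G => by
    simp only [Kpow]
    rw [← Function.iterate_add_apply, Nat.add_sub_cancel' hr]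
  rw [e, ov, div_eq_inv_mul, law_apply hJ]
  congr 1
  simp only [mul_sum]
  rw [sum_comm]
  refine sum_congr rfl fun i _ => ?_
  rw [show mean J (obsField t p z) 0 p i = spin (p i) from rfl, mean, law_apply hJ, mul_sum]
  exact sum_congr rfl fun q _ => by ring

/-- the channel identity at one schedule and one time -/
theorem chan_single (hJ : Tame J 3) (hn : 0 < n) {β : ℝ} (hβ0 : 0 ≤ β) (hβ : β ≤ 1) (ht : 0 < t) {η : ℝ}
    (hη : 0 < η) {W d j r lo hi M : ℕ} (hd : d ≤ v) (hr : r ≤ 2 * j * W) (hc : lo ≤ 2 * j * W - r)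
    (hjM : 2 * j * W ≤ M) (hM : M ≤ hi) (hj : lo ≤ j * W) (ψ : ChanTest) {Cc : ℝ}
    (hC : jex J v x (fun p z => |qmean J (obsField t p z) M p - tiltLag J t v M x|) ≤ Cc) :
    |jex J v x (fun p z => Kpow J (obsField t p z) r
        (chanTerm β t (tiltLag J t v M x) ψ (cav β J (obsField t p z) M p) J z p) p)| ≤
      |chanErr (chanSched 1 t W d j r) J β ψ (v - d) x|
      + n * ψ.M * (2 * η + (14 / η + 3 + 2 / Real.sqrt t) * slack J t v x lo hi + Cc) := by
  have hMψ : 0 ≤ ψ.M := (abs_nonneg _).trans (ψ.bdd 0 0 true).1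
  set S := chanSched 1 t W d j r
  set c := 2 * j * W - r
  set qc := chanQ S J (v - d) x
  set q0 := tiltLag J t v M x
  set sl := slack J t v x lo hi
  have hq : |qc - q0| ≤ sl := by
    simp only [qc, S, chanQ_eq hJ hn t hd hr]
    rw [show 2 * j * W = 2 * (j * W) by ring]
    exact stat_q hJ hn ht.le hj (by rw [← mul_assoc]; omega) (by omega) hM
  have hqc : |qc| ≤ 1 := by
    simp only [qc, S, chanQ_eq hJ hn t hd hr]
    refine (jex_abs_le (Ψ := fun _ _ => 1) hJ hn v x (fun p => ?_) (fun _ => nice_const 1) fun p z =>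
      Corr.abs_ov_le 0 _ p).trans_eq (jex_const hJ hn v x 1)
    exact nice_bdd ((Joint.continuous_ov 0 _ p).comp (continuous_obsField t p)) fun _ => Corr.abs_ov_le 0 _ p
  -- the terms of the identity
  set b := fun (p : Cfg n) z => obsField t p z
  set E1 := fun p z => Kpow J (b p z) r (fun y => Kpow J (b p z) c (fun e => ∑ i,
    ψ.fn (fld J 0 i y) (z i) (p i) * (fld J 0 i e - β ^ 2 * (1 - qc) * spin (e i))) y) p
  set E2 := fun p z => Kpow J (b p z) r (chanLin t ψ J z p) p
  set F := fun p z => Kpow J (b p z) r (chanTerm β t q0 ψ (cav β J (b p z) M p) J z p) p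
  have hnfld : ∀ p y e : Cfg n, Nice fun z : Fin n → ℝ => ∑ i,
      ψ.fn (fld J 0 i y) (z i) (p i) * (fld J 0 i e - β ^ 2 * (1 - qc) * spin (e i)) := fun p y e =>
    nice_test ψ (fun i => fld J 0 i y) p fun i => nice_const _
  have n1 : ∀ p, Nice (E1 p) := fun p =>
    nice_Kpow hJ hn t r p p fun y => nice_Kpow hJ hn t c p y fun e => hnfld p y e
  have n2 : ∀ p, Nice (E2 p) := fun p => nice_Kpow hJ hn t r p p fun y => nice_chanLin ψ t p y
  have nF : ∀ p, Nice (F p) := fun p =>
    nice_Kpow hJ hn t r p p fun y => nice_chanTerm ψ β t q0 p y fun i => nice_cav hJ hn β t M p i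
  have herr : chanErr S J β ψ (v - d) x = jex J v x (fun p z => E1 p z - β ^ 2 * qc * E2 p z) := by
    have g : ∀ (G : (Fin n → ℝ) → Cfg n → Cfg n → Cfg n → ℝ), (∀ p y e, Nice fun z => G z p y e) →
        gmean S J (v - d) x (fun F a => G a.1 (st F a.2.1 S.D) (cpos S F a (S.D + S.r)) (cpos S F a (S.D + S.R))) =
        jex J v x (fun p z => Kpow J (b p z) r (fun y => Kpow J (b p z) c (G z p y) y) p) :=
      fun G hG => gmean_eq hJ hn t hd hr x G hG
    have hc1 : ∀ (p y : Cfg n) i, Continuous fun z : Fin n → ℝ => ψ.fn (fld J 0 i y) (z i) (p i) :=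
      fun p y i => (continuous_fn ψ _ _).1.comp (continuous_apply i)
    have a1 := g (fun z p y e => ∑ i, ψ.fn (fld J 0 i y) (z i) (p i) * fld J 0 i e)
      fun p y e => nice_test ψ (fun i => fld J 0 i y) p fun i => nice_const _
    have a2 := g (fun z p y _ => ∑ i, ψ.fn (fld J 0 i y) (z i) (p i) * spin (p i))
      fun p y e => nice_test ψ (fun i => fld J 0 i y) p fun i => nice_const _
    have a3 := g (fun z p y _ => ∑ i, ψ.dfn (fld J 0 i y) (z i) (p i))
      fun p y e => nice_sum univ fun i _ => nice_bdd ((continuous_fn ψ _ _).2.comp (continuous_apply i))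
        fun z => (ψ.bdd _ _ _).2.1
    have a4 := g (fun z p y _ => ∑ i, (z i * ψ.fn (fld J 0 i y) (z i) (p i) - ψ.zfn (fld J 0 i y) (z i) (p i)))
      fun p y e => nice_sum univ fun i _ => by
        refine Nice.sub ?_ (nice_bdd ((ψ.contZ _ _).comp (continuous_apply i)) fun z => (ψ.bdd _ _ _).2.2)
        simpa [mul_comm] using (nice_coord i).mul_bdd (hc1 p y i) fun z => (ψ.bdd _ _ _).1
    have a5 := g (fun z p y e => ∑ i, ψ.fn (fld J 0 i y) (z i) (p i) * spin (e i))
      fun p y e => nice_test ψ (fun i => fld J 0 i y) p fun i => nice_const _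
    simp only [chanErr]
    rw [a1, a2, a3, a4, a5, show S.t = t from rfl]
    simp only [jex, mul_sum, ← sum_add_distrib, ← sum_sub_distrib]
    refine sum_congr rfl fun p _ => ?_
    have hI : ∀ (G : (Fin n → ℝ) → Cfg n → Cfg n → ℝ), (∀ y e, Nice fun z => G z y e) →
        Integrable (fun z => Kpow J (b p z) r (fun y => Kpow J (b p z) c (G z y) y) p) (gauss (Fin n)) :=
      fun G hG => (nice_Kpow hJ hn t r p p fun y => nice_Kpow hJ hn t c p y fun e => hG y e).integrable
    have i1 := hI (fun z y e => ∑ i, ψ.fn (fld J 0 i y) (z i) (p i) * fld J 0 i e)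
      fun y e => nice_test ψ (fun i => fld J 0 i y) p fun i => nice_const _
    have i2 := hI (fun z y _ => ∑ i, ψ.fn (fld J 0 i y) (z i) (p i) * spin (p i))
      fun y e => nice_test ψ (fun i => fld J 0 i y) p fun i => nice_const _
    have i3 := hI (fun z y _ => ∑ i, ψ.dfn (fld J 0 i y) (z i) (p i))
      fun y e => nice_sum univ fun i _ => nice_bdd ((continuous_fn ψ _ _).2.comp (continuous_apply i))
        fun z => (ψ.bdd _ _ _).2.1
    have i4 := hI (fun z y _ => ∑ i, (z i * ψ.fn (fld J 0 i y) (z i) (p i) - ψ.zfn (fld J 0 i y) (z i) (p i)))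
      fun y e => nice_sum univ fun i _ => by
        refine Nice.sub ?_ (nice_bdd ((ψ.contZ _ _).comp (continuous_apply i)) fun z => (ψ.bdd _ _ _).2.2)
        simpa [mul_comm] using (nice_coord i).mul_bdd (hc1 p y i) fun z => (ψ.bdd _ _ _).1
    have i5 := hI (fun z y e => ∑ i, ψ.fn (fld J 0 i y) (z i) (p i) * spin (e i))
      fun y e => nice_test ψ (fun i => fld J 0 i y) p fun i => nice_const _
    have hpt : ∀ z, E1 p z - β ^ 2 * qc * E2 p z =
        Kpow J (b p z) r (fun y => Kpow J (b p z) c (fun e => ∑ i, ψ.fn (fld J 0 i y) (z i) (p i) * fld J 0 i e) y) p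
        - β ^ 2 * (qc * Kpow J (b p z) r (fun y => Kpow J (b p z) c (fun _ => ∑ i, ψ.fn (fld J 0 i y) (z i) (p i) * spin (p i)) y) p
          + qc * Kpow J (b p z) r (fun y => Kpow J (b p z) c (fun _ => ∑ i, ψ.dfn (fld J 0 i y) (z i) (p i)) y) p
          + qc / Real.sqrt t * Kpow J (b p z) r (fun y => Kpow J (b p z) c (fun _ => ∑ i,
            (z i * ψ.fn (fld J 0 i y) (z i) (p i) - ψ.zfn (fld J 0 i y) (z i) (p i))) y) p
          + (1 - qc) * Kpow J (b p z) r (fun y => Kpow J (b p z) c (fun e => ∑ i, ψ.fn (fld J 0 i y) (z i) (p i) * spin (e i)) y) p) := by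
      intro z
      have hconst : ∀ (C : ℝ) (y : Cfg n), Kpow J (b p z) c (fun _ => C) y = C := fun C y => by
        rw [law_apply hJ, ← sum_mul, Burn.lawAt_sum hJ.symm hJ.diag hn, one_mul]
      have e1 : ∀ y e, (∑ i, ψ.fn (fld J 0 i y) (z i) (p i) * (fld J 0 i e - β ^ 2 * (1 - qc) * spin (e i))) =
          (∑ i, ψ.fn (fld J 0 i y) (z i) (p i) * fld J 0 i e)
            + -(β ^ 2 * (1 - qc)) * ∑ i, ψ.fn (fld J 0 i y) (z i) (p i) * spin (e i) := fun y e => by
        rw [mul_sum, ← sum_add_distrib]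
        exact sum_congr rfl fun i _ => by ring
      have e2 : chanLin t ψ J z p = fun y => ((∑ i, ψ.fn (fld J 0 i y) (z i) (p i) * spin (p i))
            + 1 * ∑ i, ψ.dfn (fld J 0 i y) (z i) (p i))
            + (Real.sqrt t)⁻¹ * ∑ i, (z i * ψ.fn (fld J 0 i y) (z i) (p i) - ψ.zfn (fld J 0 i y) (z i) (p i)) := by
        funext y
        simp only [chanLin, mul_sum, ← sum_add_distrib]
        exact sum_congr rfl fun i _ => by ring
      simp only [E1, E2, e1, e2, Block.Kpow_add_mul, hconst]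
      ring
    simp only [hpt]
    rw [integral_sub i1 (by fun_prop), integral_const_mul,
      integral_add (by fun_prop) (i5.const_mul _), integral_add (by fun_prop) (i4.const_mul _),
      integral_add (i2.const_mul _) (i3.const_mul _)]
    simp only [integral_const_mul]
    ring
  have hdiff : ∀ p z, |F p z - (E1 p z - β ^ 2 * qc * E2 p z)| ≤
      ψ.M * (endCost J t η qc r c M p z + sl * (2 * n + (l1 z + n) / Real.sqrt t)) := by
    intro p z
    have h := end_replace (t := t) hJ hn hβ0 hβ hη hqc r c M p z ψ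
    have e : F p z = Kpow J (b p z) r (fun y => ∑ i, ψ.fn (fld J 0 i y) (z i) (p i) * cav β J (b p z) M p i) p
        - β ^ 2 * q0 * E2 p z := by
      have e0 : chanTerm β t q0 ψ (cav β J (b p z) M p) J z p = fun y =>
          (∑ i, ψ.fn (fld J 0 i y) (z i) (p i) * cav β J (b p z) M p i)
            + -(β ^ 2 * q0) * chanLin t ψ J z p y := funext fun y => by rw [chanTerm_eq]; ring
      simp only [F, E2, e0, Block.Kpow_add_mul]
      ring
    rw [e]
    refine (abs_le.2 ?_)
    have h2 : |E2 p z| ≤ ψ.M * (2 * n + (l1 z + n) / Real.sqrt t) :=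
      LegVar.abs_Kpow_le _ hn (fun y => abs_chanLin_le ψ z p y) r p
    have h3 : |β ^ 2 * (qc - q0) * E2 p z| ≤ sl * (ψ.M * (2 * n + (l1 z + n) / Real.sqrt t)) := by
      rw [abs_mul, abs_mul, abs_of_nonneg (sq_nonneg β)]
      exact mul_le_mul ((mul_le_of_le_one_left (abs_nonneg _) (pow_le_one₀ hβ0 hβ)).trans hq) h2 (abs_nonneg _)
        ((abs_nonneg _).trans hq)
    have h' := abs_le.1 h
    have h3' := abs_le.1 h3
    simp only [E1, b] at *
    constructor <;> linarith
  have nD : ∀ p, Nice fun z => ψ.M * (endCost J t η qc r c M p z + sl * (2 * n + (l1 z + n) / Real.sqrt t)) :=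
    fun p => ((nice_endCost hJ hn t η qc r c M p).add (((nice_const _).add (by
      simpa [div_eq_inv_mul] using (nice_l1.add (nice_const (n : ℝ))).const_mul (Real.sqrt t)⁻¹)).const_mul _)).const_mul _
  have hmain := jex_abs_le hJ hn v x (fun p => (nF p).sub ((n1 p).sub ((n2 p).const_mul _))) nD hdiff
  rw [jex_sub v x nF (fun p => (n1 p).sub ((n2 p).const_mul _)), ← herr] at hmain
  refine (show |jex J v x F| ≤ _ from (sub_le_iff_le_add'.1 ((abs_sub_abs_le_abs_sub _ _).trans hmain))).trans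
    (add_le_add le_rfl ?_)
  rw [jex_const_mul, mul_comm (n : ℝ) ψ.M, mul_assoc]
  refine mul_le_mul_of_nonneg_left ?_ hMψ
  have nl : ∀ _p : Cfg n, Nice fun z : Fin n → ℝ => sl * (2 * n + (l1 z + n) / Real.sqrt t) := fun _ =>
    ((nice_const _).add (by
      simpa [div_eq_inv_mul] using (nice_l1.add (nice_const (n : ℝ))).const_mul (Real.sqrt t)⁻¹)).const_mul _
  rw [jex_add v x (fun p => nice_endCost hJ hn t η qc r c M p) nl]
  have hl : jex J v x (fun _ z => sl * (2 * n + (l1 z + n) / Real.sqrt t)) ≤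
      sl * (2 * n + 2 * n / Real.sqrt t) := by
    rw [jex_const_mul]
    refine mul_le_mul_of_nonneg_left ?_ ((abs_nonneg _).trans hq)
    have hi := (nice_l1 (n := n)).integrable
    simp only [jex, ← sum_mul]
    rw [Burn.lawAt_sum hJ.symm hJ.diag hn, one_mul,
      integral_add (g := fun z => (l1 z + (n : ℝ)) / Real.sqrt t) (integrable_const _)
        ((hi.add (integrable_const _)).div_const _), integral_div, integral_add hi (integrable_const _)]
    simp only [integral_const, probReal_univ, one_smul]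
    gcongr
    linarith [l1_int_le (n := n)]
  have he : jex J v x (fun p z => endCost J t η qc r c M p z) ≤
      2 * η * n + 7 / η * (n * sl + n * sl) + n * (sl + Cc) := by
    simp only [endCost]
    rw [jex_add v x (fun p => (nice_const _).add ((((nice_jensen hJ hn t r c p).const_mul _).add
        (nice_dist2 hJ hn t (r + c) M p)).const_mul _))
        (fun p => ((nice_const qc).sub (nice_qmean hJ hn t M p p)).abs.const_mul _),
      jex_add v x (fun p => nice_const _) (fun p => (((nice_jensen hJ hn t r c p).const_mul _).add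
        (nice_dist2 hJ hn t (r + c) M p)).const_mul _), jex_const hJ hn, jex_const_mul,
      jex_add v x (fun p => (nice_jensen hJ hn t r c p).const_mul _) (fun p => nice_dist2 hJ hn t (r + c) M p),
      jex_const_mul, jex_const_mul]
    gcongr
    · exact stat_jensen hJ hn ht.le hc (by omega)
    · exact stat_dist hJ hn ht.le (by omega) (by omega) hM
    · refine (jex_mono hJ hn (Ψ := fun p z => sl + |qmean J (obsField t p z) M p - q0|)
        (fun p => ((nice_const qc).sub (nice_qmean hJ hn t M p p)).abs)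
        (fun p => (nice_const _).add ((nice_qmean hJ hn t M p p).sub (nice_const q0)).abs) fun p z => ?_).trans ?_
      · have := abs_sub_le qc q0 (qmean J (obsField t p z) M p)
        rw [abs_sub_comm q0] at this
        linarith
      · rw [jex_add v x (fun p => nice_const sl) (fun p => ((nice_qmean hJ hn t M p p).sub (nice_const q0)).abs),
          jex_const hJ hn]
        linarith
  refine (add_le_add he hl).trans (le_of_eq ?_)
  ring

end Vale.Agent.P150.PA.Mmse
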