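import Vale.Agent.P150.PA.Stein
import Vale.Agent.P150.PA.ChanDefs

/-! The kernels of the overlap bound: a single kernel of the field identity carrying a finite family of
test kernels, the tests of the channel identity, and the reconstruction of plane waves. -/

open Complex

namespace Vale.Agent.P150.PA.Mmse

open Stein

/-- the two exponents `± 1 + i α` -/
noncomputable def kexp (up : Bool) (α : ℝ) : ℂ := ((spin up : ℝ) : ℂ) + I * α

lemma re_kexp (up : Bool) (α : ℝ) : |(kexp up α).re| ≤ 1 := by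
  cases up <;> simp [kexp, spin]

/-- clipping to `[-1, 1]` -/
noncomputable def clip (R s : ℝ) : ℝ := max (-R) (min R s)

lemma clip_abs {R : ℝ} (hR : 0 ≤ R) (s : ℝ) : |clip R s| ≤ R :=
  abs_le.2 ⟨le_max_left _ _, max_le (by linarith) (min_le_left _ _)⟩

lemma clip_eq {R s : ℝ} (h : |s| ≤ R) : clip R s = s := by
  obtain ⟨h1, h2⟩ := abs_le.1 h
  rw [clip, min_eq_right h2, max_eq_right h1]

lemma clip_lip (R s s' : ℝ) : |clip R s - clip R s'| ≤ |s - s'| := by
  refine (abs_max_sub_max_le_max _ _ _ _).trans (max_le ?_ ?_)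
  · simp
  · exact (abs_min_sub_min_le_max _ _ _ _).trans (max_le (by simp) le_rfl)

lemma continuous_clip (R : ℝ) : Continuous (clip R) := by unfold clip; fun_prop

/-- taper: one on `[-R, R]`, zero outside `[-2R, 2R]` -/
noncomputable def taper (R s : ℝ) : ℝ := max 0 (min 1 (2 - |s| / R))

lemma taper_mem (R s : ℝ) : 0 ≤ taper R s ∧ taper R s ≤ 1 :=
  ⟨le_max_left _ _, max_le zero_le_one (min_le_left _ _)⟩

lemma taper_one {R s : ℝ} (hR : 0 < R) (h : |s| ≤ R) : taper R s = 1 := by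
  have : |s| / R ≤ 1 := (div_le_one hR).2 h
  rw [taper, min_eq_left (by linarith), max_eq_right zero_le_one]

lemma taper_zero {R s : ℝ} (hR : 0 < R) (h : 2 * R ≤ |s|) : taper R s = 0 := by
  have : 2 ≤ |s| / R := (le_div_iff₀ hR).2 h
  rw [taper, max_eq_left ((min_le_right _ _).trans (by linarith))]

lemma continuous_taper (R : ℝ) : Continuous (taper R) := by unfold taper; fun_prop

/-- selects the index: the identity on `[-1, 1]`, zero outside `[-2, 2]` -/
noncomputable def bump (s : ℝ) : ℝ := clip 1 s * taper 1 s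

lemma bump_abs (s : ℝ) : |bump s| ≤ 1 := by
  rw [bump, abs_mul, abs_of_nonneg (taper_mem 1 s).1]
  exact mul_le_one₀ (clip_abs zero_le_one s) (taper_mem 1 s).1 (taper_mem 1 s).2

lemma bump_eq {s : ℝ} (h : |s| ≤ 1) : bump s = s := by
  rw [bump, clip_eq h, taper_one one_pos h, mul_one]

lemma bump_zero {s : ℝ} (h : 2 ≤ |s|) : bump s = 0 := by
  rw [bump, taper_zero one_pos (by linarith), mul_zero]

lemma bump_lip (s s' : ℝ) : |bump s - bump s'| ≤ 2 * |s - s'| := by
  have h1 := clip_lip 1 s s'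
  have h2 : |taper 1 s - taper 1 s'| ≤ |s - s'| := by
    refine (abs_max_sub_max_le_max _ _ _ _).trans (max_le (by simp) ?_)
    refine (abs_min_sub_min_le_max _ _ _ _).trans (max_le (by simp) ?_)
    rw [div_one, div_one, show (2 - |s|) - (2 - |s'|) = |s'| - |s| by ring, abs_sub_comm s s']
    exact abs_abs_sub_abs_le_abs_sub s' s
  have e : bump s - bump s' = (clip 1 s - clip 1 s') * taper 1 s + clip 1 s' * (taper 1 s - taper 1 s') := by
    simp only [bump]; ring
  rw [e]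
  refine (abs_add_le _ _).trans ?_
  rw [abs_mul, abs_mul, abs_of_nonneg (taper_mem 1 s).1]
  have h3 := mul_le_mul h1 (taper_mem 1 s).2 (taper_mem 1 s).1 (abs_nonneg _)
  have h4 := mul_le_mul (clip_abs zero_le_one s') h2 (abs_nonneg _) zero_le_one
  linarith

lemma re_mul_le (c w : ℂ) (hc : ‖c‖ ≤ 1) {M : ℝ} (hw : ‖w‖ ≤ M) : |(c * w).re| ≤ M := by
  refine (abs_re_le_norm _).trans ((norm_mul_le _ _).trans ?_)
  exact (mul_le_of_le_one_left (norm_nonneg _) hc).trans hw

variable {L : ℕ} (k : Fin L → ℂ) (B : Fin L → ℝ) (c : Fin L → ℂ)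

/-- the part `l` of the family kernel -/
noncomputable def part (l : Fin L) (p : Fin 3 → ℝ) (h : ℝ) : ℝ :=
  (c l * tker 0 (B l) (k l) (p 1) h (p 0)).re

/-- its derivative in the field -/
noncomputable def dpart (l : Fin L) (p : Fin 3 → ℝ) (h : ℝ) : ℝ :=
  (c l * tkerH (B l) (k l) (p 1) h (p 0)).re

lemma part_deriv (l : Fin L) (p : Fin 3 → ℝ) (h : ℝ) :
    HasDerivAt (part k B c l p) (dpart k B c l p h) h :=
  (reCLM.hasFDerivAt.comp_hasDerivAt h ((tkerH_deriv (B l) (k l) (p 1) h (p 0)).const_mul (c l)))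

/-- bound of one part -/
noncomputable def pbd (l : Fin L) : ℝ := 9 * (1 + ‖k l‖) ^ 2 * bd (k l) + 2 * bd (k l)

variable {k B c}

lemma part_bdd (hk : ∀ l, |(k l).re| ≤ 1) (hB : ∀ l, |B l| ≤ 1) (hc : ∀ l, ‖c l‖ ≤ 1) (l : Fin L)
    (p : Fin 3 → ℝ) (h : ℝ) : |part k B c l p h| ≤ pbd k l ∧ |dpart k B c l p h| ≤ pbd k l := by
  have hb := bd_nonneg (k l)
  have h1 : 0 ≤ 9 * (1 + ‖k l‖) ^ 2 * bd (k l) := by positivity
  constructor
  · exact re_mul_le _ _ (hc l) ((norm_tker_le (by norm_num) (hB l) (hk l) _ _ _).trans (by unfold pbd; linarith))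
  · exact re_mul_le _ _ (hc l) ((norm_tkerH_le (hB l) (hk l) _ _ _).trans (by unfold pbd; linarith))

lemma part_lip (hk : ∀ l, |(k l).re| ≤ 1) (hB : ∀ l, |B l| ≤ 1) (hc : ∀ l, ‖c l‖ ≤ 1) (l : Fin L)
    (p p' : Fin 3 → ℝ) (h h' : ℝ) :
    |part k B c l p h - part k B c l p' h'| ≤ pbd k l * ((∑ j, |p j - p' j|) + |h - h'|) ∧
      |dpart k B c l p h - dpart k B c l p' h'| ≤ pbd k l * ((∑ j, |p j - p' j|) + |h - h'|) := by
  have hb := bd_nonneg (k l)
  have hS : |h - h'| + |p 0 - p' 0| + |p 1 - p' 1| + |B l - B l| ≤ (∑ j, |p j - p' j|) + |h - h'| := by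
    rw [Fin.sum_univ_three, sub_self, abs_zero]
    linarith [abs_nonneg (p 2 - p' 2)]
  have h9 : 4 * (1 + ‖k l‖) ^ 2 * bd (k l) ≤ pbd k l := by
    unfold pbd; nlinarith [sq_nonneg (1 + ‖k l‖)]
  have h9' : 9 * (1 + ‖k l‖) ^ 2 * bd (k l) ≤ pbd k l := by unfold pbd; linarith
  constructor
  · rw [part, part, ← sub_re, ← mul_sub]
    refine re_mul_le _ _ (hc l) ((tker_lip (by norm_num) (hk l) (hB l) (hB l) _ _ _ _ _ _).trans ?_)
    exact mul_le_mul h9 hS (by positivity) (le_trans (by positivity) h9)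
  · rw [dpart, dpart, ← sub_re, ← mul_sub]
    refine re_mul_le _ _ (hc l) ((tkerH_lip (hk l) (hB l) (hB l) _ _ _ _ _ _).trans ?_)
    exact mul_le_mul h9' hS (by positivity) (le_trans (by positivity) h9')

/-- the kernel carrying the family: the third parameter is ten times the index plus the weight -/
noncomputable def famKern (k : Fin L → ℂ) (B : Fin L → ℝ) (c : Fin L → ℂ) (hk : ∀ l, |(k l).re| ≤ 1)
    (hB : ∀ l, |B l| ≤ 1) (hc : ∀ l, ‖c l‖ ≤ 1) : Kern where
  fn p h := ∑ l : Fin L, bump (p 2 - 10 * (l : ℕ)) * part k B c l p h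
  dfn p h := ∑ l : Fin L, bump (p 2 - 10 * (l : ℕ)) * dpart k B c l p h
  hasDeriv p h := HasDerivAt.fun_sum fun l _ => (part_deriv k B c l p h).const_mul _
  M := 3 * ∑ l, pbd k l
  bdd p h := by
    have key : ∀ g : Fin L → ℝ, (∀ l, |g l| ≤ pbd k l) →
        |∑ l : Fin L, bump (p 2 - 10 * (l : ℕ)) * g l| ≤ 3 * ∑ l, pbd k l := fun g hg => by
      refine (Finset.abs_sum_le_sum_abs _ _).trans ?_
      rw [Finset.mul_sum]
      refine Finset.sum_le_sum fun l _ => ?_
      rw [abs_mul]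
      have := hg l
      linarith [mul_le_of_le_one_left (abs_nonneg (g l)) (bump_abs (p 2 - 10 * (l : ℕ))),
        abs_nonneg (g l)]
    exact ⟨key _ fun l => (part_bdd hk hB hc l p h).1, key _ fun l => (part_bdd hk hB hc l p h).2⟩
  lip p p' h h' := by
    have key : ∀ g g' : Fin L → ℝ, (∀ l, |g' l| ≤ pbd k l) →
        (∀ l, |g l - g' l| ≤ pbd k l * ((∑ j, |p j - p' j|) + |h - h'|)) →
        |(∑ l : Fin L, bump (p 2 - 10 * (l : ℕ)) * g l) - ∑ l : Fin L, bump (p' 2 - 10 * (l : ℕ)) * g' l| ≤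
          (3 * ∑ l, pbd k l) * ((∑ j, |p j - p' j|) + |h - h'|) := fun g g' hg' hgg => by
      rw [← Finset.sum_sub_distrib, Finset.mul_sum, Finset.sum_mul]
      refine (Finset.abs_sum_le_sum_abs _ _).trans (Finset.sum_le_sum fun l _ => ?_)
      set u := bump (p 2 - 10 * (l : ℕ))
      set u' := bump (p' 2 - 10 * (l : ℕ))
      set S := (∑ j, |p j - p' j|) + |h - h'|
      have e : u * g l - u' * g' l = u * (g l - g' l) + (u - u') * g' l := by ring
      rw [e]
      refine (abs_add_le _ _).trans ?_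
      rw [abs_mul, abs_mul]
      have h1 := mul_le_mul (bump_abs (p 2 - 10 * (l : ℕ))) (hgg l) (abs_nonneg _) zero_le_one
      have h2 : |u - u'| ≤ 2 * S := by
        refine (bump_lip _ _).trans (mul_le_mul_of_nonneg_left ?_ zero_le_two)
        rw [show p 2 - 10 * ((l : ℕ) : ℝ) - (p' 2 - 10 * ((l : ℕ) : ℝ)) = p 2 - p' 2 by ring]
        exact (Finset.single_le_sum (f := fun j => |p j - p' j|) (fun j _ => abs_nonneg _)
          (Finset.mem_univ (2 : Fin 3))).trans (le_add_of_nonneg_right (abs_nonneg _))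
      have h3 := mul_le_mul h2 (hg' l) (abs_nonneg _) (by positivity)
      linarith
    exact ⟨key _ _ (fun l => (part_bdd hk hB hc l p' h').1) fun l => (part_lip hk hB hc l p p' h h').1,
      key _ _ (fun l => (part_bdd hk hB hc l p' h').2) fun l => (part_lip hk hB hc l p p' h h').2⟩

/-- the parameters selecting the index `l` with weight `w` -/
noncomputable def sel (a y w : ℝ) (l : ℕ) : Fin 3 → ℝ := ![a, y, 10 * (l : ℝ) + w]

lemma famKern_sel (hk : ∀ l, |(k l).re| ≤ 1) (hB : ∀ l, |B l| ≤ 1) (hc : ∀ l, ‖c l‖ ≤ 1)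
    (a y h : ℝ) {w : ℝ} (hw : |w| ≤ 1) (l : Fin L) :
    (famKern k B c hk hB hc).fn (sel a y w l) h = w * (c l * tker 0 (B l) (k l) y h a).re ∧
      (famKern k B c hk hB hc).dfn (sel a y w l) h = w * (c l * tkerH (B l) (k l) y h a).re := by
  have h0 : ∀ l' : Fin L, l' ≠ l → bump (sel a y w l 2 - 10 * (l' : ℕ)) = 0 := fun l' hl => by
    refine bump_zero ?_
    simp only [sel, Matrix.cons_val]
    have h1 : (1 : ℝ) ≤ |((l : ℕ) : ℝ) - ((l' : ℕ) : ℝ)| := by
      rcases lt_or_gt_of_ne (fun e => hl (Fin.ext e) : (l' : ℕ) ≠ (l : ℕ)) with h | h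
      · have : ((l' : ℕ) : ℝ) + 1 ≤ (l : ℕ) := by exact_mod_cast h
        rw [abs_of_nonneg (by linarith)]; linarith
      · have : ((l : ℕ) : ℝ) + 1 ≤ (l' : ℕ) := by exact_mod_cast h
        rw [abs_of_nonpos (by linarith)]; linarith
    have h2 := abs_sub_abs_le_abs_sub (10 * ((l : ℕ) : ℝ) - 10 * ((l' : ℕ) : ℝ)) (-w)
    rw [← mul_sub, abs_mul, abs_neg, sub_neg_eq_add, mul_sub] at h2
    rw [show 10 * ((l : ℕ) : ℝ) + w - 10 * ((l' : ℕ) : ℝ) = 10 * ((l : ℕ) : ℝ) - 10 * ((l' : ℕ) : ℝ) + w by ring]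
    norm_num at h2
    linarith
  have h1 : bump (sel a y w l 2 - 10 * (l : ℕ)) = w := by
    simp only [sel, Matrix.cons_val, add_sub_cancel_left]
    exact bump_eq hw
  constructor <;> simp only [famKern] <;>
    rw [Finset.sum_eq_single l (fun l' _ hl => by rw [h0 l' hl, zero_mul]) (by simp), h1] <;>
    simp [part, dpart, sel]

/-- the defect of the Stein equation at one site -/
noncomputable def defc (B : ℝ) (κ : ℂ) (y h a : ℝ) : ℂ :=
  ((Real.cosh (h + y) * Real.cosh (a + y))⁻¹ : ℝ) *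
    (exp (κ * ((h - a : ℝ) : ℂ)) - exp ((B : ℂ) * κ ^ 2 / 2))

lemma famKern_stein (hk : ∀ l, |(k l).re| ≤ 1) (hB : ∀ l, |B l| ≤ 1) (hc : ∀ l, ‖c l‖ ≤ 1)
    (a y h : ℝ) {w : ℝ} (hw : |w| ≤ 1) (l : Fin L) :
    (famKern k B c hk hB hc).fn (sel a y w l) h * (h - a - B l * Real.tanh (h + y))
      - B l * (famKern k B c hk hB hc).dfn (sel a y w l) h = w * (c l * defc (B l) (k l) y h a).re := by
  rw [(famKern_sel hk hB hc a y h hw l).1, (famKern_sel hk hB hc a y h hw l).2, defc, ← tker_stein]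
  simp only [mul_re, mul_im, sub_re, sub_im, add_re, add_im, ofReal_re, ofReal_im]
  ring

/-! ### the tests of the channel identity -/

/-- `exp (± v) / cosh v` -/
noncomputable def half (up : Bool) (v : ℝ) : ℝ := 1 + spin up * Real.tanh v

lemma half_eq (up : Bool) (v : ℝ) : half up v = Real.exp (spin up * v) / Real.cosh v := by
  rw [eq_div_iff (Real.cosh_pos v).ne', half]
  cases up <;>
    simp [spin, Real.tanh_eq_sinh_div_cosh, add_mul, sub_mul, div_mul_cancel₀ _ (Real.cosh_pos v).ne',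
      ← Real.cosh_add_sinh, ← Real.cosh_sub_sinh, ← sub_eq_add_neg]

/-- coefficient of the exponent `± 1 + i α` -/
noncomputable def coef (B α : ℝ) (up : Bool) : ℂ :=
  exp (((B * α ^ 2 / 2 : ℝ) : ℂ) - I * (spin up * (B * α) : ℝ)) / 2

/-- the plane-wave test of the field -/
noncomputable def hwave (B α h v : ℝ) : ℂ :=
  exp (I * ((α * h : ℝ) : ℂ)) *
    (coef B α true * (half true v : ℝ) + coef B α false * (half false v : ℝ))

/-- Reconstruction: a law of the field with small Stein defects averages the test to a plane wave. -/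
theorem hwave_recon {Y : Type*} [Fintype Y] (ω : Y → ℝ) (hsum : ∑ q, ω q = 1) (h : Y → ℝ) (a y B α : ℝ) :
    ∑ q, (ω q : ℂ) * hwave B α (h q) (h q + y) - exp (I * ((α * a : ℝ) : ℂ)) =
      exp (I * ((α * a : ℝ) : ℂ)) * (Real.cosh (a + y) : ℝ) *
        (coef B α true * (Real.exp (a + y) : ℝ) * ∑ q, (ω q : ℂ) * defc B (kexp true α) y (h q) a
          + coef B α false * (Real.exp (-(a + y)) : ℝ) * ∑ q, (ω q : ℂ) * defc B (kexp false α) y (h q) a
          - coef B 0 true * (Real.exp (a + y) : ℝ) * ∑ q, (ω q : ℂ) * defc B (kexp true 0) y (h q) a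
          - coef B 0 false * (Real.exp (-(a + y)) : ℝ) * ∑ q, (ω q : ℂ) * defc B (kexp false 0) y (h q) a) := by
  have hE : exp (I * ((α * a : ℝ) : ℂ)) = ∑ q, (ω q : ℂ) * exp (I * ((α * a : ℝ) : ℂ)) := by
    rw [← Finset.sum_mul, ← ofReal_sum, hsum, ofReal_one, one_mul]
  conv_lhs => rw [hE, ← Finset.sum_sub_distrib]
  simp only [Finset.mul_sum, ← Finset.sum_add_distrib, ← Finset.sum_sub_distrib]
  refine Finset.sum_congr rfl fun q _ => ?_
  have ha : (Real.cosh (a + y) : ℂ) ≠ 0 := ofReal_ne_zero.2 (Real.cosh_pos _).ne'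
  have hh : (Real.cosh (h q + y) : ℂ) ≠ 0 := ofReal_ne_zero.2 (Real.cosh_pos _).ne'
  have t1 : ∀ (up : Bool) (β : ℝ), coef B β up * exp ((B : ℂ) * kexp up β ^ 2 / 2) = exp ((B : ℂ) / 2) / 2 := by
    intro up β
    rw [coef, div_mul_eq_mul_div, ← exp_add]
    congr 2
    cases up <;> simp [kexp, spin] <;> ring_nf <;> simp [I_sq] <;> ring
  have t2 : ∀ (up : Bool) (β : ℝ), exp (I * ((β * a : ℝ) : ℂ)) * ((Real.exp (spin up * (a + y)) : ℝ) : ℂ)
      * exp (kexp up β * ((h q - a : ℝ) : ℂ))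
      = exp (I * ((β * h q : ℝ) : ℂ)) * ((Real.exp (spin up * (h q + y)) : ℝ) : ℂ) := by
    intro up β
    rw [ofReal_exp, ofReal_exp, ← exp_add, ← exp_add, ← exp_add]
    congr 1
    simp only [kexp]
    push_cast
    ring
  have t3 : coef B 0 true * (half true (h q + y) : ℝ) + coef B 0 false * (half false (h q + y) : ℝ) = 1 := by
    simp [coef, half, spin]; ring
  have d : ∀ (up : Bool) (β : ℝ), exp (I * ((β * a : ℝ) : ℂ)) *
      (coef B β up * ((Real.exp (spin up * (a + y)) : ℝ) : ℂ) *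
        ((Real.cosh (a + y) : ℝ) * defc B (kexp up β) y (h q) a)) =
      coef B β up * exp (I * ((β * h q : ℝ) : ℂ)) * (half up (h q + y) : ℝ)
        - exp (I * ((β * a : ℝ) : ℂ)) * (((Real.exp (spin up * (a + y)) : ℝ) : ℂ) * (exp ((B : ℂ) / 2) / 2) /
            (Real.cosh (h q + y) : ℝ)) := by
    intro up β
    have e : ((Real.cosh (a + y) : ℝ) : ℂ) * defc B (kexp up β) y (h q) a =
        (exp (kexp up β * ((h q - a : ℝ) : ℂ)) - exp ((B : ℂ) * kexp up β ^ 2 / 2)) / (Real.cosh (h q + y) : ℝ) := by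
      simp only [defc, ofReal_inv, ofReal_mul]
      field_simp
    rw [e, half_eq, ofReal_div, ← t1 up β, ← mul_div_assoc, ← mul_div_assoc, ← mul_div_assoc, ← mul_div_assoc,
      ← sub_div, mul_assoc (coef B β up) (exp (I * ((β * h q : ℝ) : ℂ))), ← t2 up β]
    congr 1
    ring
  have d1 := d true α
  have d2 := d false α
  have d3 := d true 0
  have d4 := d false 0
  simp only [show spin true = 1 from rfl, show spin false = -1 from rfl, one_mul, neg_one_mul] at d1 d2 d3 d4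
  simp only [zero_mul, ofReal_zero, mul_zero, exp_zero, one_mul, mul_one] at d3 d4
  simp only [hwave]
  linear_combination (-(ω q : ℂ)) * (d1 + d2) + (ω q : ℂ) * exp (I * ((α * a : ℝ) : ℂ)) * (d3 + d4 + t3)

end Vale.Agent.P150.PA.Mmse
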