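import Vale.Agent.P150.PA.MmseAlg

/-! The bound on posterior means, analytic half: the field identity for finitely many kernels and the
channel identity for finitely many tests force the overlap to solve the fixed-point equation. -/

open MeasureTheory ProbabilityTheory Filter Complex
open scoped Topology

namespace Vale.Agent.P150.PA

open Ising

namespace MmseLaw

variable {Θ : Type*} [MeasurableSpace Θ]

lemma exists_fin_family {X ι : Type*} [Fintype ι] (f : ι → X) : ∃ (N : ℕ) (g : Fin N → X), ∀ i, ∃ j, g j = f i :=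
  ⟨_, fun j => f ((Fintype.equivFin ι).symm j), fun i => ⟨Fintype.equivFin ι i, by simp⟩⟩

lemma exists_upper {ι : Type*} [Fintype ι] (f : ι → ℝ) : ∃ C : ℝ, 0 ≤ C ∧ ∀ i, f i ≤ C :=
  ⟨∑ i, |f i|, Finset.sum_nonneg fun i _ => abs_nonneg _, fun i =>
    (le_abs_self _).trans (Finset.single_le_sum (f := fun i => |f i|) (fun j _ => abs_nonneg _) (Finset.mem_univ i))⟩

lemma norm_le_parts {f : Θ → ℂ} {μ : Measure Θ} (hf : Integrable f μ) {δ : ℝ}
    (h : ∀ p, |∫ θ, part p (f θ) ∂μ| ≤ δ) : ‖∫ θ, f θ ∂μ‖ ≤ 2 * δ := by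
  have h1 := h true
  have h2 := h false
  rw [(part true).integral_comp_comm hf] at h1
  rw [(part false).integral_comp_comm hf] at h2
  refine (norm_le_abs_re_add_abs_im _).trans ?_
  simp only [part, if_true, Bool.false_eq_true, if_false, reCLM_apply, imCLM_apply] at h1 h2
  linarith

lemma map_combo {t A : ℝ} (hs : 0 < t + A) (ht : 0 ≤ t) (hA : 0 ≤ A) :
    MeasurePreserving (fun p : ℝ × ℝ => √A / √(t + A) * p.1 + √t / √(t + A) * p.2)
      ((gaussianReal 0 1).prod (gaussianReal 0 1)) (gaussianReal 0 1) := by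
  set c := √A / √(t + A)
  set d := √t / √(t + A)
  have h : c ^ 2 + d ^ 2 = 1 := by
    simp only [c, d, div_pow, Real.sq_sqrt hA, Real.sq_sqrt ht, Real.sq_sqrt hs.le]
    field_simp; ring
  refine ⟨by fun_prop, ?_⟩
  have h2 : (gaussianReal 0 1).map (c * ·) ∗ (gaussianReal 0 1).map (d * ·) = gaussianReal 0 1 := by
    rw [gaussianReal_map_const_mul, gaussianReal_map_const_mul, gaussianReal_conv_gaussianReal]
    congr 1
    · ring
    · ext; simp; exact h
  conv_rhs => rw [← h2, Measure.conv, Measure.map_prod_map _ _ (by fun_prop) (by fun_prop),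
    Measure.map_map (by fun_prop) (by fun_prop)]
  rfl

/-- the Gaussian value of the magnetisation of a site with spin `c` -/
lemma gauss_tanh {t A : ℝ} (hs : 0 < t + A) (ht : 0 ≤ t) (hA : 0 ≤ A) (c : Bool) :
    ∫ p, Real.tanh ((A * spin c + √A * p.1) + obsY t c p.2) ∂(gaussianReal 0 1).prod (gaussianReal 0 1) =
      spin c * fq (t + A) := by
  set s := t + A
  have hc := continuous_tanh'
  have hm := map_combo hs ht hA
  have h1 : ∀ p : ℝ × ℝ, Real.tanh ((A * spin c + √A * p.1) + obsY t c p.2) =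
      Real.tanh (s * spin c + √s * (√A / √s * p.1 + √t / √s * p.2)) := fun p => by
    have := (Real.sqrt_pos.2 hs).ne'
    congr 1
    simp only [obsY, s] at *
    field_simp
    ring
  simp only [h1]
  have h2 := integral_map (μ := (gaussianReal 0 1).prod (gaussianReal 0 1)) hm.measurable.aemeasurable
    (f := fun w => Real.tanh (s * spin c + √s * w)) (by fun_prop)
  rw [hm.map_eq] at h2
  rw [← h2, fq]
  cases c
  · simp only [spin, Bool.false_eq_true, if_false]
    have h3 : gaussianReal 0 1 = (gaussianReal 0 1).map (fun w => -w) := by rw [gaussianReal_map_neg, neg_zero]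
    conv_lhs => rw [h3, integral_map (by fun_prop) (by fun_prop)]
    rw [neg_one_mul, ← integral_neg]
    refine integral_congr_ae (Eventually.of_forall fun w => ?_)
    simp only
    rw [← Real.tanh_neg]; congr 1; ring
  · simp [spin]

lemma norm_osc_form (α γ a z : ℝ) : osc α γ a z = cexp (I * ((α * a + γ * z : ℝ) : ℂ)) := by rw [osc, mul_comm]

lemma charInt_lip {t R A α γ α' γ' : ℝ} (ht : 0 < t) (hR : |α| ≤ R ∧ |γ| ≤ R) (hA : 0 ≤ A ∧ A ≤ 1) (c : Bool) (a z : ℝ) :
    ‖charInt A (A * spin c) (A / √t) α γ a z - charInt A (A * spin c) (A / √t) α' γ' a z‖ ≤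
      (|α - α'| + |γ - γ'|) * (6 * (3 + R + (R + 1) / √t) * (1 + a ^ 2 + z ^ 2)) := by
  have hs := Real.sqrt_pos.2 ht
  set c' := A / √t
  have hc' : |c'| ≤ 1 / √t := by
    rw [abs_div, abs_of_nonneg hA.1, abs_of_pos hs]; exact div_le_div_of_nonneg_right hA.2 hs.le
  set D := |α - α'| + |γ - γ'|
  set F := fun (α γ : ℝ) => ((a - A * spin c : ℝ) : ℂ) - I * α * A - (c' : ℂ) * ((z : ℂ) - I * γ)
  have e : charInt A (A * spin c) c' α γ a z - charInt A (A * spin c) c' α' γ' a z =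
      (osc α γ a z - osc α' γ' a z) * F α γ + osc α' γ' a z * (F α γ - F α' γ') := by
    simp only [charInt, F]; ring
  have h1 : ‖osc α γ a z - osc α' γ' a z‖ ≤ D * (|a| + |z|) := by
    refine (norm_osc_sub ..).trans ?_
    rw [show α * a + γ * z - (α' * a + γ' * z) = (α - α') * a + (γ - γ') * z by ring]
    refine (abs_add_le _ _).trans ?_
    rw [abs_mul, abs_mul]
    simp only [D]
    nlinarith [abs_nonneg a, abs_nonneg z, abs_nonneg (α - α'), abs_nonneg (γ - γ')]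
  have hR0 : 0 ≤ R := (abs_nonneg _).trans hR.1
  have h2 : ‖F α γ‖ ≤ (1 + |a| + |z|) * (2 + R + (R + 1) / √t) := by
    refine (norm_sub_le _ _).trans ((add_le_add (norm_sub_le _ _) le_rfl).trans ?_)
    rw [norm_real, Real.norm_eq_abs, norm_mul (I * (α : ℂ)) (A : ℂ), norm_mul I (α : ℂ), norm_mul, norm_I, one_mul,
      norm_real, norm_real, norm_real, Real.norm_eq_abs, Real.norm_eq_abs, Real.norm_eq_abs]
    have h3 : ‖(z : ℂ) - I * γ‖ ≤ |z| + R := by
      refine (norm_sub_le _ _).trans ?_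
      rw [norm_real, norm_mul, norm_I, one_mul, norm_real, Real.norm_eq_abs, Real.norm_eq_abs]
      linarith [hR.2]
    have h4 : |a - A * spin c| ≤ |a| + 1 := by
      refine (abs_sub _ _).trans (add_le_add le_rfl ?_)
      rw [abs_mul, show |spin c| = 1 by cases c <;> simp [spin], mul_one, abs_of_nonneg hA.1]; exact hA.2
    have h5 : |α| * |A| ≤ R := (mul_le_of_le_one_right (abs_nonneg _) (by rw [abs_of_nonneg hA.1]; exact hA.2)).trans hR.1
    have h6 := mul_le_mul hc' h3 (norm_nonneg _) (by positivity)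
    have h7 : (0:ℝ) ≤ 1 / √t := by positivity
    rw [show (R + 1) / √t = R * (1 / √t) + 1 / √t by ring]
    nlinarith [abs_nonneg a, abs_nonneg z, mul_nonneg h7 (abs_nonneg a), mul_nonneg h7 (abs_nonneg z),
      mul_nonneg hR0 (abs_nonneg a), mul_nonneg hR0 (abs_nonneg z), mul_nonneg (mul_nonneg hR0 h7) (abs_nonneg a),
      mul_nonneg (mul_nonneg hR0 h7) (abs_nonneg z)]
  have h3 : ‖F α γ - F α' γ'‖ ≤ D * (1 + (R + 1) / √t) := by
    rw [show F α γ - F α' γ' = -(I * ((α - α' : ℝ) : ℂ) * A) + (c' : ℂ) * (I * ((γ - γ' : ℝ) : ℂ)) by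
      simp only [F]; push_cast; ring]
    refine (norm_add_le _ _).trans ?_
    simp only [norm_neg, norm_mul, norm_I, norm_real, Real.norm_eq_abs, one_mul]
    have h4 := mul_le_of_le_one_right (abs_nonneg (α - α')) (show |A| ≤ 1 by rw [abs_of_nonneg hA.1]; exact hA.2)
    have h5 := mul_le_mul_of_nonneg_right hc' (abs_nonneg (γ - γ'))
    have h7 : (0:ℝ) ≤ 1 / √t := by positivity
    rw [show (R + 1) / √t = R * (1 / √t) + 1 / √t by ring]
    simp only [D]
    nlinarith [abs_nonneg (α - α'), abs_nonneg (γ - γ'), mul_nonneg hR0 h7, mul_nonneg h7 (abs_nonneg (α - α'))]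
  rw [e]
  refine (norm_add_le _ _).trans ?_
  rw [norm_mul, norm_mul, norm_osc, one_mul]
  refine (add_le_add (mul_le_mul h1 h2 (norm_nonneg _) (by positivity)) h3).trans ?_
  have hD : 0 ≤ D := by positivity
  have hK : 0 ≤ 2 + R + (R + 1) / √t := by positivity
  have k1 : (|a| + |z|) * (1 + |a| + |z|) ≤ 3 * (1 + a ^ 2 + z ^ 2) :=
    (mul_le_mul_of_nonneg_right (by linarith) (by positivity)).trans ((le_of_eq (sq _).symm).trans (sq_bound a z))
  have k2 := mul_le_mul_of_nonneg_left (mul_le_mul_of_nonneg_left k1 hK) hD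
  have k3 : D * (1 + (R + 1) / √t) ≤ D * (3 * (1 + (R + 1) / √t) * (1 + a ^ 2 + z ^ 2)) := by
    refine mul_le_mul_of_nonneg_left ?_ hD
    have : 0 ≤ (R + 1) / √t := by positivity
    nlinarith [sq_nonneg a, sq_nonneg z, mul_nonneg this (sq_nonneg a), mul_nonneg this (sq_nonneg z)]
  have k5 : 0 ≤ D * (3 * (3 + R) * (1 + a ^ 2 + z ^ 2)) := by positivity
  linarith

/-- the two parts of the field identity give the complex one -/
lemma block_parts (π : Measure Θ) [IsFiniteMeasure π] {h a z o : Θ → ℝ} {s : Θ → Bool} {t L δ M o₀ : ℝ} (hL : 1 ≤ L)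
    (ms : Measurable s) (ho : ∀ θ, 0 ≤ o θ ∧ o θ ≤ 1) {c : Bool}
    (hS : Site (π.restrict {θ | s θ = c}) t L δ M c o₀ h a z o) (e : Bool) (j : Fin 4) (α γ α' : ℝ)
    (hb : ∀ p, |∫ θ, fieldTerm (mkern (t := t) hL c e j α γ α' p)
      (par L c (a θ) (obsY t (s θ) (z θ)) (o θ) (s θ)) (h θ) (a θ) (obsY t (s θ) (z θ)) (o θ) ∂π| ≤ δ) :
    ‖∫ θ in {θ | s θ = c}, wgt t L c e j α γ (a θ) (obsY t c (z θ)) *
      sfac (o θ) (freq e α') (h θ) (a θ) (obsY t c (z θ)) ∂π‖ ≤ 2 * δ := by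
  refine norm_le_parts (hS.int_sfac e j α γ α') fun p => ?_
  have ho' : ∀ θ, |o θ| ≤ 1 := fun θ => by rw [abs_of_nonneg (ho θ).1]; exact (ho θ).2
  have hb' := hb p
  simp only [fieldTerm_mkern hL _ _ _ _ _ _ _ _ _ _ (ho' _)] at hb'
  refine le_of_eq_of_le ?_ hb'
  congr 1
  symm
  refine (setIntegral_eq_integral_of_forall_compl_eq_zero (s := {θ | s θ = c}) fun θ hθ => if_neg hθ).symm.trans ?_
  refine setIntegral_congr_fun (ms (measurableSet_singleton c)) fun θ hθ => ?_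
  simp only [Set.mem_ofPred_eq, show s θ = c from hθ, if_true, freq]

/-- the two parts of the channel identity give the complex one -/
lemma chan_parts (π : Measure Θ) [IsFiniteMeasure π] {h a z o : Θ → ℝ} {s : Θ → Bool} {t L δ M o₀ A : ℝ}
    (ms : Measurable s) {c : Bool} (hS : Site (π.restrict {θ | s θ = c}) t L δ M c o₀ h a z o)
    (hA : 0 ≤ A ∧ A ≤ 1) (e : Bool) (α γ : ℝ)
    (hb : ∀ p, |∫ θ, (mtest t c e α γ p).fn (h θ) (z θ) (s θ) * a θ
      - A * ((mtest t c e α γ p).fn (h θ) (z θ) (s θ) * spin (s θ) + (mtest t c e α γ p).dfn (h θ) (z θ) (s θ))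
      - A / √t * (z θ * (mtest t c e α γ p).fn (h θ) (z θ) (s θ) - (mtest t c e α γ p).zfn (h θ) (z θ) (s θ)) ∂π| ≤ δ) :
    ‖∫ θ in {θ | s θ = c}, psiC t c e α γ (h θ) (z θ) * a θ
      - A * (psiC t c e α γ (h θ) (z θ) * spin c + psiH t c e α γ (h θ) (z θ))
      - (A / √t : ℝ) * (z θ * psiC t c e α γ (h θ) (z θ) - psiZ t c e α γ (h θ) (z θ)) ∂π‖ ≤ 2 * δ := by
  have hm : ∀ c₀ c₁ c₂, Measurable fun θ => opol t c α γ c₀ c₁ c₂ (h θ) (z θ) := fun c₀ c₁ c₂ =>
    measurable_opol hS.mh hS.mz c α γ c₀ c₁ c₂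
  set B := opolM t α γ (1 / 2) ((spin e : ℂ) / 2) 0 + opolM t α γ (I * α / 2) (I * α * spin e / 2) ((spin e : ℂ) / 2)
    + opolM t α γ (I * γ / 2) (I * γ * spin e / 2) ((√t : ℂ) * spin e / 2)
  have h0 : ∀ c₀ c₁ c₂, 0 ≤ opolM t α γ c₀ c₁ c₂ := fun c₀ c₁ c₂ => by unfold opolM; positivity
  have hBn : 0 ≤ B := add_nonneg (add_nonneg (h0 _ _ _) (h0 _ _ _)) (h0 _ _ _)
  refine norm_le_parts ((int_le hS.sq hS.mom ?_
    (C := 3 * (1 + 2 + 2 * |A / √t|) * B) (mul_nonneg (by positivity) hBn) fun θ => ?_).1) fun p => ?_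
  · simp only [psiC, psiH, psiZ]
    exact (((hm _ _ _).mul (measurable_ofReal.comp hS.ma)).sub ((((hm _ _ _).mul_const _).add (hm _ _ _)).const_mul _)).sub
      ((((measurable_ofReal.comp hS.mz).mul (hm _ _ _)).sub (hm _ _ _)).const_mul _)
  · have b0 : ‖psiC t c e α γ (h θ) (z θ)‖ ≤ B := (opol_bdd ..).trans (by simp only [B]; linarith [h0 (I * α / 2) (I * α * spin e / 2) ((spin e : ℂ) / 2), h0 (I * γ / 2) (I * γ * spin e / 2) ((√t : ℂ) * spin e / 2)])
    have b1 : ‖psiH t c e α γ (h θ) (z θ)‖ ≤ B := (opol_bdd ..).trans (by simp only [B]; linarith [h0 (1 / 2) ((spin e : ℂ) / 2) 0, h0 (I * γ / 2) (I * γ * spin e / 2) ((√t : ℂ) * spin e / 2)])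
    have b2 : ‖psiZ t c e α γ (h θ) (z θ)‖ ≤ B := (opol_bdd ..).trans (by simp only [B]; linarith [h0 (1 / 2) ((spin e : ℂ) / 2) 0, h0 (I * α / 2) (I * α * spin e / 2) ((spin e : ℂ) / 2)])
    refine (norm_sub_le _ _).trans ((add_le_add (norm_sub_le _ _) le_rfl).trans ?_)
    rw [norm_mul, norm_mul, norm_mul, norm_real, norm_real, norm_real, Real.norm_eq_abs, Real.norm_eq_abs, Real.norm_eq_abs]
    have hB0 : 0 ≤ B := (norm_nonneg _).trans b0
    have c1 : ‖psiC t c e α γ (h θ) (z θ) * (spin c : ℂ) + psiH t c e α γ (h θ) (z θ)‖ ≤ 2 * B := by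
      refine (norm_add_le _ _).trans ?_
      rw [norm_mul, norm_real, Real.norm_eq_abs, show |spin c| = 1 by cases c <;> simp [spin]]
      linarith
    have c2 : ‖(z θ : ℂ) * psiC t c e α γ (h θ) (z θ) - psiZ t c e α γ (h θ) (z θ)‖ ≤ (|z θ| + 1) * B := by
      refine (norm_sub_le _ _).trans ?_
      rw [norm_mul, norm_real, Real.norm_eq_abs]
      nlinarith [mul_le_mul_of_nonneg_left b0 (abs_nonneg (z θ))]
    have hA1 : |A| ≤ 1 := by rw [abs_of_nonneg hA.1]; exact hA.2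
    have d1 := mul_le_mul b0 le_rfl (abs_nonneg (a θ)) hB0
    have d2 := mul_le_mul hA1 c1 (norm_nonneg _) zero_le_one
    have d3 := mul_le_mul_of_nonneg_left c2 (abs_nonneg (A / √t))
    have d4 := mul_le_mul_of_nonneg_left (lin_bound (a θ) (z θ))
      (show 0 ≤ (1 + 2 + 2 * |A / √t|) * B by positivity)
    linarith [mul_nonneg hB0 (abs_nonneg (a θ)), mul_nonneg hB0 (abs_nonneg (z θ)),
      mul_nonneg (mul_nonneg (abs_nonneg (A / √t)) hB0) (abs_nonneg (a θ)),
      mul_nonneg (mul_nonneg (abs_nonneg (A / √t)) hB0) (abs_nonneg (z θ)),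
      mul_nonneg (abs_nonneg (A / √t)) hB0, hB0]
  · have hc' := hb p
    refine le_of_eq_of_le ?_ hc'
    congr 1
    symm
    refine (setIntegral_eq_integral_of_forall_compl_eq_zero (s := {θ | s θ = c}) fun θ hθ => by
      simp [mtest, show ¬ s θ = c from hθ]).symm.trans ?_
    refine setIntegral_congr_fun (ms (measurableSet_singleton c)) fun θ hθ => ?_
    have hr : ∀ (r : ℝ) (w : ℂ), part p ((r : ℂ) * w) = r * part p w := fun r w => by
      rw [← Complex.real_smul, map_smul, smul_eq_mul]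
    simp only [mtest, show s θ = c from hθ, if_true]
    rw [map_sub, map_sub, mul_comm (psiC t c e α γ (h θ) (z θ)) (a θ : ℂ), mul_comm (psiC t c e α γ (h θ) (z θ)) (spin c : ℂ),
      hr, hr, hr, map_add, map_sub, hr, hr]
    ring

/-- the characteristic expression is integrable and Lipschitz in the frequencies -/
lemma charInt_near {ρ : Measure Θ} [IsFiniteMeasure ρ] {h a z o : Θ → ℝ} {t L δ M o₀ A R mesh : ℝ} {c : Bool}
    (hS : Site ρ t L δ M c o₀ h a z o) (hA : 0 ≤ A ∧ A ≤ 1) {α γ α' γ' : ℝ} (hR : |α| ≤ R ∧ |γ| ≤ R)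
    (hdα : |α - α'| ≤ mesh) (hdγ : |γ - γ'| ≤ mesh) :
    ‖∫ θ, charInt A (A * spin c) (A / √t) α γ (a θ) (z θ) ∂ρ‖ ≤
      ‖∫ θ, charInt A (A * spin c) (A / √t) α' γ' (a θ) (z θ) ∂ρ‖ + 2 * mesh * (6 * (3 + R + (R + 1) / √t)) * M := by
  have hma := hS.ma
  have hmz := hS.mz
  have hmesh : 0 ≤ mesh := (abs_nonneg _).trans hdα
  have hR0 : 0 ≤ R := (abs_nonneg _).trans hR.1
  have hm : ∀ α γ : ℝ, Measurable fun θ => charInt A (A * spin c) (A / √t) α γ (a θ) (z θ) := fun α γ => by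
    unfold charInt osc; fun_prop
  have hi : ∀ α γ : ℝ, Integrable (fun θ => charInt A (A * spin c) (A / √t) α γ (a θ) (z θ)) ρ :=
    fun α γ => by
    refine (int_le hS.sq hS.mom (hm α γ) (C := 3 * (2 + |α| + |γ| + |A / √t| * (1 + |γ|))) (by positivity)
      fun θ => ?_).1
    rw [charInt, norm_mul, norm_osc, one_mul]
    refine (norm_sub_le _ _).trans ((add_le_add (norm_sub_le _ _) le_rfl).trans ?_)
    rw [norm_real, Real.norm_eq_abs, norm_mul (I * (α : ℂ)) (A : ℂ), norm_mul I (α : ℂ), norm_mul, norm_I, one_mul,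
      norm_real, norm_real, norm_real, Real.norm_eq_abs, Real.norm_eq_abs, Real.norm_eq_abs]
    have h1 : |a θ - A * spin c| ≤ |a θ| + 1 := by
      refine (abs_sub _ _).trans (add_le_add le_rfl ?_)
      rw [abs_mul, show |spin c| = 1 by cases c <;> simp [spin], mul_one, abs_of_nonneg hA.1]; exact hA.2
    have h2 : ‖(z θ : ℂ) - I * γ‖ ≤ |z θ| + |γ| := by
      refine (norm_sub_le _ _).trans ?_
      rw [norm_real, norm_mul, norm_I, one_mul, norm_real, Real.norm_eq_abs, Real.norm_eq_abs]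
    have h3 : |α| * |A| ≤ |α| := mul_le_of_le_one_right (abs_nonneg _) (by rw [abs_of_nonneg hA.1]; exact hA.2)
    have h4 := mul_le_mul_of_nonneg_left h2 (abs_nonneg (A / √t))
    have h5 := mul_le_mul_of_nonneg_left (lin_bound (a θ) (z θ))
      (show 0 ≤ 2 + |α| + |γ| + |A / √t| * (1 + |γ|) by positivity)
    nlinarith [abs_nonneg (a θ), abs_nonneg (z θ), abs_nonneg γ, abs_nonneg α, mul_nonneg (abs_nonneg (A / √t)) (abs_nonneg (a θ)),
      mul_nonneg (abs_nonneg α) (abs_nonneg (a θ)), mul_nonneg (abs_nonneg α) (abs_nonneg (z θ)),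
      mul_nonneg (abs_nonneg γ) (abs_nonneg (a θ)), mul_nonneg (abs_nonneg γ) (abs_nonneg (z θ)),
      mul_nonneg (mul_nonneg (abs_nonneg (A / √t)) (abs_nonneg γ)) (add_nonneg (abs_nonneg (a θ)) (abs_nonneg (z θ))),
      mul_nonneg (abs_nonneg (A / √t)) (abs_nonneg (z θ)), mul_nonneg (abs_nonneg (A / √t)) (abs_nonneg γ), abs_nonneg (A / √t)]
  have hd : ‖∫ θ, (charInt A (A * spin c) (A / √t) α γ (a θ) (z θ)
      - charInt A (A * spin c) (A / √t) α' γ' (a θ) (z θ)) ∂ρ‖ ≤ 2 * mesh * (6 * (3 + R + (R + 1) / √t)) * M := by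
    refine (int_le hS.sq hS.mom ((hm α γ).sub (hm α' γ')) (C := 2 * mesh * (6 * (3 + R + (R + 1) / √t)))
      (by have := Real.sqrt_nonneg t; positivity) fun θ => ?_).2
    refine (charInt_lip hS.ht hR hA c _ _).trans ?_
    rw [mul_assoc (2 * mesh)]
    exact mul_le_mul_of_nonneg_right (by linarith) (by have := Real.sqrt_nonneg t; positivity)
  rw [integral_sub (hi α γ) (hi α' γ')] at hd
  linarith [norm_le_norm_sub_add (∫ θ, charInt A (A * spin c) (A / √t) α γ (a θ) (z θ) ∂ρ)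
    (∫ θ, charInt A (A * spin c) (A / √t) α' γ' (a θ) (z θ) ∂ρ)]

end MmseLaw

open MmseLaw in
/-- If the field identity holds for finitely many kernels and the channel identity for finitely many tests,
the overlap is an approximate fixed point. -/
theorem mmse_law {β t : ℝ} (hβ0 : 0 ≤ β) (hβ : β < 1) (ht : 0 < t) (M : ℝ) {ε : ℝ} (hε : 0 < ε) :
    ∃ δ : ℝ, 0 < δ ∧ ∃ L : ℝ, 1 ≤ L ∧ ∃ (N : ℕ) (Ψ : Fin N → Kern) (N' : ℕ) (ψ : Fin N' → ChanTest),
      ∀ {Θ : Type*} [MeasurableSpace Θ] (π : Measure Θ) [IsProbabilityMeasure π] (h a z o : Θ → ℝ) (s : Θ → Bool) (q : ℝ),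
        Measurable h → Measurable a → Measurable z → Measurable o → Measurable s → 0 ≤ q → q ≤ 1 →
        (∀ θ, 0 ≤ o θ ∧ o θ ≤ 1) → Integrable (fun θ => a θ ^ 2 + z θ ^ 2) π →
        ∫ θ, 1 + a θ ^ 2 + z θ ^ 2 ∂π ≤ M →
        (∀ (γ : ℝ) (c : Bool), ∫ θ in {θ | s θ = c}, cexp (I * ((γ * z θ : ℝ) : ℂ)) ∂π =
          (π.real {θ | s θ = c} : ℂ) * ((Real.exp (-(γ ^ 2 / 2)) : ℝ) : ℂ)) →
        ∫ θ, |o θ - β ^ 2 * (1 - q)| ∂π ≤ δ →
        |q - ∫ θ, spin (s θ) * Real.tanh (h θ + obsY t (s θ) (z θ)) ∂π| ≤ δ →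
        (∀ j c, |∫ θ, fieldTerm (Ψ j) (par L c (a θ) (obsY t (s θ) (z θ)) (o θ) (s θ))
          (h θ) (a θ) (obsY t (s θ) (z θ)) (o θ) ∂π| ≤ δ) →
        (∀ j, |∫ θ, (ψ j).fn (h θ) (z θ) (s θ) * a θ
          - β ^ 2 * q * ((ψ j).fn (h θ) (z θ) (s θ) * spin (s θ) + (ψ j).dfn (h θ) (z θ) (s θ))
          - β ^ 2 * q / √t * (z θ * (ψ j).fn (h θ) (z θ) (s θ) - (ψ j).zfn (h θ) (z θ) (s θ)) ∂π| ≤ δ) →
        |q - fq (t + β ^ 2 * q)| ≤ ε := by
  classical
  have hs := Real.sqrt_pos.2 ht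
  have hb : β ^ 2 ≤ 1 := pow_le_one₀ hβ0 hβ.le
  choose δc hδc Rc hlaw using fun c : Bool => law_close M (1 / √t)
    (fun p : ℝ × ℝ => Real.tanh (p.1 + obsY t c p.2))
    (by have := continuous_tanh'; unfold obsY; fun_prop) (Bf := 1) (fun p => abs_tanh_le_one' _)
    (show 0 < ε / 8 by linarith)
  set δ₁ := min (δc true) (δc false)
  have hδ₁ : 0 < δ₁ := lt_min (hδc true) (hδc false)
  set R := max |Rc true| |Rc false|
  have hR0 : 0 ≤ R := (abs_nonneg _).trans (le_max_left _ _)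
  set M' := max M 1
  have hM' : 1 ≤ M' := le_max_right _ _
  set K₁ := 3 + R + (R + 1) / √t
  have hK₁ : 3 ≤ K₁ := by have : 0 ≤ (R + 1) / √t := by positivity
                          simp only [K₁]; linarith
  set mesh := δ₁ / (24 * K₁ * M')
  have hmesh : 0 < mesh := by positivity
  obtain ⟨g, hgs, hgf, hgc⟩ := finite_cover_balls_of_compact (isCompact_Icc (a := -R) (b := R)) hmesh
  set G := insert (0 : ℝ) hgf.toFinset
  set Kt := 3 * (1 + t) * (2 * freqC R + 1)
  set L := max 1 (max (4 * K₁ * Kt * M' / δ₁) (48 * (1 + t) * M' / ε))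
  have hL : 1 ≤ L := le_max_left _ _
  have hL0 : 0 < L := zero_lt_one.trans_le hL
  obtain ⟨CW, hCW0, hCWi⟩ := exists_upper fun i : Bool × Bool × Fin 4 × G × G =>
    wC t L i.1 i.2.1 i.2.2.1 i.2.2.2.1 i.2.2.2.2
  have hE := one_le_freqC R
  set Kd := 4 * freqC R + K₁ * (4 * freqC R + 4 + 4 * CW * freqC R ^ 2)
  have hKd : 0 < Kd := by positivity
  set δ := min (δ₁ / (4 * Kd)) (ε / 128)
  have hδ : 0 < δ := lt_min (by positivity) (by linarith)
  obtain ⟨N, Ψ, hΨ⟩ := exists_fin_family fun i : Bool × Bool × Fin 4 × Bool × Bool × G × G =>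
    mkern (t := t) hL i.1 i.2.1 i.2.2.1 i.2.2.2.2.2.1 i.2.2.2.2.2.2 (if i.2.2.2.2.1 then (i.2.2.2.2.2.1 : ℝ) else 0) i.2.2.2.1
  obtain ⟨N', ψ, hψ⟩ := exists_fin_family fun i : Bool × Bool × Bool × G × G =>
    mtest t i.1 i.2.1 i.2.2.2.1 i.2.2.2.2 i.2.2.1
  refine ⟨δ, hδ, L, hL, N, Ψ, N', ψ, ?_⟩
  intro Θ _ π _ h a z o s q mh ma mz mo ms hq0 hq1 ho hsq hmom hgauss hoc hqm hblock hchan
  set A := β ^ 2 * q
  set o₀ := β ^ 2 * (1 - q)
  have hA : 0 ≤ A ∧ A ≤ 1 := ⟨by positivity, mul_le_one₀ hb hq0 hq1⟩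
  have ho₀ : 0 ≤ o₀ ∧ o₀ ≤ 1 := ⟨mul_nonneg (sq_nonneg β) (by linarith), mul_le_one₀ hb (by linarith) (by linarith)⟩
  have hmono : ∀ f : Θ → ℝ, (∀ θ, 0 ≤ f θ) → Integrable f π → ∀ S : Set Θ, ∫ θ in S, f θ ∂π ≤ ∫ θ, f θ ∂π :=
    fun f hf hi S => setIntegral_le_integral hi (Eventually.of_forall hf)
  have hi1 : Integrable (fun θ => 1 + a θ ^ 2 + z θ ^ 2) π :=
    ((integrable_const (1:ℝ)).add hsq).congr (Eventually.of_forall fun θ => by simp only [Pi.add_apply, add_assoc])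
  have hoi : Integrable (fun θ => |o θ - o₀|) π := Integrable.of_bound (mo.sub_const o₀).abs.aestronglyMeasurable 1
    (Eventually.of_forall fun θ => by
      rw [Real.norm_eq_abs, abs_abs, abs_le]
      constructor <;> linarith [(ho θ).1, (ho θ).2, ho₀.1, ho₀.2])
  have hS : ∀ c, Site (π.restrict {θ | s θ = c}) t L δ M c o₀ h a z o := fun c =>
    ⟨ht, hL, mh, ma, mz, mo, ho, ho₀, hsq.restrict, (hmono _ (fun θ => by positivity) hi1 _).trans hmom,
      (hmono _ (fun θ => abs_nonneg _) hoi _).trans hoc⟩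
  have hset : ∀ c, MeasurableSet {θ | s θ = c} := fun c => ms (measurableSet_singleton c)
  have hmass : ∀ c, (π.restrict {θ | s θ = c}).real Set.univ ≤ 1 := fun c => by
    rw [measureReal_restrict_apply_univ]; exact measureReal_le_one
  have hblock' : ∀ c e j, ∀ α ∈ G, ∀ γ ∈ G, ∀ α', α' = α ∨ α' = 0 →
      ‖∫ θ in {θ | s θ = c}, wgt t L c e j α γ (a θ) (obsY t c (z θ)) *
        sfac (o θ) (freq e α') (h θ) (a θ) (obsY t c (z θ)) ∂π‖ ≤ 2 * δ := by
    intro c e j α hα γ hγ α' hα'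
    refine block_parts π hL ms ho (hS c) e j α γ α' fun p => ?_
    obtain ⟨b, rfl⟩ : ∃ b : Bool, (if b then α else 0) = α' := by
      rcases hα' with h | h
      · exact ⟨true, by simp [h]⟩
      · exact ⟨false, by simp [h]⟩
    obtain ⟨k, hk⟩ := hΨ (c, e, j, p, b, ⟨α, hα⟩, ⟨γ, hγ⟩)
    have hb' := hblock k c
    rw [hk] at hb'
    exact hb'
  have hchan' : ∀ c e, ∀ α ∈ G, ∀ γ ∈ G,
      ‖∫ θ in {θ | s θ = c}, psiC t c e α γ (h θ) (z θ) * a θ
        - A * (psiC t c e α γ (h θ) (z θ) * spin c + psiH t c e α γ (h θ) (z θ))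
        - (A / √t : ℝ) * (z θ * psiC t c e α γ (h θ) (z θ) - psiZ t c e α γ (h θ) (z θ)) ∂π‖ ≤ 2 * δ := by
    intro c e α hα γ hγ
    refine chan_parts π ms (hS c) hA e α γ fun p => ?_
    obtain ⟨k, hk⟩ := hψ (c, e, p, ⟨α, hα⟩, ⟨γ, hγ⟩)
    have hc' := hchan k
    rw [hk] at hc'
    exact hc'
  have hG0 : (0:ℝ) ∈ G := Finset.mem_insert_self _ _
  have hGR : ∀ α ∈ G, |α| ≤ R := fun α hα => by
    rcases Finset.mem_insert.1 hα with h | h
    · rw [h, abs_zero]; exact hR0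
    · exact abs_le.2 (hgs (hgf.mem_toFinset.1 h))
  have hnear : ∀ x, |x| ≤ R → ∃ x' ∈ G, |x - x'| ≤ mesh := fun x hx => by
    obtain ⟨x', hx', hd⟩ := Set.mem_iUnion₂.1 (hgc (abs_le.1 hx))
    exact ⟨x', Finset.mem_insert_of_mem (hgf.mem_toFinset.2 hx'), by rw [Metric.mem_ball, Real.dist_eq] at hd; exact hd.le⟩
  have hCWle : ∀ c e j, ∀ α ∈ G, ∀ γ ∈ G, wC t L c e j α γ ≤ CW := fun c e j α hα γ hγ =>
    hCWi (c, e, j, ⟨α, hα⟩, ⟨γ, hγ⟩)
  have hchar : ∀ c α γ, |α| ≤ R → |γ| ≤ R →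
      ‖∫ θ in {θ | s θ = c}, charInt A (A * spin c) (A / √t) α γ (a θ) (z θ) ∂π‖ ≤ δ₁ := by
    intro c α γ hα hγ
    obtain ⟨α', hα', hdα⟩ := hnear α hα
    obtain ⟨γ', hγ', hdγ⟩ := hnear γ hγ
    have hch := (hS c).char_eq (hmass c) (hGR α' hα') (hGR γ' hγ') hA (fun e j => hCWle c e j α' hα' γ' hγ')
      (fun e j α'' => hblock' c e j α' hα' γ' hγ' α'') (fun e => hchan' c e α' hα' γ' hγ')
    have hn := charInt_near (hS c) hA ⟨hα, hγ⟩ hdα hdγ
    have hMM : M ≤ M' := le_max_left _ _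
    have h1 : 2 * mesh * (6 * K₁) * M ≤ δ₁ / 2 := by
      refine (mul_le_mul_of_nonneg_left hMM (by positivity)).trans (le_of_eq ?_)
      simp only [mesh]; field_simp; ring
    have h2 : K₁ * (Kt / L * M) ≤ δ₁ / 4 := by
      refine (mul_le_mul_of_nonneg_left (mul_le_mul_of_nonneg_left hMM (by positivity)) (by positivity)).trans ?_
      have h3 : 4 * K₁ * Kt * M' / δ₁ ≤ L := (le_max_left _ _).trans (le_max_right _ _)
      rw [div_le_iff₀ hδ₁] at h3
      rw [show K₁ * (Kt / L * M') = K₁ * Kt * M' / L by ring, div_le_iff₀ hL0]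
      linarith
    have h3 : Kd * δ ≤ δ₁ / 4 := by
      refine (mul_le_mul_of_nonneg_left (min_le_left _ _) hKd.le).trans (le_of_eq ?_)
      field_simp
    simp only [Kd, Kt, K₁] at h1 h2 h3
    linarith
  have hlaw' : ∀ c, |∫ θ in {θ | s θ = c}, Real.tanh (a θ + obsY t c (z θ)) ∂π -
      π.real {θ | s θ = c} * (spin c * fq (t + A))| ≤ ε / 8 := by
    intro c
    have hmap : Measurable fun θ => (a θ, z θ) := ma.prodMk mz
    set ν := (π.restrict {θ | s θ = c}).map fun θ => (a θ, z θ)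
    have hν : ν.real Set.univ = π.real {θ | s θ = c} := by
      simp [ν, measureReal_def, Measure.map_apply hmap MeasurableSet.univ]
    have hint : ∀ (F : ℝ × ℝ → ℂ), Continuous F → ∫ p, F p ∂ν = ∫ θ in {θ | s θ = c}, F (a θ, z θ) ∂π := fun F hF =>
      integral_map hmap.aemeasurable hF.aestronglyMeasurable
    have hsqν : Integrable (fun p : ℝ × ℝ => p.1 ^ 2 + p.2 ^ 2) ν :=
      (integrable_map_measure (by fun_prop) hmap.aemeasurable).2 hsq.restrict
    have hbound : ∫ p, p.1 ^ 2 + p.2 ^ 2 ∂ν ≤ M := by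
      rw [integral_map hmap.aemeasurable (by fun_prop)]
      exact ((integral_mono hsq.restrict ((hi1).restrict) fun θ => by simp only; linarith).trans (hS c).mom)
    have hA' : |A / √t| ≤ 1 / √t := by
      rw [abs_div, abs_of_nonneg hA.1, abs_of_pos hs]; exact div_le_div_of_nonneg_right hA.2 hs.le
    have hμ : |A * spin c| ≤ 1 := by
      rw [abs_mul, show |spin c| = 1 by cases c <;> simp [spin], mul_one, abs_of_nonneg hA.1]; exact hA.2
    have hRc : |Rc c| ≤ R := by cases c; exacts [le_max_right _ _, le_max_left _ _]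
    have hδle : δ₁ ≤ δc c := by cases c; exacts [min_le_right _ _, min_le_left _ _]
    have hl := hlaw c A (A / √t) (A * spin c) hA.1 hA.2 hA' hμ ν inferInstance
      (hν.trans_le measureReal_le_one) hsqν hbound (fun α γ hα hγ => by
        have hα' := hα.trans ((le_abs_self _).trans hRc)
        have hγ' := hγ.trans ((le_abs_self _).trans hRc)
        refine ⟨?_, ?_⟩
        · rw [hint _ (by fun_prop)]
          refine le_of_eq_of_le ?_ ((hchar c α γ hα' hγ').trans hδle)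
          refine congrArg (fun w : ℂ => ‖w‖) (integral_congr_ae (Eventually.of_forall fun θ => ?_))
          simp only [charInt, norm_osc_form]
          push_cast; ring
        · rw [hint _ (by fun_prop), hν, hgauss γ c, sub_self, norm_zero]
          exact (hδc c).le)
    rw [integral_map hmap.aemeasurable (by have := continuous_tanh'; unfold obsY; fun_prop), hν,
      gauss_tanh (show 0 < t + A by linarith [hA.1]) ht.le hA.1 c] at hl
    exact hl
  have htanh : ∀ c, |∫ θ in {θ | s θ = c}, Real.tanh (h θ + obsY t c (z θ)) ∂π -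
      ∫ θ in {θ | s θ = c}, Real.tanh (a θ + obsY t c (z θ)) ∂π| ≤ ε / 16 + ε / 8 := fun c => by
    refine ((hS c).tanh_eq fun e j => hblock' c e j 0 hG0 0 hG0 0 (Or.inl rfl)).trans (add_le_add ?_ ?_)
    · linarith [min_le_right (δ₁ / (4 * Kd)) (ε / 128)]
    · refine (mul_le_mul_of_nonneg_left (le_max_left M 1) (by positivity)).trans ?_
      have h3 : 48 * (1 + t) * M' / ε ≤ L := (le_max_right _ _).trans (le_max_right _ _)
      rw [div_le_iff₀ hε] at h3
      rw [div_mul_eq_mul_div, div_le_iff₀ hL0]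
      linarith
  have hTi : Integrable (fun θ => spin (s θ) * Real.tanh (h θ + obsY t (s θ) (z θ))) π := by
    refine Integrable.of_bound ?_ 1 (Eventually.of_forall fun θ => ?_)
    · have hsp : Measurable fun θ => spin (s θ) := (measurable_of_countable spin).comp ms
      have := continuous_tanh'.measurable
      unfold obsY
      exact (hsp.mul (this.comp (mh.add ((hsp.const_mul t).add (mz.const_mul _))))).aestronglyMeasurable
    · rw [Real.norm_eq_abs, abs_mul, show |spin (s θ)| = 1 by cases s θ <;> simp [spin], one_mul]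
      exact abs_tanh_le_one' _
  have hcompl : ({θ | s θ = true} : Set Θ)ᶜ = {θ | s θ = false} := by ext θ; simp
  have hsplit : ∫ θ, spin (s θ) * Real.tanh (h θ + obsY t (s θ) (z θ)) ∂π =
      (∫ θ in {θ | s θ = true}, Real.tanh (h θ + obsY t true (z θ)) ∂π) -
        ∫ θ in {θ | s θ = false}, Real.tanh (h θ + obsY t false (z θ)) ∂π := by
    rw [← integral_add_compl (hset true) hTi, hcompl, sub_eq_add_neg, ← integral_neg]
    congr 1
    · exact setIntegral_congr_fun (hset true) fun θ hθ => by simp [show s θ = true from hθ, spin]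
    · exact setIntegral_congr_fun (hset false) fun θ hθ => by simp [show s θ = false from hθ, spin]
  rw [hsplit] at hqm
  have hw : π.real {θ | s θ = true} + π.real {θ | s θ = false} = 1 := by
    rw [← hcompl, measureReal_add_measureReal_compl (hset true)]; exact probReal_univ
  have l1 := hlaw' true
  have l2 := hlaw' false
  simp only [spin, if_true, Bool.false_eq_true, if_false, one_mul, neg_one_mul] at l1 l2
  have e : π.real {θ | s θ = true} * fq (t + A) + π.real {θ | s θ = false} * fq (t + A) = fq (t + A) := by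
    rw [← add_mul, hw, one_mul]
  have t1 := abs_le.1 (htanh true)
  have t2 := abs_le.1 (htanh false)
  have l1' := abs_le.1 l1
  have l2' := abs_le.1 l2
  have q' := abs_le.1 hqm
  have hδε : δ ≤ ε / 128 := min_le_right _ _
  rw [abs_le]
  constructor <;> linarith

end Vale.Agent.P150.PA
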