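import Vale.Agent.P150.PA.MmseAvg
import Vale.Agent.P150.PA.MmseAdapter

/-! The law step applied to the law of one site at one time. -/

open MeasureTheory Finset

namespace Vale.Agent.P150.PA.Mmse

open Ising

variable {n : ℕ} {J : Fin n → Fin n → ℝ} {β t : ℝ} {v A M : ℕ} {x : Cfg n}

/-- site, observed configuration and state of the field, with the noise -/
abbrev Site (n : ℕ) := (Fin n × Cfg n × Cfg n) × (Fin n → ℝ)

/-- the weights of the state given the observation -/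
noncomputable def wgt (J : Fin n → Fin n → ℝ) (t : ℝ) (A : ℕ) (z : Fin n → ℝ) (p y : Cfg n) : ℝ :=
  winLaw J (obsField t p z) A p y

lemma continuous_wgt (J : Fin n → Fin n → ℝ) (t : ℝ) (A : ℕ) (p y : Cfg n) :
    Continuous fun z => wgt J t A z p y :=
  (continuous_finsetSum _ fun k _ => continuous_lawAt J t k p p y).div_const _

lemma site_wts (hJ : Tame J 3) (hn : 0 < n) (hA : 2 ≤ A) (v : ℕ) (x : Cfg n) :
    MmseLaw.SiteWts (lawAt J 0 v x) (wgt J t A) :=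
  { npos := hn
    ν_nonneg := fun p => Burn.lawAt_nonneg v x p
    ν_sum := Burn.lawAt_sum hJ.symm hJ.diag hn v x
    w_nonneg := fun z p y => win_nonneg A p y
    w_sum := fun z p => win_sum hJ hn hA p
    w_meas := fun p y => (continuous_wgt J t A p y).measurable }

lemma meas_of {F : Site n → ℝ} (h : ∀ e, Nice fun z => F (e, z)) : Measurable F :=
  measurable_from_prod_countable_right fun e => (h e).1.measurable

lemma site_conv (hJ : Tame J 3) (hn : 0 < n) (hA : 2 ≤ A) (F : Site n → ℝ) (hF : ∀ e, Nice fun z => F (e, z)) :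
    Integrable F (MmseLaw.siteLaw (lawAt J 0 v x) (wgt J t A)) ∧
      ∫ θ, F θ ∂MmseLaw.siteLaw (lawAt J 0 v x) (wgt J t A) =
        jex J v x (fun p z => ∑ y, wgt J t A z p y * ∑ i, F ((i, p, y), z)) / n := by
  have H := site_wts (t := t) hJ hn hA v x
  have hm := (meas_of hF).stronglyMeasurable
  refine ⟨H.integrable hm fun e => (hF e).integrable, ?_⟩
  rw [H.integral_eq hm fun e => (hF e).integrable]
  have hG : ∀ p, Nice fun z => ∑ y, wgt J t A z p y * ∑ i, F ((i, p, y), z) := fun p =>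
    nice_sum univ fun y _ => (nice_sum univ fun i _ => hF (i, p, y)).mul_bdd (continuous_wgt J t A p y) (B := 1)
      fun z => by rw [abs_of_nonneg (H.w_nonneg z p y)]; exact H.w_le z p y
  simp only [jex, smul_eq_mul]
  rw [sum_div, show (∫ z, ∑ p, ∑ y, ∑ i, lawAt J 0 v x p * wgt J t A z p y / (n : ℝ) * F ((i, p, y), z)
      ∂gauss (Fin n)) = ∫ z, ∑ p, lawAt J 0 v x p / (n : ℝ) * ∑ y, wgt J t A z p y * ∑ i, F ((i, p, y), z)
      ∂gauss (Fin n) from by
    congr 1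
    funext z
    simp only [mul_sum]
    exact sum_congr rfl fun p _ => sum_congr rfl fun y _ => sum_congr rfl fun i _ => by ring]
  rw [integral_finsetSum _ fun p _ => ((hG p).integrable.const_mul _)]
  exact sum_congr rfl fun p _ => by rw [integral_const_mul]; ring

lemma site_le (hJ : Tame J 3) (hn : 0 < n) (hA : 2 ≤ A) (F : Site n → ℝ) (hF : ∀ e, Nice fun z => F (e, z))
    {Φ : Cfg n → (Fin n → ℝ) → ℝ} (e : ∀ p z, ∑ y, wgt J t A z p y * ∑ i, F ((i, p, y), z) = Φ p z) :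
    ∫ θ, F θ ∂MmseLaw.siteLaw (lawAt J 0 v x) (wgt J t A) = jex J v x Φ / n := by
  rw [(site_conv hJ hn hA F hF).2]
  simp only [e]

lemma nice_onsager (hJ : Tame J 3) (hn : 0 < n) (β t : ℝ) (M : ℕ) (p : Cfg n) :
    Nice fun z => onsager β J (obsField t p z) M p :=
  ((nice_const (1 : ℝ)).sub (nice_qmean hJ hn t M p p)).const_mul _

lemma nice_cav_sq (hJ : Tame J 3) (hn : 0 < n) (hβ0 : 0 ≤ β) (hβ : β ≤ 1) (t : ℝ) (M : ℕ) (p : Cfg n) (i : Fin n) :
    Nice fun z => cav β J (obsField t p z) M p i ^ 2 := by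
  simp only [sq]
  refine (nice_cav hJ hn β t M p i).mul_bdd (nice_cav hJ hn β t M p i).1 (B := 20 * n + 1) fun z => ?_
  have h1 := (single_le_sum (f := fun i => cav β J (obsField t p z) M p i ^ 2) (fun i _ => sq_nonneg _)
    (mem_univ i)).trans (sum_cav_sq_le hJ hn hβ0 hβ M p)
  rw [abs_le]
  constructor <;> nlinarith

lemma nice_coord_sq (i : Fin n) : Nice fun z : Fin n → ℝ => z i ^ 2 := by
  refine ⟨(continuous_apply i).pow 2, 2, fun z => ?_⟩
  rw [abs_pow]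
  have h3 := Real.quadratic_le_exp_of_nonneg (l1_nonneg z)
  have h4 := pow_le_pow_left₀ (abs_nonneg (z i)) (abs_le_l1 z i) 2
  have := l1_nonneg z
  rw [one_mul]
  linarith

lemma site_moment (hJ : Tame J 3) (hn : 0 < n) (hβ0 : 0 ≤ β) (hβ : β ≤ 1) (hA : 2 ≤ A) :
    Integrable (fun θ : Site n => cav β J (obsField t θ.1.2.1 θ.2) M θ.1.2.1 θ.1.1 ^ 2 + θ.2 θ.1.1 ^ 2)
        (MmseLaw.siteLaw (lawAt J 0 v x) (wgt J t A)) ∧
      ∫ θ, 1 + cav β J (obsField t θ.1.2.1 θ.2) M θ.1.2.1 θ.1.1 ^ 2 + θ.2 θ.1.1 ^ 2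
        ∂MmseLaw.siteLaw (lawAt J 0 v x) (wgt J t A) ≤ 22 := by
  have H := site_wts (t := t) hJ hn hA v x
  have := H.isProbability
  set F := fun θ : Site n => cav β J (obsField t θ.1.2.1 θ.2) M θ.1.2.1 θ.1.1 ^ 2 + θ.2 θ.1.1 ^ 2
  have hF : ∀ e, Nice fun z => F (e, z) := fun e =>
    (nice_cav_sq hJ hn hβ0 hβ t M e.2.1 e.1).add (nice_coord_sq e.1)
  have hi := (site_conv (t := t) (v := v) (x := x) hJ hn hA F hF).1
  refine ⟨hi, ?_⟩
  have hn' : (0 : ℝ) < n := Nat.cast_pos.2 hn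
  simp only [add_assoc]
  rw [integral_add (integrable_const _) hi, integral_const, probReal_univ, one_smul,
    (site_conv hJ hn hA F hF).2, ← le_sub_iff_add_le', div_le_iff₀ hn']
  refine (jex_mono hJ hn (Ψ := fun _ z => 20 * (n : ℝ) + ∑ i, z i ^ 2) (fun p => ?_)
    (fun _ => (nice_const _).add (nice_sum univ fun i _ => nice_coord_sq i)) fun p z => ?_).trans ?_
  · exact nice_sum univ fun y _ => (nice_sum univ fun i _ => hF (i, p, y)).mul_bdd (continuous_wgt J t A p y)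
      (B := 1) fun z => by rw [abs_of_nonneg (H.w_nonneg z p y)]; exact H.w_le z p y
  · simp only [F, sum_add_distrib, ← sum_mul, H.w_sum, one_mul]
    linarith [sum_cav_sq_le (b := obsField t p z) hJ hn hβ0 hβ M p]
  · simp only [jex, ← sum_mul, Burn.lawAt_sum hJ.symm hJ.diag hn, one_mul]
    rw [integral_add (integrable_const _) (integrable_finsetSum _ fun i _ => (sq_coord i).1),
      integral_finsetSum _ fun i _ => (sq_coord i).1, sum_congr rfl fun i _ => (sq_coord i).2]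
    simp
    linarith

lemma site_onsager (hJ : Tame J 3) (hn : 0 < n) (hA : 2 ≤ A) (q : ℝ) :
    ∫ θ : Site n, |onsager β J (obsField t θ.1.2.1 θ.2) M θ.1.2.1 - β ^ 2 * (1 - q)|
        ∂MmseLaw.siteLaw (lawAt J 0 v x) (wgt J t A) =
      jex J v x (fun p z => |onsager β J (obsField t p z) M p - β ^ 2 * (1 - q)|) := by
  have H := site_wts (t := t) hJ hn hA v x
  refine (site_le (Φ := fun p z => (n : ℝ) * |onsager β J (obsField t p z) M p - β ^ 2 * (1 - q)|) hJ hn hA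
    (fun θ : Site n => |onsager β J (obsField t θ.1.2.1 θ.2) M θ.1.2.1 - β ^ 2 * (1 - q)|)
    (fun e => ((nice_onsager hJ hn β t M e.2.1).sub (nice_const _)).abs) fun p z => ?_).trans ?_
  · simp only [sum_const, card_univ, Fintype.card_fin, nsmul_eq_mul, ← sum_mul, H.w_sum, one_mul]
  · rw [jex_const_mul, mul_div_cancel_left₀ _ (Nat.cast_pos.2 hn).ne']

lemma site_tanh (hJ : Tame J 3) (hn : 0 < n) (hA : 2 ≤ A) :
    ∫ θ : Site n, spin (θ.1.2.1 θ.1.1) *
        Real.tanh (fld J 0 θ.1.1 θ.1.2.2 + MmseLaw.obsY t (θ.1.2.1 θ.1.1) (θ.2 θ.1.1))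
        ∂MmseLaw.siteLaw (lawAt J 0 v x) (wgt J t A) =
      jex J v x (fun p z => ∑ y, winLaw J (obsField t p z) A p y *
        ∑ i, spin (p i) * Real.tanh (fld J (obsField t p z) i y)) / n := by
  refine site_le hJ hn hA _ (fun e => ?_) fun p z => ?_
  · dsimp only
    refine (nice_bdd ?_ fun z => (Real.abs_tanh_lt_one _).le).const_mul _
    have := continuous_tanh'
    simp only [MmseLaw.obsY]
    fun_prop
  · simp only [wgt, MmseLaw.obsY, fld, obsField, Pi.zero_apply, add_zero]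

lemma continuous_par {f g o : (Fin n → ℝ) → ℝ} (hf : Continuous f) (hg : Continuous g) (hk : Continuous o)
    (L : ℝ) (c s : Bool) : Continuous fun z => MmseLaw.par L c (f z) (g z) (o z) s := by
  simp only [MmseLaw.par]
  by_cases hpc : s = c <;> simp only [hpc, if_true, if_false] <;>
    refine continuous_pi fun k => ?_ <;> fin_cases k <;> simp <;>
    first
      | exact continuous_const
      | exact hk
      | exact (continuous_clip L).comp hf
      | exact (continuous_clip L).comp hg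

lemma site_field (hJ : Tame J 3) (hn : 0 < n) (hβ0 : 0 ≤ β) (hβ : β ≤ 1) (hA : 2 ≤ A) (L : ℝ) (c : Bool) (Ψ : Kern) :
    ∫ θ : Site n, MmseLaw.fieldTerm Ψ
        (MmseLaw.par L c (cav β J (obsField t θ.1.2.1 θ.2) M θ.1.2.1 θ.1.1)
          (MmseLaw.obsY t (θ.1.2.1 θ.1.1) (θ.2 θ.1.1)) (onsager β J (obsField t θ.1.2.1 θ.2) M θ.1.2.1)
          (θ.1.2.1 θ.1.1))
        (fld J 0 θ.1.1 θ.1.2.2) (cav β J (obsField t θ.1.2.1 θ.2) M θ.1.2.1 θ.1.1)
        (MmseLaw.obsY t (θ.1.2.1 θ.1.1) (θ.2 θ.1.1)) (onsager β J (obsField t θ.1.2.1 θ.2) M θ.1.2.1)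
        ∂MmseLaw.siteLaw (lawAt J 0 v x) (wgt J t A) =
      jex J v x (fieldSum β t L c Ψ J A M) / n := by
  refine site_le hJ hn hA _ (fun e => ?_) fun p z => rfl
  have hy : Continuous fun z : Fin n → ℝ => MmseLaw.obsY t (e.2.1 e.1) (z e.1) := by
    simp only [MmseLaw.obsY]; fun_prop
  have nO := nice_onsager hJ hn β t M e.2.1
  have na := nice_cav hJ hn β t M e.2.1 e.1
  have hob : ∀ z, |onsager β J (obsField t e.2.1 z) M e.2.1| ≤ 1 := fun z => by
    obtain ⟨h1, h2⟩ := onsager_mem (b := obsField t e.2.1 z) hJ hn hβ0 hβ M e.2.1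
    exact abs_le.2 ⟨by linarith, h2⟩
  have hθ := continuous_par na.1 hy nO.1 L c (e.2.1 e.1)
  have hth : Continuous fun z : Fin n → ℝ => Real.tanh (fld J 0 e.1 e.2.2 + MmseLaw.obsY t (e.2.1 e.1) (z e.1)) :=
    continuous_tanh'.comp (continuous_const.add hy)
  simp only [MmseLaw.fieldTerm]
  refine Nice.sub ?_ ?_
  · exact (((nice_const _).sub na).sub
      ((nice_bdd hth fun z => (Real.abs_tanh_lt_one _).le).mul_bdd nO.1 hob)).mul_bdd
      ((Kern.continuous_fn Ψ _).1.comp hθ) fun z => (Ψ.bdd _ _).1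
  · exact (nice_bdd ((Kern.continuous_fn Ψ _).2.comp hθ) fun z => (Ψ.bdd _ _).2).mul_bdd nO.1 hob

lemma site_chan (hJ : Tame J 3) (hn : 0 < n) (hA : 2 ≤ A) (q : ℝ) (ψ : ChanTest) :
    ∫ θ : Site n, ψ.fn (fld J 0 θ.1.1 θ.1.2.2) (θ.2 θ.1.1) (θ.1.2.1 θ.1.1) *
          cav β J (obsField t θ.1.2.1 θ.2) M θ.1.2.1 θ.1.1
        - β ^ 2 * q * (ψ.fn (fld J 0 θ.1.1 θ.1.2.2) (θ.2 θ.1.1) (θ.1.2.1 θ.1.1) * spin (θ.1.2.1 θ.1.1)
          + ψ.dfn (fld J 0 θ.1.1 θ.1.2.2) (θ.2 θ.1.1) (θ.1.2.1 θ.1.1))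
        - β ^ 2 * q / √t * (θ.2 θ.1.1 * ψ.fn (fld J 0 θ.1.1 θ.1.2.2) (θ.2 θ.1.1) (θ.1.2.1 θ.1.1)
          - ψ.zfn (fld J 0 θ.1.1 θ.1.2.2) (θ.2 θ.1.1) (θ.1.2.1 θ.1.1))
        ∂MmseLaw.siteLaw (lawAt J 0 v x) (wgt J t A) =
      jex J v x (fun p z => ∑ y, winLaw J (obsField t p z) A p y *
        chanTerm β t q ψ (cav β J (obsField t p z) M p) J z p y) / n := by
  refine site_le hJ hn hA _ (fun e => ?_) fun p z => rfl
  have hc1 : Continuous fun z : Fin n → ℝ => ψ.fn (fld J 0 e.1 e.2.2) (z e.1) (e.2.1 e.1) :=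
    (continuous_fn ψ _ _).1.comp (continuous_apply e.1)
  have n1 := nice_bdd hc1 fun z => (ψ.bdd _ _ _).1
  have n2 := nice_bdd ((continuous_fn ψ (fld J 0 e.1 e.2.2) (e.2.1 e.1)).2.comp (continuous_apply e.1))
    fun z => (ψ.bdd _ _ _).2.1
  have n3 := nice_bdd ((ψ.contZ (fld J 0 e.1 e.2.2) (e.2.1 e.1)).comp (continuous_apply e.1))
    fun z => (ψ.bdd _ _ _).2.2
  have n4 : Nice fun z : Fin n → ℝ => z e.1 * ψ.fn (fld J 0 e.1 e.2.2) (z e.1) (e.2.1 e.1) := by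
    simpa [mul_comm] using (nice_coord e.1).mul_bdd hc1 fun z => (ψ.bdd _ _ _).1
  refine (((nice_cav hJ hn β t M e.2.1 e.1).mul_bdd hc1 fun z => (ψ.bdd _ _ _).1).sub
    (Nice.const_mul ?_ _)).sub ((n4.sub n3).const_mul _)
  refine Nice.add ?_ n2
  simpa [mul_comm] using n1.const_mul (spin (e.2.1 e.1))

/-- the law step holds at every time -/
theorem lawSite_of {β t ε : ℝ} (hβ0 : 0 ≤ β) (hβ : β < 1) (ht : 0 < t) (hε : 0 < ε) :
    ∃ δ : ℝ, 0 < δ ∧ ∃ L : ℝ, 0 ≤ L ∧ ∃ (N : ℕ) (Ψ : Fin N → Kern) (N' : ℕ) (ψ : Fin N' → ChanTest),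
      LawSite β t δ ε L Ψ ψ := by
  obtain ⟨δ, hδ, L, hL, N, Ψ, N', ψ, hlaw⟩ := mmse_law.{0} hβ0 hβ ht 22 hε
  refine ⟨δ, hδ, L, by linarith, N, Ψ, N', ψ, fun n J hJ hn v x A M q hA q0 q1 ho hq hf hc => ?_⟩
  have H := site_wts (t := t) hJ hn hA v x
  have := H.isProbability
  have hn' : (0 : ℝ) < n := Nat.cast_pos.2 hn
  obtain ⟨iAZ, hmom⟩ := site_moment (β := β) (t := t) (M := M) (v := v) (x := x) hJ hn hβ0 hβ.le hA
  have hscale : ∀ {I X : ℝ}, I = X / n → |X| ≤ n * δ → |I| ≤ δ := fun {I X} hI hX => by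
    rw [hI, abs_div, abs_of_pos hn', div_le_iff₀ hn', mul_comm δ]; exact hX
  have h1 := (site_onsager (β := β) (t := t) (v := v) (x := x) (M := M) hJ hn hA q).trans_le ho
  have h2 : |q - ∫ θ : Site n, spin (θ.1.2.1 θ.1.1) *
      Real.tanh (fld J 0 θ.1.1 θ.1.2.2 + MmseLaw.obsY t (θ.1.2.1 θ.1.1) (θ.2 θ.1.1))
      ∂MmseLaw.siteLaw (lawAt J 0 v x) (wgt J t A)| ≤ δ := by
    rw [site_tanh hJ hn hA, abs_sub_comm, div_sub' hn'.ne', abs_div, abs_of_pos hn', div_le_iff₀ hn', mul_comm δ]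
    exact hq
  have h3 := fun j c => hscale (site_field (t := t) (v := v) (x := x) (M := M) hJ hn hβ0 hβ.le hA L c (Ψ j)) (hf j c)
  have h4 := fun j => hscale (site_chan (β := β) (t := t) (v := v) (x := x) (M := M) hJ hn hA q (ψ j)) (hc j)
  have m1 : Measurable fun θ : Site n => fld J 0 θ.1.1 θ.1.2.2 :=
    (measurable_of_finite fun e : Fin n × Cfg n × Cfg n => fld J 0 e.1 e.2.2).comp measurable_fst
  have m2 : Measurable fun θ : Site n => cav β J (obsField t θ.1.2.1 θ.2) M θ.1.2.1 θ.1.1 :=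
    measurable_from_prod_countable_right fun e => (nice_cav hJ hn β t M e.2.1 e.1).1.measurable
  have m3 : Measurable fun θ : Site n => θ.2 θ.1.1 :=
    measurable_from_prod_countable_right fun e => measurable_pi_apply e.1
  have m4 : Measurable fun θ : Site n => onsager β J (obsField t θ.1.2.1 θ.2) M θ.1.2.1 :=
    measurable_from_prod_countable_right fun e => (nice_onsager hJ hn β t M e.2.1).1.measurable
  have m5 : Measurable fun θ : Site n => θ.1.2.1 θ.1.1 :=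
    (measurable_of_finite fun e : Fin n × Cfg n × Cfg n => e.2.1 e.1).comp measurable_fst
  exact hlaw (Θ := Site n) (MmseLaw.siteLaw (lawAt J 0 v x) (wgt J t A))
    (fun θ : Site n => fld J 0 θ.1.1 θ.1.2.2)
    (fun θ => cav β J (obsField t θ.1.2.1 θ.2) M θ.1.2.1 θ.1.1) (fun θ => θ.2 θ.1.1)
    (fun θ => onsager β J (obsField t θ.1.2.1 θ.2) M θ.1.2.1) (fun θ => θ.1.2.1 θ.1.1) q
    m1 m2 m3 m4 m5 q0 q1 (fun θ => onsager_mem hJ hn hβ0 hβ.le M _) iAZ hmom
    (H.gauss_marginal (fun p i => p i)) h1 h2 h3 h4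

end Vale.Agent.P150.PA.Mmse
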