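import Vale.Agent.P150.PA.MmseHyp

/-! The channel identity, the field identity and the overlap on the window, averaged over the
configuration at the observation time. -/

open MeasureTheory Finset

namespace Vale.Agent.P150.PA.Mmse

open Ising

variable {n : ℕ} {J : Fin n → Fin n → ℝ} {t : ℝ} {v : ℕ} {x : Cfg n}

lemma jex_sum {ι : Type*} (s : Finset ι) (v : ℕ) (x : Cfg n) {Φ : ι → Cfg n → (Fin n → ℝ) → ℝ}
    (hΦ : ∀ k ∈ s, ∀ p, Nice (Φ k p)) :
    jex J v x (fun p z => ∑ k ∈ s, Φ k p z) = ∑ k ∈ s, jex J v x (Φ k) := by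
  simp only [jex]
  rw [sum_comm]
  refine sum_congr rfl fun p _ => ?_
  rw [integral_finsetSum _ fun k hk => (hΦ k hk p).integrable, mul_sum]

lemma jex_div (c : ℝ) (Φ : Cfg n → (Fin n → ℝ) → ℝ) :
    jex J v x (fun p z => Φ p z / c) = jex J v x Φ / c := by
  simp only [div_eq_inv_mul, jex_const_mul]

/-- an expectation of an average over the window is the average of the expectations -/
lemma jex_win_le (hJ : Tame J 3) (hn : 0 < n) {A : ℕ} (hA : 2 ≤ A)
    {φ : Cfg n → (Fin n → ℝ) → Cfg n → ℝ} (hφ : ∀ p y, Nice fun z => φ p z y) {g : ℕ → ℝ}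
    (hg : ∀ w ∈ Ico A (A + A / 2), |jex J v x (fun p z => Kpow J (obsField t p z) w (φ p z) p)| ≤ g w) :
    |jex J v x (fun p z => ∑ q, winLaw J (obsField t p z) A p q * φ p z q)| ≤
      (∑ w ∈ Ico A (A + A / 2), g w) / (A / 2 : ℕ) := by
  have hN : (0 : ℝ) < ((A / 2 : ℕ) : ℝ) := by exact_mod_cast (by omega : 0 < A / 2)
  simp only [win_apply hJ]
  rw [jex_div, jex_sum _ v x fun w _ p => nice_Kpow hJ hn t w p p fun y => hφ p y, abs_div, abs_of_pos hN]
  exact div_le_div_of_nonneg_right ((abs_sum_le_sum_abs _ _).trans (sum_le_sum hg)) hN.le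

lemma le_blockAvg {W : ℕ} (hW : 0 < W) {f : ℕ → ℝ} {a : ℝ} (h : ∀ w ∈ Ico W (2 * W), a ≤ f w) :
    a ≤ blockAvg W f := by
  rw [blockAvg, le_div_iff₀ (Nat.cast_pos.2 hW)]
  refine le_of_eq_of_le (b := ∑ w ∈ Ico W (2 * W), a) ?_ (sum_le_sum h)
  simp only [sum_const, Nat.card_Ico, show 2 * W - W = W by omega, nsmul_eq_mul]
  ring

/-- average of the defect of the channel identity over the copies at one time -/
noncomputable def chanErrAt (J : Fin n → Fin n → ℝ) (β t : ℝ) (ψ : ChanTest) (D W Jn v : ℕ) (x : Cfg n) : ℝ :=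
  blockAvg D fun d => blockAvg Jn fun j => blockAvg W fun r =>
    |chanErr (chanSched 1 t W d j r) J β ψ (v - d) x|

/-- the channel identity with the law of the field on the window -/
theorem chan_site (hJ : Tame J 3) (hn : 0 < n) {β : ℝ} (hβ0 : 0 ≤ β) (hβ : β ≤ 1) (ht : 0 < t) {η : ℝ}
    (hη : 0 < η) {A D Jn lo hi M : ℕ} (hA2 : 2 ∣ A) (hA : 2 ≤ A) (hD : 0 < D) (hDv : 2 * D ≤ v) (hJn : 0 < Jn)
    (hlo : lo ≤ A / 2) (hJM : 4 * Jn * A ≤ M) (hM : M ≤ hi) (ψ : ChanTest) {Cc : ℝ}
    (hC : jex J v x (fun p z => |qmean J (obsField t p z) M p - tiltLag J t v M x|) ≤ Cc) :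
    |jex J v x (fun p z => ∑ q, winLaw J (obsField t p z) A p q *
        chanTerm β t (tiltLag J t v M x) ψ (cav β J (obsField t p z) M p) J z p q)| ≤
      2 * chanErrAt J β t ψ D A Jn v x
      + n * ψ.M * (2 * η + (14 / η + 3 + 2 / Real.sqrt t) * slack J t v x lo hi + Cc) := by
  set K := (n : ℝ) * ψ.M * (2 * η + (14 / η + 3 + 2 / Real.sqrt t) * slack J t v x lo hi + Cc)
  set X := |jex J v x (fun p z => ∑ q, winLaw J (obsField t p z) A p q *
        chanTerm β t (tiltLag J t v M x) ψ (cav β J (obsField t p z) M p) J z p q)|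
  suffices h : (X - K) / 2 ≤ chanErrAt J β t ψ D A Jn v x by linarith
  refine le_blockAvg hD fun d hd => le_blockAvg hJn fun j hj => ?_
  simp only [mem_Ico] at hd hj
  set f := fun r => |chanErr (chanSched 1 t A d j r) J β ψ (v - d) x|
  have hjA : 2 * j * A ≤ 4 * Jn * A := Nat.mul_le_mul_right A (by omega)
  have h1A : A ≤ j * A := Nat.le_mul_of_pos_left A (by omega)
  have e2 : 2 * j * A = 2 * (j * A) := mul_assoc 2 j A
  have h : X ≤ (∑ r ∈ Ico A (A + A / 2), (f r + K)) / (A / 2 : ℕ) := by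
    refine jex_win_le hJ hn hA (fun p y => nice_chanTerm ψ β t _ p y fun i => nice_cav hJ hn β t M p i)
      fun r hr => ?_
    simp only [mem_Ico] at hr
    exact chan_single hJ hn hβ0 hβ ht hη (show d ≤ v by omega) (by omega) (by omega) (hjA.trans hJM) hM
      (by omega) ψ hC
  have hN : (0 : ℝ) < ((A / 2 : ℕ) : ℝ) := by exact_mod_cast (by omega : 0 < A / 2)
  rw [sum_add_distrib, add_div, sum_const, Nat.card_Ico, add_tsub_cancel_left, nsmul_eq_mul,
    mul_div_cancel_left₀ _ hN.ne'] at h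
  have := win_le_block hA2 (by omega : 0 < A) f fun r => abs_nonneg _
  show (X - K) / 2 ≤ blockAvg A f
  linarith

lemma abs_ov_sub_le (hJ : Tame J 3) (hn : 0 < n) {b : Fin n → ℝ} {η : ℝ} (hη : 0 < η) (a c : ℕ) (p : Cfg n) :
    |ov J b 0 a p - ov J b 0 c p| ≤ η + 1 / (4 * η * n) * dist2 J b a c p := by
  have hn' : (0 : ℝ) < n := Nat.cast_pos.2 hn
  simp only [ov, ← sub_div, ← sum_sub_distrib, abs_div, Nat.abs_cast, ← mul_sub]
  rw [div_le_iff₀ hn']
  refine (abs_sum_le_sum_abs _ _).trans ((sum_le_sum (g := fun i => |mean J b a p i - mean J b c p i|)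
    fun i _ => ?_).trans ((sum_abs_le_eta hη _).trans (le_of_eq ?_)))
  · rw [abs_mul]
    exact mul_le_of_le_one_left (abs_nonneg _) (abs_mean_le hJ hn 0 p i)
  · simp only [dist2]
    field_simp

/-- the overlap of the observed spins and the conditional means on the window -/
theorem q_site (hJ : Tame J 3) (hn : 0 < n) (ht : 0 ≤ t) {η : ℝ} (hη : 0 < η) {A lo hi a : ℕ} (hA : 2 ≤ A)
    (hlo : lo ≤ A) (hla : lo ≤ a) (hAa : A + A / 2 ≤ 2 * a) (hM : 2 * a ≤ hi) :
    |jex J v x (fun p z => ∑ q, winLaw J (obsField t p z) A p q *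
        ∑ i, spin (p i) * Real.tanh (fld J (obsField t p z) i q)) - n * tiltLag J t v (2 * a) x| ≤
      n * (2 * n / (A / 2 : ℕ) + η + (1 + 1 / (4 * η)) * slack J t v x lo hi) := by
  have hn' : (0 : ℝ) < n := Nat.cast_pos.2 hn
  have hN : (0 : ℝ) < ((A / 2 : ℕ) : ℝ) := by exact_mod_cast (by omega : 0 < A / 2)
  set q0 := tiltLag J t v (2 * a) x
  set sl := slack J t v x lo hi
  set b := fun (p : Cfg n) z => obsField t p z
  have nov : ∀ w p, Nice fun z => ov J (b p z) 0 w p := fun w p =>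
    nice_bdd ((Joint.continuous_ov 0 w p).comp (continuous_obsField t p)) fun _ => Corr.abs_ov_le 0 w p
  set Φ := fun p z => ∑ q, winLaw J (b p z) A p q * ∑ i, spin (p i) * Real.tanh (fld J (b p z) i q)
  set Ψ := fun p z => (∑ w ∈ Ico A (A + A / 2), (n : ℝ) * ov J (b p z) 0 w p) / (A / 2 : ℕ)
  have hpt : ∀ p z, |Φ p z - Ψ p z| ≤ n * (2 * n / (A / 2 : ℕ)) := by
    intro p z
    have e1 : Φ p z = ∑ i, spin (p i) * ∑ q, winLaw J (b p z) A p q * Real.tanh (fld J (b p z) i q) := by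
      simp only [Φ, mul_sum]
      rw [sum_comm]
      exact sum_congr rfl fun i _ => sum_congr rfl fun q _ => by ring
    have e2 : Ψ p z = ∑ i, spin (p i) * ((∑ w ∈ Ico A (A + A / 2), mean J (b p z) w p i) / (A / 2 : ℕ)) := by
      simp only [Ψ, ov, mul_div_cancel₀ _ hn'.ne', ← mul_div_assoc, ← sum_div, mul_sum]
      rw [sum_comm]
      rfl
    rw [e1, e2, ← sum_sub_distrib]
    refine (abs_sum_le_sum_abs _ _).trans ((sum_le_sum (g := fun _ => 2 * (n : ℝ) / (A / 2 : ℕ)) fun i _ => ?_).trans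
      (le_of_eq (by simp)))
    rw [← mul_sub, abs_mul]
    refine (mul_le_of_le_one_left (abs_nonneg _) ?_).trans (win_tanh hJ hn hA p i)
    cases p i <;> simp [spin]
  have nΦ : ∀ p, Nice (Φ p) := fun p => by
    simp only [Φ, win_apply hJ, div_eq_inv_mul]
    refine (nice_sum _ fun w _ => nice_Kpow hJ hn t w p p fun y => nice_sum univ fun i _ => ?_).const_mul _
    refine (nice_bdd ?_ fun z => (Real.abs_tanh_lt_one _).le).const_mul _
    exact (FieldAux.continuous_mag J i y).comp (continuous_obsField t p)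
  have nΨ : ∀ p, Nice (Ψ p) := fun p => by
    simp only [Ψ, div_eq_inv_mul]
    exact (nice_sum _ fun w _ => (nov w p).const_mul _).const_mul _
  have h1 : |jex J v x Φ - jex J v x Ψ| ≤ n * (2 * n / (A / 2 : ℕ)) := by
    rw [← jex_sub v x nΦ nΨ]
    exact (jex_abs_le hJ hn v x (fun p => (nΦ p).sub (nΨ p)) (fun _ => nice_const _) hpt).trans_eq
      (jex_const hJ hn v x _)
  have h2 : ∀ w ∈ Ico A (A + A / 2), |jex J v x (fun p z => ov J (b p z) 0 w p) - q0| ≤
      η + (1 + 1 / (4 * η)) * sl := by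
    intro w hw
    simp only [mem_Ico] at hw
    have hq := stat_q (v := v) (x := x) hJ hn ht hla hM (show lo ≤ 2 * a by omega) hM
    have hd : |jex J v x (fun p z => ov J (b p z) 0 w p) - jex J v x (fun p z => ov J (b p z) 0 (2 * a) p)| ≤
        η + 1 / (4 * η) * sl := by
      rw [← jex_sub v x (fun p => nov w p) fun p => nov _ p]
      refine (jex_abs_le hJ hn v x (fun p => (nov w p).sub (nov _ p))
        (Ψ := fun p z => η + 1 / (4 * η * n) * dist2 J (b p z) w (2 * a) p)
        (fun p => (nice_const η).add ((nice_dist2 hJ hn t w (2 * a) p).const_mul _))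
        fun p z => abs_ov_sub_le hJ hn hη w (2 * a) p).trans ?_
      rw [jex_add v x (fun p => nice_const η) (fun p => (nice_dist2 hJ hn t w (2 * a) p).const_mul _),
        jex_const hJ hn, jex_const_mul]
      have h := stat_dist (v := v) (x := x) hJ hn ht (show lo ≤ w by omega) (show w ≤ 2 * a by omega) hM
      refine add_le_add le_rfl ((mul_le_mul_of_nonneg_left h (by positivity)).trans_eq ?_)
      field_simp
      rfl
    have := abs_sub_le (jex J v x (fun p z => ov J (b p z) 0 w p))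
      (jex J v x (fun p z => ov J (b p z) 0 (2 * a) p)) q0
    linarith
  have h3 : |jex J v x Ψ - n * q0| ≤ n * (η + (1 + 1 / (4 * η)) * sl) := by
    simp only [Ψ]
    rw [jex_div, jex_sum _ v x fun w _ p => (nov w p).const_mul _,
      sum_congr rfl fun w _ => jex_const_mul v x (n : ℝ) fun p z => ov J (b p z) 0 w p, ← mul_sum]
    have e : (n : ℝ) * q0 = n * (∑ _w ∈ Ico A (A + A / 2), q0) / (A / 2 : ℕ) := by
      simp; field_simp
    rw [e, ← sub_div, ← mul_sub, ← sum_sub_distrib, abs_div, abs_of_pos hN, abs_mul, Nat.abs_cast,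
      div_le_iff₀ hN]
    refine (mul_le_mul_of_nonneg_left ((abs_sum_le_sum_abs _ _).trans (sum_le_sum h2)) hn'.le).trans_eq ?_
    simp; ring
  refine (abs_sub_le _ (jex J v x Ψ) _).trans ((add_le_add h1 h3).trans_eq ?_)
  ring

lemma Kern.continuous_fn (Ψ : Kern) (h : ℝ) :
    Continuous (fun θ => Ψ.fn θ h) ∧ Continuous (fun θ => Ψ.dfn θ h) := by
  have key : ∀ g : (Fin 3 → ℝ) → ℝ, (∀ θ θ', |g θ - g θ'| ≤ Ψ.M * ((∑ i, |θ i - θ' i|) + |h - h|)) →
      Continuous g := fun g hg =>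
    (LipschitzWith.of_dist_le_mul (K := Real.toNNReal (Ψ.M * 3)) fun θ θ' => by
      have hM : 0 ≤ Ψ.M := (abs_nonneg _).trans (Ψ.bdd (fun _ => 0) 0).1
      rw [Real.dist_eq, Real.coe_toNNReal _ (by positivity)]
      refine (hg θ θ').trans ?_
      rw [sub_self, abs_zero, add_zero, mul_assoc]
      refine mul_le_mul_of_nonneg_left ((sum_le_sum fun i _ =>
        (Real.dist_eq (θ i) (θ' i)).symm.trans_le (dist_le_pi_dist θ θ' i)).trans_eq ?_) hM
      simp).continuous
  exact ⟨key _ fun θ θ' => (Ψ.lip θ θ' h h).1, key _ fun θ θ' => (Ψ.lip θ θ' h h).2⟩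

lemma defect_nonneg (hJ : Tame J 3) (hn : 0 < n) (b : Fin n → ℝ) {G A : ℕ} (hGA : G ≤ A) (p : Cfg n) :
    0 ≤ defect J b G A p := by
  refine div_nonneg (sum_nonneg fun w hw => ?_) (Nat.cast_nonneg A)
  simp only [mem_Ico] at hw
  have e := Kpow_sq_dist (b := b) hJ hn (w - G) G p
  rw [Nat.sub_add_cancel (by omega : G ≤ w)] at e
  have h : 0 ≤ (n : ℝ) * (Kpow J b (w - G) (qmean J b G) p - qmean J b w p) := by
    rw [← e, law_apply hJ]
    exact sum_nonneg fun y _ => mul_nonneg (Burn.lawAt_nonneg _ p y) (sum_nonneg fun i _ => sq_nonneg _)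
  exact nonneg_of_mul_nonneg_right h (Nat.cast_pos.2 hn)

lemma nice_defect (hJ : Tame J 3) (hn : 0 < n) (t : ℝ) (G A : ℕ) (p : Cfg n) :
    Nice fun z => defect J (obsField t p z) G A p := by
  simp only [defect, blockAvg, qlag, div_eq_inv_mul]
  exact (nice_sum _ fun w _ => (nice_Kpow hJ hn t _ p p fun y => nice_qmean hJ hn t G p y).sub
    (nice_qmean hJ hn t w p p)).const_mul _

lemma sqrt_le_eta {η : ℝ} (hη : 0 < η) {x : ℝ} (hx : 0 ≤ x) : Real.sqrt x ≤ η + x / (4 * η) := by
  have := abs_le_eta hη (Real.sqrt x)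
  rwa [abs_of_nonneg (Real.sqrt_nonneg x), Real.sq_sqrt hx] at this

/-- the field identity with the law of the field on the window -/
theorem field_site (hJ : Tame J 3) (hn : 0 < n) {β : ℝ} (hβ0 : 0 ≤ β) (hβ : β ≤ 1) (ht : 0 ≤ t) {η ε Kc : ℝ}
    (hη : 0 < η) {G A lo hi M : ℕ} (hA2 : 2 ∣ A) (hA : 2 ≤ A) (hG : lo ≤ G) (hGA : G ≤ A)
    (hAM : 2 * A ≤ M) (hM : M ≤ hi) (Ψ : Kern) (θ : Cfg n → (Fin n → ℝ) → Fin n → Fin 3 → ℝ)
    (hθ : ∀ p, Continuous (θ p))
    (hblk : ∀ p, ∫ u, blockAvg A (fun w => |fieldErr β J (obsField t p u) Ψ (θ p u) w p|) ∂gauss (Fin n) ≤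
      (ε + Kc * Real.sqrt (∫ u, defect J (obsField t p u) G A p ∂gauss (Fin n))) * n) :
    |jex J v x (fun p z => ∑ q, winLaw J (obsField t p z) A p q * ∑ i, (Ψ.fn (θ p z i) (fld J 0 i q) *
          (fld J 0 i q - cav β J (obsField t p z) M p i
            - onsager β J (obsField t p z) M p * Real.tanh (fld J 0 i q + obsField t p z i))
        - onsager β J (obsField t p z) M p * Ψ.dfn (θ p z i) (fld J 0 i q)))| ≤
      2 * n * (ε + |Kc| * (η + slack J t v x lo hi / (4 * η)))
      + n * Ψ.M * (8 * η + 4 / η * slack J t v x lo hi) := by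
  have hMΨ : 0 ≤ Ψ.M := (abs_nonneg _).trans (Ψ.bdd (fun _ => 0) 0).1
  have hn' : (0 : ℝ) < n := Nat.cast_pos.2 hn
  have hN : (0 : ℝ) < ((A / 2 : ℕ) : ℝ) := by exact_mod_cast (by omega : 0 < A / 2)
  set b := fun (p : Cfg n) z => obsField t p z
  set sl := slack J t v x lo hi
  set X := fun p z => ∑ q, winLaw J (b p z) A p q * ∑ i, (Ψ.fn (θ p z i) (fld J 0 i q) *
          (fld J 0 i q - cav β J (b p z) M p i
            - onsager β J (b p z) M p * Real.tanh (fld J 0 i q + b p z i))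
        - onsager β J (b p z) M p * Ψ.dfn (θ p z i) (fld J 0 i q))
  set B := fun p z => blockAvg A (fun w => |fieldErr β J (b p z) Ψ (θ p z) w p|)
  set Dd := fun p z => (∑ w ∈ Ico A (A + A / 2), dist2 J (b p z) w M p) / (A / 2 : ℕ)
  have hons : ∀ p w, Continuous fun z => onsager β J (b p z) w p := fun p w => by
    simp only [onsager]
    exact continuous_const.mul (continuous_const.sub ((Joint.continuous_qmean w p).comp (continuous_obsField t p)))
  have hob : ∀ p z w, |onsager β J (b p z) w p| ≤ 1 := fun p z w => by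
    obtain ⟨h1, h2⟩ := onsager_mem (b := b p z) hJ hn hβ0 hβ w p
    exact abs_le.2 ⟨by linarith, h2⟩
  have hsite : ∀ (p q : Cfg n) w i (T : (Fin n → ℝ) → ℝ), Continuous T → (∀ z, |T z| ≤ 1) →
      Nice fun z => Ψ.fn (θ p z i) (fld J 0 i q) *
          (fld J 0 i q - cav β J (b p z) w p i - onsager β J (b p z) w p * T z)
        - onsager β J (b p z) w p * Ψ.dfn (θ p z i) (fld J 0 i q) := by
    intro p q w i T hT hT1
    have hθi : Continuous fun z => θ p z i := (continuous_apply i).comp (hθ p)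
    refine Nice.sub (((nice_const _).sub (nice_cav hJ hn β t w p i)).sub
      (Nice.mul_bdd (nice_bdd hT hT1) (hons p w) fun z => hob p z w) |>.mul_bdd
        ((Kern.continuous_fn Ψ _).1.comp hθi) fun z => (Ψ.bdd _ _).1) ?_
    exact Nice.mul_bdd (nice_bdd ((Kern.continuous_fn Ψ _).2.comp hθi) fun z => (Ψ.bdd _ _).2) (hons p w)
      fun z => hob p z w
  have htanh : ∀ (p q : Cfg n) i, Continuous fun z => Real.tanh (fld J (b p z) i q) := fun p q i =>
    (FieldAux.continuous_mag J i q).comp (continuous_obsField t p)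
  have e : ∀ (p q : Cfg n) z i, fld J 0 i q + b p z i = fld J (b p z) i q := fun p q z i => by simp [fld]
  have nX : ∀ p, Nice (X p) := fun p => by
    simp only [X, win_apply hJ, div_eq_inv_mul, e]
    exact (nice_sum _ fun w _ => nice_Kpow hJ hn t w p p fun q => nice_sum univ fun i _ =>
      hsite p q M i _ (htanh p q i) fun z => (Real.abs_tanh_lt_one _).le).const_mul _
  have nB : ∀ p, Nice (B p) := fun p => by
    simp only [B, blockAvg, fieldErr, div_eq_inv_mul]
    exact (nice_sum _ fun w _ => (nice_Kpow hJ hn t w p p fun q => nice_sum univ fun i _ =>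
      hsite p q w i _ (htanh p q i) fun z => (Real.abs_tanh_lt_one _).le).abs).const_mul _
  have nD : ∀ p, Nice (Dd p) := fun p => by
    simp only [Dd, div_eq_inv_mul]
    exact (nice_sum _ fun w _ => nice_dist2 hJ hn t w M p).const_mul _
  have h1 : |jex J v x X| ≤ 2 * jex J v x B + Ψ.M * (8 * η * n + 4 / η * jex J v x Dd) := by
    have h := jex_abs_le hJ hn v x nX (Ψ := fun p z => 2 * B p z + Ψ.M * (8 * η * n + 4 / η * Dd p z))
      (fun p => ((nB p).const_mul 2).add (((nice_const _).add ((nD p).const_mul _)).const_mul _))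
      fun p z => block_site hJ hn hβ0 hβ hA2 (by omega) M hη Ψ (θ p z) p
    rwa [jex_add v x (fun p => (nB p).const_mul 2) (fun p => ((nice_const _).add ((nD p).const_mul _)).const_mul _),
      jex_const_mul, jex_const_mul, jex_add v x (fun p => nice_const _) (fun p => (nD p).const_mul _),
      jex_const hJ hn, jex_const_mul] at h
  have h2 : jex J v x B ≤ n * (ε + |Kc| * (η + sl / (4 * η))) := by
    set I := fun p => ∫ u, defect J (b p u) G A p ∂gauss (Fin n)
    have hI : ∀ p, 0 ≤ I p := fun p => integral_nonneg fun u => defect_nonneg hJ hn _ hGA p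
    have hdef : ∑ p, lawAt J 0 v x p * I p ≤ sl :=
      stat_defect hJ hn ht hG hGA (by omega) (by omega)
    refine (sum_le_sum (g := fun p => lawAt J 0 v x p * (n * (ε + |Kc| * η) + n * |Kc| / (4 * η) * I p))
      fun p _ => mul_le_mul_of_nonneg_left ((hblk p).trans ?_) (Burn.lawAt_nonneg v x p)).trans ?_
    · have h := mul_le_mul_of_nonneg_left (sqrt_le_eta hη (hI p)) (abs_nonneg Kc)
      have h' := mul_le_mul_of_nonneg_right (le_abs_self Kc) (Real.sqrt_nonneg (I p))
      rw [show (n : ℝ) * (ε + |Kc| * η) + n * |Kc| / (4 * η) * I p =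
        (ε + |Kc| * (η + I p / (4 * η))) * n by ring]
      exact mul_le_mul_of_nonneg_right (by linarith) hn'.le
    · simp only [mul_add, sum_add_distrib, mul_left_comm (lawAt J 0 v x _) ((n : ℝ) * |Kc| / (4 * η)), ← mul_sum,
        ← sum_mul, Burn.lawAt_sum hJ.symm hJ.diag hn, one_mul]
      have := mul_le_mul_of_nonneg_left hdef (show 0 ≤ (n : ℝ) * |Kc| / (4 * η) by positivity)
      rw [show (n : ℝ) * (|Kc| * (sl / (4 * η))) = n * |Kc| / (4 * η) * sl by ring]
      linarith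
  have h3 : jex J v x Dd ≤ n * sl := by
    simp only [Dd]
    rw [jex_div, jex_sum _ v x fun w _ p => nice_dist2 hJ hn t w M p, div_le_iff₀ hN]
    refine (sum_le_sum (g := fun _ => (n : ℝ) * sl) fun w hw => ?_).trans_eq (by simp; ring)
    simp only [mem_Ico] at hw
    exact stat_dist hJ hn ht (by omega) (by omega) hM
  have h4 := mul_le_mul_of_nonneg_left (mul_le_mul_of_nonneg_left h3 (show 0 ≤ 4 / η by positivity)) hMΨ
  show |jex J v x X| ≤ _
  linarith [h1, h2, h4]

/-- the second moments of the cavity field and of the noise -/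
lemma sum_cav_sq_le (hJ : Tame J 3) (hn : 0 < n) {β : ℝ} (hβ0 : 0 ≤ β) (hβ : β ≤ 1) {b : Fin n → ℝ}
    (M : ℕ) (p : Cfg n) : ∑ i, cav β J b M p i ^ 2 ≤ 20 * n := by
  set m := fun i => mean J b M p i
  obtain ⟨o0, o1⟩ := onsager_mem (b := b) hJ hn hβ0 hβ M p
  have hm : ∑ i, m i ^ 2 ≤ (n : ℝ) := (sum_le_sum (g := fun _ => (1 : ℝ)) fun i _ =>
    (sq_le_one_iff_abs_le_one _).2 (abs_mean_le hJ hn M p i)).trans_eq (by simp)
  refine (sum_le_sum (g := fun i => 2 * (∑ j, J i j * m j) ^ 2 + 2 * m i ^ 2) fun i _ => ?_).trans ?_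
  · simp only [cav, m]
    set S := ∑ j, J i j * mean J b M p j
    set o := onsager β J b M p
    have h : (o * mean J b M p i) ^ 2 ≤ mean J b M p i ^ 2 := by
      rw [mul_pow]; exact mul_le_of_le_one_left (sq_nonneg _) (pow_le_one₀ o0 o1)
    linarith [sq_nonneg (S + o * mean J b M p i)]
  · rw [sum_add_distrib, ← mul_sum, ← mul_sum]
    linarith [sum_sq_apply_le hJ m]

end Vale.Agent.P150.PA.Mmse
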