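import Vale.Agent.P150.PA.MmseChan
import Vale.Agent.P150.PA.JointStat

/-! The tilted overlap between two lags: the slack of stationarity and what it controls, as expectations
over the configuration at the observation time and the noise. -/

open MeasureTheory Finset

namespace Vale.Agent.P150.PA.Mmse

open Ising

variable {n : ℕ} {J : Fin n → Fin n → ℝ} {t : ℝ} {v : ℕ} {x : Cfg n}

lemma tiltE_eq (hJ : Tame J 3) (Φ : Cfg n → (Fin n → ℝ) → ℝ) :
    tiltE J t v x Φ = jex J v x (fun p z => Φ p (obsField t p z)) :=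
  law_apply hJ v _ x

lemma tiltLag_mem (hJ : Tame J 3) (hn : 0 < n) (a : ℕ) :
    0 ≤ tiltLag J t v a x ∧ tiltLag J t v a x ≤ 1 := by
  simp only [tiltLag]
  rw [law_apply hJ]
  have hi : ∀ p, 0 ≤ ∫ z, qmean J (obsField t p z) a p ∂gauss (Fin n) ∧
      ∫ z, qmean J (obsField t p z) a p ∂gauss (Fin n) ≤ 1 := fun p => by
    refine ⟨integral_nonneg fun z => (qmean_mem hJ hn a p).1, ?_⟩
    refine (integral_mono (Joint.integrable_obs (Φ := fun p h => qmean J h a p) (Joint.continuous_qmean a)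
      (fun p h => Joint.abs_qmean_le h a p) p) (integrable_const 1) fun z => (qmean_mem hJ hn a p).2).trans ?_
    simp
  refine ⟨sum_nonneg fun p _ => mul_nonneg (Burn.lawAt_nonneg v x p) (hi p).1, ?_⟩
  refine (sum_le_sum fun p _ => mul_le_of_le_one_right (Burn.lawAt_nonneg v x p) (hi p).2).trans ?_
  exact (Burn.lawAt_sum hJ.symm hJ.diag hn v x).le

/-- drop of the tilted overlap between the lags `lo` and `hi`, with the defects of stationarity -/
noncomputable def slack (J : Fin n → Fin n → ℝ) (t : ℝ) (v : ℕ) (x : Cfg n) (lo hi : ℕ) : ℝ :=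
  tiltLag J t v lo x - tiltLag J t v hi x + 8 * hi * vErr J 3 v x (4 * hi) + 4 / n

/-- the tilted overlaps at two lags inside differ by the drop, up to the defect of stationarity -/
lemma slack_aux (hJ : Tame J 3) (hn : 0 < n) (ht : 0 ≤ t) {lo hi a c : ℕ} (ha : lo ≤ a) (hc : c ≤ hi)
    (hac : a ≤ c) :
    0 ≤ hi * vErr J 3 v x (4 * hi) ∧
    tiltLag J t v c x ≤ tiltLag J t v a x + hi * vErr J 3 v x (4 * hi) ∧
    tiltLag J t v a x - tiltLag J t v c x ≤
      tiltLag J t v lo x - tiltLag J t v hi x + 2 * (hi * vErr J 3 v x (4 * hi)) := by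
  have e0 : ∀ k, 0 ≤ vErr J 3 v x k := fun k => corErr_nonneg _
  have key : ∀ {p q : ℕ}, p ≤ q → q ≤ hi →
      tiltLag J t v q x ≤ tiltLag J t v p x + hi * vErr J 3 v x (4 * hi) := by
    intro p q hpq hq
    refine (tiltLag_anti (L := 3) hJ hn ht hpq).trans (add_le_add le_rfl ?_)
    refine mul_le_mul ?_ (corErr_mono (by omega)) (corErr_nonneg _) (Nat.cast_nonneg _)
    have : ((q : ℕ) : ℝ) ≤ hi := by exact_mod_cast hq
    linarith [(Nat.cast_nonneg p : (0 : ℝ) ≤ (p : ℝ))]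
  refine ⟨mul_nonneg (Nat.cast_nonneg _) (e0 _), key hac hc, ?_⟩
  have h1 := key (p := lo) (q := a) ha (hac.trans hc)
  have h2 := key (p := c) (q := hi) hc le_rfl
  linarith

lemma slack_ge (hJ : Tame J 3) (hn : 0 < n) (ht : 0 ≤ t) {lo hi : ℕ} (h : lo ≤ hi) :
    7 * (hi * vErr J 3 v x (4 * hi)) + 4 / n ≤ slack J t v x lo hi := by
  have := (slack_aux (v := v) (x := x) hJ hn ht le_rfl le_rfl h).2.1
  simp only [slack]
  linarith

lemma slack_nonneg (hJ : Tame J 3) (hn : 0 < n) (ht : 0 ≤ t) {lo hi : ℕ} (h : lo ≤ hi) :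
    0 ≤ slack J t v x lo hi := by
  have := slack_ge (v := v) (x := x) hJ hn ht h
  have := (slack_aux (v := v) (x := x) hJ hn ht le_rfl le_rfl h).1
  have : (0 : ℝ) ≤ 4 / n := by positivity
  linarith

lemma stat_near (hJ : Tame J 3) (hn : 0 < n) (ht : 0 ≤ t) {lo hi a c : ℕ} (ha : lo ≤ a) (ha' : a ≤ hi)
    (hc : lo ≤ c) (hc' : c ≤ hi) :
    |tiltLag J t v a x - tiltLag J t v c x| + 4 * (hi * vErr J 3 v x (4 * hi)) ≤ slack J t v x lo hi := by
  have h4 : (0 : ℝ) ≤ 4 / n := by positivity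
  have hz := (slack_aux (v := v) (x := x) hJ hn ht le_rfl le_rfl (hc.trans hc')).2.1
  rw [← le_sub_iff_add_le, abs_le]
  simp only [slack]
  rcases le_total a c with h | h
  · obtain ⟨h0, h1, h2⟩ := slack_aux (v := v) (x := x) hJ hn ht ha hc' h
    constructor <;> linarith
  · obtain ⟨h0, h1, h2⟩ := slack_aux (v := v) (x := x) hJ hn ht hc ha' h
    constructor <;> linarith

lemma stat_dist (hJ : Tame J 3) (hn : 0 < n) (ht : 0 ≤ t) {lo hi a c : ℕ} (ha : lo ≤ a) (hac : a ≤ c)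
    (hc : c ≤ hi) :
    jex J v x (fun p z => dist2 J (obsField t p z) a c p) ≤ n * slack J t v x lo hi := by
  have h := tilt_close (v := v) (x := x) hJ hn ht hac
  rw [Joint.tiltE_div (J := J) (t := t) (v := v) (x := x) (n : ℝ), tiltE_eq hJ,
    div_le_iff₀ (Nat.cast_pos.2 hn)] at h
  refine h.trans ?_
  rw [mul_comm]
  refine mul_le_mul_of_nonneg_left ?_ (Nat.cast_nonneg _)
  have h1 := (slack_aux (v := v) (x := x) hJ hn ht ha hc hac).2.2
  have h2 : 4 * (c : ℝ) * vErr J 3 v x (2 * c) ≤ 4 * hi * vErr J 3 v x (4 * hi) :=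
    mul_le_mul (by gcongr) (corErr_mono (by omega)) (corErr_nonneg _) (by positivity)
  have h3 := (slack_aux (v := v) (x := x) hJ hn ht ha hc hac).1
  simp only [slack]
  linarith

lemma stat_jensen (hJ : Tame J 3) (hn : 0 < n) (ht : 0 ≤ t) {lo hi r c : ℕ} (hc : lo ≤ c)
    (hrc : r + c ≤ hi) :
    jex J v x (fun p z => Kpow J (obsField t p z) r (qmean J (obsField t p z) c) p
      - qmean J (obsField t p z) (r + c) p) ≤ slack J t v x lo hi := by
  have h := (abs_le.1 (tilt_stat (L := 3) (v := v) (x := x) hJ hn ht r c)).2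
  have e := Joint.tiltE_sub (J := J) (t := t) (v := v) (x := x)
    (Φ := fun p h => Kpow J h r (qmean J h c) p) (Ψ := fun p h => qmean J h (r + c) p)
    (fun p => Joint.continuous_Kpow' (Joint.continuous_qmean c) r p)
    (fun p h => LegVar.abs_Kpow_le h hn (fun y => Joint.abs_qmean_le h c y) r p)
    (Joint.continuous_qmean (r + c)) (fun p h => Joint.abs_qmean_le h _ p)
  rw [tiltE_eq hJ] at e
  rw [e]
  have h1 := slack_aux (v := v) (x := x) hJ hn ht hc hrc (le_add_self : c ≤ r + c)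
  have h2 : (r : ℝ) * vErr J 3 v x (r + 2 * c) ≤ hi * vErr J 3 v x (4 * hi) :=
    mul_le_mul (by exact_mod_cast (show r ≤ hi by omega)) (corErr_mono (by omega)) (corErr_nonneg _)
      (Nat.cast_nonneg _)
  have e2 : tiltE J t v x (fun p h => qmean J h (r + c) p) = tiltLag J t v (r + c) x := rfl
  have h3 : (0 : ℝ) ≤ 4 / n := by positivity
  rw [e2]
  simp only [slack]
  linarith [h1.1, h1.2.2]

lemma stat_q (hJ : Tame J 3) (hn : 0 < n) (ht : 0 ≤ t) {lo hi a c : ℕ} (ha : lo ≤ a) (ha' : 2 * a ≤ hi)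
    (hc : lo ≤ c) (hc' : c ≤ hi) :
    |jex J v x (fun p z => ov J (obsField t p z) 0 (2 * a) p) - tiltLag J t v c x| ≤ slack J t v x lo hi := by
  have h1 := stat_near (v := v) (x := x) hJ hn ht ha (show a ≤ hi by omega) hc hc'
  have h2 := tilt_ov (L := 3) (v := v) (x := x) hJ hn ht a
  rw [tiltE_eq hJ] at h2
  refine (abs_sub_le _ _ _).trans ((add_le_add h2 le_rfl).trans ?_)
  have h3 : (a : ℝ) * vErr J 3 v x (2 * a) ≤ hi * vErr J 3 v x (4 * hi) :=
    mul_le_mul (by exact_mod_cast (show a ≤ hi by omega)) (corErr_mono (by omega)) (corErr_nonneg _)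
      (Nat.cast_nonneg _)
  have := (slack_aux (v := v) (x := x) hJ hn ht le_rfl le_rfl (hc.trans hc')).1
  linarith

lemma stat_defect (hJ : Tame J 3) (hn : 0 < n) (ht : 0 ≤ t) {lo hi G A : ℕ} (hG : lo ≤ G) (hGA : G ≤ A)
    (hA : 2 * A ≤ hi) (h0 : 0 < A) :
    jex J v x (fun p z => defect J (obsField t p z) G A p) ≤ slack J t v x lo hi := by
  have h := tilt_defect (L := 3) (v := v) (x := x) hJ hn ht hGA
  rw [tiltE_eq hJ] at h
  refine h.trans ?_
  have hA' : (0 : ℝ) < A := by exact_mod_cast h0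
  have hb : tiltLag J t v hi x - hi * vErr J 3 v x (4 * hi) ≤ blockAvg A fun u => tiltLag J t v u x := by
    rw [blockAvg, le_div_iff₀ hA']
    refine le_of_eq_of_le (b := ∑ u ∈ Ico A (2 * A), (tiltLag J t v hi x - hi * vErr J 3 v x (4 * hi))) ?_
      (sum_le_sum fun u hu => ?_)
    · simp only [sum_const, Nat.card_Ico, show 2 * A - A = A by omega, nsmul_eq_mul]; ring
    · simp only [mem_Ico] at hu
      linarith [(slack_aux (v := v) (x := x) hJ hn ht (show lo ≤ u by omega) (le_refl hi)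
        (show u ≤ hi by omega)).2.1]
  have h1 := (slack_aux (v := v) (x := x) hJ hn ht le_rfl (show G ≤ hi by omega) hG).2.1
  have h2 : 2 * (A : ℝ) * vErr J 3 v x (4 * A) ≤ hi * vErr J 3 v x (4 * hi) :=
    mul_le_mul (by exact_mod_cast hA) (corErr_mono (by omega)) (corErr_nonneg _) (Nat.cast_nonneg _)
  have h3 : (0 : ℝ) ≤ 4 / n := by positivity
  have h4 := (slack_aux (v := v) (x := x) hJ hn ht le_rfl (show G ≤ hi by omega) hG).1
  simp only [slack]
  linarith

lemma stat_msq (hJ : Tame J 3) (hn : 0 < n) (ht : 0 ≤ t) {lo hi a : ℕ} (hlo : lo ≤ hi) (ha : a ≤ hi) :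
    msq t (lawAt J 0 v x) ≤ n * (tiltLag J t v a x + slack J t v x lo hi) := by
  refine (msq_le_tiltLag (L := 3) hJ hn ht a).trans
    (mul_le_mul_of_nonneg_left (add_le_add le_rfl ?_) (Nat.cast_nonneg _))
  have h1 : (a : ℝ) * vErr J 3 v x (2 * a) ≤ hi * vErr J 3 v x (4 * hi) :=
    mul_le_mul (by exact_mod_cast ha) (corErr_mono (by omega)) (corErr_nonneg _) (Nat.cast_nonneg _)
  have := slack_ge (v := v) (x := x) hJ hn ht hlo
  have : (0 : ℝ) ≤ 4 / n := by positivity
  have := (slack_aux (v := v) (x := x) hJ hn ht le_rfl le_rfl hlo).1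
  linarith

lemma stat_conc (hJ : Tame J 3) (hn : 0 < n) {τ T : ℝ} (ht : 0 ≤ t) (htτ : t ≤ τ) {a : ℕ}
    (ha : (a : ℝ) ≤ τ * n) (hv : (v : ℝ) ≤ T * n) :
    jex J v x (fun p z => |qmean J (obsField t p z) a p - tiltLag J t v a x|) ≤
      Real.sqrt (concC 3 τ T / n) := by
  have h := tilt_conc (x := x) hJ hn ht htτ ha hv
  rwa [tiltE_eq hJ] at h

end Vale.Agent.P150.PA.Mmse
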