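import Mathlib

/-! Part A of the fast-mixing proof: the Stein kernel with a complex frequency.
`steinG b k` solves `u G - b G' = exp (k u) - exp (b k^2 / 2)`; divided by
`cosh (h + y) * cosh (a + y)` at `u = h - a` it is bounded and Lipschitz in `(h, a, b, y)` as soon
as the real part of `k` is at most one in absolute value. -/

namespace Vale.Agent.P150.PA.Stein

open MeasureTheory intervalIntegral Set
open scoped Interval

/-- the exponent -/
noncomputable def expo (b : ℝ) (k : ℂ) (u s : ℝ) : ℂ :=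
  ((s * u : ℝ) : ℂ) * k + ((b * (1 - s ^ 2) / 2 : ℝ) : ℂ) * k ^ 2

/-- moments of the integrand on `[0, 1]` -/
noncomputable def mom (j : ℕ) (b : ℝ) (k : ℂ) (u : ℝ) : ℂ :=
  ∫ s in (0 : ℝ)..1, (s : ℂ) ^ j * Complex.exp (expo b k u s)

/-- the Stein solution -/
noncomputable def steinG (b : ℝ) (k : ℂ) (u : ℝ) : ℂ := k * mom 0 b k u

/-- its derivative -/
noncomputable def steinG' (b : ℝ) (k : ℂ) (u : ℝ) : ℂ := k ^ 2 * mom 1 b k u

/-- its second derivative -/
noncomputable def steinG'' (b : ℝ) (k : ℂ) (u : ℝ) : ℂ := k ^ 3 * mom 2 b k u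

/-- the test kernels; `tker 0` is `steinG b k (h - a) / (cosh (h + y) * cosh (a + y))` -/
noncomputable def tker (j : ℕ) (b : ℝ) (k : ℂ) (y h a : ℝ) : ℂ :=
  ((Real.cosh (h + y) * Real.cosh (a + y))⁻¹ : ℝ) * (k ^ (j + 1) * mom j b k (h - a))

/-- the derivative of `tker 0` in `h` -/
noncomputable def tkerH (b : ℝ) (k : ℂ) (y h a : ℝ) : ℂ :=
  tker 1 b k y h a - (Real.tanh (h + y) : ℂ) * tker 0 b k y h a

/-- the uniform constant -/
noncomputable def bd (k : ℂ) : ℝ := 4 * (1 + ‖k‖) ^ 4 * Real.exp (‖k‖ ^ 2 / 2)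

lemma bd_nonneg (k : ℂ) : 0 ≤ bd k := by unfold bd; positivity

lemma mem_unit {s : ℝ} (hs : s ∈ Ι (0 : ℝ) 1) : 0 ≤ s ∧ s ≤ 1 := by
  rw [uIoc_of_le zero_le_one] at hs
  exact ⟨hs.1.le, hs.2⟩

lemma norm_pow_unit {s : ℝ} (hs : 0 ≤ s ∧ s ≤ 1) (j : ℕ) : ‖(s : ℂ) ^ j‖ ≤ 1 := by
  rw [norm_pow, Complex.norm_real, Real.norm_of_nonneg hs.1]
  exact pow_le_one₀ hs.1 hs.2

lemma norm_exp_le {b s : ℝ} (k : ℂ) (u : ℝ) (hs : 0 ≤ s ∧ s ≤ 1) :
    ‖Complex.exp (expo b k u s)‖ ≤ Real.exp (|b| * ‖k‖ ^ 2 / 2) * Real.exp (|k.re| * |u|) := by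
  rw [Complex.norm_exp, ← Real.exp_add]
  refine Real.exp_le_exp.2 ?_
  have h1 : s * u * k.re ≤ |k.re| * |u| := by
    refine (le_abs_self _).trans ?_
    rw [abs_mul, abs_mul, abs_of_nonneg hs.1, mul_comm |k.re|]
    exact mul_le_mul_of_nonneg_right (mul_le_of_le_one_left (abs_nonneg u) hs.2) (abs_nonneg _)
  have h2 : b * (1 - s ^ 2) / 2 * (k ^ 2).re ≤ |b| * ‖k‖ ^ 2 / 2 := by
    refine (le_abs_self _).trans ?_
    have h3 : |(k ^ 2).re| ≤ ‖k‖ ^ 2 := (Complex.abs_re_le_norm _).trans (norm_pow k 2).le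
    have h4 : |b * (1 - s ^ 2) / 2| ≤ |b| / 2 := by
      have h5 : 0 ≤ 1 - s ^ 2 := by nlinarith [hs.1, hs.2]
      rw [abs_div, abs_mul, abs_of_nonneg h5, abs_two]
      have := mul_le_of_le_one_right (abs_nonneg b) (show 1 - s ^ 2 ≤ 1 by nlinarith)
      linarith
    rw [abs_mul]
    exact (mul_le_mul h4 h3 (abs_nonneg _) (by positivity)).trans_eq (by ring)
  simp only [expo, Complex.add_re, Complex.re_ofReal_mul]
  linarith

lemma continuous_integrand (j : ℕ) (b : ℝ) (k : ℂ) (u : ℝ) :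
    Continuous fun s : ℝ => (s : ℂ) ^ j * Complex.exp (expo b k u s) := by
  unfold expo; fun_prop

lemma norm_mom_le (j : ℕ) (b : ℝ) (k : ℂ) (u : ℝ) :
    ‖mom j b k u‖ ≤ Real.exp (|b| * ‖k‖ ^ 2 / 2) * Real.exp (|k.re| * |u|) := by
  have h := intervalIntegral.norm_integral_le_of_norm_le_const
    (f := fun s : ℝ => (s : ℂ) ^ j * Complex.exp (expo b k u s))
    (C := Real.exp (|b| * ‖k‖ ^ 2 / 2) * Real.exp (|k.re| * |u|)) (a := (0 : ℝ)) (b := 1)
    fun s hs => by
      rw [norm_mul]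
      exact (mul_le_of_le_one_left (norm_nonneg _) (norm_pow_unit (mem_unit hs) j)).trans
        (norm_exp_le k u (mem_unit hs))
  simpa [mom] using h

lemma mom_deriv_u (j : ℕ) (b : ℝ) (k : ℂ) (u : ℝ) :
    HasDerivAt (fun v => mom j b k v) (k * mom (j + 1) b k u) u := by
  have h := (intervalIntegral.hasDerivAt_integral_of_dominated_loc_of_deriv_le
    (μ := volume) (a := (0 : ℝ)) (b := 1)
    (F := fun v (s : ℝ) => (s : ℂ) ^ j * Complex.exp (expo b k v s))
    (F' := fun v (s : ℝ) => k * ((s : ℂ) ^ (j + 1) * Complex.exp (expo b k v s)))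
    (x₀ := u) (s := Metric.ball u 1)
    (bound := fun _ => ‖k‖ * (Real.exp (|b| * ‖k‖ ^ 2 / 2) * Real.exp (|k.re| * (|u| + 1))))
    (Metric.ball_mem_nhds u one_pos)
    (Filter.Eventually.of_forall fun v => (continuous_integrand j b k v).aestronglyMeasurable)
    ((continuous_integrand j b k u).intervalIntegrable _ _)
    ((continuous_const.mul (continuous_integrand (j + 1) b k u)).aestronglyMeasurable)
    (Filter.Eventually.of_forall fun s hs v hv => by
      have hv' : |v| ≤ |u| + 1 := by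
        have := abs_sub_abs_le_abs_sub v u
        rw [Metric.mem_ball, Real.dist_eq] at hv
        linarith
      rw [norm_mul, norm_mul]
      refine mul_le_mul_of_nonneg_left ?_ (norm_nonneg _)
      refine (mul_le_of_le_one_left (norm_nonneg _) (norm_pow_unit (mem_unit hs) _)).trans
        ((norm_exp_le k v (mem_unit hs)).trans ?_)
      gcongr)
    intervalIntegrable_const
    (Filter.Eventually.of_forall fun s _ v _ => by
      have h1 : HasDerivAt (fun v : ℝ => expo b k v s) ((s : ℂ) * k) v := by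
        have h2 := (((hasDerivAt_id v).const_mul s).ofReal_comp.mul_const k).add_const
          (((b * (1 - s ^ 2) / 2 : ℝ) : ℂ) * k ^ 2)
        simpa [expo] using h2
      refine (h1.cexp.const_mul ((s : ℂ) ^ j)).congr_deriv ?_
      ring)).2
  rw [intervalIntegral.integral_const_mul] at h
  exact h

lemma mom_deriv_b (j : ℕ) (b : ℝ) (k : ℂ) (u : ℝ) :
    HasDerivAt (fun c => mom j c k u) (k ^ 2 / 2 * (mom j b k u - mom (j + 2) b k u)) b := by
  have h := (intervalIntegral.hasDerivAt_integral_of_dominated_loc_of_deriv_le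
    (μ := volume) (a := (0 : ℝ)) (b := 1)
    (F := fun c (s : ℝ) => (s : ℂ) ^ j * Complex.exp (expo c k u s))
    (F' := fun c (s : ℝ) => k ^ 2 / 2 * ((s : ℂ) ^ j * Complex.exp (expo c k u s)
      - (s : ℂ) ^ (j + 2) * Complex.exp (expo c k u s)))
    (x₀ := b) (s := Metric.ball b 1)
    (bound := fun _ => ‖k‖ ^ 2 *
      (Real.exp ((|b| + 1) * ‖k‖ ^ 2 / 2) * Real.exp (|k.re| * |u|)))
    (Metric.ball_mem_nhds b one_pos)
    (Filter.Eventually.of_forall fun c => (continuous_integrand j c k u).aestronglyMeasurable)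
    ((continuous_integrand j b k u).intervalIntegrable _ _)
    ((continuous_const.mul ((continuous_integrand j b k u).sub
      (continuous_integrand (j + 2) b k u))).aestronglyMeasurable)
    (Filter.Eventually.of_forall fun s hs c hc => by
      have hc' : |c| ≤ |b| + 1 := by
        have := abs_sub_abs_le_abs_sub c b
        rw [Metric.mem_ball, Real.dist_eq] at hc
        linarith
      have hb : ∀ i, ‖(s : ℂ) ^ i * Complex.exp (expo c k u s)‖
          ≤ Real.exp ((|b| + 1) * ‖k‖ ^ 2 / 2) * Real.exp (|k.re| * |u|) := fun i => by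
        rw [norm_mul]
        refine (mul_le_of_le_one_left (norm_nonneg _) (norm_pow_unit (mem_unit hs) i)).trans
          ((norm_exp_le k u (mem_unit hs)).trans ?_)
        gcongr
      rw [norm_mul, norm_div, norm_pow, Complex.norm_two]
      have h4 := norm_sub_le ((s : ℂ) ^ j * Complex.exp (expo c k u s))
        ((s : ℂ) ^ (j + 2) * Complex.exp (expo c k u s))
      have h5 := mul_le_mul_of_nonneg_left (h4.trans (add_le_add (hb j) (hb (j + 2))))
        (show (0 : ℝ) ≤ ‖k‖ ^ 2 / 2 by positivity)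
      exact h5.trans_eq (by ring))
    intervalIntegrable_const
    (Filter.Eventually.of_forall fun s _ c _ => by
      have h1 : HasDerivAt (fun c : ℝ => expo c k u s) ((((1 - s ^ 2) / 2 : ℝ) : ℂ) * k ^ 2) c := by
        have h2 := ((((hasDerivAt_id c).mul_const (1 - s ^ 2)).div_const 2).ofReal_comp.mul_const
          (k ^ 2)).const_add (((s * u : ℝ) : ℂ) * k)
        simpa [expo] using h2
      refine (h1.cexp.const_mul ((s : ℂ) ^ j)).congr_deriv ?_
      push_cast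
      ring)).2
  have e : (∫ s in (0 : ℝ)..1, k ^ 2 / 2 * ((s : ℂ) ^ j * Complex.exp (expo b k u s)
      - (s : ℂ) ^ (j + 2) * Complex.exp (expo b k u s)))
      = k ^ 2 / 2 * (mom j b k u - mom (j + 2) b k u) := by
    rw [intervalIntegral.integral_const_mul, intervalIntegral.integral_sub
      ((continuous_integrand j b k u).intervalIntegrable _ _)
      ((continuous_integrand (j + 2) b k u).intervalIntegrable _ _)]
    rfl
  rw [e] at h
  exact h

theorem steinG_deriv (b : ℝ) (k : ℂ) (u : ℝ) :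
    HasDerivAt (steinG b k) (steinG' b k u) u :=
  ((mom_deriv_u 0 b k u).const_mul k).congr_deriv (by simp only [steinG']; ring)

theorem steinG'_deriv (b : ℝ) (k : ℂ) (u : ℝ) :
    HasDerivAt (steinG' b k) (steinG'' b k u) u :=
  ((mom_deriv_u 1 b k u).const_mul (k ^ 2)).congr_deriv (by simp only [steinG'']; ring)

/-- the Stein equation -/
theorem stein_eq (b : ℝ) (k : ℂ) (u : ℝ) :
    (u : ℂ) * steinG b k u - (b : ℂ) * steinG' b k u
      = Complex.exp (k * (u : ℂ)) - Complex.exp ((b : ℂ) * k ^ 2 / 2) := by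
  have hd : ∀ s : ℝ, HasDerivAt (fun s : ℝ => Complex.exp (expo b k u s))
      ((u : ℂ) * k * ((s : ℂ) ^ 0 * Complex.exp (expo b k u s))
        - (b : ℂ) * k ^ 2 * ((s : ℂ) ^ 1 * Complex.exp (expo b k u s))) s := fun s => by
    have h1 := ((((hasDerivAt_id s).mul_const u).ofReal_comp).mul_const k).add
      ((((((hasDerivAt_pow 2 s).const_sub 1).const_mul b).div_const 2).ofReal_comp).mul_const
        (k ^ 2))
    have h2 : (fun s : ℝ => expo b k u s)
        = (fun y : ℝ => ((id y * u : ℝ) : ℂ) * k)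
          + fun y : ℝ => ((b * (1 - y ^ 2) / 2 : ℝ) : ℂ) * k ^ 2 := rfl
    rw [← h2] at h1
    refine h1.cexp.congr_deriv ?_
    push_cast
    ring
  have i0 := ((continuous_integrand 0 b k u).intervalIntegrable (μ := volume) 0 1).const_mul
    ((u : ℂ) * k)
  have i1 := ((continuous_integrand 1 b k u).intervalIntegrable (μ := volume) 0 1).const_mul
    ((b : ℂ) * k ^ 2)
  have h := intervalIntegral.integral_eq_sub_of_hasDerivAt (fun s _ => hd s) (i0.sub i1)
  rw [intervalIntegral.integral_sub i0 i1, intervalIntegral.integral_const_mul,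
    intervalIntegral.integral_const_mul] at h
  have e1 : expo b k u 1 = k * (u : ℂ) := by simp [expo]; ring
  have e0 : expo b k u 0 = (b : ℂ) * k ^ 2 / 2 := by simp [expo]; ring
  rw [e1, e0] at h
  rw [← h]
  simp only [steinG, steinG', mom]
  ring

lemma norm_kmom_le (j : ℕ) (b : ℝ) (k : ℂ) (u : ℝ) :
    ‖k ^ (j + 1) * mom j b k u‖
      ≤ ‖k‖ ^ (j + 1) * (Real.exp (|b| * ‖k‖ ^ 2 / 2) * Real.exp (|k.re| * |u|)) := by
  rw [norm_mul, norm_pow]
  exact mul_le_mul_of_nonneg_left (norm_mom_le j b k u) (by positivity)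

theorem norm_steinG_le (b : ℝ) (k : ℂ) (u : ℝ) :
    ‖steinG b k u‖ ≤ ‖k‖ * (Real.exp (|b| * ‖k‖ ^ 2 / 2) * Real.exp (|k.re| * |u|)) := by
  simpa [steinG] using norm_kmom_le 0 b k u

theorem norm_steinG'_le (b : ℝ) (k : ℂ) (u : ℝ) :
    ‖steinG' b k u‖ ≤ ‖k‖ ^ 2 * (Real.exp (|b| * ‖k‖ ^ 2 / 2) * Real.exp (|k.re| * |u|)) :=
  norm_kmom_le 1 b k u

theorem norm_steinG''_le (b : ℝ) (k : ℂ) (u : ℝ) :
    ‖steinG'' b k u‖ ≤ ‖k‖ ^ 3 * (Real.exp (|b| * ‖k‖ ^ 2 / 2) * Real.exp (|k.re| * |u|)) :=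
  norm_kmom_le 2 b k u

lemma exp_abs_le (y h a : ℝ) :
    Real.exp |h - a| ≤ 4 * (Real.cosh (h + y) * Real.cosh (a + y)) := by
  have hc : ∀ v : ℝ, Real.exp |v| ≤ 2 * Real.cosh v := fun v => by
    rw [← Real.cosh_abs v, Real.cosh_eq]
    linarith [Real.exp_pos (-|v|)]
  calc Real.exp |h - a| ≤ Real.exp (|h + y| + |a + y|) := by
        refine Real.exp_le_exp.2 ?_
        rw [show h - a = (h + y) - (a + y) by ring]
        exact abs_sub _ _
    _ = Real.exp |h + y| * Real.exp |a + y| := Real.exp_add _ _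
    _ ≤ (2 * Real.cosh (h + y)) * (2 * Real.cosh (a + y)) := by
        gcongr <;> exact hc _
    _ = _ := by ring

theorem norm_tker_le_pow (j : ℕ) (b : ℝ) {k : ℂ} (hk : |k.re| ≤ 1) (y h a : ℝ) :
    ‖tker j b k y h a‖ ≤ 4 * ‖k‖ ^ (j + 1) * Real.exp (|b| * ‖k‖ ^ 2 / 2) := by
  have hpos : 0 < Real.cosh (h + y) * Real.cosh (a + y) := by positivity
  rw [tker, norm_mul, Complex.norm_real, Real.norm_of_nonneg (inv_nonneg.2 hpos.le),
    inv_mul_le_iff₀ hpos]
  refine (norm_kmom_le j b k (h - a)).trans ?_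
  have h1 : Real.exp (|k.re| * |h - a|) ≤ 4 * (Real.cosh (h + y) * Real.cosh (a + y)) :=
    (Real.exp_le_exp.2 (mul_le_of_le_one_left (abs_nonneg _) hk)).trans (exp_abs_le y h a)
  calc ‖k‖ ^ (j + 1) * (Real.exp (|b| * ‖k‖ ^ 2 / 2) * Real.exp (|k.re| * |h - a|))
      ≤ ‖k‖ ^ (j + 1) * (Real.exp (|b| * ‖k‖ ^ 2 / 2) *
          (4 * (Real.cosh (h + y) * Real.cosh (a + y)))) := by gcongr
    _ = _ := by ring

theorem norm_tker_le {j : ℕ} (hj : j ≤ 3) {b : ℝ} (hb : |b| ≤ 1) {k : ℂ} (hk : |k.re| ≤ 1)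
    (y h a : ℝ) : ‖tker j b k y h a‖ ≤ bd k := by
  refine (norm_tker_le_pow j b hk y h a).trans ?_
  unfold bd
  have h1 : ‖k‖ ^ (j + 1) ≤ (1 + ‖k‖) ^ 4 :=
    (pow_le_pow_left₀ (norm_nonneg k) (by linarith) _).trans
      (pow_le_pow_right₀ (by linarith [norm_nonneg k]) (by omega))
  have h2 : |b| * ‖k‖ ^ 2 / 2 ≤ ‖k‖ ^ 2 / 2 := by
    have := mul_le_of_le_one_left (sq_nonneg ‖k‖) hb
    linarith
  gcongr

lemma hasDerivAt_tanh' (x : ℝ) : HasDerivAt Real.tanh (1 - Real.tanh x ^ 2) x := by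
  have hc := (Real.cosh_pos x).ne'
  have e : Real.tanh = fun y => Real.sinh y / Real.cosh y := funext Real.tanh_eq_sinh_div_cosh
  rw [e]
  refine ((Real.hasDerivAt_sinh x).div (Real.hasDerivAt_cosh x) hc).congr_deriv ?_
  field_simp

lemma hasDerivAt_invCosh (x : ℝ) :
    HasDerivAt (fun v => (Real.cosh v)⁻¹) (-(Real.tanh x * (Real.cosh x)⁻¹)) x := by
  refine ((Real.hasDerivAt_cosh x).inv (Real.cosh_pos x).ne').congr_deriv ?_
  rw [Real.tanh_eq_sinh_div_cosh]
  field_simp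

theorem tker_deriv_h (j : ℕ) (b : ℝ) (k : ℂ) (y h a : ℝ) :
    HasDerivAt (fun t => tker j b k y t a)
      (tker (j + 1) b k y h a - (Real.tanh (h + y) : ℂ) * tker j b k y h a) h := by
  have h1 : HasDerivAt (fun t => mom j b k (t - a)) (k * mom (j + 1) b k (h - a)) h :=
    HasDerivAt.comp_sub_const h a (mom_deriv_u j b k (h - a))
  have h2 : HasDerivAt (fun t => ((Real.cosh (t + y) * Real.cosh (a + y))⁻¹ : ℝ))
      (-(Real.tanh (h + y)) * (Real.cosh (h + y) * Real.cosh (a + y))⁻¹) h := by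
    have := (HasDerivAt.comp_add_const h y (hasDerivAt_invCosh (h + y))).mul_const
      (Real.cosh (a + y))⁻¹
    simp only [mul_inv]
    exact this.congr_deriv (by ring)
  refine (h2.ofReal_comp.mul (h1.const_mul (k ^ (j + 1)))).congr_deriv ?_
  simp only [tker]
  push_cast
  ring

theorem tker_deriv_a (j : ℕ) (b : ℝ) (k : ℂ) (y h a : ℝ) :
    HasDerivAt (fun t => tker j b k y h t)
      (-tker (j + 1) b k y h a - (Real.tanh (a + y) : ℂ) * tker j b k y h a) a := by
  have h1 : HasDerivAt (fun t => mom j b k (h - t)) (-(k * mom (j + 1) b k (h - a))) a :=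
    HasDerivAt.comp_const_sub h a (mom_deriv_u j b k (h - a))
  have h2 : HasDerivAt (fun t => ((Real.cosh (h + y) * Real.cosh (t + y))⁻¹ : ℝ))
      (-(Real.tanh (a + y)) * (Real.cosh (h + y) * Real.cosh (a + y))⁻¹) a := by
    have := (HasDerivAt.comp_add_const a y (hasDerivAt_invCosh (a + y))).const_mul
      (Real.cosh (h + y))⁻¹
    simp only [mul_inv]
    exact this.congr_deriv (by ring)
  refine (h2.ofReal_comp.mul (h1.const_mul (k ^ (j + 1)))).congr_deriv ?_
  simp only [tker]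
  push_cast
  ring

theorem tker_deriv_y (j : ℕ) (b : ℝ) (k : ℂ) (y h a : ℝ) :
    HasDerivAt (fun t => tker j b k t h a)
      (-((Real.tanh (h + y) + Real.tanh (a + y) : ℝ) : ℂ) * tker j b k y h a) y := by
  have h2 : HasDerivAt (fun t => ((Real.cosh (h + t) * Real.cosh (a + t))⁻¹ : ℝ))
      (-(Real.tanh (h + y) + Real.tanh (a + y)) * (Real.cosh (h + y) * Real.cosh (a + y))⁻¹) y := by
    have := (HasDerivAt.comp_const_add h y (hasDerivAt_invCosh (h + y))).mul
      (HasDerivAt.comp_const_add a y (hasDerivAt_invCosh (a + y)))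
    simp only [mul_inv]
    exact this.congr_deriv (by ring)
  refine (h2.ofReal_comp.mul_const (k ^ (j + 1) * mom j b k (h - a))).congr_deriv ?_
  simp only [tker]
  push_cast
  ring

theorem tker_deriv_b (j : ℕ) (b : ℝ) (k : ℂ) (y h a : ℝ) :
    HasDerivAt (fun c => tker j c k y h a)
      ((k ^ 2 * tker j b k y h a - tker (j + 2) b k y h a) / 2) b := by
  refine (((mom_deriv_b j b k (h - a)).const_mul (k ^ (j + 1))).const_mul
    (((Real.cosh (h + y) * Real.cosh (a + y))⁻¹ : ℝ) : ℂ)).congr_deriv ?_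
  simp only [tker]
  ring

theorem tker0_eq (b : ℝ) (k : ℂ) (y h a : ℝ) :
    tker 0 b k y h a
      = ((Real.cosh (h + y) * Real.cosh (a + y))⁻¹ : ℝ) * steinG b k (h - a) := by
  simp [tker, steinG]

theorem tkerH_deriv (b : ℝ) (k : ℂ) (y h a : ℝ) :
    HasDerivAt (fun t => tker 0 b k y t a) (tkerH b k y h a) h :=
  tker_deriv_h 0 b k y h a

/-- the Stein equation for the test kernel -/
theorem tker_stein (b : ℝ) (k : ℂ) (y h a : ℝ) :
    ((h - a : ℝ) : ℂ) * tker 0 b k y h a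
      - (b : ℂ) * (tkerH b k y h a + (Real.tanh (h + y) : ℂ) * tker 0 b k y h a)
      = ((Real.cosh (h + y) * Real.cosh (a + y))⁻¹ : ℝ) *
          (Complex.exp (k * ((h - a : ℝ) : ℂ)) - Complex.exp ((b : ℂ) * k ^ 2 / 2)) := by
  rw [← stein_eq]
  simp only [tkerH, tker, steinG, steinG']
  ring

lemma norm_tanh_mul_le (v : ℝ) (z : ℂ) : ‖(Real.tanh v : ℂ) * z‖ ≤ ‖z‖ := by
  rw [norm_mul, Complex.norm_real, Real.norm_eq_abs]
  exact mul_le_of_le_one_left (norm_nonneg _) (Real.abs_tanh_lt_one v).le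

theorem norm_tkerH_le {b : ℝ} (hb : |b| ≤ 1) {k : ℂ} (hk : |k.re| ≤ 1) (y h a : ℝ) :
    ‖tkerH b k y h a‖ ≤ 2 * bd k := by
  have h0 := norm_tker_le (j := 0) (by norm_num) hb hk y h a
  have h1 := norm_tker_le (j := 1) (by norm_num) hb hk y h a
  have h3 := norm_sub_le (tker 1 b k y h a) ((Real.tanh (h + y) : ℂ) * tker 0 b k y h a)
  have h4 := norm_tanh_mul_le (h + y) (tker 0 b k y h a)
  unfold tkerH
  linarith

lemma lip_of_deriv {f : ℝ → ℂ} {C : ℝ} {S : Set ℝ} (hS : Convex ℝ S)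
    (hf : ∀ x ∈ S, ∃ d, HasDerivAt f d x ∧ ‖d‖ ≤ C) {x y : ℝ} (hx : x ∈ S) (hy : y ∈ S) :
    ‖f y - f x‖ ≤ C * |y - x| :=
  hS.norm_image_sub_le_of_norm_deriv_le
    (fun t ht => (hf t ht).choose_spec.1.differentiableAt)
    (fun t ht => by
      rw [(hf t ht).choose_spec.1.deriv]; exact (hf t ht).choose_spec.2)
    hx hy

/-- joint Lipschitz bound of the test kernels in `(h, a, y, b)` -/
theorem tker_lip {j : ℕ} (hj : j ≤ 2) {k : ℂ} (hk : |k.re| ≤ 1) {b b' : ℝ} (hb : |b| ≤ 1)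
    (hb' : |b'| ≤ 1) (h a y h' a' y' : ℝ) :
    ‖tker j b k y h a - tker j b' k y' h' a'‖
      ≤ 4 * (1 + ‖k‖) ^ 2 * bd k * (|h - h'| + |a - a'| + |y - y'| + |b - b'|) := by
  set L := 4 * (1 + ‖k‖) ^ 2 * bd k with hL
  have hbd := bd_nonneg k
  have hone : 1 ≤ (1 + ‖k‖) ^ 2 := one_le_pow₀ (by linarith [norm_nonneg k])
  have h2L : 2 * bd k ≤ L := by rw [hL]; nlinarith
  have n0 : ∀ {c : ℝ}, |c| ≤ 1 → ∀ (i : ℕ), i ≤ 3 → ∀ y h a, ‖tker i c k y h a‖ ≤ bd k :=
    fun hc i hi y h a => norm_tker_le hi hc hk y h a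
  have dh : ∀ x ∈ (univ : Set ℝ), ∃ d, HasDerivAt (fun t => tker j b k y t a) d x ∧ ‖d‖ ≤ L :=
    fun x _ => ⟨_, tker_deriv_h j b k y x a, by
      linarith [norm_sub_le (tker (j + 1) b k y x a) ((Real.tanh (x + y) : ℂ) * tker j b k y x a),
        norm_tanh_mul_le (x + y) (tker j b k y x a), n0 hb (j + 1) (by omega) y x a,
        n0 hb j (by omega) y x a]⟩
  have da : ∀ x ∈ (univ : Set ℝ), ∃ d, HasDerivAt (fun t => tker j b k y h' t) d x ∧ ‖d‖ ≤ L :=
    fun x _ => ⟨_, tker_deriv_a j b k y h' x, by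
      linarith [norm_sub_le (-tker (j + 1) b k y h' x)
          ((Real.tanh (x + y) : ℂ) * tker j b k y h' x), norm_neg (tker (j + 1) b k y h' x),
        norm_tanh_mul_le (x + y) (tker j b k y h' x), n0 hb (j + 1) (by omega) y h' x,
        n0 hb j (by omega) y h' x]⟩
  have dy : ∀ x ∈ (univ : Set ℝ), ∃ d, HasDerivAt (fun t => tker j b k t h' a') d x ∧ ‖d‖ ≤ L :=
    fun x _ => ⟨_, tker_deriv_y j b k x h' a', by
      rw [norm_mul, norm_neg, Complex.norm_real, Real.norm_eq_abs]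
      have h1 := abs_add_le (Real.tanh (h' + x)) (Real.tanh (a' + x))
      have h2 := (Real.abs_tanh_lt_one (h' + x)).le
      have h3 := (Real.abs_tanh_lt_one (a' + x)).le
      have h4 := mul_le_mul (show |Real.tanh (h' + x) + Real.tanh (a' + x)| ≤ 2 by linarith)
        (n0 hb j (by omega) x h' a') (norm_nonneg _) (by norm_num)
      linarith⟩
  have db : ∀ x ∈ Icc (-1 : ℝ) 1,
      ∃ d, HasDerivAt (fun c => tker j c k y' h' a') d x ∧ ‖d‖ ≤ L :=
    fun x hx => ⟨_, tker_deriv_b j x k y' h' a', by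
      have hx' : |x| ≤ 1 := abs_le.2 ⟨hx.1, hx.2⟩
      have h5 : ‖tker (j + 2) x k y' h' a'‖ ≤ (1 + ‖k‖) ^ 2 * bd k := by
        refine (norm_tker_le_pow (j + 2) x hk y' h' a').trans ?_
        unfold bd
        have h1 : ‖k‖ ^ (j + 2 + 1) ≤ (1 + ‖k‖) ^ 6 :=
          (pow_le_pow_left₀ (norm_nonneg k) (by linarith) _).trans
            (pow_le_pow_right₀ (by linarith [norm_nonneg k]) (by omega))
        have h2 : |x| * ‖k‖ ^ 2 / 2 ≤ ‖k‖ ^ 2 / 2 := by
          linarith [mul_le_of_le_one_left (sq_nonneg ‖k‖) hx']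
        calc 4 * ‖k‖ ^ (j + 2 + 1) * Real.exp (|x| * ‖k‖ ^ 2 / 2)
            ≤ 4 * (1 + ‖k‖) ^ 6 * Real.exp (‖k‖ ^ 2 / 2) := by gcongr
          _ = _ := by ring
      have h6 : ‖k ^ 2 * tker j x k y' h' a'‖ ≤ (1 + ‖k‖) ^ 2 * bd k := by
        rw [norm_mul, norm_pow]
        exact mul_le_mul (pow_le_pow_left₀ (norm_nonneg k) (by linarith) 2)
          (n0 hx' j (by omega) y' h' a') (norm_nonneg _) (by positivity)
      rw [norm_div, Complex.norm_two]
      have h7 := norm_sub_le (k ^ 2 * tker j x k y' h' a') (tker (j + 2) x k y' h' a')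
      rw [hL]
      nlinarith⟩
  have e1 := lip_of_deriv convex_univ dh (mem_univ h') (mem_univ h)
  have e2 := lip_of_deriv convex_univ da (mem_univ a') (mem_univ a)
  have e3 := lip_of_deriv convex_univ dy (mem_univ y') (mem_univ y)
  have e4 := lip_of_deriv (convex_Icc _ _) db (show b' ∈ Icc (-1 : ℝ) 1 from abs_le.1 hb')
    (show b ∈ Icc (-1 : ℝ) 1 from abs_le.1 hb)
  have t1 := norm_sub_le_norm_sub_add_norm_sub (tker j b k y h a) (tker j b k y h' a)
    (tker j b' k y' h' a')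
  have t2 := norm_sub_le_norm_sub_add_norm_sub (tker j b k y h' a) (tker j b k y h' a')
    (tker j b' k y' h' a')
  have t3 := norm_sub_le_norm_sub_add_norm_sub (tker j b k y h' a') (tker j b k y' h' a')
    (tker j b' k y' h' a')
  linarith

theorem tkerH_lip {k : ℂ} (hk : |k.re| ≤ 1) {b b' : ℝ} (hb : |b| ≤ 1) (hb' : |b'| ≤ 1)
    (h a y h' a' y' : ℝ) :
    ‖tkerH b k y h a - tkerH b' k y' h' a'‖
      ≤ 9 * (1 + ‖k‖) ^ 2 * bd k * (|h - h'| + |a - a'| + |y - y'| + |b - b'|) := by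
  set S := |h - h'| + |a - a'| + |y - y'| + |b - b'| with hS
  have hbd := bd_nonneg k
  have hone : 1 ≤ (1 + ‖k‖) ^ 2 := one_le_pow₀ (by linarith [norm_nonneg k])
  have h1 := tker_lip (j := 1) (by norm_num) hk hb hb' h a y h' a' y'
  have h0 := tker_lip (j := 0) (by norm_num) hk hb hb' h a y h' a' y'
  rw [← hS] at h1 h0
  have ht : |Real.tanh (h + y) - Real.tanh (h' + y')| ≤ |(h + y) - (h' + y')| := by
    have := Convex.norm_image_sub_le_of_norm_deriv_le (f := Real.tanh) (C := 1) (s := univ)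
      (fun t _ => (hasDerivAt_tanh' t).differentiableAt) (fun t _ => by
        rw [(hasDerivAt_tanh' t).deriv, Real.norm_eq_abs]
        have := (sq_le_one_iff_abs_le_one (Real.tanh t)).2 (Real.abs_tanh_lt_one t).le
        rw [abs_le]; constructor <;> nlinarith [sq_nonneg (Real.tanh t)])
      convex_univ (mem_univ (h' + y')) (mem_univ (h + y))
    simpa using this
  have ht' : |(h + y) - (h' + y')| ≤ S := by
    rw [hS, show (h + y) - (h' + y') = (h - h') + (y - y') by ring]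
    linarith [abs_add_le (h - h') (y - y'), abs_nonneg (a - a'), abs_nonneg (b - b')]
  have e : tkerH b k y h a - tkerH b' k y' h' a'
      = (tker 1 b k y h a - tker 1 b' k y' h' a')
        - (((Real.tanh (h + y) : ℂ) * (tker 0 b k y h a - tker 0 b' k y' h' a'))
          + ((Real.tanh (h + y) - Real.tanh (h' + y') : ℝ) : ℂ) * tker 0 b' k y' h' a') := by
    simp only [tkerH]
    push_cast
    ring
  rw [e]
  have h3 : ‖((Real.tanh (h + y) - Real.tanh (h' + y') : ℝ) : ℂ) * tker 0 b' k y' h' a'‖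
      ≤ S * bd k := by
    rw [norm_mul, Complex.norm_real, Real.norm_eq_abs]
    exact mul_le_mul (ht.trans ht') (norm_tker_le (by norm_num) hb' hk y' h' a') (norm_nonneg _)
      (by positivity)
  have h4 := norm_tanh_mul_le (h + y) (tker 0 b k y h a - tker 0 b' k y' h' a')
  have h5 := norm_sub_le (tker 1 b k y h a - tker 1 b' k y' h' a')
    (((Real.tanh (h + y) : ℂ) * (tker 0 b k y h a - tker 0 b' k y' h' a'))
      + ((Real.tanh (h + y) - Real.tanh (h' + y') : ℝ) : ℂ) * tker 0 b' k y' h' a')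
  have h6 := norm_add_le ((Real.tanh (h + y) : ℂ) * (tker 0 b k y h a - tker 0 b' k y' h' a'))
    (((Real.tanh (h + y) - Real.tanh (h' + y') : ℝ) : ℂ) * tker 0 b' k y' h' a')
  have h7 : S * bd k ≤ (1 + ‖k‖) ^ 2 * bd k * S := by
    rw [mul_comm S]
    exact mul_le_mul_of_nonneg_right (le_mul_of_one_le_left hbd hone) (by positivity)
  linarith

theorem continuous_tker {j : ℕ} (hj : j ≤ 2) {b : ℝ} (hb : |b| ≤ 1) {k : ℂ} (hk : |k.re| ≤ 1) :
    Continuous fun p : ℝ × ℝ × ℝ => tker j b k p.1 p.2.1 p.2.2 := by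
  have : LipschitzWith (Real.toNNReal (12 * (1 + ‖k‖) ^ 2 * bd k))
      (fun p : ℝ × ℝ × ℝ => tker j b k p.1 p.2.1 p.2.2) := by
    refine LipschitzWith.of_dist_le_mul fun p q => ?_
    have hbd := bd_nonneg k
    rw [dist_eq_norm, Real.coe_toNNReal _ (by positivity)]
    refine (tker_lip hj hk hb hb p.2.1 p.2.2 p.1 q.2.1 q.2.2 q.1).trans ?_
    have h1 : |p.1 - q.1| ≤ dist p q := by
      rw [← Real.dist_eq, Prod.dist_eq]; exact le_max_left _ _
    have h2 : |p.2.1 - q.2.1| ≤ dist p q := by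
      rw [← Real.dist_eq, Prod.dist_eq]
      exact le_trans (by rw [Prod.dist_eq]; exact le_max_left _ _) (le_max_right _ _)
    have h3 : |p.2.2 - q.2.2| ≤ dist p q := by
      rw [← Real.dist_eq, Prod.dist_eq]
      exact le_trans (by rw [Prod.dist_eq]; exact le_max_right _ _) (le_max_right _ _)
    rw [sub_self, abs_zero, add_zero]
    calc 4 * (1 + ‖k‖) ^ 2 * bd k * (|p.2.1 - q.2.1| + |p.2.2 - q.2.2| + |p.1 - q.1|)
        ≤ 4 * (1 + ‖k‖) ^ 2 * bd k * (dist p q + dist p q + dist p q) := by gcongr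
      _ = _ := by ring
  exact this.continuous

end Vale.Agent.P150.PA.Stein
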