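import Vale.Agent.P150.PA.ChanDefs
import Vale.Agent.P150.PA.Stein
import Vale.Agent.P150.PA.Scalar

/-! The kernels and tests that identify the joint law of the cavity field and the observation noise. -/

namespace Vale.Agent.P150.PA.MmseLaw

open Ising Complex

/-- projection to `[-L, L]` -/
noncomputable def clip (L x : ℝ) : ℝ := max (-L) (min L x)

/-- the observation of a spin at strength `t` with noise `z` -/
noncomputable def obsY (t : ℝ) (c : Bool) (z : ℝ) : ℝ := t * spin c + Real.sqrt t * z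

/-- the parameters of a kernel at a site with observed spin `s`, switched off unless `s = c` -/
noncomputable def par (L : ℝ) (c : Bool) (a y o : ℝ) (s : Bool) : Fin 3 → ℝ :=
  if s = c then ![clip L a, clip L y, o] else ![L, 0, 0]

/-- the summand of the field identity at one site -/
noncomputable def fieldTerm (Ψ : Kern) (θ : Fin 3 → ℝ) (h a y o : ℝ) : ℝ :=
  Ψ.fn θ h * (h - a - o * Real.tanh (h + y)) - o * Ψ.dfn θ h

lemma abs_clip_le {L : ℝ} (hL : 0 ≤ L) (x : ℝ) : |clip L x| ≤ L :=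
  abs_le.2 ⟨le_max_left _ _, max_le (by linarith) (min_le_left _ _)⟩

lemma clip_of_le {L x : ℝ} (h : |x| ≤ L) : clip L x = x := by
  obtain ⟨h1, h2⟩ := abs_le.1 h
  rw [clip, min_eq_right h2, max_eq_right h1]

lemma clip_clip {L : ℝ} (hL : 0 ≤ L) (x : ℝ) : clip L (clip L x) = clip L x := clip_of_le (abs_clip_le hL x)

lemma abs_clip_of_ge {L x : ℝ} (hL : 0 ≤ L) (h : L ≤ |x|) : |clip L x| = L := by
  rcases le_total 0 x with hx | hx
  · rw [abs_of_nonneg hx] at h
    rw [clip, min_eq_left h, max_eq_right (by linarith), abs_of_nonneg hL]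
  · rw [abs_of_nonpos hx] at h
    rw [clip, min_eq_right (by linarith), max_eq_left (by linarith), abs_neg, abs_of_nonneg hL]

lemma lipschitz_clip (L : ℝ) : LipschitzWith 1 (clip L) := (LipschitzWith.id.const_min L).const_max (-L)

lemma clip_lip (L x x' : ℝ) : |clip L x - clip L x'| ≤ |x - x'| := by
  simpa [Real.dist_eq] using (lipschitz_clip L).dist_le_mul x x'

lemma abs_par_le {L : ℝ} (hL : 1 ≤ L) (c : Bool) (a y : ℝ) {o : ℝ} (ho : |o| ≤ L) (s : Bool) (l : Fin 3) :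
    |par L c a y o s l| ≤ L := by
  unfold par
  split_ifs <;> fin_cases l <;>
    simp [abs_clip_le (zero_le_one.trans hL), abs_of_nonneg (zero_le_one.trans hL), zero_le_one.trans hL, ho]

/-- the cutoff -/
noncomputable def cut (L x : ℝ) : ℝ := 1 - |clip L x| / L

lemma cut_mem {L : ℝ} (hL : 0 < L) (x : ℝ) : 0 ≤ cut L x ∧ cut L x ≤ 1 := by
  have h1 : |clip L x| / L ≤ 1 := (div_le_one hL).2 (abs_clip_le hL.le x)
  have h2 : 0 ≤ |clip L x| / L := by positivity
  unfold cut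
  constructor <;> linarith

lemma cut_clip {L : ℝ} (hL : 0 ≤ L) (x : ℝ) : cut L (clip L x) = cut L x := by rw [cut, clip_clip hL, cut]

lemma one_sub_cut_le {L : ℝ} (hL : 0 < L) (x : ℝ) : 1 - cut L x ≤ |x| / L := by
  rw [cut, sub_sub_cancel]
  refine div_le_div_of_nonneg_right ?_ hL.le
  rcases le_total |x| L with h | h
  · rw [clip_of_le h]
  · rw [abs_clip_of_ge hL.le h]; exact h

lemma cut_lip {L : ℝ} (hL : 1 ≤ L) (x x' : ℝ) : |cut L x - cut L x'| ≤ |x - x'| := by
  rw [cut, cut, sub_sub_sub_cancel_left, ← sub_div, abs_div, abs_of_pos (zero_lt_one.trans_le hL)]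
  exact (div_le_self (abs_nonneg _) hL).trans
    ((abs_abs_sub_abs_le_abs_sub _ _).trans ((clip_lip L _ _).trans_eq (abs_sub_comm _ _)))

/-- real or imaginary part -/
noncomputable def part (p : Bool) : ℂ →L[ℝ] ℝ := if p then reCLM else imCLM

lemma abs_part_le (p : Bool) (z : ℂ) : |part p z| ≤ ‖z‖ := by
  cases p
  · exact abs_im_le_norm z
  · exact abs_re_le_norm z

lemma norm_mul_sub_le (u v u' v' : ℂ) : ‖u * v - u' * v'‖ ≤ ‖u - u'‖ * ‖v‖ + ‖u'‖ * ‖v - v'‖ := by
  rw [show u * v - u' * v' = (u - u') * v + u' * (v - v') by ring]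
  exact (norm_add_le _ _).trans_eq (by rw [norm_mul, norm_mul])

/-- bounded and Lipschitz, with one constant -/
def BLip (W : ℝ → ℝ → ℂ) (C : ℝ) : Prop :=
  (∀ a y, ‖W a y‖ ≤ C) ∧ ∀ a y a' y', ‖W a y - W a' y'‖ ≤ C * (|a - a'| + |y - y'|)

lemma BLip.nonneg {W : ℝ → ℝ → ℂ} {C : ℝ} (h : BLip W C) : 0 ≤ C := (norm_nonneg _).trans (h.1 0 0)

/-- `o` clipped to `[-1, 1]`, for the Stein constants -/
lemma abs_clip_one (o : ℝ) : |clip 1 o| ≤ 1 := abs_clip_le zero_le_one o

/-- a kernel: weight times the Stein kernel -/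
noncomputable def kernOf (W : ℝ → ℝ → ℂ) (C : ℝ) (hW : BLip W C) (k : ℂ) (hk : |k.re| ≤ 1) (p : Bool) : Kern where
  fn θ h := part p (W (θ 0) (θ 1) * Stein.tker 0 (clip 1 (θ 2)) k (θ 1) h (θ 0))
  dfn θ h := part p (W (θ 0) (θ 1) * Stein.tkerH (clip 1 (θ 2)) k (θ 1) h (θ 0))
  hasDeriv θ h := (part p).hasFDerivAt.comp_hasDerivAt h ((Stein.tkerH_deriv _ k (θ 1) h (θ 0)).const_mul _)
  M := C * (2 * Stein.bd k + 9 * (1 + ‖k‖) ^ 2 * Stein.bd k)
  bdd θ h := by
    have hb := abs_clip_one (θ 2)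
    have hbd := Stein.bd_nonneg k
    have h9 : 0 ≤ 9 * (1 + ‖k‖) ^ 2 * Stein.bd k := by positivity
    refine ⟨(abs_part_le _ _).trans ?_, (abs_part_le _ _).trans ?_⟩ <;> rw [norm_mul] <;>
      refine mul_le_mul (hW.1 _ _) ?_ (norm_nonneg _) hW.nonneg
    · linarith [Stein.norm_tker_le (j := 0) (by norm_num) hb hk (θ 1) h (θ 0)]
    · linarith [Stein.norm_tkerH_le hb hk (θ 1) h (θ 0)]
  lip θ θ' h h' := by
    have hb := abs_clip_one (θ 2)
    have hb' := abs_clip_one (θ' 2)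
    have hbd := Stein.bd_nonneg k
    have hk2 : 0 ≤ (1 + ‖k‖) ^ 2 * Stein.bd k := by positivity
    rw [Fin.sum_univ_three]
    set S := |θ 0 - θ' 0| + |θ 1 - θ' 1| + |θ 2 - θ' 2| + |h - h'|
    have hS : |h - h'| + |θ 0 - θ' 0| + |θ 1 - θ' 1| + |clip 1 (θ 2) - clip 1 (θ' 2)| ≤ S := by
      simp only [S]; linarith [clip_lip 1 (θ 2) (θ' 2)]
    have hW' : ‖W (θ 0) (θ 1) - W (θ' 0) (θ' 1)‖ ≤ C * S :=
      (hW.2 _ _ _ _).trans (mul_le_mul_of_nonneg_left (by simp only [S]; linarith [abs_nonneg (θ 2 - θ' 2), abs_nonneg (h - h')]) hW.nonneg)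
    have key : ∀ (u v : ℂ) (B : ℝ), ‖u‖ ≤ 2 * Stein.bd k → ‖u - v‖ ≤ B * S → 0 ≤ S →
        B ≤ 9 * (1 + ‖k‖) ^ 2 * Stein.bd k →
        |part p (W (θ 0) (θ 1) * u) - part p (W (θ' 0) (θ' 1) * v)| ≤
          C * (2 * Stein.bd k + 9 * (1 + ‖k‖) ^ 2 * Stein.bd k) * S := by
      intro u v B hu huv hS0 hB
      rw [← map_sub]
      refine (abs_part_le _ _).trans ((norm_mul_sub_le _ _ _ _).trans ((add_le_add
        (mul_le_mul hW' hu (norm_nonneg _) (mul_nonneg hW.nonneg hS0))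
        (mul_le_mul (hW.1 _ _) (huv.trans (mul_le_mul_of_nonneg_right hB hS0)) (norm_nonneg _) hW.nonneg)).trans
        (le_of_eq ?_)))
      ring
    have hS0 : 0 ≤ S := by positivity
    constructor
    · refine key _ _ (4 * (1 + ‖k‖) ^ 2 * Stein.bd k)
        ((Stein.norm_tker_le (j := 0) (by norm_num) hb hk _ _ _).trans (by linarith)) ?_ hS0 (by linarith)
      exact (Stein.tker_lip (by norm_num) hk hb hb' _ _ _ _ _ _).trans
        (mul_le_mul_of_nonneg_left hS (by positivity))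
    · refine key _ _ (9 * (1 + ‖k‖) ^ 2 * Stein.bd k) (Stein.norm_tkerH_le hb hk _ _ _) ?_ hS0 le_rfl
      exact (Stein.tkerH_lip hk hb hb' _ _ _ _ _ _).trans (mul_le_mul_of_nonneg_left hS (by positivity))

/-- the four factors -/
noncomputable def Pfac (j : Fin 4) (a z y : ℝ) : ℝ := ![1, a, z, Real.tanh (a + y)] j

lemma abs_Pfac_le (j : Fin 4) (a z y : ℝ) : |Pfac j a z y| ≤ 1 + |a| + |z| := by
  have := abs_nonneg a; have := abs_nonneg z; have := (Real.abs_tanh_lt_one (a + y)).le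
  fin_cases j <;> simp [Pfac] <;> linarith

/-- `e^{i (α a + γ z)}` -/
noncomputable def osc (α γ a z : ℝ) : ℂ := cexp (((α * a + γ * z : ℝ) : ℂ) * I)

lemma norm_osc (α γ a z : ℝ) : ‖osc α γ a z‖ = 1 := norm_exp_ofReal_mul_I _

lemma norm_osc_sub (α γ a z α' γ' a' z' : ℝ) :
    ‖osc α γ a z - osc α' γ' a' z'‖ ≤ |α * a + γ * z - (α' * a' + γ' * z')| := by
  have h : ∀ u v : ℝ, ‖cexp ((u : ℂ) * I) - cexp ((v : ℂ) * I)‖ ≤ |u - v| := fun u v => by
    have hd : ∀ x : ℝ, HasDerivAt (fun s : ℝ => cexp ((s : ℂ) * I)) (cexp ((x : ℂ) * I) * (1 * I)) x :=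
      fun x => ((hasDerivAt_id x).ofReal_comp.mul_const I).cexp
    have := Stein.lip_of_deriv (C := 1) (convex_univ (𝕜 := ℝ))
      (fun x _ => ⟨_, hd x, by rw [norm_mul, norm_mul, norm_exp_ofReal_mul_I, norm_I, norm_one]; norm_num⟩)
      (Set.mem_univ v) (Set.mem_univ u)
    simpa using this
  exact h _ _

/-- the weight inside the box -/
noncomputable def wBase (t : ℝ) (c e : Bool) (j : Fin 4) (α γ : ℝ) (q : ℝ × ℝ) : ℂ :=
  ((Pfac j q.1 ((q.2 - t * spin c) / Real.sqrt t) q.2 * Real.exp (spin e * (q.1 + q.2)) *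
      Real.cosh (q.1 + q.2) / 2 : ℝ) : ℂ) * osc α γ q.1 ((q.2 - t * spin c) / Real.sqrt t)

/-- the weight -/
noncomputable def wgt (t L : ℝ) (c e : Bool) (j : Fin 4) (α γ a y : ℝ) : ℂ :=
  ((cut L a * cut L y : ℝ) : ℂ) * wBase t c e j α γ (clip L a, clip L y)

lemma contDiff_wBase (t : ℝ) (c e : Bool) (j : Fin 4) (α γ : ℝ) : ContDiff ℝ 1 (wBase t c e j α γ) := by
  have hosc : ContDiff ℝ 1 fun q : ℝ × ℝ => osc α γ q.1 ((q.2 - t * spin c) / Real.sqrt t) := by
    have h0 : ContDiff ℝ 1 fun q : ℝ × ℝ => α * q.1 + γ * ((q.2 - t * spin c) / Real.sqrt t) := by fun_prop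
    exact ((Complex.ofRealCLM.contDiff.comp h0).mul contDiff_const).cexp
  have hP : ContDiff ℝ 1 fun q : ℝ × ℝ => Pfac j q.1 ((q.2 - t * spin c) / Real.sqrt t) q.2 := by
    fin_cases j <;>
      simp only [Pfac, Fin.zero_eta, Fin.mk_one, Fin.reduceFinMk, Matrix.cons_val, Matrix.cons_val_zero,
        Matrix.cons_val_one, Real.tanh_eq_sinh_div_cosh]
    · fun_prop
    · fun_prop
    · fun_prop
    · have h0 : ContDiff ℝ 1 fun q : ℝ × ℝ => q.1 + q.2 := by fun_prop
      exact (Real.contDiff_sinh.comp h0).div (Real.contDiff_cosh.comp h0) fun q => (Real.cosh_pos _).ne'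
  have hq : ContDiff ℝ 1 fun q : ℝ × ℝ => Pfac j q.1 ((q.2 - t * spin c) / Real.sqrt t) q.2 *
      Real.exp (spin e * (q.1 + q.2)) * Real.cosh (q.1 + q.2) / 2 := by fun_prop
  exact (Complex.ofRealCLM.contDiff.comp hq).mul hosc

lemma exists_blip (t : ℝ) {L : ℝ} (hL : 1 ≤ L) (c e : Bool) (j : Fin 4) (α γ : ℝ) :
    ∃ C, BLip (wgt t L c e j α γ) C := by
  have hL0 : 0 ≤ L := zero_le_one.trans hL
  have hK : IsCompact (Set.Icc (-L) L ×ˢ Set.Icc (-L) L) := isCompact_Icc.prod isCompact_Icc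
  obtain ⟨K, hKl⟩ := (contDiff_wBase t c e j α γ).locallyLipschitz.locallyLipschitzOn.exists_lipschitzOnWith_of_compact hK
  obtain ⟨B, hB⟩ := hK.exists_bound_of_continuousOn (contDiff_wBase t c e j α γ).continuous.continuousOn
  have hmem : ∀ a y, (clip L a, clip L y) ∈ Set.Icc (-L) L ×ˢ Set.Icc (-L) L := fun a y =>
    ⟨abs_le.1 (abs_clip_le hL0 a), abs_le.1 (abs_clip_le hL0 y)⟩
  have hB0 : 0 ≤ B := (norm_nonneg _).trans (hB _ (hmem 0 0))
  have hcc : ∀ a y, ‖((cut L a * cut L y : ℝ) : ℂ)‖ ≤ 1 := fun a y => by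
    have ha := cut_mem (zero_lt_one.trans_le hL) a
    have hy := cut_mem (zero_lt_one.trans_le hL) y
    rw [norm_real, Real.norm_of_nonneg (mul_nonneg ha.1 hy.1)]
    exact mul_le_one₀ ha.2 hy.1 hy.2
  refine ⟨2 * B + K + B, fun a y => ?_, fun a y a' y' => ?_⟩
  · rw [wgt, norm_mul]
    exact (mul_le_mul (hcc a y) (hB _ (hmem a y)) (norm_nonneg _) zero_le_one).trans
      (by linarith [K.coe_nonneg])
  · set S := |a - a'| + |y - y'|
    have h1 : ‖((cut L a * cut L y : ℝ) : ℂ) - ((cut L a' * cut L y' : ℝ) : ℂ)‖ ≤ 2 * S := by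
      have ha := cut_mem (zero_lt_one.trans_le hL) a'
      have hy := cut_mem (zero_lt_one.trans_le hL) y
      rw [← ofReal_sub, norm_real, Real.norm_eq_abs,
        show cut L a * cut L y - cut L a' * cut L y' = (cut L a - cut L a') * cut L y + cut L a' * (cut L y - cut L y') by ring]
      refine (abs_add_le _ _).trans ?_
      rw [abs_mul, abs_mul, abs_of_nonneg hy.1, abs_of_nonneg ha.1]
      refine (add_le_add (mul_le_of_le_one_right (abs_nonneg _) hy.2) (mul_le_of_le_one_left (abs_nonneg _) ha.2)).trans ?_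
      simp only [S]
      linarith [cut_lip hL a a', cut_lip hL y y', abs_nonneg (a - a'), abs_nonneg (y - y')]
    have h2 : ‖wBase t c e j α γ (clip L a, clip L y) - wBase t c e j α γ (clip L a', clip L y')‖ ≤ K * S := by
      refine (dist_eq_norm _ _).symm.trans_le ((hKl.dist_le_mul _ (hmem a y) _ (hmem a' y')).trans ?_)
      refine mul_le_mul_of_nonneg_left ?_ K.coe_nonneg
      rw [Prod.dist_eq]
      refine max_le ?_ ?_ <;> rw [Real.dist_eq] <;> simp only [S] <;>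
        linarith [clip_lip L a a', clip_lip L y y', abs_nonneg (a - a'), abs_nonneg (y - y')]
    have hS : 0 ≤ S := by positivity
    refine (norm_mul_sub_le _ _ _ _).trans ((add_le_add (mul_le_mul h1 (hB _ (hmem a y)) (norm_nonneg _) (by positivity))
      (mul_le_mul (hcc a' y') h2 (norm_nonneg _) zero_le_one)).trans ?_)
    linarith [mul_nonneg hB0 hS]

/-- the constant of a weight -/
noncomputable def wC (t L : ℝ) (c e : Bool) (j : Fin 4) (α γ : ℝ) : ℝ :=
  if h : 1 ≤ L then (exists_blip t h c e j α γ).choose else 0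

lemma blip_wgt {t L : ℝ} (hL : 1 ≤ L) (c e : Bool) (j : Fin 4) (α γ : ℝ) :
    BLip (wgt t L c e j α γ) (wC t L c e j α γ) := by
  rw [wC, dif_pos hL]; exact (exists_blip t hL c e j α γ).choose_spec

/-- the kernel: real or imaginary part of the weight times the Stein kernel at frequency `±1 + i α'` -/
noncomputable def mkern {t L : ℝ} (hL : 1 ≤ L) (c e : Bool) (j : Fin 4) (α γ α' : ℝ) (p : Bool) : Kern :=
  kernOf (wgt t L c e j α γ) (wC t L c e j α γ) (blip_wgt hL c e j α γ) ⟨spin e, α'⟩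
    (by cases e <;> simp [spin]) p

/-- the factor of `fieldTerm` in front of the weight -/
noncomputable def sfac (o : ℝ) (k : ℂ) (h a y : ℝ) : ℂ :=
  ((Real.cosh (h + y) * Real.cosh (a + y))⁻¹ : ℝ) * (cexp (k * ((h - a : ℝ) : ℂ)) - cexp ((o : ℂ) * k ^ 2 / 2))

lemma wgt_clip {t L : ℝ} (hL : 0 ≤ L) (c e : Bool) (j : Fin 4) (α γ a y : ℝ) :
    wgt t L c e j α γ (clip L a) (clip L y) = wgt t L c e j α γ a y := by
  simp only [wgt, cut_clip hL, clip_clip hL]

lemma wgt_zero {t L : ℝ} (hL : 0 < L) (c e : Bool) (j : Fin 4) (α γ a y : ℝ) (h : L ≤ |a| ∨ L ≤ |y|) :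
    wgt t L c e j α γ a y = 0 := by
  have : cut L a * cut L y = 0 := by
    rcases h with h | h <;> simp [cut, abs_clip_of_ge hL.le h, hL.ne']
  simp [wgt, this]

lemma fieldTerm_mkern {t L : ℝ} (hL : 1 ≤ L) (c e : Bool) (j : Fin 4) (α γ α' : ℝ) (p : Bool)
    (h a y : ℝ) {o : ℝ} (ho : |o| ≤ 1) (s : Bool) :
    fieldTerm (mkern (t := t) hL c e j α γ α' p) (par L c a y o s) h a y o =
      if s = c then part p (wgt t L c e j α γ a y * sfac o ⟨spin e, α'⟩ h a y) else 0 := by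
  have hL0 : 0 < L := zero_lt_one.trans_le hL
  unfold fieldTerm mkern kernOf par
  by_cases hs : s = c
  · simp only [if_pos hs, Matrix.cons_val_zero, Matrix.cons_val_one, Matrix.cons_val, wgt_clip hL0.le, clip_of_le ho]
    by_cases hin : |a| ≤ L ∧ |y| ≤ L
    · rw [clip_of_le hin.1, clip_of_le hin.2]
      have hr : ∀ (r : ℝ) (w : ℂ), r * part p w = part p ((r : ℂ) * w) := fun r w => by
        rw [← Complex.real_smul, map_smul, smul_eq_mul]
      rw [mul_comm (part p _) (h - a - o * Real.tanh (h + y)), hr, hr, ← map_sub]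
      congr 1
      simp only [ofReal_sub, ofReal_mul, sfac]
      have hst := Stein.tker_stein o ⟨spin e, α'⟩ y h a
      simp only [ofReal_sub] at hst
      linear_combination wgt t L c e j α γ a y * hst
    · have hz : wgt t L c e j α γ a y = 0 := by
        refine wgt_zero hL0 c e j α γ a y ?_
        rcases not_and_or.1 hin with hh | hh
        · exact Or.inl (le_of_lt (not_le.1 hh))
        · exact Or.inr (le_of_lt (not_le.1 hh))
      simp [hz]
  · simp [if_neg hs, wgt_zero hL0 c e j α γ L 0 (Or.inl (le_abs_self L))]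

/-- inside and outside the box the weight has the same formula -/
lemma wgt_eq {t L : ℝ} (ht : 0 < t) (hL : 0 < L) (c e : Bool) (j : Fin 4) (α γ a z : ℝ) :
    wgt t L c e j α γ a (obsY t c z) = ((cut L a * cut L (obsY t c z) * (Pfac j a z (obsY t c z) *
      Real.exp (spin e * (a + obsY t c z)) * Real.cosh (a + obsY t c z) / 2) : ℝ) : ℂ) * osc α γ a z := by
  have hz : (obsY t c z - t * spin c) / Real.sqrt t = z := by
    rw [obsY, add_sub_cancel_left, mul_div_cancel_left₀ _ (Real.sqrt_pos.2 ht).ne']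
  by_cases hin : |a| ≤ L ∧ |obsY t c z| ≤ L
  · rw [wgt, wBase, clip_of_le hin.1, clip_of_le hin.2, hz]
    push_cast; ring
  · have h0 : cut L a * cut L (obsY t c z) = 0 := by
      rcases not_and_or.1 hin with hh | hh <;>
        simp [cut, abs_clip_of_ge hL.le (le_of_lt (not_le.1 hh)), hL.ne']
    simp [wgt, h0]

/-- a polynomial in `tanh` -/
noncomputable def tpol (c₀ c₁ c₂ : ℂ) (T : ℝ) : ℂ := c₀ + c₁ * T + c₂ * ((1 - T ^ 2 : ℝ) : ℂ)

/-- oscillation times a polynomial in `tanh (h + y)` -/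
noncomputable def opol (t : ℝ) (c : Bool) (α γ : ℝ) (c₀ c₁ c₂ : ℂ) (h z : ℝ) : ℂ :=
  osc α γ h z * tpol c₀ c₁ c₂ (Real.tanh (h + obsY t c z))

/-- its constant -/
noncomputable def opolM (t α γ : ℝ) (c₀ c₁ c₂ : ℂ) : ℝ :=
  (‖c₀‖ + ‖c₁‖ + ‖c₂‖) * (1 + |α| + |γ|) + (‖c₁‖ + 2 * ‖c₂‖) * (1 + Real.sqrt t)

lemma tanh_lip (u v : ℝ) : |Real.tanh u - Real.tanh v| ≤ |u - v| := by
  have h := convex_univ.norm_image_sub_le_of_norm_hasDerivWithin_le (C := 1)
    (fun x _ => (hasDerivAt_tanh' x).hasDerivWithinAt) (fun x _ => by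
      rw [Real.norm_eq_abs, abs_le]
      have := tanh_sq_le_one x
      constructor <;> linarith [sq_nonneg (Real.tanh x)]) (Set.mem_univ v) (Set.mem_univ u)
  simpa using h

lemma norm_tpol_le (c₀ c₁ c₂ : ℂ) (u : ℝ) : ‖tpol c₀ c₁ c₂ (Real.tanh u)‖ ≤ ‖c₀‖ + ‖c₁‖ + ‖c₂‖ := by
  have h1 := tanh_sq_le_one u
  refine (norm_add₃_le).trans (add_le_add (add_le_add le_rfl ?_) ?_)
  · rw [norm_mul, norm_real]; exact mul_le_of_le_one_right (norm_nonneg _) (abs_tanh_le_one' u)
  · rw [norm_mul, norm_real, Real.norm_of_nonneg (by linarith)]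
    exact mul_le_of_le_one_right (norm_nonneg _) (by linarith [sq_nonneg (Real.tanh u)])

lemma opol_bdd (t : ℝ) (c : Bool) (α γ : ℝ) (c₀ c₁ c₂ : ℂ) (h z : ℝ) :
    ‖opol t c α γ c₀ c₁ c₂ h z‖ ≤ opolM t α γ c₀ c₁ c₂ := by
  rw [opol, norm_mul, norm_osc, one_mul]
  refine (norm_tpol_le c₀ c₁ c₂ _).trans ?_
  have h1 : 0 ≤ (‖c₁‖ + 2 * ‖c₂‖) * (1 + Real.sqrt t) := by positivity
  have h2 := le_mul_of_one_le_right (show 0 ≤ ‖c₀‖ + ‖c₁‖ + ‖c₂‖ by positivity)
    (show 1 ≤ 1 + |α| + |γ| by linarith [abs_nonneg α, abs_nonneg γ])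
  unfold opolM; linarith

lemma opol_lip (t : ℝ) (c : Bool) (α γ : ℝ) (c₀ c₁ c₂ : ℂ) (h z h' z' : ℝ) :
    ‖opol t c α γ c₀ c₁ c₂ h z - opol t c α γ c₀ c₁ c₂ h' z'‖ ≤
      opolM t α γ c₀ c₁ c₂ * (|h - h'| + |z - z'|) := by
  set D := |h - h'| + |z - z'|
  set u := h + obsY t c z
  set v := h' + obsY t c z'
  have hD : 0 ≤ D := by positivity
  have h1 : ‖osc α γ h z - osc α γ h' z'‖ ≤ (1 + |α| + |γ|) * D := by
    refine (norm_osc_sub _ _ _ _ _ _ _ _).trans ?_
    rw [show α * h + γ * z - (α * h' + γ * z') = α * (h - h') + γ * (z - z') by ring]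
    refine (abs_add_le _ _).trans ?_
    rw [abs_mul, abs_mul]
    simp only [D]
    nlinarith [abs_nonneg α, abs_nonneg γ, abs_nonneg (h - h'), abs_nonneg (z - z')]
  have huv : |u - v| ≤ (1 + Real.sqrt t) * D := by
    rw [show u - v = (h - h') + Real.sqrt t * (z - z') by simp only [u, v, obsY]; ring]
    refine (abs_add_le _ _).trans ?_
    rw [abs_mul, abs_of_nonneg (Real.sqrt_nonneg t)]
    simp only [D]
    nlinarith [abs_nonneg (h - h'), abs_nonneg (z - z'), Real.sqrt_nonneg t]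
  have hT := tanh_lip u v
  have hT2 : |(1 - Real.tanh u ^ 2) - (1 - Real.tanh v ^ 2)| ≤ 2 * |u - v| := by
    rw [show 1 - Real.tanh u ^ 2 - (1 - Real.tanh v ^ 2) = (Real.tanh v - Real.tanh u) * (Real.tanh v + Real.tanh u) by ring,
      abs_mul, abs_sub_comm, mul_comm (2:ℝ)]
    exact mul_le_mul hT ((abs_add_le _ _).trans (by linarith [abs_tanh_le_one' u, abs_tanh_le_one' v]))
      (abs_nonneg _) (abs_nonneg _)
  have h2 : ‖tpol c₀ c₁ c₂ (Real.tanh u) - tpol c₀ c₁ c₂ (Real.tanh v)‖ ≤ (‖c₁‖ + 2 * ‖c₂‖) * (1 + Real.sqrt t) * D := by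
    rw [tpol, tpol, show ∀ a b e f : ℂ, c₀ + c₁ * a + c₂ * b - (c₀ + c₁ * e + c₂ * f) = c₁ * (a - e) + c₂ * (b - f) from
      fun a b e f => by ring, ← ofReal_sub, ← ofReal_sub]
    refine (norm_add_le _ _).trans ?_
    rw [norm_mul, norm_mul, norm_real, norm_real, Real.norm_eq_abs, Real.norm_eq_abs]
    refine (add_le_add (mul_le_mul_of_nonneg_left (hT.trans huv) (norm_nonneg _))
      (mul_le_mul_of_nonneg_left (hT2.trans (mul_le_mul_of_nonneg_left huv zero_le_two)) (norm_nonneg _))).trans (le_of_eq ?_)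
    ring
  refine (norm_mul_sub_le _ _ _ _).trans ?_
  rw [norm_osc, one_mul]
  refine (add_le_add (mul_le_mul h1 (norm_tpol_le c₀ c₁ c₂ u) (norm_nonneg _) (by positivity)) h2).trans (le_of_eq ?_)
  unfold opolM; ring

/-- the field test `e^{i (α h + γ z)} (1 ± tanh (h + y)) / 2` -/
noncomputable def psiC (t : ℝ) (c e : Bool) (α γ : ℝ) : ℝ → ℝ → ℂ := opol t c α γ (1 / 2) ((spin e : ℂ) / 2) 0

/-- its derivative in the field -/
noncomputable def psiH (t : ℝ) (c e : Bool) (α γ : ℝ) : ℝ → ℝ → ℂ :=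
  opol t c α γ (I * α / 2) (I * α * spin e / 2) ((spin e : ℂ) / 2)

/-- its derivative in the noise -/
noncomputable def psiZ (t : ℝ) (c e : Bool) (α γ : ℝ) : ℝ → ℝ → ℂ :=
  opol t c α γ (I * γ / 2) (I * γ * spin e / 2) ((Real.sqrt t : ℂ) * spin e / 2)

lemma psiC_deriv (t : ℝ) (c e : Bool) (α γ h z : ℝ) :
    HasDerivAt (fun s => psiC t c e α γ s z) (psiH t c e α γ h z) h ∧
      HasDerivAt (fun s => psiC t c e α γ h s) (psiZ t c e α γ h z) z := by
  have hT : ∀ (g : ℝ → ℝ) (g' x : ℝ), HasDerivAt g g' x →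
      HasDerivAt (fun s => tpol (1 / 2) ((spin e : ℂ) / 2) 0 (Real.tanh (g s)))
        ((spin e : ℂ) / 2 * (((1 - Real.tanh (g x) ^ 2) * g' : ℝ) : ℂ)) x := fun g g' x hg => by
    simpa [tpol] using ((((hasDerivAt_tanh' (g x)).comp x hg).ofReal_comp).const_mul ((spin e : ℂ) / 2)).const_add (1 / 2)
  constructor
  · refine ((((((hasDerivAt_id h).const_mul α).add_const (γ * z)).ofReal_comp.mul_const I).cexp).mul
      (hT _ 1 h ((hasDerivAt_id h).add_const (obsY t c z)))).congr_deriv ?_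
    simp [psiH, opol, osc, tpol]; ring
  · refine ((((((hasDerivAt_id z).const_mul γ).const_add (α * h)).ofReal_comp.mul_const I).cexp).mul
      (hT _ (Real.sqrt t) z ((((hasDerivAt_id z).const_mul (Real.sqrt t)).const_add (t * spin c)).const_add h |>.congr_deriv
        (mul_one _)))).congr_deriv ?_
    simp [psiZ, opol, osc, tpol, obsY]; ring

lemma continuous_opol (t : ℝ) (c : Bool) (α γ : ℝ) (c₀ c₁ c₂ : ℂ) :
    Continuous fun p : ℝ × ℝ => opol t c α γ c₀ c₁ c₂ p.1 p.2 := by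
  have := continuous_tanh'
  unfold opol osc tpol obsY; fun_prop

/-- the channel test: real or imaginary part of `psiC` on the sites with observed spin `c` -/
noncomputable def mtest (t : ℝ) (c e : Bool) (α γ : ℝ) (p : Bool) : ChanTest where
  fn h z s := if s = c then part p (psiC t c e α γ h z) else 0
  dfn h z s := if s = c then part p (psiH t c e α γ h z) else 0
  zfn h z s := if s = c then part p (psiZ t c e α γ h z) else 0
  hasDeriv h z s := by
    split_ifs
    · exact (part p).hasFDerivAt.comp_hasDerivAt h (psiC_deriv t c e α γ h z).1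
    · exact hasDerivAt_const h 0
  hasDerivZ h z s := by
    split_ifs
    · exact (part p).hasFDerivAt.comp_hasDerivAt z (psiC_deriv t c e α γ h z).2
    · exact hasDerivAt_const z 0
  contZ h s := by
    split_ifs
    · exact (part p).continuous.comp ((continuous_opol ..).comp (Continuous.prodMk_right h))
    · exact continuous_const
  M := opolM t α γ (1 / 2) ((spin e : ℂ) / 2) 0 + opolM t α γ (I * α / 2) (I * α * spin e / 2) ((spin e : ℂ) / 2)
    + opolM t α γ (I * γ / 2) (I * γ * spin e / 2) ((Real.sqrt t : ℂ) * spin e / 2)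
  bdd h z s := by
    have h0 : ∀ c₀ c₁ c₂, 0 ≤ opolM t α γ c₀ c₁ c₂ := fun c₀ c₁ c₂ => by unfold opolM; positivity
    have h1 := h0 (1 / 2) ((spin e : ℂ) / 2) 0
    have h2 := h0 (I * α / 2) (I * α * spin e / 2) ((spin e : ℂ) / 2)
    have h3 := h0 (I * γ / 2) (I * γ * spin e / 2) ((Real.sqrt t : ℂ) * spin e / 2)
    split_ifs
    · exact ⟨((abs_part_le _ _).trans (opol_bdd ..)).trans (by linarith),
        ((abs_part_le _ _).trans (opol_bdd ..)).trans (by linarith),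
        ((abs_part_le _ _).trans (opol_bdd ..)).trans (by linarith)⟩
    · simp only [abs_zero]
      exact ⟨by linarith, by linarith, by linarith⟩
  lip h h' z z' s := by
    have h0 : ∀ c₀ c₁ c₂, 0 ≤ opolM t α γ c₀ c₁ c₂ := fun c₀ c₁ c₂ => by unfold opolM; positivity
    have h1 := h0 (1 / 2) ((spin e : ℂ) / 2) 0
    have h2 := h0 (I * α / 2) (I * α * spin e / 2) ((spin e : ℂ) / 2)
    have h3 := h0 (I * γ / 2) (I * γ * spin e / 2) ((Real.sqrt t : ℂ) * spin e / 2)
    have hD : 0 ≤ |h - h'| + |z - z'| := by positivity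
    split_ifs
    · simp only [← map_sub]
      exact ⟨((abs_part_le _ _).trans (opol_lip ..)).trans (mul_le_mul_of_nonneg_right (by linarith) hD),
        ((abs_part_le _ _).trans (opol_lip ..)).trans (mul_le_mul_of_nonneg_right (by linarith) hD)⟩
    · simp only [sub_self, abs_zero]
      exact ⟨mul_nonneg (by linarith) hD, mul_nonneg (by linarith) hD⟩

end Vale.Agent.P150.PA.MmseLaw
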