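import Vale.Agent.P150.PA.Tree

/-! The upper bound for the quadratic terms of the annealed exponent of the branching experiment, and the
set of nearly orthogonal outcomes. -/

namespace Vale.Agent.P150.PA

variable {n : ℕ} (S : Sched)

/-- an upper bound, on the nearly orthogonal outcomes, for all quadratic terms of the annealed exponent:
the random part is `quad` in the direction `σ² shiftDir`, the Gaussian and Jacobian parts are bounded by
a constant times `n P` there -/
noncomputable def qTot (β M : ℝ) (J : Fin n → Fin n → ℝ) (φ : Test n) (x : Cfg n) (z : Noise S n) (ω : Out S n) :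
    ℝ :=
  quad S x ω (fun i k => (β / Real.sqrt n) ^ 2 * shiftDir S J φ x z ω i k)
    + (20 * β ^ 2 + 80 * β ^ 4) * M ^ 2 * n * S.P

open Classical in
/-- the nearly orthogonal outcomes -/
noncomputable def orthSet (x : Cfg n) : Finset (Out S n) := Finset.univ.filter fun ω => Orth S x ω

end Vale.Agent.P150.PA
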