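import Vale.Agent.P150.PA.TreeJac
import Vale.Agent.P150.PA.Path
import Vale.Agent.P150.PA.TreeQTot

/-! The annealed inequality of the branching experiment: the exponential moment of `Λ` has disorder mean
at most one, and Jensen's inequality turns it into an upper bound on the mean of `Λ`. -/

open MeasureTheory Matrix

namespace Vale.Agent.P150.PA

open Fast.OpNorm Ising

variable {n : ℕ} (S : Sched)

lemma tw_ge (J : Fin n → Fin n → ℝ) (b : Fin n → ℝ) (x : Cfg n) (z : Noise S n) (ω : Out S n) :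
    0 ≤ tw' S J b x z ω :=
  Finset.prod_nonneg fun _ _ => Finset.prod_nonneg fun _ _ =>
    mul_nonneg (pw_nonneg J b _ _) (pw_nonneg J _ _ _)

lemma origin_cons (D R r Q : ℕ) (t : ℝ) (x : Cfg n) (a : Bool → Leg ⟨Q, D, R, r, t⟩ n)
    (ω : Out ⟨Q, D, R, r, t⟩ n) :
    ∀ p, origin ⟨Q + 1, D, R, r, t⟩ x (Fin.cons a ω) (p + 1) =
      origin ⟨Q, D, R, r, t⟩ (st x (a true).1 D) ω p
  | 0 => by simp [origin]
  | p + 1 => by
    rw [origin, origin_cons D R r Q t x a ω p, origin]
    by_cases h : p < Q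
    · rw [dif_pos (Nat.succ_lt_succ h), dif_pos h]
      rfl
    · rw [dif_neg (by simp only; omega), dif_neg h]

lemma sum_tw_aux (hn : 0 < n) (J : Fin n → Fin n → ℝ) (b : Fin n → ℝ) (D R r : ℕ) (t : ℝ) :
    ∀ (Q : ℕ) (x : Cfg n) (z : Noise ⟨Q, D, R, r, t⟩ n),
      ∑ ω : Out ⟨Q, D, R, r, t⟩ n, tw' ⟨Q, D, R, r, t⟩ J b x z ω = 1
  | 0, x, z => by
    show ∑ ω : Fin 0 → Bool → Leg ⟨0, D, R, r, t⟩ n, _ = _
    simp [tw']
  | Q + 1, x, z => by
    set z' : Noise ⟨Q, D, R, r, t⟩ n := fun q => z (Fin.succ q.1, q.2) with hz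
    set w : Bool → Leg ⟨Q, D, R, r, t⟩ n → ℝ := fun c l => pw J b x l.1 *
      pw J (fun i => b i + obsField t (st x l.1 D) (fun j => z (0, c, j)) i) (st x l.1 D) l.2 with hwdef
    have hw : ∀ c, ∑ l, w c l = 1 := fun c => by
      simp only [hwdef, Fintype.sum_prod_type, ← Finset.mul_sum, pw_sum J _ hn, mul_one]
    have e : ∀ a ω, tw' ⟨Q + 1, D, R, r, t⟩ J b x z (Fin.cons a ω) =
        (∏ c, w c (a c)) * tw' ⟨Q, D, R, r, t⟩ J b (st x (a true).1 D) z' ω := fun a ω => by
      simp only [tw']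
      rw [Fin.prod_univ_succ]
      congr 1
      refine Finset.prod_congr rfl fun p _ => Finset.prod_congr rfl fun c _ => ?_
      unfold tfield mid noise
      rw [Fin.val_succ, origin_cons]
      rfl
    rw [← (Fin.consEquiv fun _ : Fin (Q + 1) => Bool → Leg ⟨Q, D, R, r, t⟩ n).sum_comp,
      Fintype.sum_prod_type]
    show ∑ a, ∑ ω, tw' ⟨Q + 1, D, R, r, t⟩ J b x z (Fin.cons a ω) = 1
    simp only [e, ← Finset.mul_sum, sum_tw_aux hn J b D R r t Q, mul_one]
    rw [← Fintype.prod_sum]
    simp [hw]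

lemma sum_tw (hn : 0 < n) (J : Fin n → Fin n → ℝ) (b : Fin n → ℝ) (x : Cfg n) (z : Noise S n) :
    ∑ ω : Out S n, tw' S J b x z ω = 1 :=
  sum_tw_aux hn J b S.D S.R S.r S.t S.P x z

/-- the exponent -/
noncomputable def yExp (β M ε : ℝ) (g : Edge n → ℝ) (φ : Test n) (b : Fin n → ℝ) (x : Cfg n) (z : Noise S n)
    (ω : Out S n) : ℝ :=
  ε * lam S (cpl β g) φ x z ω b (β / Real.sqrt n) - ε ^ 2 * qTot S β M (cpl β g) φ x z ω

/-- the exponential moment of the experiment for a given disorder -/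
noncomputable def Phi (β M ε : ℝ) (g : Edge n → ℝ) (φ : Test n) (b : Fin n → ℝ) (x : Cfg n) : ℝ :=
  ∫ z, ∑ ω ∈ orthSet S x, tw' S (cpl β g) b x z ω * Real.exp (yExp S β M ε g φ b x z ω)
    ∂gauss (Fin S.P × Bool × Fin n)

variable (β M ε : ℝ) (φ : Test n) (b : Fin n → ℝ) (x : Cfg n) (z : Noise S n) (ω : Out S n) (g : Edge n → ℝ)

lemma Phi_nonneg : 0 ≤ Phi S β M ε g φ b x :=
  integral_nonneg fun _ => Finset.sum_nonneg fun _ _ => mul_nonneg (tw_ge S _ _ _ _ _) (Real.exp_pos _).le

/-! ### continuity -/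

lemma continuous_cpl (i j : Fin n) : Continuous fun g : Edge n → ℝ => cpl β g i j := by
  unfold cpl coupling; split_ifs <;> fun_prop

lemma continuous_tanh_tree : Continuous Real.tanh :=
  continuous_iff_continuousAt.2 fun a => (hasDerivAt_tanh' a).continuousAt

/-- the variables: noise, disorder and field -/
abbrev Vars (n : ℕ) := (Noise S n) × (Edge n → ℝ) × (Fin n → ℝ)

lemma continuous_pw' {N : ℕ} {X : Type*} [TopologicalSpace X] {G : X → Edge n → ℝ} {B : X → Fin n → ℝ}
    (hG : Continuous G) (hB : Continuous B) (y : Cfg n) (q : Path n N) :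
    Continuous fun a => pw (cpl β (G a)) (B a) y q := by
  unfold pw sp mag fld
  refine continuous_finsetProd _ fun k _ => ?_
  have hc := fun i j => (continuous_cpl (n := n) β i j).comp hG
  have ht := continuous_tanh_tree
  simp only [Function.comp_def] at hc
  fun_prop

lemma continuous_tfield (p : Fin S.P) (c : Bool) :
    Continuous fun q : Vars S n => tfield S q.2.2 x ω q.1 p c := by
  unfold tfield obsField noise; fun_prop

lemma continuous_tw' : Continuous fun q : Vars S n => tw' S (cpl β q.2.1) q.2.2 x q.1 ω := by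
  unfold tw'
  refine continuous_finsetProd _ fun p _ => continuous_finsetProd _ fun c _ => Continuous.mul ?_ ?_
  · exact continuous_pw' β (by fun_prop) (by fun_prop) _ _
  · exact continuous_pw' β (by fun_prop) (continuous_tfield S x ω p c) _ _

variable {φ M} (hφ : φ.Bdd M)
include hφ

lemma continuous_dpsi (p : Fin S.P) (i : Fin n) :
    Continuous fun q : Vars S n => dpsi S (cpl β q.2.1) φ x q.1 ω p i := by
  have h : ∀ c : Bool, Continuous fun q : Vars S n => val S (cpl β q.2.1) φ x q.1 ω p c i := fun c => by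
    refine (hφ.cont i (mid S x ω p c i)).1.comp (Continuous.prodMk ?_ (by fun_prop))
    have hc := fun j => (continuous_cpl (n := n) β i j)
    fun_prop
  exact (h true).sub (h false)

lemma continuous_shiftDir (i k : Fin n) :
    Continuous fun q : Vars S n => shiftDir S (cpl β q.2.1) φ x q.1 ω i k := by
  unfold shiftDir
  have h := continuous_dpsi S β x ω hφ
  split_ifs <;> fun_prop

lemma continuous_yExp : Continuous fun q : Vars S n => yExp S β M ε q.2.1 φ q.2.2 x q.1 ω := by
  have h1 := continuous_dpsi S β x ω hφ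
  have h2 := continuous_shiftDir S β x ω hφ
  have hc := fun i j => (continuous_cpl (n := n) β i j)
  have ht := continuous_tanh_tree
  have hf := fun p c => continuous_tfield S x ω p c
  have hd : ∀ p c i, Continuous fun q : Vars S n => dval S (cpl β q.2.1) φ x q.1 ω p c i := fun p c i => by
    refine (hφ.cont i (mid S x ω p c i)).2.comp (Continuous.prodMk ?_ (by fun_prop))
    fun_prop
  have hs : ∀ p c i, Continuous fun q : Vars S n => tfield S q.2.2 x ω q.1 p c i := fun p c i =>
    (continuous_apply i).comp (hf p c)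
  unfold yExp lam qTot quad segQuad score segScore divDir fld inc
  simp only [if_true, mag, fld]
  fun_prop

attribute [local irreducible] tw' lam qTot

omit hφ in
lemma tw'_exp_shift (v : Edge n → ℝ) :
    tw' S (cpl β g) b x z ω * Real.exp (score S (cpl β g) x z ω b (cpl β v) - quad S x ω (cpl β v))
      ≤ tw' S (cpl β (g + v)) b x z ω := by
  have hseg : ∀ {N : ℕ} (b' : Fin n → ℝ) (y : Cfg n) (q : Path n N),
      pw (cpl β g) b' y q * Real.exp (segScore (cpl β g) b' (cpl β v) y q - segQuad (cpl β v) y q)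
        ≤ pw (cpl β (g + v)) b' y q := fun {N} b' y q => by
    have h := pw_shift (cpl β g) (cpl β (g + v)) b' b' y q
    have e : shiftExp (cpl β g) (cpl β (g + v)) b' b' y q =
        segScore (cpl β g) b' (cpl β v) y q - segQuad (cpl β v) y q := by
      simp only [shiftExp, dfld, fld_cpl_shift, segScore, segQuad, Finset.sum_div, ← Finset.sum_sub_distrib]
      refine Finset.sum_congr rfl fun k _ => ?_
      simp [inc, fld]
    rwa [e] at h
  simp only [score, quad, tw', ← Finset.sum_sub_distrib, Real.exp_sum, ← Finset.prod_mul_distrib]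
  refine Finset.prod_le_prod (fun p _ => Finset.prod_nonneg fun c _ => ?_) fun p _ =>
    Finset.prod_le_prod (fun c _ => ?_) fun c _ => ?_
  iterate 2 exact mul_nonneg (mul_nonneg (pw_nonneg _ _ _ _) (pw_nonneg _ _ _ _)) (Real.exp_pos _).le
  rw [add_sub_add_comm, Real.exp_add, mul_mul_mul_comm]
  exact mul_le_mul (hseg _ _ _) (hseg _ _ _)
    (mul_nonneg (pw_nonneg _ _ _ _) (Real.exp_pos _).le) (pw_nonneg _ _ _ _)

omit hφ in
lemma cpl_smul_dirEdge (J : Fin n → Fin n → ℝ) :
    cpl β (ε • dirEdge S J φ x z ω (β / Real.sqrt n)) =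
      fun i k => ε * (β / Real.sqrt n) ^ 2 * shiftDir S J φ x z ω i k := by
  funext i k
  have hsym : shiftDir S J φ x z ω k i = shiftDir S J φ x z ω i k := by
    simp only [shiftDir, eq_comm (a := k), add_comm]
  simp only [cpl, coupling, Pi.smul_apply, smul_eq_mul, dirEdge]
  rcases lt_trichotomy i k with h | rfl | h
  · simp [h]; ring
  · simp [shiftDir]
  · simp [h, h.not_gt, hsym]; ring

omit hφ in
lemma score_const_mul (J W : Fin n → Fin n → ℝ) (a : ℝ) :
    score S J x z ω b (fun i k => a * W i k) = a * score S J x z ω b W ∧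
      quad S x ω (fun i k => a * W i k) = a ^ 2 * quad S x ω W := by
  constructor <;>
    simp only [score, quad, segScore, segQuad, fld, Pi.zero_apply, add_zero, mul_assoc, ← Finset.mul_sum,
      mul_left_comm _ a, mul_pow, mul_div_assoc, ← mul_add]

/-- the exponent is a lower bound for that of the translation by `ε • dirEdge` -/
lemma yExp_le (hn : 0 < n) (ho : Orth S x ω) :
    yExp S β M ε g φ b x z ω ≤
      score S (cpl β g) x z ω b (cpl β (ε • dirEdge S (cpl β g) φ x z ω (β / Real.sqrt n)))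
        - quad S x ω (cpl β (ε • dirEdge S (cpl β g) φ x z ω (β / Real.sqrt n)))
        + (-dot g (ε • dirEdge S (cpl β g) φ x z ω (β / Real.sqrt n))
            - nsq (ε • dirEdge S (cpl β g) φ x z ω (β / Real.sqrt n)) / 2
            + trace (ε • dirJac S β φ x z ω g) - fsq (ε • dirJac S β φ x z ω g)) := by
  have h1 := mul_le_mul_of_nonneg_left (nsq_dirEdge S β φ x z ω hφ hn ho (cpl β g)) (sq_nonneg ε)
  have h2 := mul_le_mul_of_nonneg_left (dirJac_fsq S β φ x z ω g hφ hn ho) (sq_nonneg ε)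
  have hq : quad S x ω (fun i k => (β / Real.sqrt n) ^ 2 * shiftDir S (cpl β g) φ x z ω i k) =
      ((β / Real.sqrt n) ^ 2) ^ 2 * quad S x ω (shiftDir S (cpl β g) φ x z ω) :=
    (score_const_mul S b x z ω (cpl β g) _ _).2
  rw [cpl_smul_dirEdge, (score_const_mul S b x z ω _ _ _).1, (score_const_mul S b x z ω (cpl β g) _ _).2,
    trace_smul, trace_dirJac, nsq_smul, fsq_smul, smul_eq_mul]
  have hd : dot g (ε • dirEdge S (cpl β g) φ x z ω (β / Real.sqrt n)) =
      ε * dot g (dirEdge S (cpl β g) φ x z ω (β / Real.sqrt n)) := by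
    simp [dot, Finset.mul_sum, mul_left_comm]
  rw [hd, dot_dirEdge, yExp, qTot, lam, hq]
  linarith

omit hφ in
lemma mem_orthSet : ω ∈ orthSet S x ↔ Orth S x ω := by simp [orthSet]

/-! ### the annealed inequality -/

/-- the annealed inequality for the experiment, for every field, start and bounded test -/
theorem tree_annealed (hn : 0 < n) (hε : |ε| * β ^ 2 * |M| * 9 * Real.sqrt S.P ≤ 1 / 2) :
    ∫⁻ g, ENNReal.ofReal (Phi S β M ε g φ b x) ∂disorder n ≤ 1 := by
  have hop : ε ^ 2 * (80 * β ^ 4 * M ^ 2 * S.P) ≤ 1 / 4 := by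
    have h := pow_le_pow_left₀ (by positivity) hε 2
    simp only [mul_pow, sq_abs, Real.sq_sqrt (Nat.cast_nonneg S.P)] at h
    nlinarith [mul_nonneg (mul_nonneg (sq_nonneg ε) (sq_nonneg (β ^ 2)))
      (mul_nonneg (sq_nonneg M) (Nat.cast_nonneg (α := ℝ) S.P))]
  have hC : Continuous fun q : Noise S n × (Edge n → ℝ) => ∑ ω ∈ orthSet S x,
      ENNReal.ofReal (tw' S (cpl β q.2) b x q.1 ω * Real.exp (yExp S β M ε q.2 φ b x q.1 ω)) := by
    have hm : Continuous fun q : Noise S n × (Edge n → ℝ) => ((q.1, q.2, b) : Vars S n) := by fun_prop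
    refine continuous_finsetSum _ fun ω _ => ?_
    have h1 := (continuous_tw' S β x ω).comp hm
    have h2 := Real.continuous_exp.comp ((continuous_yExp S β ε x ω hφ).comp hm)
    exact ENNReal.continuous_ofReal.comp (h1.mul h2)
  calc ∫⁻ g, ENNReal.ofReal (Phi S β M ε g φ b x) ∂disorder n
      ≤ ∫⁻ g, (∫⁻ z, ∑ ω ∈ orthSet S x, ENNReal.ofReal (tw' S (cpl β g) b x z ω *
          Real.exp (yExp S β M ε g φ b x z ω)) ∂gauss (Fin S.P × Bool × Fin n)) ∂gauss (Edge n) :=
        lintegral_mono fun g => ?_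
    _ = ∫⁻ z, (∫⁻ g, ∑ ω ∈ orthSet S x, ENNReal.ofReal (tw' S (cpl β g) b x z ω *
          Real.exp (yExp S β M ε g φ b x z ω)) ∂gauss (Edge n)) ∂gauss (Fin S.P × Bool × Fin n) :=
        (lintegral_lintegral_swap hC.measurable.aemeasurable).symm
    _ ≤ ∫⁻ _z, 1 ∂gauss (Fin S.P × Bool × Fin n) := lintegral_mono fun z => ?_
    _ = 1 := by simp
  · by_cases h : Integrable (fun z => ∑ ω ∈ orthSet S x, tw' S (cpl β g) b x z ω *
        Real.exp (yExp S β M ε g φ b x z ω)) (gauss (Fin S.P × Bool × Fin n))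
    · have h0 : ∀ z, ∀ ω ∈ orthSet S x, 0 ≤ tw' S (cpl β g) b x z ω * Real.exp (yExp S β M ε g φ b x z ω) :=
        fun z ω _ => mul_nonneg (tw_ge S _ _ _ _ _) (Real.exp_pos _).le
      rw [Phi, ofReal_integral_eq_lintegral_ofReal h
        (Filter.Eventually.of_forall fun z => Finset.sum_nonneg (h0 z))]
      exact lintegral_mono fun z => le_of_eq (ENNReal.ofReal_sum_of_nonneg (h0 z))
    · rw [Phi, integral_undef h]; simp
  · set V := fun ω => fun g => ε • dirEdge S (cpl β g) φ x z ω (β / Real.sqrt n)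
    set A := fun ω => fun g => ε • dirJac S β φ x z ω g
    set L := fun ω => fun g => yExp S β M ε g φ b x z ω
      - (-dot g (V ω g) - nsq (V ω g) / 2 + trace (A ω g) - fsq (A ω g))
    have e : ∀ ω g, aexp (L ω) (V ω) (A ω) g = yExp S β M ε g φ b x z ω := fun ω g => sub_add_cancel _ _
    have key := annealed_lintegral (p := fun g ω => tw' S (cpl β g) b x z ω) (O := orthSet S x)
      (V := V) (A := A) (L := L)
      (fun ω _ => ((continuous_tw' S β x ω).comp
        (continuous_const.prodMk (continuous_id.prodMk continuous_const))).measurable)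
      (fun g ω _ => tw_ge S _ _ _ _ _)
      (fun g => (Finset.sum_le_univ_sum_of_nonneg fun ω => tw_ge S _ _ _ _ _).trans_eq
        (sum_tw S hn _ _ _ _))
      (fun ω _ g => ((hasFDerivAt_dirEdge S β φ x z ω g).const_smul ε).congr_fderiv (by
        ext w i; simp [A]))
      (fun ω hω g w => by
        simp only [A, smul_mulVec, nsq_smul]
        refine (mul_le_mul_of_nonneg_left (dirJac_op S β φ x z ω g hφ hn ((mem_orthSet S x ω).1 hω) w)
          (sq_nonneg ε)).trans ?_
        rw [← mul_assoc]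
        exact mul_le_mul_of_nonneg_right hop (nsq_nonneg w))
      (fun ω hω g => by
        refine le_trans (mul_le_mul_of_nonneg_left (Real.exp_le_exp.2 ?_) (tw_ge S _ _ _ _ _))
          (tw'_exp_shift S β b x z ω g (V ω g))
        have := yExp_le S β ε b x z ω g hφ hn ((mem_orthSet S x ω).1 hω)
        simp only [L, V, A]
        linarith)
    simpa only [e] using key

/-- measurability of the exponential moment in disorder and field -/
theorem measurable_Phi :
    Measurable fun q : (Edge n → ℝ) × (Fin n → ℝ) => Phi S β M ε q.1 φ q.2 x := by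
  have h : Continuous fun q : ((Edge n → ℝ) × (Fin n → ℝ)) × Noise S n => ∑ ω ∈ orthSet S x,
      tw' S (cpl β q.1.1) q.1.2 x q.2 ω * Real.exp (yExp S β M ε q.1.1 φ q.1.2 x q.2 ω) := by
    have hm : Continuous fun q : ((Edge n → ℝ) × (Fin n → ℝ)) × Noise S n =>
        ((q.2, q.1.1, q.1.2) : Vars S n) := by fun_prop
    refine continuous_finsetSum _ fun ω _ => ?_
    have h1 := (continuous_tw' S β x ω).comp hm
    have h2 := Real.continuous_exp.comp ((continuous_yExp S β ε x ω hφ).comp hm)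
    exact h1.mul h2
  exact (h.stronglyMeasurable.integral_prod_right' (ν := gauss (Fin S.P × Bool × Fin n))).measurable

/-! ### Jensen -/

omit hφ in
lemma abs_spin_one (c : Bool) : |spin c| = 1 := by cases c <;> simp [spin]

omit hφ in
lemma abs_dspin_le' (p : Fin S.P) (i : Fin n) : |dspin S x ω p i| ≤ 2 := by
  refine (abs_sub _ _).trans ?_
  rw [abs_spin_one, abs_spin_one]; norm_num

omit hφ in
lemma abs_fld_le {W : Fin n → Fin n → ℝ} {w : ℝ} (h : ∀ i k, |W i k| ≤ w) (i : Fin n) (y : Cfg n) :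
    |fld W 0 i y| ≤ n * w := by
  simp only [fld, Pi.zero_apply, add_zero]
  refine (Finset.abs_sum_le_sum_abs _ _).trans ((Finset.sum_le_sum fun k _ => ?_).trans_eq
    (by simp : ∑ _k : Fin n, w = n * w))
  rw [abs_mul, abs_spin_one, mul_one]; exact h i k

lemma abs_dpsi_le' (J : Fin n → Fin n → ℝ) (p : Fin S.P) (i : Fin n) : |dpsi S J φ x z ω p i| ≤ 2 * M := by
  have h : ∀ c, |val S J φ x z ω p c i| ≤ M := fun c => hφ.fn_le _ _ _ _
  exact (abs_sub _ _).trans (by linarith [h true, h false])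

lemma abs_shiftDir_le' (J : Fin n → Fin n → ℝ) (i k : Fin n) :
    |shiftDir S J φ x z ω i k| ≤ 8 * M * S.P := by
  have hM : 0 ≤ M := (abs_nonneg _).trans (hφ.fn_le i 0 0 true)
  unfold shiftDir
  split
  · rw [abs_zero]; positivity
  · refine (Finset.abs_sum_le_sum_abs _ _).trans ((Finset.sum_le_sum fun p _ => ?_).trans_eq
      (by simp; ring : ∑ _p : Fin S.P, (8 * M : ℝ) = 8 * M * S.P))
    refine (abs_add_le _ _).trans ?_
    rw [abs_mul, abs_mul]
    have a := fun j => mul_le_mul (abs_dpsi_le' S x z ω hφ J p j) (abs_dspin_le' S x ω p (if j = i then k else i))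
      (abs_nonneg _) (by positivity)
    have a1 := a i; have a2 := a k
    rw [if_pos rfl] at a1
    by_cases hki : k = i
    · subst hki; rw [if_pos rfl] at a2; linarith
    · rw [if_neg hki] at a2; linarith

omit hφ in
lemma abs_inc_self_le (J : Fin n → Fin n → ℝ) (y : Cfg n) (m : Move n) : |inc J b y m m.1| ≤ 2 := by
  rw [inc, if_pos rfl]
  refine (abs_sub _ _).trans ?_
  rw [abs_spin_one, mag]
  linarith [tanh_abs_lt (fld J b m.1 y)]

variable {L τ : ℝ}

/-- on tame couplings `Λ` is of order `n` -/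
lemma abs_lam_le (hn : 0 < n) (hT : Tame (cpl β g) L) (hL : 0 ≤ L) (hτ : (S.D + S.R : ℕ) ≤ τ * n) :
    |lam S (cpl β g) φ x z ω b (β / Real.sqrt n)| ≤
      (4 * M * L * S.P + 4 * β ^ 2 * M * S.P + 32 * β ^ 2 * M * S.P ^ 2 * τ) * n := by
  have hM : 0 ≤ M := (abs_nonneg _).trans (hφ.fn_le ⟨0, hn⟩ 0 0 true)
  set J := cpl β g
  set σ2 := (β / Real.sqrt n) ^ 2
  have hσ : σ2 * n = β ^ 2 := sigma_sq β hn
  have hσ0 : 0 ≤ σ2 := sq_nonneg _
  have hJ : OpLe (Matrix.of J) L := by
    refine opLe_of_quad hL (Matrix.IsSymm.ext fun i j => hT.symm j i) fun v => ?_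
    refine le_trans (le_of_eq ?_) (hT.op v)
    simp only [dotProduct, mulVec, of_apply, Finset.mul_sum]
    congr 1
    exact Finset.sum_congr rfl fun i _ => Finset.sum_congr rfl fun j _ => by ring
  have hf : ∀ y, ∑ i, |fld J 0 i y| ≤ L * n := fun y => by
    have h := hJ.2 fun j => spin (y j)
    have e : nsq (Matrix.of J *ᵥ fun j => spin (y j)) = ∑ i, fld J 0 i y ^ 2 := by
      simp [nsq, fld, mulVec, dotProduct]
    have e2 : nsq (fun j => spin (y j)) = n := by simp [nsq, sq, spin_mul_self]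
    rw [e, e2] at h
    have hc := sq_sum_le_card_mul_sum_sq (s := Finset.univ) (f := fun i => |fld J 0 i y|)
    simp only [Finset.card_univ, Fintype.card_fin, sq_abs] at hc
    refine (pow_le_pow_iff_left₀ (by positivity) (by positivity) two_ne_zero).1 (hc.trans ?_)
    refine (mul_le_mul_of_nonneg_left h (Nat.cast_nonneg n)).trans_eq ?_
    ring
  have h1 : |∑ p : Fin S.P, ∑ i, dpsi S J φ x z ω p i *
      (fld J 0 i (leaf S x ω p true S.R) - fld J 0 i (leaf S x ω p false S.R))| ≤ 4 * M * L * S.P * n := by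
    refine (Finset.abs_sum_le_sum_abs _ _).trans ((Finset.sum_le_sum fun p _ => ?_).trans_eq
      (by simp; ring : ∑ _p : Fin S.P, 2 * M * (L * n + L * n) = 4 * M * L * S.P * n))
    refine (Finset.abs_sum_le_sum_abs _ _).trans ?_
    calc ∑ i, |dpsi S J φ x z ω p i * (fld J 0 i (leaf S x ω p true S.R) - fld J 0 i (leaf S x ω p false S.R))|
        ≤ ∑ i, 2 * M * (|fld J 0 i (leaf S x ω p true S.R)| + |fld J 0 i (leaf S x ω p false S.R)|) :=
          Finset.sum_le_sum fun i _ => by
            rw [abs_mul]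
            exact mul_le_mul (abs_dpsi_le' S x z ω hφ J p i) (abs_sub _ _) (abs_nonneg _) (by positivity)
      _ ≤ 2 * M * (L * n + L * n) := by
          rw [← Finset.mul_sum, Finset.sum_add_distrib]
          exact mul_le_mul_of_nonneg_left (add_le_add (hf _) (hf _)) (by positivity)
  have h2 : |σ2 * divDir S J φ x z ω| ≤ 4 * β ^ 2 * M * S.P * n := by
    rw [abs_mul, abs_of_nonneg hσ0]
    refine (mul_le_mul_of_nonneg_left (?_ : |divDir S J φ x z ω| ≤ 4 * M * S.P * n ^ 2) hσ0).trans_eq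
      (by rw [← hσ]; ring)
    refine (Finset.abs_sum_le_sum_abs _ _).trans ((Finset.sum_le_sum fun p _ => ?_).trans_eq
      (by simp; ring : ∑ _p : Fin S.P, ∑ _i : Fin n, ∑ _k : Fin n, (4 * M : ℝ) = 4 * M * S.P * n ^ 2))
    refine (Finset.abs_sum_le_sum_abs _ _).trans (Finset.sum_le_sum fun i _ => ?_)
    refine (Finset.abs_sum_le_sum_abs _ _).trans ((Finset.sum_le_sum fun k _ => ?_).trans
      (Finset.sum_le_sum_of_subset_of_nonneg (Finset.erase_subset _ _) fun _ _ _ => by positivity))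
    rw [abs_mul]
    refine (mul_le_mul ((abs_sub _ _).trans (add_le_add ?_ ?_)) (abs_dspin_le' S x ω p k) (abs_nonneg _)
      (by positivity : 0 ≤ M + M)).trans (by linarith)
    all_goals rw [abs_mul, abs_spin_one, mul_one, dval]; exact hφ.dfn_le _ _ _ _
  have h3 : |σ2 * score S J x z ω b (shiftDir S J φ x z ω)| ≤ 32 * β ^ 2 * M * S.P ^ 2 * τ * n := by
    have hseg : ∀ {N : ℕ} (b' : Fin n → ℝ) (y : Cfg n) (q : Path n N),
        |segScore J b' (shiftDir S J φ x z ω) y q| ≤ N * (16 * M * S.P * n) := fun {N} b' y q => by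
      refine (Finset.abs_sum_le_sum_abs _ _).trans ((Finset.sum_le_sum fun k _ => ?_).trans_eq
        (by simp : ∑ _k : Fin N, 16 * M * S.P * (n:ℝ) = N * (16 * M * S.P * n)))
      rw [abs_mul]
      refine (mul_le_mul (abs_inc_self_le _ J _ _) (abs_fld_le (abs_shiftDir_le' S x z ω hφ J) _ _) (abs_nonneg _)
        zero_le_two).trans_eq ?_
      ring
    have hs : |score S J x z ω b (shiftDir S J φ x z ω)| ≤ 32 * M * S.P ^ 2 * n * (τ * n) := by
      refine (Finset.abs_sum_le_sum_abs _ _).trans ((Finset.sum_le_sum fun p _ => ?_).trans_eq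
        (by simp; ring : ∑ _p : Fin S.P, ∑ _c : Bool, τ * n * (16 * M * S.P * n) =
          32 * M * S.P ^ 2 * n * (τ * n)))
      refine (Finset.abs_sum_le_sum_abs _ _).trans (Finset.sum_le_sum fun c _ => ?_)
      refine ((abs_add_le _ _).trans (add_le_add (hseg _ _ _) (hseg _ _ _))).trans ?_
      rw [← add_mul]
      push_cast at hτ
      exact mul_le_mul_of_nonneg_right hτ (by positivity)
    rw [abs_mul, abs_of_nonneg hσ0]
    refine (mul_le_mul_of_nonneg_left hs hσ0).trans_eq ?_
    rw [← hσ]; ring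
  rw [lam]
  refine (abs_add_le _ _).trans ((add_le_add ((abs_add_le _ _).trans
    (add_le_add ((abs_neg _).trans_le h1) h2)) h3).trans_eq ?_)
  ring

/-- boundedness of the quadratic part -/
lemma qTot_mem (J : Fin n → Fin n → ℝ) : 0 ≤ qTot S β M J φ x z ω ∧ qTot S β M J φ x z ω ≤
    S.P * (2 * ((S.D + S.R) * ((n * ((β / Real.sqrt n) ^ 2 * (8 * M * S.P))) ^ 2)))
      + (20 * β ^ 2 + 80 * β ^ 4) * M ^ 2 * n * S.P := by
  set W := fun i k => (β / Real.sqrt n) ^ 2 * shiftDir S J φ x z ω i k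
  have hW : ∀ i k, |W i k| ≤ (β / Real.sqrt n) ^ 2 * (8 * M * S.P) := fun i k => by
    simp only [W, abs_mul, abs_of_nonneg (sq_nonneg (β / Real.sqrt n))]
    exact mul_le_mul_of_nonneg_left (abs_shiftDir_le' S x z ω hφ J i k) (sq_nonneg _)
  have hseg : ∀ {N : ℕ} (y : Cfg n) (q : Path n N), 0 ≤ segQuad W y q ∧ segQuad W y q ≤
      N * ((n * ((β / Real.sqrt n) ^ 2 * (8 * M * S.P))) ^ 2) := fun {N} y q => by
    refine ⟨by unfold segQuad; positivity, (div_le_self (by positivity) one_le_two).trans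
      ((Finset.sum_le_sum fun k _ => ?_).trans_eq (by simp :
        ∑ _k : Fin N, ((n:ℝ) * ((β / Real.sqrt n) ^ 2 * (8 * M * S.P))) ^ 2 = _))⟩
    rw [← sq_abs]
    exact pow_le_pow_left₀ (abs_nonneg _) (abs_fld_le hW _ _) 2
  have hc : 0 ≤ (20 * β ^ 2 + 80 * β ^ 4) * M ^ 2 * n * S.P := by positivity
  rw [qTot, quad]
  refine ⟨add_nonneg (Finset.sum_nonneg fun p _ => Finset.sum_nonneg fun c _ =>
    add_nonneg (hseg _ _).1 (hseg _ _).1) hc, ?_⟩
  refine add_le_add ((Finset.sum_le_sum fun (p : Fin S.P) _ => Finset.sum_le_sum fun c _ =>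
    add_le_add (hseg (origin S x ω p) (ω p c).1).2 (hseg (mid S x ω p c) (ω p c).2).2).trans_eq
      (by simp; ring)) le_rfl

omit hφ in
open Classical in
lemma integrable_weighted (hn : 0 < n) (O : Finset (Out S n)) {F : Noise S n → Out S n → ℝ} {B : ℝ}
    (hc : ∀ ω, Continuous fun z => F z ω) (hB : ∀ z ω, |F z ω| ≤ B) :
    Integrable (fun z => ∑ ω ∈ O, tw' S (cpl β g) b x z ω * F z ω) (gauss (Fin S.P × Bool × Fin n)) := by
  have hm : Continuous fun z : Noise S n => ((z, g, b) : Vars S n) := by fun_prop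
  have hw : ∀ ω, Continuous fun z => tw' S (cpl β g) b x z ω := fun ω => (continuous_tw' S β x ω).comp hm
  refine Integrable.of_bound (C := B) (Continuous.aestronglyMeasurable
    (continuous_finsetSum _ fun ω _ => (hw ω).mul (hc ω))) ?_
  refine Filter.Eventually.of_forall fun z => ?_
  rw [Real.norm_eq_abs]
  have hB0 : 0 ≤ B := (abs_nonneg _).trans (hB z fun _ _ => (fun _ => (⟨0, hn⟩, true), fun _ => (⟨0, hn⟩, true)))
  refine (Finset.abs_sum_le_sum_abs _ _).trans ((Finset.sum_le_univ_sum_of_nonneg fun ω => abs_nonneg _).trans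
    ((Finset.sum_le_sum fun ω _ => ?_).trans_eq
      (by rw [← Finset.sum_mul, sum_tw S hn, one_mul] : ∑ ω, tw' S (cpl β g) b x z ω * B = B)))
  rw [abs_mul, abs_of_nonneg (tw_ge S _ _ _ _ _)]
  exact mul_le_mul_of_nonneg_left (hB z ω) (tw_ge S _ _ _ _ _)

/-- Jensen: the mean of `Λ` is controlled by the exponential moment, the mean quadratic part and the
probability of the outcomes that are not nearly orthogonal -/
theorem tree_jensen (hn : 0 < n) (hε : 0 ≤ ε) (hT : Tame (cpl β g) L) (hL : 0 ≤ L)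
    (hτ : (S.D + S.R : ℕ) ≤ τ * n) :
    ε * tex S (cpl β g) b x (fun z ω => lam S (cpl β g) φ x z ω b (β / Real.sqrt n)) ≤
      Real.log (max (Phi S β M ε g φ b x) 1) + 1
      + ε ^ 2 * tex S (cpl β g) b x (fun z ω => qTot S β M (cpl β g) φ x z ω)
      + ε * ((4 * M * L * S.P + 4 * β ^ 2 * M * S.P + 32 * β ^ 2 * M * S.P ^ 2 * τ) * n) *
          tex S (cpl β g) b x (fun _ ω => Set.indicator {ω | ¬ Orth S x ω} (fun _ => (1:ℝ)) ω) := by
  classical
  set J := cpl β g
  set Cl := (4 * M * L * S.P + 4 * β ^ 2 * M * S.P + 32 * β ^ 2 * M * S.P ^ 2 * τ) * n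
  set w := fun z ω => tw' S J b x z ω
  set l := fun z ω => lam S J φ x z ω b (β / Real.sqrt n)
  set q := fun z ω => qTot S β M J φ x z ω
  set Y := fun z ω => yExp S β M ε g φ b x z ω
  set E := Phi S β M ε g φ b x
  set c := Real.log (max E 1)
  obtain ⟨Bq, hBq⟩ : ∃ Bq, ∀ z ω, q z ω ≤ Bq := ⟨_, fun z ω => (qTot_mem S β x z ω hφ J).2⟩
  have hq0 : ∀ z ω, 0 ≤ q z ω := fun z ω => (qTot_mem S β x z ω hφ J).1
  have hl : ∀ z ω, |l z ω| ≤ Cl := fun z ω => abs_lam_le S β b x z ω g hφ hn hT hL hτ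
  have hm : Continuous fun z : Noise S n => ((z, g, b) : Vars S n) := by fun_prop
  have hcl : ∀ ω, Continuous fun z => l z ω := fun ω => by
    have h : Continuous fun z => yExp S β M 1 g φ b x z ω := (continuous_yExp S β 1 x ω hφ).comp hm
    have h' : Continuous fun z => yExp S β M (-1) g φ b x z ω := (continuous_yExp S β (-1) x ω hφ).comp hm
    refine ((h.sub h').div_const 2).congr fun z => ?_
    simp only [yExp, l, J, Pi.sub_apply]; ring
  have hcq : ∀ ω, Continuous fun z => q z ω := fun ω => by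
    have h : Continuous fun z => yExp S β M 1 g φ b x z ω := (continuous_yExp S β 1 x ω hφ).comp hm
    refine ((hcl ω).sub h).congr fun z => ?_
    simp only [yExp, l, q, J, Pi.sub_apply]; ring
  have hcY : ∀ ω, Continuous fun z => Y z ω := fun ω =>
    ((hcl ω).const_mul ε).sub ((hcq ω).const_mul (ε ^ 2))
  have hY : ∀ z ω, Y z ω ≤ ε * Cl := fun z ω => by
    have := mul_le_mul_of_nonneg_left (abs_le.1 (hl z ω)).2 hε
    have := mul_nonneg (sq_nonneg ε) (hq0 z ω)
    simp only [Y, yExp]; simp only [l, q] at *; linarith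
  set O := orthSet S x
  have iE : Integrable (fun z => ∑ ω ∈ O, w z ω * Real.exp (Y z ω)) (gauss (Fin S.P × Bool × Fin n)) :=
    integrable_weighted S β b x g hn O (B := Real.exp (ε * Cl))
      (fun ω => Real.continuous_exp.comp (hcY ω))
      fun z ω => by rw [abs_of_pos (Real.exp_pos _)]; exact Real.exp_le_exp.2 (hY z ω)
  have i1 : ∀ O', Integrable (fun z => ∑ ω ∈ O', w z ω * 1) (gauss (Fin S.P × Bool × Fin n)) := fun O' =>
    integrable_weighted S β b x g hn O' (B := 1) (fun ω => continuous_const) fun _ _ => by simp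
  have il : ∀ O', Integrable (fun z => ∑ ω ∈ O', w z ω * l z ω) (gauss (Fin S.P × Bool × Fin n)) := fun O' =>
    integrable_weighted S β b x g hn O' hcl hl
  have iq : ∀ O', Integrable (fun z => ∑ ω ∈ O', w z ω * q z ω) (gauss (Fin S.P × Bool × Fin n)) := fun O' =>
    integrable_weighted S β b x g hn O' (B := Bq) hcq fun z ω => by
      rw [abs_of_nonneg (hq0 z ω)]; exact hBq z ω
  have i1' := i1
  simp only [mul_one] at i1'
  -- pointwise
  have pt : ∀ z, ε * ∑ ω, w z ω * l z ω ≤
      (∑ ω ∈ O, w z ω * Real.exp (Y z ω)) * Real.exp (-c) + c * (∑ ω, w z ω) - (∑ ω ∈ O, w z ω)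
        + ε ^ 2 * ∑ ω, w z ω * q z ω
        + ε * Cl * ∑ ω, w z ω * Set.indicator {ω | ¬ Orth S x ω} (fun _ => (1:ℝ)) ω := fun z => by
    have hw : ∀ ω, 0 ≤ w z ω := fun ω => tw_ge S J b x z ω
    have hc0 : 0 ≤ c := Real.log_nonneg (le_max_right _ _)
    have e : ∀ f : Out S n → ℝ, ∑ ω ∈ O, f ω = ∑ ω, if Orth S x ω then f ω else 0 := fun f => by
      rw [← Finset.sum_filter]; congr 1
    rw [e, e]
    simp only [Finset.mul_sum, Finset.sum_mul, ← Finset.sum_add_distrib, ← Finset.sum_sub_distrib]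
    refine Finset.sum_le_sum fun ω _ => ?_
    by_cases ho : Orth S x ω
    · simp only [ho, if_true, Set.indicator_apply, Set.mem_ofPred_eq, not_true, if_false, mul_zero, add_zero]
      have h := mul_le_exp_lin (X := Y z ω) (hw ω) c
      simp only [Y, yExp] at h ⊢
      simp only [l, q]
      linarith
    · simp only [ho, if_false, Set.indicator_apply, Set.mem_ofPred_eq, not_false_eq_true, if_true, mul_one]
      have h := mul_le_mul_of_nonneg_left (abs_le.1 (hl z ω)).2 (mul_nonneg hε (hw ω))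
      have := mul_nonneg hc0 (hw ω)
      have := mul_nonneg (sq_nonneg ε) (mul_nonneg (hw ω) (hq0 z ω))
      linarith
  have ind : Integrable (fun z => ∑ ω, w z ω * Set.indicator {ω | ¬ Orth S x ω} (fun _ => (1:ℝ)) ω)
      (gauss (Fin S.P × Bool × Fin n)) :=
    integrable_weighted S β b x g hn Finset.univ (B := 1) (fun ω => continuous_const) fun _ ω => by
      by_cases ho : Orth S x ω <;> simp [ho]
  have ha := iE.mul_const (Real.exp (-c))
  have hb := ha.fun_add ((i1' Finset.univ).const_mul c)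
  have hc' : Integrable (fun z => ((∑ ω ∈ O, w z ω * Real.exp (Y z ω)) * Real.exp (-c) + c * ∑ ω, w z ω)
      - ∑ ω ∈ O, w z ω) (gauss (Fin S.P × Bool × Fin n)) := hb.sub (i1' O)
  have hd := hc'.fun_add ((iq Finset.univ).const_mul (ε ^ 2))
  have hi := integral_mono ((il Finset.univ).const_mul ε) (hd.fun_add (ind.const_mul (ε * Cl))) pt
  rw [integral_const_mul, integral_add hd (ind.const_mul _),
    integral_add hc' ((iq Finset.univ).const_mul _), integral_sub hb (i1' O),
    integral_add ha ((i1' Finset.univ).const_mul c), integral_mul_const] at hi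
  simp only [integral_const_mul] at hi
  have hone : ∫ z, ∑ ω, w z ω ∂gauss (Fin S.P × Bool × Fin n) = 1 := by simp [w, sum_tw S hn]
  have hEm : E * Real.exp (-c) ≤ 1 := by
    rw [Real.exp_neg, Real.exp_log (lt_of_lt_of_le one_pos (le_max_right _ _)), ← div_eq_mul_inv,
      div_le_one (lt_of_lt_of_le one_pos (le_max_right _ _))]
    exact le_max_left _ _
  have hO : 0 ≤ ∫ z, ∑ ω ∈ O, w z ω ∂gauss (Fin S.P × Bool × Fin n) :=
    integral_nonneg fun z => Finset.sum_nonneg fun ω _ => tw_ge S J b x z ω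
  rw [hone, mul_one] at hi
  have hPhi : E = ∫ z, ∑ ω ∈ O, w z ω * Real.exp (Y z ω) ∂gauss (Fin S.P × Bool × Fin n) := rfl
  rw [← hPhi] at hi
  simp only [tex]
  linarith

end Vale.Agent.P150.PA
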