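import Vale.Agent.P150.PA.Tree
import Vale.Agent.P150.PA.Annealed

/-! The shift of the disorder used in the branching experiment, as a function of the disorder: its
derivative, trace, operator norm and Frobenius norm on the nearly orthogonal outcomes, and the resulting
identity for the exponent of the translated likelihood. -/

open MeasureTheory Matrix

namespace Vale.Agent.P150.PA

open Fast.OpNorm Ising

variable {n : ℕ}

/-! ### sums over edges -/

lemma sum_coupling (g : Edge n → ℝ) (F : Fin n → Fin n → ℝ) :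
    ∑ i, ∑ k, coupling g i k * F i k = ∑ e : Edge n, g e * (F e.1.1 e.1.2 + F e.1.2 e.1.1) := by
  simp only [coupling_eq, add_mul, Finset.sum_add_distrib, mul_add]
  rw [sum_edge_eq g F, sum_edge_eq g fun a c => F c a]
  congr 1
  exact Finset.sum_comm

lemma sum_offdiag (F : Fin n → Fin n → ℝ) :
    ∑ i, ∑ k ∈ Finset.univ.erase i, F i k = ∑ e : Edge n, (F e.1.1 e.1.2 + F e.1.2 e.1.1) := by
  have h := sum_coupling (fun _ => 1) F
  simp only [one_mul] at h
  rw [← h]
  refine Finset.sum_congr rfl fun i _ => ?_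
  rw [← Finset.add_sum_erase _ _ (Finset.mem_univ i), coupling_self, zero_mul, zero_add]
  refine Finset.sum_congr rfl fun k hk => ?_
  have hki := Finset.ne_of_mem_erase hk
  simp only [coupling]
  rcases lt_or_gt_of_ne hki with h' | h' <;> simp [h', h'.not_gt]

lemma coupling_edge (g : Edge n → ℝ) (e : Edge n) :
    coupling g e.1.1 e.1.2 = g e ∧ coupling g e.1.2 e.1.1 = g e := by
  constructor <;> simp [coupling, e.2, e.2.not_gt]

lemma coupling_single (f : Edge n) (i j : Fin n) :
    coupling (Pi.single f (1 : ℝ)) i j =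
      (if i = f.1.1 ∧ j = f.1.2 then 1 else 0) + (if i = f.1.2 ∧ j = f.1.1 then 1 else 0) := by
  have e : ∀ a c : Fin n, upper (Pi.single f (1 : ℝ)) a c = if a = f.1.1 ∧ c = f.1.2 then 1 else 0 := by
    intro a c
    unfold upper
    by_cases h : a < c
    · simp only [h, dif_pos, Pi.single_apply]
      exact if_congr (by simp [Subtype.ext_iff, Prod.ext_iff]) rfl rfl
    · rw [dif_neg h, if_neg]
      rintro ⟨rfl, rfl⟩
      exact h f.2
  rw [coupling_eq, e, e]
  congr 1
  exact if_congr and_comm rfl rfl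

lemma fld_single (β : ℝ) (f : Edge n) (i : Fin n) (y : Cfg n) :
    fld (cpl β (Pi.single f (1 : ℝ))) 0 i y = β / Real.sqrt n *
      ((if i = f.1.1 then spin (y f.1.2) else 0) + if i = f.1.2 then spin (y f.1.1) else 0) := by
  simp only [fld, cpl, coupling_single, Pi.zero_apply, add_zero, mul_add, add_mul, ite_mul, zero_mul,
    mul_ite, mul_zero, mul_one, Finset.sum_add_distrib, ite_and]
  congr 1 <;> split_ifs <;> simp

lemma sum_coupling_sq (g : Edge n → ℝ) : ∑ i, ∑ k, coupling g i k ^ 2 = 2 * nsq g := by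
  simp only [sq]
  rw [sum_coupling g (coupling g), nsq, Finset.mul_sum]
  exact Finset.sum_congr rfl fun e _ => by rw [(coupling_edge g e).1, (coupling_edge g e).2]; ring

lemma sigma_sq (β : ℝ) (hn : 0 < n) : (β / Real.sqrt n) ^ 2 * n = β ^ 2 := by
  rw [div_pow, Real.sq_sqrt (Nat.cast_nonneg n)]
  field_simp

lemma nsq_fld_cpl (β : ℝ) (w : Edge n → ℝ) (y : Cfg n) :
    nsq (fun i => fld (cpl β w) 0 i y) ≤ 2 * β ^ 2 * nsq w := by
  rcases Nat.eq_zero_or_pos n with rfl | hn
  · simp [nsq]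
  · calc nsq (fun i => fld (cpl β w) 0 i y)
        ≤ ∑ i, (∑ j, cpl β w i j ^ 2) * ∑ j, spin (y j) ^ 2 := Finset.sum_le_sum fun i _ => by
          simpa [fld] using Finset.sum_mul_sq_le_sq_mul_sq Finset.univ (cpl β w i) (fun j => spin (y j))
      _ = (β / Real.sqrt n) ^ 2 * n * ∑ i, ∑ j, coupling w i j ^ 2 := by
          rw [Finset.mul_sum]
          refine Finset.sum_congr rfl fun i _ => ?_
          simp only [cpl, mul_pow, ← Finset.mul_sum]
          simp [sq, spin_mul_self]
          ring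
      _ = 2 * β ^ 2 * nsq w := by rw [sigma_sq β hn, sum_coupling_sq]; ring

/-! ### the symmetrised sum of nearly orthogonal tensors -/

lemma edge_tensor_le {P : ℕ} (u d : Fin P → Fin n → ℝ) (hd : ∀ p, nsq (d p) ≤ 4 * n)
    (ho : ∀ p q, p ≠ q → |∑ i, d p i * d q i| ≤ n / P) :
    ∑ e : Edge n, (∑ p, (u p e.1.1 * d p e.1.2 + u p e.1.2 * d p e.1.1)) ^ 2 ≤ 10 * n * ∑ p, nsq (u p) := by
  set T := fun i k => ∑ p, u p i * d p k with hT
  have h1 : ∀ e : Edge n, (∑ p, (u p e.1.1 * d p e.1.2 + u p e.1.2 * d p e.1.1)) ^ 2 ≤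
      2 * (T e.1.1 e.1.2 ^ 2 + T e.1.2 e.1.1 ^ 2) := fun e => by
    rw [Finset.sum_add_distrib]; exact add_sq_le
  refine (Finset.sum_le_sum fun e _ => h1 e).trans ?_
  rw [← Finset.mul_sum, ← sum_offdiag fun i k => T i k ^ 2]
  have h2 : ∑ i, ∑ k ∈ Finset.univ.erase i, T i k ^ 2 ≤ ∑ i, ∑ k, T i k ^ 2 :=
    Finset.sum_le_sum fun i _ => Finset.sum_le_sum_of_subset_of_nonneg (Finset.erase_subset _ _)
      fun _ _ _ => sq_nonneg _
  have h3 : ∑ i, ∑ k, T i k ^ 2 = ∑ p, ∑ q, (∑ i, u p i * u q i) * ∑ k, d p k * d q k := by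
    have rot : ∀ f : Fin n → Fin n → Fin P → ℝ, ∑ i, ∑ k, ∑ p, f i k p = ∑ p, ∑ i, ∑ k, f i k p := fun f => by
      rw [Finset.sum_congr rfl fun i _ => Finset.sum_comm, Finset.sum_comm]
    simp only [hT, sq]
    simp only [Finset.sum_mul]
    rw [rot]
    refine Finset.sum_congr rfl fun p _ => ?_
    simp only [Finset.mul_sum]
    rw [rot]
    exact Finset.sum_congr rfl fun q _ => Finset.sum_congr rfl fun i _ => Finset.sum_congr rfl fun k _ => by ring
  set B := fun p q : Fin P => if p = q then (4 * n : ℝ) else n / P with hB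
  have hB0 : ∀ p q, 0 ≤ B p q := fun p q => by simp only [hB]; split <;> positivity
  have h4 : ∀ p q, |∑ k, d p k * d q k| ≤ B p q := fun p q => by
    simp only [hB]
    split
    · next h =>
        subst h
        rw [abs_of_nonneg (Finset.sum_nonneg fun k _ => mul_self_nonneg _)]
        exact le_trans (le_of_eq (Finset.sum_congr rfl fun k _ => (sq (d p k)).symm)) (hd p)
    · next h => exact ho p q h
  have h5 : ∀ p q, (∑ i, u p i * u q i) * ∑ k, d p k * d q k ≤
      (nsq (u p) + nsq (u q)) / 2 * B p q := fun p q => by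
    refine (le_abs_self _).trans ?_
    rw [abs_mul]
    refine mul_le_mul ?_ (h4 p q) (abs_nonneg _) (by have := nsq_nonneg (u p); have := nsq_nonneg (u q); positivity)
    refine (Finset.abs_sum_le_sum_abs _ _).trans ?_
    simp only [nsq, ← Finset.sum_add_distrib, Finset.sum_div]
    exact Finset.sum_le_sum fun i _ => by
      rw [abs_mul]; nlinarith [sq_abs (u p i), sq_abs (u q i), sq_nonneg (|u p i| - |u q i|)]
  have h6 : ∀ p, ∑ q, B p q ≤ 5 * n := fun p => by
    have hP : (P:ℝ) ≠ 0 := Nat.cast_ne_zero.2 p.pos.ne'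
    have e : ∀ q, B p q ≤ (if p = q then (4 * n : ℝ) else 0) + n / P := fun q => by
      simp only [hB]
      split
      · linarith [show (0:ℝ) ≤ n / P by positivity]
      · linarith
    refine (Finset.sum_le_sum fun q _ => e q).trans (le_of_eq ?_)
    simp [Finset.sum_add_distrib]
    field_simp
    ring
  have h7 : ∑ p, ∑ q, (nsq (u p) + nsq (u q)) / 2 * B p q = ∑ p, nsq (u p) * ∑ q, B p q := by
    have hs : ∀ p q, B p q = B q p := fun p q => by simp only [hB, eq_comm]
    have e : ∀ p q, (nsq (u p) + nsq (u q)) / 2 * B p q =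
        nsq (u p) * B p q / 2 + nsq (u q) * B q p / 2 := fun p q => by rw [hs q p]; ring
    simp only [e, Finset.sum_add_distrib, Finset.mul_sum]
    rw [Finset.sum_comm (f := fun p q => nsq (u q) * B q p / 2), ← Finset.sum_add_distrib]
    exact Finset.sum_congr rfl fun p _ => by
      rw [← Finset.sum_add_distrib]; exact Finset.sum_congr rfl fun q _ => by ring
  calc 2 * ∑ i, ∑ k ∈ Finset.univ.erase i, T i k ^ 2
      ≤ 2 * ∑ p, ∑ q, (nsq (u p) + nsq (u q)) / 2 * B p q := by
        have := h2.trans (h3.le.trans (Finset.sum_le_sum fun p _ => Finset.sum_le_sum fun q _ => h5 p q))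
        linarith
    _ ≤ 2 * ∑ p, nsq (u p) * (5 * n) := by
        rw [h7]
        exact mul_le_mul_of_nonneg_left (Finset.sum_le_sum fun p _ =>
          mul_le_mul_of_nonneg_left (h6 p) (nsq_nonneg _)) zero_le_two
    _ = 10 * n * ∑ p, nsq (u p) := by rw [← Finset.sum_mul]; ring

/-! ### the derivative of the shift -/

variable (S : Sched) (β : ℝ) (φ : Test n) (x : Cfg n) (z : Noise S n) (ω : Out S n) (g : Edge n → ℝ)

/-- the field at `(i, y)` as a linear function of the disorder -/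
noncomputable def fLin (i : Fin n) (y : Cfg n) : (Edge n → ℝ) →ₗ[ℝ] ℝ where
  toFun w := fld (cpl β w) 0 i y
  map_add' v w := by simp only [fld, cpl_add, add_mul, Finset.sum_add_distrib, Pi.zero_apply, add_zero]
  map_smul' c w := by
    simp only [fld, cpl, coupling, Pi.zero_apply, add_zero, smul_eq_mul, RingHom.id_apply, Finset.mul_sum]
    refine Finset.sum_congr rfl fun j _ => ?_
    split_ifs <;> simp <;> ring

/-- derivative of the centred test in the disorder -/
noncomputable def dpsiLin (p : Fin S.P) (i : Fin n) : (Edge n → ℝ) →ₗ[ℝ] ℝ :=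
  dval S (cpl β g) φ x z ω p true i • fLin β i (leaf S x ω p true S.r)
    - dval S (cpl β g) φ x z ω p false i • fLin β i (leaf S x ω p false S.r)

/-- derivative of `dirEdge` in the disorder -/
noncomputable def dirLin : (Edge n → ℝ) →ₗ[ℝ] Edge n → ℝ :=
  LinearMap.pi fun e => (β / Real.sqrt n) • ∑ p : Fin S.P,
    (dspin S x ω p e.1.2 • dpsiLin S β φ x z ω g p e.1.1 + dspin S x ω p e.1.1 • dpsiLin S β φ x z ω g p e.1.2)

/-- its matrix -/
noncomputable def dirJac : Matrix (Edge n) (Edge n) ℝ := LinearMap.toMatrix' (dirLin S β φ x z ω g)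

lemma hasFDerivAt_dpsi (p : Fin S.P) (i : Fin n) :
    HasFDerivAt (fun h => dpsi S (cpl β h) φ x z ω p i)
      (LinearMap.toContinuousLinearMap (dpsiLin S β φ x z ω g p i)) g := by
  have h : ∀ c : Bool, HasFDerivAt (fun h => val S (cpl β h) φ x z ω p c i)
      (dval S (cpl β g) φ x z ω p c i •
        LinearMap.toContinuousLinearMap (fLin β i (leaf S x ω p c S.r))) g := fun c =>
    HasDerivAt.comp_hasFDerivAt (h₂ := fun s => φ.fn i s (noise S z p c i) (mid S x ω p c i)) g
      (φ.hasDeriv i _ _ _) (LinearMap.toContinuousLinearMap (fLin β i (leaf S x ω p c S.r))).hasFDerivAt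
  exact ((h true).sub (h false)).congr_fderiv (by ext w; simp [dpsiLin])

lemma shiftDir_edge (J : Fin n → Fin n → ℝ) (e : Edge n) : shiftDir S J φ x z ω e.1.1 e.1.2 =
    ∑ p, (dpsi S J φ x z ω p e.1.1 * dspin S x ω p e.1.2 + dpsi S J φ x z ω p e.1.2 * dspin S x ω p e.1.1) := by
  simp [shiftDir, e.2.ne]

lemma hasFDerivAt_dirEdge : HasFDerivAt (fun h => dirEdge S (cpl β h) φ x z ω (β / Real.sqrt n))
    (LinearMap.toContinuousLinearMap (toLin' (dirJac S β φ x z ω g))) g := by
  rw [dirJac, toLin'_toMatrix']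
  refine hasFDerivAt_pi'' fun e => ?_
  simp only [dirEdge, shiftDir_edge]
  refine ((HasFDerivAt.fun_sum fun p _ => ((hasFDerivAt_dpsi S β φ x z ω g p e.1.1).mul_const _).add
    ((hasFDerivAt_dpsi S β φ x z ω g p e.1.2).mul_const _)).const_mul _).congr_fderiv ?_
  ext w
  simp [dirLin]

lemma dval_edge (e : Edge n) (p : Fin S.P) :
    dpsiLin S β φ x z ω g p e.1.1 (Pi.single e 1) = β / Real.sqrt n *
        (dval S (cpl β g) φ x z ω p true e.1.1 * spin (leaf S x ω p true S.r e.1.2)
          - dval S (cpl β g) φ x z ω p false e.1.1 * spin (leaf S x ω p false S.r e.1.2)) ∧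
      dpsiLin S β φ x z ω g p e.1.2 (Pi.single e 1) = β / Real.sqrt n *
        (dval S (cpl β g) φ x z ω p true e.1.2 * spin (leaf S x ω p true S.r e.1.1)
          - dval S (cpl β g) φ x z ω p false e.1.2 * spin (leaf S x ω p false S.r e.1.1)) := by
  constructor <;> simp [dpsiLin, fLin, fld_single, e.2.ne, e.2.ne'] <;> ring

lemma trace_dirJac :
    trace (dirJac S β φ x z ω g) = (β / Real.sqrt n) ^ 2 * divDir S (cpl β g) φ x z ω := by
  simp only [trace, diag_apply, dirJac, LinearMap.toMatrix'_apply, divDir]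
  simp only [sum_offdiag]
  rw [Finset.sum_comm, Finset.mul_sum]
  refine Finset.sum_congr rfl fun e _ => ?_
  simp [dirLin, (dval_edge S β φ x z ω g e _).1, (dval_edge S β φ x z ω g e _).2, Finset.mul_sum]
  refine Finset.sum_congr rfl fun p _ => ?_
  ring

variable {M : ℝ} (hφ : φ.Bdd M)
include hφ

lemma nsq_dpsiLin (p : Fin S.P) (w : Edge n → ℝ) :
    nsq (fun i => dpsiLin S β φ x z ω g p i w) ≤
      2 * M ^ 2 * (nsq (fun i => fld (cpl β w) 0 i (leaf S x ω p true S.r))
        + nsq fun i => fld (cpl β w) 0 i (leaf S x ω p false S.r)) := by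
  simp only [nsq, ← Finset.sum_add_distrib, Finset.mul_sum]
  refine Finset.sum_le_sum fun i _ => ?_
  have h := fun c => sq_le_sq' (abs_le.1 (hφ.dfn_le i (fld (cpl β g) 0 i (leaf S x ω p c S.r))
    (noise S z p c i) (mid S x ω p c i))).1 (abs_le.1 (hφ.dfn_le i (fld (cpl β g) 0 i (leaf S x ω p c S.r))
    (noise S z p c i) (mid S x ω p c i))).2
  simp only [dpsiLin, LinearMap.sub_apply, LinearMap.smul_apply, smul_eq_mul, fLin, LinearMap.coe_mk,
    AddHom.coe_mk, dval]
  nlinarith [sq_nonneg (φ.dfn i (fld (cpl β g) 0 i (leaf S x ω p true S.r)) (noise S z p true i) (mid S x ω p true i)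
      * fld (cpl β w) 0 i (leaf S x ω p true S.r)
    + φ.dfn i (fld (cpl β g) 0 i (leaf S x ω p false S.r)) (noise S z p false i) (mid S x ω p false i)
      * fld (cpl β w) 0 i (leaf S x ω p false S.r)),
    mul_le_mul_of_nonneg_right (h true) (sq_nonneg (fld (cpl β w) 0 i (leaf S x ω p true S.r))),
    mul_le_mul_of_nonneg_right (h false) (sq_nonneg (fld (cpl β w) 0 i (leaf S x ω p false S.r)))]

omit hφ in
lemma nsq_dspin (p : Fin S.P) : nsq (dspin S x ω p) ≤ 4 * n := by
  refine (Finset.sum_le_sum fun i _ => ?_).trans (le_of_eq (by simp; ring) : ∑ _i : Fin n, (4:ℝ) ≤ _)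
  unfold dspin spin
  split <;> split <;> norm_num

omit hφ in
lemma nsq_dirLin (hn : 0 < n) (ho : Orth S x ω) (w : Edge n → ℝ) :
    nsq (dirLin S β φ x z ω g w) ≤ 10 * β ^ 2 * ∑ p, nsq (fun i => dpsiLin S β φ x z ω g p i w) := by
  have h := edge_tensor_le (fun p i => dpsiLin S β φ x z ω g p i w) (fun p => dspin S x ω p)
    (fun p => nsq_dspin S x ω p) ho
  calc nsq (dirLin S β φ x z ω g w) = (β / Real.sqrt n) ^ 2 * ∑ e : Edge n,
        (∑ p, (dpsiLin S β φ x z ω g p e.1.1 w * dspin S x ω p e.1.2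
          + dpsiLin S β φ x z ω g p e.1.2 w * dspin S x ω p e.1.1)) ^ 2 := by
        simp only [nsq, Finset.mul_sum]
        refine Finset.sum_congr rfl fun e _ => ?_
        simp only [dirLin, LinearMap.pi_apply, LinearMap.smul_apply, LinearMap.sum_apply, LinearMap.add_apply,
          smul_eq_mul, mul_pow, mul_comm (dspin S x ω _ _)]
    _ ≤ _ := (mul_le_mul_of_nonneg_left h (sq_nonneg _)).trans_eq (by rw [← sigma_sq β hn]; ring)

lemma dirJac_op (hn : 0 < n) (ho : Orth S x ω) (w : Edge n → ℝ) :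
    nsq (dirJac S β φ x z ω g *ᵥ w) ≤ 80 * β ^ 4 * M ^ 2 * S.P * nsq w := by
  rw [dirJac, LinearMap.toMatrix'_mulVec]
  refine (nsq_dirLin S β φ x z ω g hn ho w).trans ?_
  refine (mul_le_mul_of_nonneg_left (Finset.sum_le_sum fun p _ =>
    (nsq_dpsiLin S β φ x z ω g hφ p w).trans (mul_le_mul_of_nonneg_left
      (add_le_add (nsq_fld_cpl β w _) (nsq_fld_cpl β w _)) (by positivity))) (by positivity)).trans (le_of_eq ?_)
  simp
  ring

lemma dirJac_fsq (hn : 0 < n) (ho : Orth S x ω) :
    fsq (dirJac S β φ x z ω g) ≤ 80 * β ^ 4 * M ^ 2 * n * S.P := by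
  have hs : ∀ s : Bool, spin s ^ 2 = 1 := fun s => by rw [sq, spin_mul_self]
  have h1 : ∀ (f : Edge n) (y : Cfg n), nsq (fun i => fld (cpl β (Pi.single f (1:ℝ))) 0 i y) ≤
      2 * (β / Real.sqrt n) ^ 2 := fun f y => by
    have e : ∀ i, fld (cpl β (Pi.single f (1:ℝ))) 0 i y ^ 2 = (if i = f.1.1 then (β / Real.sqrt n) ^ 2 else 0)
        + if i = f.1.2 then (β / Real.sqrt n) ^ 2 else 0 := fun i => by
      rw [fld_single]
      by_cases a : i = f.1.1
      · subst a; simp [f.2.ne, mul_pow, hs]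
      · by_cases c : i = f.1.2 <;> simp [a, c, mul_pow, hs, f.2.ne']
    simp only [nsq, e, Finset.sum_add_distrib, Finset.sum_ite_eq', Finset.mem_univ, if_true]
    linarith
  have hc : (Fintype.card (Edge n) : ℝ) ≤ (n:ℝ) ^ 2 := by
    have := Fintype.card_subtype_le fun p : Fin n × Fin n => p.1 < p.2
    simp only [Fintype.card_prod, Fintype.card_fin] at this
    rw [sq]; exact_mod_cast this
  calc fsq (dirJac S β φ x z ω g) = ∑ f, nsq (dirLin S β φ x z ω g (Pi.single f 1)) := by
        rw [fsq, Finset.sum_comm]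
        exact Finset.sum_congr rfl fun f _ => Finset.sum_congr rfl fun e _ => by
          simp [dirJac, LinearMap.toMatrix'_apply]
    _ ≤ ∑ _f : Edge n, 10 * β ^ 2 * ((S.P:ℝ) * (2 * M ^ 2 * (2 * (β / Real.sqrt n) ^ 2 + 2 * (β / Real.sqrt n) ^ 2))) :=
        Finset.sum_le_sum fun f _ => (nsq_dirLin S β φ x z ω g hn ho _).trans <| mul_le_mul_of_nonneg_left
          (le_of_le_of_eq (Finset.sum_le_sum fun p _ => (nsq_dpsiLin S β φ x z ω g hφ p _).trans
            (mul_le_mul_of_nonneg_left (add_le_add (h1 f _) (h1 f _)) (by positivity))) (by simp)) (by positivity)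
    _ ≤ (n:ℝ) ^ 2 * (10 * β ^ 2 * ((S.P:ℝ) * (2 * M ^ 2 * (2 * (β / Real.sqrt n) ^ 2 + 2 * (β / Real.sqrt n) ^ 2)))) := by
        rw [Finset.sum_const, Finset.card_univ, nsmul_eq_mul]
        exact mul_le_mul_of_nonneg_right hc (by positivity)
    _ = 80 * β ^ 2 * M ^ 2 * n * S.P * ((β / Real.sqrt n) ^ 2 * n) := by ring
    _ = _ := by rw [sigma_sq β hn]; ring

lemma nsq_dpsi (J : Fin n → Fin n → ℝ) (p : Fin S.P) : nsq (dpsi S J φ x z ω p) ≤ 4 * M ^ 2 * n := by
  refine (Finset.sum_le_sum fun i _ => ?_).trans (le_of_eq (by simp; ring) : ∑ _i : Fin n, (2 * M) ^ 2 ≤ _)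
  have h1 := fun c => abs_le.1 (hφ.fn_le i (fld J 0 i (leaf S x ω p c S.r)) (noise S z p c i) (mid S x ω p c i))
  apply sq_le_sq' <;> simp only [dpsi, val] <;> linarith [h1 true, h1 false]

lemma nsq_dirEdge (hn : 0 < n) (ho : Orth S x ω) (J : Fin n → Fin n → ℝ) :
    nsq (dirEdge S J φ x z ω (β / Real.sqrt n)) ≤ 40 * β ^ 2 * M ^ 2 * n * S.P := by
  have h := edge_tensor_le (fun p => dpsi S J φ x z ω p) (fun p => dspin S x ω p)
    (fun p => nsq_dspin S x ω p) ho
  calc nsq (dirEdge S J φ x z ω (β / Real.sqrt n))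
      ≤ (β / Real.sqrt n) ^ 2 * (10 * n * ∑ _p : Fin S.P, 4 * M ^ 2 * n) := by
        rw [show nsq (dirEdge S J φ x z ω (β / Real.sqrt n)) = (β / Real.sqrt n) ^ 2 * ∑ e : Edge n,
            (∑ p, (dpsi S J φ x z ω p e.1.1 * dspin S x ω p e.1.2
              + dpsi S J φ x z ω p e.1.2 * dspin S x ω p e.1.1)) ^ 2 by
          simp only [nsq, dirEdge, shiftDir_edge, mul_pow]; rw [Finset.mul_sum]]
        refine mul_le_mul_of_nonneg_left (h.trans ?_) (sq_nonneg _)
        exact mul_le_mul_of_nonneg_left (Finset.sum_le_sum fun p _ => nsq_dpsi S φ x z ω hφ J p) (by positivity)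
    _ = _ := by rw [← sigma_sq β hn]; simp; ring

omit hφ in
lemma dot_dirEdge : dot g (dirEdge S (cpl β g) φ x z ω (β / Real.sqrt n)) =
    ∑ p : Fin S.P, ∑ i, dpsi S (cpl β g) φ x z ω p i *
      (fld (cpl β g) 0 i (leaf S x ω p true S.R) - fld (cpl β g) 0 i (leaf S x ω p false S.R)) := by
  have h := sum_coupling g fun i k => β / Real.sqrt n * ∑ p, dpsi S (cpl β g) φ x z ω p i * dspin S x ω p k
  simp only [dot, dirEdge, shiftDir_edge, Finset.sum_add_distrib, mul_add] at h ⊢
  rw [← h, eq_comm, Finset.sum_comm]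
  refine Finset.sum_congr rfl fun i _ => ?_
  simp only [fld, cpl, Pi.zero_apply, add_zero, ← Finset.sum_sub_distrib, Finset.mul_sum]
  rw [Finset.sum_comm]
  exact Finset.sum_congr rfl fun k _ => Finset.sum_congr rfl fun p _ => by simp only [dspin]; ring

end Vale.Agent.P150.PA
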