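import Vale.Agent.P150.PA.Path

/-! Tools for the quadratic part of the branching experiment: almost orthogonal families, and the
uniform law of the site of an attempt. -/

namespace Vale.Agent.P150.PA

open Ising Finset

variable {n : ℕ} {α : Type*}

/-- the vectors of `s` have squared length at most `A` and pairwise products at most `θ` -/
def AlmostOrth (s : Finset α) (w : α → Fin n → ℝ) (A θ : ℝ) : Prop :=
  (∀ p ∈ s, ∑ i, w p i ^ 2 ≤ A) ∧ ∀ p ∈ s, ∀ q ∈ s, p ≠ q → |∑ i, w p i * w q i| ≤ θ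

lemma AlmostOrth.mono {s t : Finset α} {w : α → Fin n → ℝ} {A θ : ℝ} (h : AlmostOrth t w A θ)
    (hst : s ⊆ t) : AlmostOrth s w A θ :=
  ⟨fun p hp => h.1 p (hst hp), fun p hp q hq => h.2 p (hst hp) q (hst hq)⟩

/-- almost orthogonal vectors: the squared norm of a combination -/
lemma gram_le {s : Finset α} {w : α → Fin n → ℝ} {A θ : ℝ} (h : AlmostOrth s w A θ) (hθ : 0 ≤ θ)
    (a : α → ℝ) :
    ∑ i, (∑ p ∈ s, a p * w p i) ^ 2 ≤ (A + s.card * θ) * ∑ p ∈ s, a p ^ 2 := by
  classical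
  have e : ∑ i, (∑ p ∈ s, a p * w p i) ^ 2 =
      ∑ p ∈ s, ∑ q ∈ s, a p * a q * ∑ i, w p i * w q i := by
    simp only [pow_two, sum_mul_sum]
    simp only [mul_sum]
    rw [sum_comm]
    refine sum_congr rfl fun p _ => ?_
    rw [sum_comm]
    exact sum_congr rfl fun q _ => sum_congr rfl fun i _ => by ring
  rw [e]
  calc ∑ p ∈ s, ∑ q ∈ s, a p * a q * ∑ i, w p i * w q i
      ≤ ∑ p ∈ s, ∑ q ∈ s, ((if p = q then A * a p ^ 2 else 0) + θ * ((a p ^ 2 + a q ^ 2) / 2)) := by
        refine sum_le_sum fun p hp => sum_le_sum fun q hq => ?_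
        by_cases hpq : p = q
        · subst hpq
          rw [if_pos rfl]
          have := mul_le_mul_of_nonneg_left (h.1 p hp) (mul_self_nonneg (a p))
          have e2 : ∑ i, w p i * w p i = ∑ i, w p i ^ 2 := sum_congr rfl fun i _ => (pow_two _).symm
          rw [e2]
          nlinarith [mul_nonneg hθ (sq_nonneg (a p))]
        · rw [if_neg hpq, zero_add]
          refine (le_abs_self _).trans ?_
          rw [abs_mul, mul_comm θ]
          refine mul_le_mul ?_ (h.2 p hp q hq hpq) (abs_nonneg _) (by positivity)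
          rw [abs_mul, ← sq_abs (a p), ← sq_abs (a q)]
          linarith [two_mul_le_add_sq |a p| |a q|]
    _ = (A + s.card * θ) * ∑ p ∈ s, a p ^ 2 := by
        simp only [sum_add_distrib, sum_ite_eq, ← mul_sum, ← Finset.sum_div]
        rw [sum_congr rfl (g := fun p => A * a p ^ 2) fun p hp => if_pos hp]
        simp only [sum_const, nsmul_eq_mul, ← mul_sum]
        ring

/-- almost orthogonal vectors: the sum of the squared projections -/
lemma proj_le {s : Finset α} {w : α → Fin n → ℝ} {A θ : ℝ} (h : AlmostOrth s w A θ) (hθ : 0 ≤ θ)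
    (hA : 0 ≤ A) (y : Fin n → ℝ) :
    ∑ p ∈ s, (∑ i, w p i * y i) ^ 2 ≤ (A + s.card * θ) * ∑ i, y i ^ 2 := by
  set a : α → ℝ := fun p => ∑ i, w p i * y i with ha
  set S := ∑ p ∈ s, a p ^ 2
  set c := A + s.card * θ
  have hc : 0 ≤ c := by positivity
  have hS : 0 ≤ S := sum_nonneg fun p _ => sq_nonneg _
  have e : S = ∑ i, (∑ p ∈ s, a p * w p i) * y i := by
    simp only [S, sum_mul]
    rw [sum_comm]
    refine sum_congr rfl fun p _ => ?_
    rw [pow_two]
    conv_lhs => arg 2; rw [ha]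
    rw [mul_sum]
    exact sum_congr rfl fun i _ => by ring
  have cs := Finset.sum_mul_sq_le_sq_mul_sq univ (fun i => ∑ p ∈ s, a p * w p i) y
  rw [← e] at cs
  have hY : 0 ≤ ∑ i, y i ^ 2 := sum_nonneg fun i _ => sq_nonneg _
  have h2 : S * S ≤ (c * ∑ i, y i ^ 2) * S := by
    rw [← pow_two]
    refine cs.trans ((mul_le_mul_of_nonneg_right (gram_le h hθ a) hY).trans_eq ?_)
    ring
  rcases hS.eq_or_lt with h0 | h0
  · rw [← h0]; positivity
  · exact le_of_mul_le_mul_right h2 h0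

/-- a sum of outer products -/
lemma outer_sq_le {s : Finset α} {d : α → Fin n → ℝ} {A B θ : ℝ} (hd : AlmostOrth s d A θ)
    (hθ : 0 ≤ θ) (hA : 0 ≤ A) {ι : Type*} [Fintype ι] (u : α → ι → ℝ)
    (hu : ∀ p ∈ s, ∑ j, u p j ^ 2 ≤ B) :
    ∑ j, ∑ k, (∑ p ∈ s, u p j * d p k) ^ 2 ≤ (A + s.card * θ) * (s.card * B) := by
  refine (sum_le_sum fun j _ => gram_le hd hθ fun p => u p j).trans ?_
  rw [← mul_sum, sum_comm]
  refine mul_le_mul_of_nonneg_left ((sum_le_sum hu).trans_eq ?_) (by positivity)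
  simp [sum_const, nsmul_eq_mul]

/-- the field of a sum of symmetrised outer products, averaged over sites -/
lemma sym_field_sq_le {s : Finset α} {u d : α → Fin n → ℝ} {A B θ : ℝ} (hu : AlmostOrth s u B θ)
    (hd : AlmostOrth s d A θ) (hθ : 0 ≤ θ) (hA : 0 ≤ A) (hB : 0 ≤ B) (y : Fin n → ℝ) :
    ∑ i, (∑ p ∈ s, (u p i * ∑ k, d p k * y k + d p i * ∑ k, u p k * y k)) ^ 2 ≤
      4 * (A + s.card * θ) * (B + s.card * θ) * ∑ k, y k ^ 2 := by
  have hcA : 0 ≤ A + s.card * θ := by positivity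
  have hcB : 0 ≤ B + s.card * θ := by positivity
  have h1 := (gram_le hu hθ fun p => ∑ k, d p k * y k).trans
    (mul_le_mul_of_nonneg_left (proj_le hd hθ hA y) hcB)
  have h2 := (gram_le hd hθ fun p => ∑ k, u p k * y k).trans
    (mul_le_mul_of_nonneg_left (proj_le hu hθ hB y) hcA)
  refine (sum_le_sum fun i _ => (?_ : _ ≤ 2 * (∑ p ∈ s, (∑ k, d p k * y k) * u p i) ^ 2
    + 2 * (∑ p ∈ s, (∑ k, u p k * y k) * d p i) ^ 2)).trans ?_
  · rw [sum_add_distrib]
    simp only [mul_comm (u _ i), mul_comm (d _ i)]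
    linarith [two_mul_le_add_sq (∑ p ∈ s, (∑ k, d p k * y k) * u p i)
      (∑ p ∈ s, (∑ k, u p k * y k) * d p i), add_sq (∑ p ∈ s, (∑ k, d p k * y k) * u p i)
      (∑ p ∈ s, (∑ k, u p k * y k) * d p i)]
  · rw [sum_add_distrib, ← mul_sum, ← mul_sum]
    linarith

variable (J : Fin n → Fin n → ℝ) (b : Fin n → ℝ)

/-- the site of an attempt is uniform given the past -/
theorem pex_site (hn : 0 < n) :
    ∀ {u N : ℕ} (hu : u < N) (x : Cfg n) (H : Cfg n → Fin n → ℝ) (G : Path n N → ℝ), Before u G →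
      pex J b x (fun ω => G ω * H (st x ω u) (ω ⟨u, hu⟩).1) =
        pex J b x (fun ω => G ω * ((∑ i, H (st x ω u) i) / n))
  | 0, N + 1, _, x, H, G, hG => by
    set g0 := G (fun _ => ((⟨0, hn⟩ : Fin n), true))
    have hc : ∀ ω, G ω = g0 := fun ω => hG ω _ fun l hl => absurd hl (Nat.not_lt_zero _)
    rw [pex_succ, pex_succ]
    simp only [hc, st, Fin.mk_zero, Fin.cons_zero, pex_const J b hn]
    rw [← Finset.sum_mul, step_sum J b hn, one_mul, Fintype.sum_prod_type, Finset.sum_div, mul_sum]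
    refine sum_congr rfl fun i _ => ?_
    rw [Fintype.sum_bool, ← add_mul, ← add_div, sp_sum]
    ring
  | u + 1, N + 1, hu, x, H, G, hG => by
    rw [pex_succ, pex_succ]
    refine sum_congr rfl fun m _ => ?_
    have e : ∀ ω : Path n N, (Fin.cons m ω : Path n (N + 1)) ⟨u + 1, hu⟩ = ω ⟨u, by omega⟩ :=
      fun ω => Fin.cons_succ (α := fun _ => Move n) m ω ⟨u, by omega⟩
    simp only [st_succ_cons, e]
    rw [pex_site hn (by omega : u < N) _ H _ (hG.cons m)]

end Vale.Agent.P150.PA
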