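import Vale.Agent.P150.PA.Tree
import Vale.Agent.P150.PA.TreeQuadAlg

/-! Deterministic bounds on the shift direction of the branching experiment. -/

namespace Vale.Agent.P150.PA

open Ising Finset

variable {n : ℕ} (S : Sched) (J : Fin n → Fin n → ℝ) (φ : Test n) (x : Cfg n) (z : Noise S n)
  (ω : Out S n) {M : ℝ}

/-- the centred tests of distinct periods of `s` are nearly orthogonal -/
def OrthOn (s : Finset (Fin S.P)) (M : ℝ) : Prop :=
  AlmostOrth s (dpsi S J φ x z ω) (4 * M ^ 2 * n) (n / S.P) ∧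
    AlmostOrth s (fun p i => dspin S x ω p i) (4 * n) (n / S.P)

lemma abs_dspin_le (p : Fin S.P) (i : Fin n) : |dspin S x ω p i| ≤ 2 := by
  unfold dspin spin
  split_ifs <;> norm_num

lemma dspin_sq_sum_le (p : Fin S.P) : ∑ i, dspin S x ω p i ^ 2 ≤ 4 * n := by
  refine (sum_le_sum fun i _ => (?_ : _ ≤ (4 : ℝ))).trans (le_of_eq (by simp [mul_comm]))
  rw [← sq_abs]
  nlinarith [abs_dspin_le S x ω p i, abs_nonneg (dspin S x ω p i)]

variable {φ}

lemma abs_dpsi_le (hφ : φ.Bdd M) (p : Fin S.P) (i : Fin n) : |dpsi S J φ x z ω p i| ≤ 2 * M := by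
  refine (abs_sub _ _).trans ?_
  rw [two_mul]
  exact add_le_add (hφ.fn_le _ _ _ _) (hφ.fn_le _ _ _ _)

lemma dpsi_sq_le (hφ : φ.Bdd M) (p : Fin S.P) (i : Fin n) : dpsi S J φ x z ω p i ^ 2 ≤ 4 * M ^ 2 := by
  rw [← sq_abs]
  exact (pow_le_pow_left₀ (abs_nonneg _) (abs_dpsi_le S J x z ω hφ p i) 2).trans_eq (by ring)

lemma dpsi_sq_sum_le (hφ : φ.Bdd M) (p : Fin S.P) :
    ∑ i, dpsi S J φ x z ω p i ^ 2 ≤ 4 * M ^ 2 * n :=
  (sum_le_sum fun i _ => dpsi_sq_le S J x z ω hφ p i).trans_eq (by simp [mul_comm])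

lemma orth_almost (h : Orth S x ω) :
    AlmostOrth (univ : Finset (Fin S.P)) (fun p i => dspin S x ω p i) (4 * n) (n / S.P) :=
  ⟨fun p _ => dspin_sq_sum_le S x ω p, fun p _ q _ hpq => h p q hpq⟩

lemma card_theta (s : Finset (Fin S.P)) : (s.card : ℝ) * ((n : ℝ) / S.P) ≤ n := by
  rcases Nat.eq_zero_or_pos S.P with h | h
  · simp [h]
  · have hP : (0 : ℝ) < S.P := by exact_mod_cast h
    have : (s.card : ℝ) ≤ S.P := by exact_mod_cast (card_le_univ s).trans_eq (Fintype.card_fin _)
    rw [mul_div_assoc', div_le_iff₀ hP, mul_comm (n : ℝ)]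
    exact mul_le_mul_of_nonneg_right this (Nat.cast_nonneg n)

/-- the crude bound on the shift direction -/
theorem abs_shiftDir_le (hφ : φ.Bdd M) (i k : Fin n) :
    |shiftDir S J φ x z ω i k| ≤ 8 * M * S.P := by
  have hM : 0 ≤ M := (abs_nonneg _).trans (hφ.fn_le i 0 0 true)
  unfold shiftDir
  split_ifs
  · rw [abs_zero]; positivity
  · refine (abs_sum_le_sum_abs _ _).trans ((sum_le_sum fun p _ => (?_ : _ ≤ 8 * M)).trans_eq
      (by simp [mul_comm]))
    refine (abs_add_le _ _).trans ?_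
    rw [abs_mul, abs_mul]
    have := mul_le_mul (abs_dpsi_le S J x z ω hφ p i) (abs_dspin_le S x ω p k) (abs_nonneg _)
      (by positivity)
    have := mul_le_mul (abs_dpsi_le S J x z ω hφ p k) (abs_dspin_le S x ω p i) (abs_nonneg _)
      (by positivity)
    linarith

/-- the field of the shift at `y`, as a sum over periods -/
lemma fld_shiftDir (i : Fin n) (y : Cfg n) :
    fld (shiftDir S J φ x z ω) 0 i y =
      (∑ p, (dpsi S J φ x z ω p i * ∑ k, dspin S x ω p k * spin (y k)
        + dspin S x ω p i * ∑ k, dpsi S J φ x z ω p k * spin (y k)))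
      - 2 * (∑ p, dpsi S J φ x z ω p i * dspin S x ω p i) * spin (y i) := by
  set u := dpsi S J φ x z ω
  set d : Fin S.P → Fin n → ℝ := fun p i => dspin S x ω p i with hd
  have e : ∀ k, shiftDir S J φ x z ω i k * spin (y k) =
      (∑ p, (u p i * d p k + u p k * d p i)) * spin (y k)
        - if i = k then (∑ p, (u p i * d p i + u p i * d p i)) * spin (y i) else 0 := by
    intro k
    unfold shiftDir
    split_ifs with hik
    · subst hik; ring
    · ring
  simp only [fld, Pi.zero_apply, add_zero, e, sum_sub_distrib, sum_ite_eq, mem_univ, if_true]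
  congr 1
  · simp only [mul_sum, sum_mul, ← sum_add_distrib]
    rw [sum_comm]
    exact sum_congr rfl fun p _ => sum_congr rfl fun k _ => by ring
  · simp only [mul_sum, sum_mul]
    exact sum_congr rfl fun p _ => by ring

/-- periods of an orthogonal set, averaged over sites -/
theorem past_field_sq_le {s : Finset (Fin S.P)} (h : OrthOn S J φ x z ω s M) (y : Cfg n) :
    ∑ i, (∑ p ∈ s, (dpsi S J φ x z ω p i * ∑ k, dspin S x ω p k * spin (y k)
        + dspin S x ω p i * ∑ k, dpsi S J φ x z ω p k * spin (y k))) ^ 2 ≤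
      20 * (4 * M ^ 2 + 1) * n ^ 3 := by
  have hc := card_theta (n := n) S s
  have h0 : (0:ℝ) ≤ (n:ℝ) / S.P := by positivity
  refine (sym_field_sq_le h.1 h.2 h0 (by positivity) (by positivity) fun k => spin (y k)).trans ?_
  have e : ∑ k, spin (y k) ^ 2 = (n:ℝ) := by simp [pow_two, spin_mul_self]
  rw [e]
  refine (mul_le_mul_of_nonneg_right (mul_le_mul (mul_le_mul_of_nonneg_left (add_le_add le_rfl hc)
    (by norm_num : (0:ℝ) ≤ 4)) (add_le_add le_rfl hc) (by positivity) (by positivity))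
    (Nat.cast_nonneg n)).trans_eq ?_
  ring

end Vale.Agent.P150.PA
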