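import Vale.Agent.P150.PA.TreeQuadDet

/-! One attempt of the branching experiment in the quadratic part: its site and configuration, the
uniform law of the site, and the splitting of the shift field by periods. -/

open MeasureTheory

namespace Vale.Agent.P150.PA

open Ising Finset

variable {n : ℕ} (S : Sched) (J : Fin n → Fin n → ℝ) (b : Fin n → ℝ)

/-- the site of the attempt `k` of a copy -/
def csite (a : Copy S n) (k : Fin (S.D + S.R)) : Fin n :=
  if h : (k : ℕ) < S.D then (a.2.1 ⟨k, h⟩).1 else (a.2.2 ⟨(k : ℕ) - S.D, by have := k.2; omega⟩).1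

lemma cpos_castAdd (F : Cfg n) (a : Copy S n) (k : Fin S.D) :
    cpos S F a (Fin.castAdd S.R k : ℕ) = st F a.2.1 k := by
  simp [cpos, k.2.le]

lemma cpos_natAdd (F : Cfg n) (a : Copy S n) (k : Fin S.R) :
    cpos S F a (Fin.natAdd S.D k : ℕ) = st (st F a.2.1 S.D) a.2.2 k := by
  simp only [cpos, Fin.val_natAdd, Nat.add_sub_cancel_left]
  split_ifs with h
  · have : (k : ℕ) = 0 := by omega
    rw [this, Nat.add_zero]; rfl
  · rfl

lemma csite_castAdd (a : Copy S n) (k : Fin S.D) : csite S a (Fin.castAdd S.R k) = (a.2.1 k).1 := by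
  simp [csite, k.2]

lemma csite_natAdd (a : Copy S n) (k : Fin S.R) : csite S a (Fin.natAdd S.D k) = (a.2.2 k).1 := by
  simp [csite]

/-- the quadratic part as a sum over the attempts of the copies -/
lemma quad_eq (x : Cfg n) (z : Noise S n) (ω : Out S n) (W : Fin n → Fin n → ℝ) :
    quad S x ω W = ∑ p : Fin S.P, ∑ c : Bool, ∑ k : Fin (S.D + S.R),
      fld W 0 (csite S (copy S z ω p c) k) (cpos S (origin S x ω p) (copy S z ω p c) k) ^ 2 / 2 := by
  refine sum_congr rfl fun p _ => sum_congr rfl fun c _ => ?_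
  rw [Fin.sum_univ_add]
  simp only [cpos_castAdd, cpos_natAdd, csite_castAdd, csite_natAdd]
  simp only [segQuad, copy, mid, sum_div]

/-- the site of an attempt of a copy is uniform given its configuration -/
theorem lex_site (hn : 0 < n) (F : Cfg n) (k : Fin (S.D + S.R)) (H : Cfg n → Fin n → ℝ) :
    lex S J b F (fun a => H (cpos S F a k) (csite S a k)) =
      lex S J b F (fun a => (∑ i, H (cpos S F a k) i) / n) := by
  unfold lex
  refine integral_congr_ae (Filter.Eventually.of_forall fun u => ?_)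
  simp only [Fintype.sum_prod_type]
  refine Fin.addCases (fun j => ?_) (fun j => ?_) k
  · simp only [cpos_castAdd, csite_castAdd]
    have h := pex_site J b hn j.2 F H (fun _ => 1) fun _ _ _ => rfl
    simp only [pex, one_mul] at h
    refine (sum_congr rfl fun l _ => ?_).trans (h.trans (sum_congr rfl fun l _ => ?_).symm)
    · rw [← sum_mul, ← mul_sum, pw_sum J _ hn, mul_one]
    · rw [← sum_mul, ← mul_sum, pw_sum J _ hn, mul_one]
  · simp only [cpos_natAdd, csite_natAdd]
    refine sum_congr rfl fun l _ => ?_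
    simp only [mul_assoc, ← mul_sum]
    congr 1
    have h := pex_site J (fun i => b i + obsField S.t (st F l S.D) u i) hn j.2 (st F l S.D) H
      (fun _ => 1) fun _ _ _ => rfl
    simpa only [pex, one_mul] using h

variable (φ : Test n) (x : Cfg n) (z : Noise S n) (ω : Out S n) {M : ℝ}

/-- the field of the shift seen from the periods of `s` -/
noncomputable def partField (s : Finset (Fin S.P)) (i : Fin n) (y : Cfg n) : ℝ :=
  ∑ p ∈ s, (dpsi S J φ x z ω p i * ∑ k, dspin S x ω p k * spin (y k)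
    + dspin S x ω p i * ∑ k, dpsi S J φ x z ω p k * spin (y k))

/-- the squared products of the centred vectors of two periods -/
noncomputable def crossSq (p p' : Fin S.P) : ℝ :=
  (∑ i, dpsi S J φ x z ω p i * dpsi S J φ x z ω p' i) ^ 2
    + (∑ i, dspin S x ω p i * dspin S x ω p' i) ^ 2

lemma crossSq_nonneg (p p' : Fin S.P) : 0 ≤ crossSq S J φ x z ω p p' :=
  add_nonneg (sq_nonneg _) (sq_nonneg _)

/-- the squared products of a period with a configuration -/
noncomputable def projSq (p : Fin S.P) (y : Cfg n) : ℝ :=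
  (∑ k, dpsi S J φ x z ω p k * spin (y k)) ^ 2 + (∑ k, dspin S x ω p k * spin (y k)) ^ 2

variable {φ}

lemma abs_partTerm_le (hφ : φ.Bdd M) (p : Fin S.P) (i : Fin n) (y : Cfg n) :
    |dpsi S J φ x z ω p i * ∑ k, dspin S x ω p k * spin (y k)
      + dspin S x ω p i * ∑ k, dpsi S J φ x z ω p k * spin (y k)| ≤ 8 * M * n := by
  have hM : 0 ≤ M := (abs_nonneg _).trans (hφ.fn_le i 0 0 true)
  have hs : ∀ k, |spin (y k)| = 1 := fun k => by unfold spin; split_ifs <;> simp
  have h1 : |∑ k, dspin S x ω p k * spin (y k)| ≤ 2 * n := by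
    refine (abs_sum_le_sum_abs _ _).trans ((sum_le_sum fun k _ => ?_).trans_eq (by simp [mul_comm] :
      ∑ _k : Fin n, (2:ℝ) = 2 * n))
    rw [abs_mul, hs, mul_one]; exact abs_dspin_le S x ω p k
  have h2 : |∑ k, dpsi S J φ x z ω p k * spin (y k)| ≤ 2 * M * n := by
    refine (abs_sum_le_sum_abs _ _).trans ((sum_le_sum fun k _ => ?_).trans_eq (by simp [mul_comm] :
      ∑ _k : Fin n, (2 * M) = 2 * M * n))
    rw [abs_mul, hs, mul_one]; exact abs_dpsi_le S J x z ω hφ p k
  refine (abs_add_le _ _).trans ?_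
  rw [abs_mul, abs_mul]
  have := mul_le_mul (abs_dpsi_le S J x z ω hφ p i) h1 (abs_nonneg _) (by positivity)
  have := mul_le_mul (abs_dspin_le S x ω p i) h2 (abs_nonneg _) (by positivity)
  linarith

/-- splitting of the shift field at an attempt of period `q` -/
theorem shiftField_sq_le (hφ : φ.Bdd M) (q : Fin S.P) (i : Fin n) (y : Cfg n) :
    fld (shiftDir S J φ x z ω) 0 i y ^ 2 ≤
      4 * partField S J φ x z ω (univ.filter (· < q)) i y ^ 2 + 256 * M ^ 2 * n ^ 2
      + 32 * (M ^ 2 + 1) * S.P * (∑ p ∈ univ.filter (fun p => q < p), projSq S J φ x z ω p y)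
      + 256 * M ^ 2 * S.P ^ 2 := by
  set T : Fin S.P → ℝ := fun p => dpsi S J φ x z ω p i * ∑ k, dspin S x ω p k * spin (y k)
    + dspin S x ω p i * ∑ k, dpsi S J φ x z ω p k * spin (y k) with hT
  set past := ∑ p ∈ univ.filter (· < q), T p with hpast
  set fut := ∑ p ∈ univ.filter (fun p => q < p), T p with hfut
  set dg := 2 * (∑ p, dpsi S J φ x z ω p i * dspin S x ω p i) * spin (y i) with hdg
  have hsplit : ∑ p, T p = past + T q + fut := by
    rw [← sum_filter_add_sum_filter_not univ (· < q) T, add_assoc]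
    congr 1
    have : univ.filter (fun p => ¬p < q) = insert q (univ.filter fun p => q < p) := by
      ext p
      simp only [mem_filter, mem_univ, true_and, mem_insert, not_lt]
      exact ⟨fun h => (eq_or_lt_of_le h).imp Eq.symm id, fun h => h.elim (fun e => e ▸ le_rfl) le_of_lt⟩
    rw [this, sum_insert (by simp)]
  rw [fld_shiftDir]
  change ((∑ p, T p) - dg) ^ 2 ≤ _
  rw [hsplit]
  have e4 : (past + T q + fut - dg) ^ 2 ≤ 4 * past ^ 2 + 4 * T q ^ 2 + 4 * fut ^ 2 + 4 * dg ^ 2 := by
    nlinarith [sq_nonneg (past - T q), sq_nonneg (past - fut), sq_nonneg (past + dg),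
      sq_nonneg (T q - fut), sq_nonneg (T q + dg), sq_nonneg (fut + dg)]
  have hTq : T q ^ 2 ≤ 64 * M ^ 2 * n ^ 2 := by
    rw [← sq_abs]
    exact (pow_le_pow_left₀ (abs_nonneg _) (abs_partTerm_le S J x z ω hφ q i y) 2).trans_eq (by ring)
  have hdg2 : dg ^ 2 ≤ 64 * M ^ 2 * S.P ^ 2 := by
    have hM : 0 ≤ M := (abs_nonneg _).trans (hφ.fn_le i 0 0 true)
    have hs : |spin (y i)| = 1 := by unfold spin; split_ifs <;> simp
    rw [← sq_abs]
    refine (pow_le_pow_left₀ (abs_nonneg _) (?_ : |dg| ≤ 8 * M * S.P) 2).trans_eq (by ring)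
    rw [hdg, abs_mul, hs, mul_one, abs_mul, abs_two]
    refine (mul_le_mul_of_nonneg_left ((abs_sum_le_sum_abs _ _).trans ((sum_le_sum fun p _ => ?_).trans_eq
      (by simp [mul_comm] : ∑ _p : Fin S.P, (4 * M) = 4 * M * S.P))) two_pos.le).trans_eq (by ring)
    rw [abs_mul]
    exact (mul_le_mul (abs_dpsi_le S J x z ω hφ p i) (abs_dspin_le S x ω p i) (abs_nonneg _)
      (by positivity)).trans_eq (by ring)
  have hfut2 : fut ^ 2 ≤ 8 * (M ^ 2 + 1) * S.P * ∑ p ∈ univ.filter (fun p => q < p), projSq S J φ x z ω p y := by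
    have hc : ((univ.filter fun p : Fin S.P => q < p).card : ℝ) ≤ S.P := by
      exact_mod_cast (card_le_univ _).trans_eq (Fintype.card_fin _)
    refine (sq_sum_le_card_mul_sum_sq (s := univ.filter fun p => q < p) (f := T)).trans ?_
    have hp : ∀ p, T p ^ 2 ≤ 8 * (M ^ 2 + 1) * projSq S J φ x z ω p y := by
      intro p
      set a := ∑ k, dspin S x ω p k * spin (y k)
      set c := ∑ k, dpsi S J φ x z ω p k * spin (y k)
      have h1 : dpsi S J φ x z ω p i ^ 2 * a ^ 2 ≤ 4 * M ^ 2 * a ^ 2 :=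
        mul_le_mul_of_nonneg_right (dpsi_sq_le S J x z ω hφ p i) (sq_nonneg _)
      have h2 : dspin S x ω p i ^ 2 * c ^ 2 ≤ 4 * c ^ 2 := by
        refine mul_le_mul_of_nonneg_right ?_ (sq_nonneg _)
        rw [← sq_abs]
        exact (pow_le_pow_left₀ (abs_nonneg _) (abs_dspin_le S x ω p i) 2).trans_eq (by norm_num)
      simp only [hT, projSq]
      nlinarith [two_mul_le_add_sq (dpsi S J φ x z ω p i * a) (dspin S x ω p i * c), sq_nonneg M,
        sq_nonneg a, sq_nonneg c]
    calc _ ≤ (S.P : ℝ) * ∑ p ∈ univ.filter (fun p => q < p), 8 * (M ^ 2 + 1) * projSq S J φ x z ω p y :=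
          mul_le_mul hc (sum_le_sum fun p _ => hp p) (sum_nonneg fun p _ => sq_nonneg _) (Nat.cast_nonneg _)
      _ = _ := by rw [← mul_sum]; ring
  have : partField S J φ x z ω (univ.filter (· < q)) i y = past := rfl
  rw [this]
  linarith

open Classical in
/-- the past field: the orthogonal part, and the cost of a failure -/
theorem partField_sq_le (hφ : φ.Bdd M) (s : Finset (Fin S.P)) (i : Fin n) (y : Cfg n) :
    partField S J φ x z ω s i y ^ 2 ≤
      (if OrthOn S J φ x z ω s M then partField S J φ x z ω s i y ^ 2 else 0)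
      + 64 * M ^ 2 * S.P ^ 4 * ∑ p : Fin S.P, ∑ p' ∈ univ.erase p, crossSq S J φ x z ω p p' := by
  have hC : 0 ≤ ∑ p : Fin S.P, ∑ p' ∈ univ.erase p, crossSq S J φ x z ω p p' :=
    sum_nonneg fun p _ => sum_nonneg fun p' _ => crossSq_nonneg S J φ x z ω p p'
  split_ifs with h
  · have : 0 ≤ 64 * M ^ 2 * (S.P:ℝ) ^ 4 := by positivity
    linarith [mul_nonneg this hC]
  rw [zero_add]
  -- some pair of distinct periods has a product above `n / P`
  obtain ⟨p, p', hne, hlarge⟩ : ∃ p p', p ≠ p' ∧ ((n:ℝ) / S.P) ^ 2 ≤ crossSq S J φ x z ω p p' := by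
    by_contra hcon
    push Not at hcon
    refine h ⟨⟨fun p _ => dpsi_sq_sum_le S J x z ω hφ p, fun p _ p' _ hne => ?_⟩,
      ⟨fun p _ => dspin_sq_sum_le S x ω p, fun p _ p' _ hne => ?_⟩⟩
    all_goals
      refine abs_le_of_sq_le_sq ?_ (by positivity)
      have := hcon p p' hne
      unfold crossSq at this
      nlinarith [sq_nonneg (∑ i, dpsi S J φ x z ω p i * dpsi S J φ x z ω p' i),
        sq_nonneg (∑ i, dspin S x ω p i * dspin S x ω p' i)]
  have hP : (0:ℝ) < S.P := by exact_mod_cast p.pos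
  have hc : (s.card : ℝ) ≤ S.P := by exact_mod_cast (card_le_univ s).trans_eq (Fintype.card_fin _)
  have hsum : crossSq S J φ x z ω p p' ≤ ∑ p : Fin S.P, ∑ p' ∈ univ.erase p, crossSq S J φ x z ω p p' :=
    (single_le_sum (f := fun r => crossSq S J φ x z ω p r) (fun r _ => crossSq_nonneg S J φ x z ω p r)
      (mem_erase.2 ⟨hne.symm, mem_univ p'⟩)).trans
      (single_le_sum (f := fun r => ∑ r' ∈ univ.erase r, crossSq S J φ x z ω r r')
        (fun r _ => sum_nonneg fun r' _ => crossSq_nonneg S J φ x z ω r r') (mem_univ p))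
  have hb : |partField S J φ x z ω s i y| ≤ S.P * (8 * M * n) := by
    have hM : 0 ≤ M := (abs_nonneg _).trans (hφ.fn_le i 0 0 true)
    refine (abs_sum_le_sum_abs _ _).trans ((sum_le_sum fun r _ =>
      abs_partTerm_le S J x z ω hφ r i y).trans ?_)
    rw [sum_const, nsmul_eq_mul]
    exact mul_le_mul_of_nonneg_right hc (by positivity)
  have h2 := hlarge.trans hsum
  rw [div_pow, div_le_iff₀ (by positivity)] at h2
  rw [← sq_abs]
  refine (pow_le_pow_left₀ (abs_nonneg _) hb 2).trans ?_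
  have h3 := mul_le_mul_of_nonneg_left h2 (by positivity : 0 ≤ 64 * M ^ 2 * (S.P:ℝ) ^ 2)
  linarith

end Vale.Agent.P150.PA
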