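import Vale.Agent.P150.PA.TreePath
import Vale.Agent.P150.PA.TreeQuadStep

/-! Second moments in the branching experiment, given a bound on the variance of linear statistics of
one copy: products of centred vectors of distinct periods, their products with a configuration of an
earlier period, and the field of the earlier periods at a random site. -/

open MeasureTheory

namespace Vale.Agent.P150.PA

open Ising Finset

variable {n : ℕ} (S : Sched) (J : Fin n → Fin n → ℝ) (b : Fin n → ℝ)

/-- the variance of linear statistics, with weights in `[-1, 1]`, of `X` at one copy is at most `C n` -/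
def VarLe (X : Cfg n → Copy S n → Fin n → ℝ) (C : ℝ) : Prop :=
  ∀ F (w : Fin n → ℝ), (∀ j, |w j| ≤ 1) →
    lex S J b F (fun a => (∑ j, w j * X F a j) ^ 2) - lex S J b F (fun a => ∑ j, w j * X F a j) ^ 2 ≤ C * n

/-- the endpoint spins of a copy -/
def endSpin (F : Cfg n) (a : Copy S n) (j : Fin n) : ℝ := spin (cpos S F a (S.D + S.R) j)

lemma cpos_add (F : Cfg n) (a : Copy S n) (k : ℕ) :
    cpos S F a (S.D + k) = st (st F a.2.1 S.D) a.2.2 k := by
  unfold cpos
  split_ifs with h
  · have : k = 0 := by omega
    subst this; rfl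
  · rw [Nat.add_sub_cancel_left]

variable (φ : Test n) (x : Cfg n)

lemma dspin_eq (z : Noise S n) (ω : Out S n) (p : Fin S.P) (i : Fin n) :
    dspin S x ω p i = endSpin S (origin S x ω p) (copy S z ω p true) i
      - endSpin S (origin S x ω p) (copy S z ω p false) i := by
  simp only [endSpin, cpos_add]; rfl

lemma dpsi_eq (z : Noise S n) (ω : Out S n) (p : Fin S.P) (i : Fin n) :
    dpsi S J φ x z ω p i = cval S J φ (origin S x ω p) (copy S z ω p true) i
      - cval S J φ (origin S x ω p) (copy S z ω p false) i := by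
  simp only [cval, cpos_add]; rfl

variable {φ}

lemma cbd_endSpin (F : Cfg n) (i : Fin n) : CBd S (fun a => endSpin S F a i) :=
  Bd.discrete (α := Fin n → ℝ) fun l : Leg S n => spin (cpos S F ((0 : Fin n → ℝ), l) (S.D + S.R) i)

lemma cbd_cval {M : ℝ} (hφ : φ.Bdd M) (F : Cfg n) (i : Fin n) : CBd S (fun a => cval S J φ F a i) :=
  .of_bound (fun l => by
      have := ((hφ.cont i (st F l.1 S.D i)).1.comp
        (continuous_const.prodMk continuous_id' : Continuous fun u : ℝ =>
          (fld J 0 i (cpos S F ((0 : Fin n → ℝ), l) (S.D + S.r)), u))).measurable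
      exact this.comp (measurable_pi_apply i))
    fun u l => hφ.fn_le _ _ _ _

lemma bd_dspin (p : Fin S.P) (i : Fin n) : Bd (fun (_ : Noise S n) ω => dspin S x ω p i) :=
  Bd.discrete _

lemma bd_dpsi {M : ℝ} (hφ : φ.Bdd M) (p : Fin S.P) (i : Fin n) :
    Bd (fun z ω => dpsi S J φ x z ω p i) := by
  have h : ∀ c, Bd (fun z ω => val S J φ x z ω p c i) := fun c =>
    .of_bound (fun ω => by
      have := ((hφ.cont i (mid S x ω p c i)).1.comp
        (continuous_const.prodMk continuous_id' : Continuous fun u : ℝ =>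
          (fld J 0 i (leaf S x ω p c S.r), u))).measurable
      exact this.comp (measurable_pi_apply (p, c, i)))
      fun z ω => hφ.fn_le _ _ _ _
  exact (h true).sub (h false)

lemma Past.dspin_past {p p' : Fin S.P} (h : p' < p) (i : Fin n) :
    Past S p (fun (_ : Noise S n) ω => dspin S x ω p' i) := fun _ _ ω ω' he => by
  simp only [dspin, leaf, mid, (he p' h).1,
    origin_congr x (ω := ω) (ω' := ω') (m := (p' : ℕ)) fun q hq => by
      rw [(he q (lt_trans (Fin.lt_def.2 hq) h)).1]]

lemma Past.dpsi_past {p p' : Fin S.P} (h : p' < p) (i : Fin n) :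
    Past S p (fun z ω => dpsi S J φ x z ω p' i) := fun _ _ ω ω' he => by
  simp only [dpsi, val, leaf, mid, (he p' h).1, (he p' h).2,
    origin_congr x (ω := ω) (ω' := ω') (m := (p' : ℕ)) fun q hq => by
      rw [(he q (lt_trans (Fin.lt_def.2 hq) h)).1]]

lemma Past.origin_past {p p' : Fin S.P} (h : p' < p) (c : Bool) (k : ℕ) (g : Cfg n → ℝ) :
    Past S p (fun z ω => g (cpos S (origin S x ω p') (copy S z ω p' c) k)) := fun z z' ω ω' he => by
  simp only [cpos, copy, (he p' h).1,
    origin_congr x (ω := ω) (ω' := ω') (m := (p' : ℕ)) fun q hq => by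
      rw [(he q (lt_trans (Fin.lt_def.2 hq) h)).1]]

/-- a linear statistic of the centred copy, with weights from the past -/
theorem tex_diff_sq_le (hn : 0 < n) {X : Cfg n → Copy S n → Fin n → ℝ} {C K : ℝ}
    (hX : ∀ F i, CBd S (fun a => X F a i)) (hV : VarLe S J b X C) (hK : 0 < K) (p : Fin S.P)
    {w : Fin n → Noise S n → Out S n → ℝ} (hw : ∀ i, Bd (w i)) (hwp : ∀ i, Past S p (w i))
    (hwb : ∀ i z ω, |w i z ω| ≤ K) :
    tex S J b x (fun z ω => (∑ i, w i z ω *
        (X (origin S x ω p) (copy S z ω p true) i - X (origin S x ω p) (copy S z ω p false) i)) ^ 2) ≤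
      2 * K ^ 2 * C * n := by
  set Y : Fin n → Fin n → Cfg n → Copy S n → Copy S n → ℝ := fun i j F a a' =>
    (X F a i - X F a' i) * (X F a j - X F a' j) with hY
  have hY2 : ∀ i j F, CBd2 S (Y i j F) := fun i j F =>
    ((hX F i).fst.sub (hX F i).snd).mul ((hX F j).fst.sub (hX F j).snd)
  set cov : Fin n → Fin n → Cfg n → ℝ := fun i j F =>
    lex S J b F (fun a => X F a i * X F a j) - lex S J b F (fun a => X F a i) * lex S J b F (fun a => X F a j)
  have hlex : ∀ i j F, lex2 S J b F (Y i j F) = 2 * cov i j F := by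
    intro i j F
    have hi := hX F i
    have hj := hX F j
    have hij : CBd S (fun a => X F a i * X F a j) := hi.mul hj
    have inner : ∀ a : Copy S n, lex S J b F (fun a' => Y i j F a a') =
        X F a i * X F a j - lex S J b F (fun a' => X F a' j) * X F a i
          - lex S J b F (fun a' => X F a' i) * X F a j + lex S J b F (fun a' => X F a' i * X F a' j) := by
      intro a
      rw [show (fun a' => Y i j F a a') = fun a' => X F a i * X F a j - X F a i * X F a' j
        - X F a j * X F a' i + X F a' i * X F a' j from funext fun a' => by simp only [hY]; ring]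
      rw [lex_add S J b hn F (((Bd.const _).sub (hj.const_mul _)).sub (hi.const_mul _)) hij,
        lex_sub S J b hn F ((Bd.const _).sub (hj.const_mul _)) (hi.const_mul _),
        lex_sub S J b hn F (Bd.const _) (hj.const_mul _), lex_const S J b hn, lex_const_mul,
        lex_const_mul]
      ring
    simp only [lex2, inner]
    rw [lex_add S J b hn F ((hij.sub (hi.const_mul _)).sub (hj.const_mul _)) (Bd.const _),
      lex_sub S J b hn F (hij.sub (hi.const_mul _)) (hj.const_mul _),
      lex_sub S J b hn F hij (hi.const_mul _), lex_const S J b hn, lex_const_mul, lex_const_mul]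
    ring
  have hcov : ∀ F (v : Fin n → ℝ), (∀ i, |v i| ≤ K) → ∑ i, ∑ j, v i * v j * cov i j F ≤ K ^ 2 * (C * n) := by
    intro F v hv
    have h := hV F (fun j => v j / K) fun j => by
      rw [abs_div, abs_of_pos hK, div_le_one hK]; exact hv j
    have hs : CBd S (fun a => ∑ j, v j / K * X F a j) := Bd.sum fun j _ => (hX F j).const_mul _
    have e1 : lex S J b F (fun a => (∑ j, v j / K * X F a j) ^ 2) =
        ∑ i, ∑ j, v i / K * (v j / K) * lex S J b F (fun a => X F a i * X F a j) := by
      rw [show (fun a => (∑ j, v j / K * X F a j) ^ 2) =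
        fun a => ∑ i, ∑ j, v i / K * (v j / K) * (X F a i * X F a j) from funext fun a => by
          rw [pow_two, sum_mul_sum]
          exact sum_congr rfl fun i _ => sum_congr rfl fun j _ => by ring]
      rw [lex_sum S J b hn F univ fun i _ => Bd.sum fun j _ => ((hX F i).mul (hX F j)).const_mul _]
      refine sum_congr rfl fun i _ => ?_
      rw [lex_sum S J b hn F univ fun j _ => ((hX F i).mul (hX F j)).const_mul _]
      simp only [lex_const_mul]
    have e2 : lex S J b F (fun a => ∑ j, v j / K * X F a j) = ∑ j, v j / K * lex S J b F (fun a => X F a j) := by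
      rw [lex_sum S J b hn F univ fun j _ => (hX F j).const_mul _]
      simp only [lex_const_mul]
    rw [e1, e2, pow_two (∑ j : Fin n, _), sum_mul_sum, ← sum_sub_distrib] at h
    have h' := mul_le_mul_of_nonneg_left h (sq_nonneg K)
    rw [mul_sum] at h'
    refine le_trans (le_of_eq (sum_congr rfl fun i _ => ?_)) h'
    rw [← sum_sub_distrib, mul_sum]
    refine sum_congr rfl fun j _ => ?_
    simp only [cov]
    field_simp
  have hb : ∀ i j, Bd (fun z ω => Y i j (origin S x ω p) (copy S z ω p true) (copy S z ω p false)) :=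
    fun i j => bd_origin S x (hY2 i j) p
  have hl : ∀ i j, Bd (fun (_ : Noise S n) ω => lex2 S J b (origin S x ω p) (Y i j (origin S x ω p))) :=
    fun i j => Bd.discrete _
  have hG : ∀ i j, Past S p (fun z ω => w i z ω * w j z ω) := fun i j z z' ω ω' he => by
    show w i z ω * w j z ω = w i z' ω' * w j z' ω'
    rw [hwp i z z' ω ω' he, hwp j z z' ω ω' he]
  rw [show (fun z ω => (∑ i, w i z ω *
        (X (origin S x ω p) (copy S z ω p true) i - X (origin S x ω p) (copy S z ω p false) i)) ^ 2) =
      fun z ω => ∑ i, ∑ j, w i z ω * w j z ω *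
        Y i j (origin S x ω p) (copy S z ω p true) (copy S z ω p false) from funext fun z => funext fun ω => by
    rw [pow_two, sum_mul_sum]
    exact sum_congr rfl fun i _ => sum_congr rfl fun j _ => by simp only [hY]; ring]
  rw [tex_sum S J b x hn univ fun i _ => Bd.sum fun j _ => ((hw i).mul (hw j)).mul (hb i j)]
  simp only [tex_sum S J b x hn univ fun j _ => ((hw _).mul (hw j)).mul (hb _ j),
    tex_past S J b x hn p ((hw _).mul (hw _)) (hG _ _) (hY2 _ _)]
  simp only [← tex_sum S J b x hn univ fun j _ => ((hw _).mul (hw j)).mul (hl _ j)]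
  rw [← tex_sum S J b x hn univ fun i _ => Bd.sum fun j _ => ((hw i).mul (hw j)).mul (hl i j)]
  refine (tex_mono S J b x hn (Bd.sum fun i _ => Bd.sum fun j _ => ((hw i).mul (hw j)).mul (hl i j))
    (Bd.const (2 * K ^ 2 * C * n)) fun z ω => ?_).trans_eq (tex_const S J b x hn _)
  simp only [hlex]
  have h := hcov (origin S x ω p) (fun i => w i z ω) fun i => hwb i z ω
  have e : ∑ i, ∑ j, w i z ω * w j z ω * (2 * cov i j (origin S x ω p)) =
      2 * ∑ i, ∑ j, w i z ω * w j z ω * cov i j (origin S x ω p) := by
    simp only [mul_sum]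
    exact sum_congr rfl fun i _ => sum_congr rfl fun j _ => by ring
  rw [e]
  linarith

/-- the centred endpoint spins of distinct periods -/
theorem tex_dspin_cross_le (hn : 0 < n) {C : ℝ} (hS : VarLe S J b (endSpin S) C) {p p' : Fin S.P}
    (h : p ≠ p') :
    tex S J b x (fun _ ω => (∑ i, dspin S x ω p i * dspin S x ω p' i) ^ 2) ≤ 8 * C * n := by
  wlog hlt : p' < p generalizing p p'
  · have := this h.symm (lt_of_le_of_ne (not_lt.1 hlt) h)
    simpa only [mul_comm (dspin S x _ p _)] using this
  have := tex_diff_sq_le S J b x hn (cbd_endSpin S) hS two_pos p (w := fun i _ ω => dspin S x ω p' i)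
    (fun i => bd_dspin S x p' i) (fun i => Past.dspin_past S x hlt i) fun i _ ω => abs_dspin_le S x ω p' i
  simp only [← dspin_eq S x] at this
  simp only [mul_comm (dspin S x _ p _)]
  linarith

/-- the centred tests of distinct periods -/
theorem tex_dpsi_cross_le (hn : 0 < n) {C M : ℝ} (hM : 0 ≤ M) (hφ : φ.Bdd M)
    (hT : VarLe S J b (cval S J φ) C) {p p' : Fin S.P} (h : p ≠ p') :
    tex S J b x (fun z ω => (∑ i, dpsi S J φ x z ω p i * dpsi S J φ x z ω p' i) ^ 2) ≤
      8 * (M + 1) ^ 2 * C * n := by
  wlog hlt : p' < p generalizing p p'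
  · have := this h.symm (lt_of_le_of_ne (not_lt.1 hlt) h)
    simpa only [mul_comm (dpsi S J φ x _ _ p _)] using this
  have := tex_diff_sq_le S J b x hn (cbd_cval S J hφ) hT (show 0 < 2 * (M + 1) by linarith) p
    (w := fun i z ω => dpsi S J φ x z ω p' i)
    (fun i => bd_dpsi S J x hφ p' i) (fun i => Past.dpsi_past S J x hlt i)
    fun i z ω => (abs_dpsi_le S J x z ω hφ p' i).trans (by linarith)
  simp only [← dpsi_eq S J φ x] at this
  simp only [mul_comm (dpsi S J φ x _ _ p _)]
  linarith

/-- the products of two distinct periods -/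
theorem tex_crossSq_le (hn : 0 < n) {C M : ℝ} (hC : 0 ≤ C) (hM : 0 ≤ M) (hφ : φ.Bdd M)
    (hS : VarLe S J b (endSpin S) C) (hT : VarLe S J b (cval S J φ) C) {p p' : Fin S.P} (h : p ≠ p') :
    tex S J b x (fun z ω => crossSq S J φ x z ω p p') ≤ 16 * (M + 1) ^ 2 * C * n := by
  have b1 : Bd (fun z ω => (∑ i, dpsi S J φ x z ω p i * dpsi S J φ x z ω p' i) ^ 2) := by
    simp only [pow_two]
    exact (Bd.sum fun i _ => (bd_dpsi S J x hφ p i).mul (bd_dpsi S J x hφ p' i)).mul
      (Bd.sum fun i _ => (bd_dpsi S J x hφ p i).mul (bd_dpsi S J x hφ p' i))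
  simp only [crossSq]
  rw [tex_add S J b x hn b1 (Bd.discrete _)]
  have h1 := tex_dpsi_cross_le S J b x hn hM hφ hT h
  have h2 := tex_dspin_cross_le S J b x hn hS h
  nlinarith [mul_nonneg (mul_nonneg hC (Nat.cast_nonneg n : (0:ℝ) ≤ n)) hM,
    mul_nonneg (mul_nonneg hC (Nat.cast_nonneg n : (0:ℝ) ≤ n)) (mul_nonneg hM hM)]

lemma bd_projSq {M : ℝ} (hφ : φ.Bdd M) (p : Fin S.P) (y : Out S n → Cfg n) :
    Bd (fun z ω => projSq S J φ x z ω p (y ω)) := by
  have b1 : Bd (fun z ω => ∑ k, dpsi S J φ x z ω p k * spin (y ω k)) :=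
    Bd.sum fun k _ => (bd_dpsi S J x hφ p k).mul (Bd.discrete _)
  simp only [projSq, pow_two]
  exact (b1.mul b1).add (Bd.discrete _)

/-- the products of a period with a configuration of an earlier one -/
theorem tex_projSq_le (hn : 0 < n) {C M : ℝ} (hφ : φ.Bdd M)
    (hS : VarLe S J b (endSpin S) C) (hT : VarLe S J b (cval S J φ) C) {p q : Fin S.P} (h : q < p)
    (c : Bool) (k : ℕ) :
    tex S J b x (fun z ω => projSq S J φ x z ω p (cpos S (origin S x ω q) (copy S z ω q c) k)) ≤
      4 * C * n := by
  set y : Out S n → Cfg n := fun ω => cpos S (origin S x ω q) ((0 : Fin n → ℝ), ω q c) k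
  have hy : ∀ z ω, cpos S (origin S x ω q) (copy S z ω q c) k = y ω := fun z ω => rfl
  have hs : ∀ (v : Cfg n) (j : Fin n), |spin (v j)| ≤ 1 := fun v j => by unfold spin; split_ifs <;> simp
  have hp : ∀ j, Past S p (fun z ω => spin (cpos S (origin S x ω q) (copy S z ω q c) k j)) :=
    fun j => Past.origin_past S x h c k fun v => spin (v j)
  have h1 := tex_diff_sq_le S J b x hn (cbd_cval S J hφ) hT one_pos p
    (w := fun j z ω => spin (cpos S (origin S x ω q) (copy S z ω q c) k j))
    (fun j => by simp only [hy]; exact Bd.discrete _) hp fun j z ω => hs _ _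
  have h2 := tex_diff_sq_le S J b x hn (cbd_endSpin S) hS one_pos p
    (w := fun j z ω => spin (cpos S (origin S x ω q) (copy S z ω q c) k j))
    (fun j => by simp only [hy]; exact Bd.discrete _) hp fun j z ω => hs _ _
  simp only [← dpsi_eq S J φ x] at h1
  simp only [← dspin_eq S x] at h2
  simp only [hy, mul_comm (spin _)] at h1 h2
  simp only [hy, projSq]
  have b1 : Bd (fun z ω => (∑ j, dpsi S J φ x z ω p j * spin (y ω j)) ^ 2) := by
    simp only [pow_two]
    exact (Bd.sum fun j _ => (bd_dpsi S J x hφ p j).mul (Bd.discrete _)).mul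
      (Bd.sum fun j _ => (bd_dpsi S J x hφ p j).mul (Bd.discrete _))
  rw [tex_add S J b x hn b1 (Bd.discrete _)]
  linarith

lemma measurableSet_orthOn {M : ℝ} (hφ : φ.Bdd M) (ω : Out S n) (s : Finset (Fin S.P)) :
    MeasurableSet {z : Noise S n | OrthOn S J φ x z ω s M} := by
  have hm : ∀ p i, Measurable fun z : Noise S n => dpsi S J φ x z ω p i :=
    fun p i => (bd_dpsi S J x hφ p i ω).1
  simp only [OrthOn, AlmostOrth, Set.ofPred_and, Set.ofPred_forall]
  refine .inter (.inter ?_ ?_) ?_
  · exact .iInter fun p => .iInter fun _ => measurableSet_le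
      (Finset.measurable_sum _ fun i _ => (hm p i).pow_const 2) measurable_const
  · exact .iInter fun p => .iInter fun _ => .iInter fun r => .iInter fun _ => .iInter fun _ =>
      measurableSet_le (Finset.measurable_sum _ fun i _ => (hm p i).mul (hm r i)).norm measurable_const
  · exact .inter (.iInter fun p => .iInter fun _ => measurableSet_le measurable_const measurable_const)
      (.iInter fun p => .iInter fun _ => .iInter fun r => .iInter fun _ => .iInter fun _ =>
        measurableSet_le measurable_const measurable_const)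

lemma bd_partField {M : ℝ} (hφ : φ.Bdd M) (s : Finset (Fin S.P)) (i : Fin n) (y : Cfg n) :
    Bd (fun z ω => partField S J φ x z ω s i y) :=
  Bd.sum fun p _ => ((bd_dpsi S J x hφ p i).mul (Bd.discrete _)).add
    ((bd_dspin S x p i).mul (Bd.sum fun k _ => (bd_dpsi S J x hφ p k).mul (Bd.discrete _)))

open Classical in
lemma bd_orth_partField {M : ℝ} (hφ : φ.Bdd M) (s : Finset (Fin S.P)) (i : Fin n) (y : Cfg n) :
    Bd (fun z ω => if OrthOn S J φ x z ω s M then partField S J φ x z ω s i y ^ 2 else 0) := fun ω => by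
  have hb := (bd_partField S J x hφ s i y).mul (bd_partField S J x hφ s i y) ω
  simp only [← pow_two] at hb
  obtain ⟨hm, C, hC⟩ := hb
  refine ⟨hm.ite (measurableSet_orthOn S J x hφ ω s) measurable_const, C, fun z => ?_⟩
  simp only
  split_ifs
  · exact hC z
  · simpa using (abs_nonneg _).trans (hC z)

open Classical in
/-- the field of the earlier periods at the site of an attempt, where they are orthogonal -/
theorem tex_past_field_le (hn : 0 < n) {M : ℝ} (hφ : φ.Bdd M) (q : Fin S.P) (c : Bool)
    (k : Fin (S.D + S.R)) :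
    tex S J b x (fun z ω => if OrthOn S J φ x z ω (univ.filter (· < q)) M then
        partField S J φ x z ω (univ.filter (· < q)) (csite S (copy S z ω q c) k)
          (cpos S (origin S x ω q) (copy S z ω q c) k) ^ 2 else 0) ≤
      20 * (4 * M ^ 2 + 1) * n ^ 2 := by
  set s := univ.filter (· < q) with hs
  set G : Fin n → Cfg n → Noise S n → Out S n → ℝ := fun i y z ω =>
    if OrthOn S J φ x z ω s M then partField S J φ x z ω s i y ^ 2 else 0 with hG
  set I : Fin n → Cfg n → Cfg n → Copy S n → ℝ := fun i y F a =>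
    if cpos S F a k = y ∧ csite S a k = i then 1 else 0 with hI
  set P0 : Cfg n → Cfg n → ℝ := fun y F => lex S J b F (fun a => if cpos S F a k = y then 1 else 0) with hP0
  have hIb : ∀ i y F, CBd S (I i y F) := fun i y F =>
    Bd.discrete (α := Fin n → ℝ) fun l : Leg S n => I i y F ((0 : Fin n → ℝ), l)
  have hI1 : ∀ i y F, lex S J b F (I i y F) = P0 y F / n := by
    intro i y F
    have := lex_site S J b hn F k (fun y' i' => if y' = y ∧ i' = i then 1 else 0)
    refine this.trans ?_
    rw [hP0, div_eq_mul_inv, ← lex_mul_const]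
    congr 1
    funext a
    rw [div_eq_mul_inv]
    congr 1
    by_cases ha : cpos S F a k = y <;> simp [ha]
  have hP1 : ∀ F, ∑ y, P0 y F = 1 := by
    intro F
    rw [hP0, ← lex_sum S J b hn F univ fun y _ => Bd.discrete (α := Fin n → ℝ) fun l : Leg S n =>
      if cpos S F ((0 : Fin n → ℝ), l) k = y then (1:ℝ) else 0]
    simpa using lex_one S J b hn F
  have hGp : ∀ i y, Past S q (G i y) := by
    intro i y z z' ω ω' he
    have e1 : ∀ p ∈ s, ∀ j, dpsi S J φ x z ω p j = dpsi S J φ x z' ω' p j := fun p hp j =>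
      Past.dpsi_past S J x (by simpa [hs] using hp) j z z' ω ω' he
    have e2 : ∀ p ∈ s, ∀ j, dspin S x ω p j = dspin S x ω' p j := fun p hp j =>
      Past.dspin_past S x (by simpa [hs] using hp) j z z' ω ω' he
    have e3 : OrthOn S J φ x z ω s M ↔ OrthOn S J φ x z' ω' s M := by
      unfold OrthOn AlmostOrth
      simp +contextual only [e1, e2]
    have e4 : partField S J φ x z ω s i y = partField S J φ x z' ω' s i y := by
      unfold partField
      refine sum_congr rfl fun p hp => ?_
      simp only [e1 p hp, e2 p hp]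
    simp only [hG, e3, e4]
  have hsplit : ∀ z ω, G (csite S (copy S z ω q c) k) (cpos S (origin S x ω q) (copy S z ω q c) k) z ω =
      ∑ i, ∑ y, G i y z ω * I i y (origin S x ω q) (copy S z ω q c) := by
    intro z ω
    simp [hI, ite_and]
  have hbI : ∀ i y, Bd (fun z ω => I i y (origin S x ω q) (copy S z ω q c)) :=
    fun i y => Bd.discrete fun ω : Out S n => I i y (origin S x ω q) ((0 : Fin n → ℝ), ω q c)
  have hB : ∀ (i : Fin n) y, Bd (fun (_ : Noise S n) (ω : Out S n) => P0 y (origin S x ω q) / n) :=
    fun i y => Bd.discrete _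
  have key : ∀ i y, tex S J b x (fun z ω => G i y z ω * I i y (origin S x ω q) (copy S z ω q c)) =
      tex S J b x (fun z ω => G i y z ω * (P0 y (origin S x ω q) / n)) := by
    intro i y
    cases c
    · have h := tex_past S J b x hn q (bd_orth_partField S J x hφ s i y) (hGp i y)
        (X := fun F _ a' => I i y F a') (fun F => (hIb i y F).snd)
      simpa only [lex2, hI1, lex_const S J b hn] using h
    · have h := tex_past S J b x hn q (bd_orth_partField S J x hφ s i y) (hGp i y)
        (X := fun F a _ => I i y F a) (fun F => (hIb i y F).fst)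
      simpa only [lex2, hI1, lex_const S J b hn] using h
  have hbG : ∀ i y, Bd (G i y) := fun i y => bd_orth_partField S J x hφ s i y
  change tex S J b x (fun z ω =>
    G (csite S (copy S z ω q c) k) (cpos S (origin S x ω q) (copy S z ω q c) k) z ω) ≤ _
  simp only [hsplit]
  rw [tex_sum S J b x hn univ fun i _ => Bd.sum fun y _ => (hbG i y).mul (hbI i y)]
  simp only [tex_sum S J b x hn univ fun y _ => (hbG _ y).mul (hbI _ y), key]
  rw [sum_congr rfl fun i _ => (tex_sum S J b x hn univ fun y _ => (hbG i y).mul (hB i y)).symm]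
  rw [← tex_sum S J b x hn univ fun i _ => Bd.sum fun y _ => (hbG i y).mul (hB i y)]
  refine (tex_mono S J b x hn (Bd.sum fun i _ => Bd.sum fun y _ => (hbG i y).mul (hB i y))
    (Bd.const (20 * (4 * M ^ 2 + 1) * (n:ℝ) ^ 2)) fun z ω => ?_).trans_eq (tex_const S J b x hn _)
  show (∑ i, ∑ y, G i y z ω * (P0 y (origin S x ω q) / n)) ≤ _
  rw [sum_comm]
  simp only [← sum_mul]
  have hGy : ∀ y, ∑ i, G i y z ω ≤ 20 * (4 * M ^ 2 + 1) * n ^ 3 := by
    intro y
    simp only [hG]
    split_ifs with h
    · exact past_field_sq_le S J x z ω h y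
    · simp only [sum_const_zero]; positivity
  have hP00 : ∀ y, 0 ≤ P0 y (origin S x ω q) / n := fun y =>
    div_nonneg (lex_nonneg S J b _ fun a => by split_ifs <;> norm_num) (Nat.cast_nonneg n)
  refine (sum_le_sum fun y _ => mul_le_mul_of_nonneg_right (hGy y) (hP00 y)).trans_eq ?_
  rw [← mul_sum, ← sum_div, hP1]
  have : (n:ℝ) ≠ 0 := by positivity
  field_simp

end Vale.Agent.P150.PA
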