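import Vale.Agent.P150.PA.Tree
import Vale.Agent.P150.PA.Path

/-! Expectations over one and two copies of the branching experiment: the calculus used for `tree_value`. -/

open MeasureTheory

namespace Vale.Agent.P150.PA.TV

open Ising

variable {n : ℕ} {S : Sched} {J : Fin n → Fin n → ℝ} {b : Fin n → ℝ} {F : Cfg n}

/-- weight of the discrete outcome of a copy given its noise -/
noncomputable def copyW (S : Sched) (J : Fin n → Fin n → ℝ) (b : Fin n → ℝ) (F : Cfg n) (a : Copy S n) : ℝ :=
  pw J b F a.2.1 * pw J (fun i => b i + obsField S.t (st F a.2.1 S.D) a.1 i) (st F a.2.1 S.D) a.2.2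

lemma lex_def (X : Copy S n → ℝ) :
    lex S J b F X = ∫ u, ∑ l : Leg S n, copyW S J b F (u, l) * X (u, l) ∂gauss (Fin n) := rfl

lemma copyW_cont (l : Leg S n) : Continuous fun u => copyW S J b F (u, l) := by
  have ht : Continuous Real.tanh := by
    simp only [show Real.tanh = fun x => Real.sinh x / Real.cosh x from funext Real.tanh_eq_sinh_div_cosh]
    exact Real.continuous_sinh.div Real.continuous_cosh fun x => (Real.cosh_pos x).ne'
  obtain ⟨l₁, l₂⟩ := l
  unfold copyW pw sp mag fld obsField
  dsimp only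
  fun_prop

lemma copyW_nonneg (a : Copy S n) : 0 ≤ copyW S J b F a := mul_nonneg (pw_nonneg _ _ _ _) (pw_nonneg _ _ _ _)

lemma copyW_sum (hn : 0 < n) (u : Fin n → ℝ) : ∑ l : Leg S n, copyW S J b F (u, l) = 1 := by
  rw [Fintype.sum_prod_type]
  simp only [copyW, ← Finset.mul_sum, pw_sum _ _ hn, mul_one]

lemma copyW_le_one (hn : 0 < n) (a : Copy S n) : copyW S J b F a ≤ 1 := by
  rw [← copyW_sum (S := S) (J := J) (b := b) (F := F) hn a.1]
  exact Finset.single_le_sum (f := fun l => copyW S J b F (a.1, l)) (fun l _ => copyW_nonneg _) (Finset.mem_univ a.2)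

/-- continuous in the noise and bounded -/
def Nice (X : Copy S n → ℝ) : Prop := (∀ l, Continuous fun u => X (u, l)) ∧ ∃ C, ∀ a, |X a| ≤ C

/-- the same for functions of two copies -/
def Nice2 (X : Copy S n → Copy S n → ℝ) : Prop :=
  (∀ l l', Continuous fun p : (Fin n → ℝ) × (Fin n → ℝ) => X (p.1, l) (p.2, l')) ∧ ∃ C, ∀ a a', |X a a'| ≤ C

namespace Nice

variable {X Y : Copy S n → ℝ}

lemma const (c : ℝ) : Nice (S := S) (n := n) fun _ => c := ⟨fun _ => continuous_const, |c|, fun _ => le_rfl⟩

lemma add (hX : Nice X) (hY : Nice Y) : Nice fun a => X a + Y a := by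
  obtain ⟨hc, C, hC⟩ := hX; obtain ⟨hd, D, hD⟩ := hY
  exact ⟨fun l => (hc l).add (hd l), C + D, fun a => (abs_add_le _ _).trans (add_le_add (hC a) (hD a))⟩

lemma mul (hX : Nice X) (hY : Nice Y) : Nice fun a => X a * Y a := by
  obtain ⟨hc, C, hC⟩ := hX; obtain ⟨hd, D, hD⟩ := hY
  refine ⟨fun l => (hc l).mul (hd l), C * D, fun a => ?_⟩
  rw [abs_mul]; exact mul_le_mul (hC a) (hD a) (abs_nonneg _) ((abs_nonneg _).trans (hC a))

lemma neg (hX : Nice X) : Nice fun a => -X a := by
  simpa using (Nice.const (-1 : ℝ)).mul hX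

lemma sub (hX : Nice X) (hY : Nice Y) : Nice fun a => X a - Y a := by
  simpa [sub_eq_add_neg] using hX.add hY.neg

lemma sum {ι : Type*} (s : Finset ι) {f : ι → Copy S n → ℝ} (h : ∀ i ∈ s, Nice (f i)) :
    Nice fun a => ∑ i ∈ s, f i a := by
  classical
  induction s using Finset.induction with
  | empty => simpa using Nice.const (S := S) (n := n) 0
  | insert a s ha ih =>
    simp only [Finset.sum_insert ha]
    exact (h a (Finset.mem_insert_self a s)).add (ih fun i hi => h i (Finset.mem_insert_of_mem hi))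

lemma disc (f : Leg S n → ℝ) : Nice (S := S) (n := n) fun a => f a.2 :=
  ⟨fun l => show Continuous fun _ => f l from continuous_const, ∑ l, |f l|, fun a =>
    Finset.single_le_sum (f := fun l => |f l|) (fun _ _ => abs_nonneg _) (Finset.mem_univ a.2)⟩

end Nice

namespace Nice2

variable {X Y : Copy S n → Copy S n → ℝ}

lemma add (hX : Nice2 X) (hY : Nice2 Y) : Nice2 fun a a' => X a a' + Y a a' := by
  obtain ⟨hc, C, hC⟩ := hX; obtain ⟨hd, D, hD⟩ := hY
  exact ⟨fun l l' => (hc l l').add (hd l l'), C + D, fun a a' => (abs_add_le _ _).trans (add_le_add (hC a a') (hD a a'))⟩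

lemma smul (hX : Nice2 X) (c : ℝ) : Nice2 fun a a' => c * X a a' := by
  obtain ⟨hc, C, hC⟩ := hX
  refine ⟨fun l l' => continuous_const.mul (hc l l'), |c| * C, fun a a' => ?_⟩
  rw [abs_mul]; exact mul_le_mul_of_nonneg_left (hC a a') (abs_nonneg c)

lemma swap (hX : Nice2 X) : Nice2 fun a a' => X a' a := by
  obtain ⟨hc, C, hC⟩ := hX
  exact ⟨fun l l' => (hc l' l).comp (continuous_snd.prodMk continuous_fst), C, fun a a' => hC a' a⟩

lemma congr (hX : Nice2 X) (h : ∀ a a', X a a' = Y a a') : Nice2 Y := by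
  rwa [show Y = X from funext fun a => funext fun a' => (h a a').symm]

lemma sum {ι : Type*} (s : Finset ι) {f : ι → Copy S n → Copy S n → ℝ} (h : ∀ i ∈ s, Nice2 (f i)) :
    Nice2 fun a a' => ∑ i ∈ s, f i a a' := by
  classical
  induction s using Finset.induction with
  | empty => exact ⟨fun _ _ => by simpa using continuous_const, 0, fun _ _ => by simp⟩
  | insert a s ha ih =>
    simp only [Finset.sum_insert ha]
    exact (h a (Finset.mem_insert_self a s)).add (ih fun i hi => h i (Finset.mem_insert_of_mem hi))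

end Nice2

lemma Nice.integrable (hn : 0 < n) {X : Copy S n → ℝ} (hX : Nice X) (l : Leg S n) :
    Integrable (fun u => copyW S J b F (u, l) * X (u, l)) (gauss (Fin n)) := by
  obtain ⟨hc, C, hC⟩ := hX
  refine (integrable_const C).mono' ((copyW_cont l).mul (hc l)).aestronglyMeasurable (ae_of_all _ fun u => ?_)
  rw [Real.norm_eq_abs, abs_mul, abs_of_nonneg (copyW_nonneg _)]
  exact (mul_le_of_le_one_left (abs_nonneg _) (copyW_le_one hn _)).trans (hC _)

section
variable (hn : 0 < n)
include hn

lemma lex_const (c : ℝ) : lex S J b F (fun _ => c) = c := by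
  simp [lex_def, ← Finset.sum_mul, copyW_sum hn]

lemma lex_add {X Y : Copy S n → ℝ} (hX : Nice X) (hY : Nice Y) :
    lex S J b F (fun a => X a + Y a) = lex S J b F X + lex S J b F Y := by
  simp only [lex_def, mul_add, Finset.sum_add_distrib]
  exact integral_add (integrable_finsetSum _ fun l _ => hX.integrable hn l)
    (integrable_finsetSum _ fun l _ => hY.integrable hn l)

omit hn in
lemma lex_smul (c : ℝ) (X : Copy S n → ℝ) : lex S J b F (fun a => c * X a) = c * lex S J b F X := by
  simp only [lex_def, ← integral_const_mul, Finset.mul_sum]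
  exact integral_congr_ae (ae_of_all _ fun u => Finset.sum_congr rfl fun l _ => by ring)

omit hn in
lemma lex_mul_const (c : ℝ) (X : Copy S n → ℝ) : lex S J b F (fun a => X a * c) = lex S J b F X * c := by
  simp only [mul_comm _ c]; exact lex_smul c X

lemma lex_sub {X Y : Copy S n → ℝ} (hX : Nice X) (hY : Nice Y) :
    lex S J b F (fun a => X a - Y a) = lex S J b F X - lex S J b F Y := by
  have h := lex_add (J := J) (b := b) (F := F) hn hX ((Nice.const (-1)).mul hY)
  simp only [lex_smul (-1 : ℝ)] at h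
  simp only [neg_one_mul, ← sub_eq_add_neg] at h
  exact h

lemma lex_fsum {ι : Type*} (s : Finset ι) {f : ι → Copy S n → ℝ} (h : ∀ i ∈ s, Nice (f i)) :
    lex S J b F (fun a => ∑ i ∈ s, f i a) = ∑ i ∈ s, lex S J b F (f i) := by
  classical
  induction s using Finset.induction with
  | empty => simpa using lex_const (S := S) (J := J) (b := b) (F := F) hn 0
  | insert a s ha ih =>
    simp only [Finset.sum_insert ha]
    have hs : ∀ i ∈ s, Nice (f i) := fun i hi => h i (Finset.mem_insert_of_mem hi)
    rw [lex_add hn (h a (Finset.mem_insert_self a s)) (Nice.sum s hs), ih hs]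

lemma lex_mono {X Y : Copy S n → ℝ} (hX : Nice X) (hY : Nice Y) (h : ∀ a, X a ≤ Y a) :
    lex S J b F X ≤ lex S J b F Y := by
  simp only [lex_def]
  exact integral_mono (integrable_finsetSum _ fun l _ => hX.integrable hn l)
    (integrable_finsetSum _ fun l _ => hY.integrable hn l)
    fun u => Finset.sum_le_sum fun l _ => mul_le_mul_of_nonneg_left (h _) (copyW_nonneg _)

lemma lex_abs_le {X : Copy S n → ℝ} (hX : Nice X) {B : ℝ} (h : ∀ a, |X a| ≤ B) : |lex S J b F X| ≤ B := by
  rw [abs_le]
  constructor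
  · rw [← lex_const (S := S) (J := J) (b := b) (F := F) hn (-B)]
    exact lex_mono hn (Nice.const _) hX fun a => (abs_le.1 (h a)).1
  · refine le_trans (lex_mono hn hX (Nice.const B) fun a => (abs_le.1 (h a)).2) (lex_const hn B).le

/-- a bounded variable decorrelates from a concentrated one -/
lemma lex_cov_le {U V : Copy S n → ℝ} (hU : Nice U) (hV : Nice V) {B : ℝ} (hB : 0 ≤ B) (h : ∀ a, |U a| ≤ B)
    {s : ℝ} (hs : 0 ≤ s) (hvar : lex S J b F (fun a => V a ^ 2) - lex S J b F V ^ 2 ≤ s ^ 2) :
    |lex S J b F (fun a => U a * V a) - lex S J b F U * lex S J b F V| ≤ B * s := by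
  set v := lex S J b F V
  have hW : Nice fun a => V a - v := hV.sub (Nice.const v)
  have hV2 : Nice fun a => V a ^ 2 := by simpa [sq] using hV.mul hV
  have e : lex S J b F (fun a => U a * V a) - lex S J b F U * v = lex S J b F (fun a => U a * (V a - v)) := by
    simp only [mul_sub]
    rw [lex_sub hn (hU.mul hV) (hU.mul (Nice.const v)), lex_mul_const]
  have hW2 : Nice fun a => (V a - v) ^ 2 := by simpa [sq] using hW.mul hW
  have e2 : lex S J b F (fun a => (V a - v) ^ 2) = lex S J b F (fun a => V a ^ 2) - v ^ 2 := by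
    rw [show (fun a => (V a - v) ^ 2) = fun a => V a ^ 2 - ((2 * v) * V a - v ^ 2) from funext fun a => by ring,
      lex_sub hn hV2 (((Nice.const _).mul hV).sub (Nice.const _)), lex_sub hn ((Nice.const _).mul hV) (Nice.const _),
      lex_smul, lex_const hn]
    ring
  rw [e]
  -- `2 |U W| ≤ B (c W² + 1/c)` for every `c > 0`
  have key : ∀ c : ℝ, 0 < c → 2 * |lex S J b F (fun a => U a * (V a - v))| ≤ B * (c * s ^ 2 + 1 / c) := by
    intro c hc
    have pt : ∀ a, |U a * (V a - v)| ≤ B / 2 * (c * (V a - v) ^ 2 + 1 / c) := fun a => by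
      rw [abs_mul]
      refine (mul_le_mul_of_nonneg_right (h a) (abs_nonneg _)).trans ?_
      rw [show B / 2 * (c * (V a - v) ^ 2 + 1 / c) = B * ((c * (V a - v) ^ 2 + 1 / c) / 2) by ring]
      refine mul_le_mul_of_nonneg_left ?_ hB
      have h0 : 0 ≤ (c * |V a - v| - 1) ^ 2 / c := by positivity
      have e0 : (c * |V a - v| - 1) ^ 2 / c = c * (V a - v) ^ 2 - 2 * |V a - v| + 1 / c := by
        rw [← sq_abs (V a - v)]; field_simp; ring
      linarith
    have hM : Nice fun a => B / 2 * (c * (V a - v) ^ 2 + 1 / c) :=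
      (Nice.const _).mul (((Nice.const c).mul hW2).add (Nice.const _))
    have hUW := hU.mul hW
    have h1 := lex_mono (J := J) (b := b) (F := F) hn hUW hM fun a => (le_abs_self _).trans (pt a)
    have h2 := lex_mono (J := J) (b := b) (F := F) hn hUW.neg hM fun a => (neg_le_abs _).trans (pt a)
    simp only [lex_smul, lex_add hn ((Nice.const c).mul hW2) (Nice.const _), lex_const hn, e2,
      show (fun a => -(U a * (V a - v))) = fun a => (-1 : ℝ) * (U a * (V a - v)) from funext fun a => by ring] at h1 h2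
    have h3 : B / 2 * (c * (lex S J b F (fun a => V a ^ 2) - v ^ 2) + 1 / c) ≤ B / 2 * (c * s ^ 2 + 1 / c) :=
      mul_le_mul_of_nonneg_left (by linarith [mul_le_mul_of_nonneg_left hvar hc.le]) (by positivity)
    rw [← le_div_iff₀' two_pos, abs_le]
    constructor <;> linarith
  refine le_of_forall_pos_le_add fun ε hε => ?_
  set d := ε / (B + 1) with hd
  have hd0 : 0 < d := by positivity
  have hk := key (1 / (s + d)) (by positivity)
  have h4 : 1 / (s + d) * s ^ 2 ≤ s := by
    rw [div_mul_eq_mul_div, one_mul, div_le_iff₀ (by positivity)]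
    have := mul_nonneg hs hd0.le
    linarith
  rw [one_div_one_div] at hk
  have h5 := hk.trans (mul_le_mul_of_nonneg_left (by linarith : 1 / (s + d) * s ^ 2 + (s + d) ≤ 2 * s + d) hB)
  have h6 : B * d ≤ ε := by rw [hd, mul_div, div_le_iff₀ (by positivity), mul_comm ε]; linarith
  linarith [mul_nonneg hB hd0.le]

omit hn in
lemma Nice2.right {X : Copy S n → Copy S n → ℝ} (hX : Nice2 X) (a : Copy S n) : Nice (X a) := by
  obtain ⟨hc, C, hC⟩ := hX
  exact ⟨fun l' => (hc a.2 l').comp (continuous_const.prodMk continuous_id), C, hC a⟩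

lemma Nice2.lex_left {X : Copy S n → Copy S n → ℝ} (hX : Nice2 X) : Nice fun a => lex S J b F (X a) := by
  obtain ⟨hc, C, hC⟩ := hX
  refine ⟨fun l => ?_, C, fun a => lex_abs_le hn (Nice2.right ⟨hc, C, hC⟩ a) (hC a)⟩
  simp only [lex_def]
  refine continuous_of_dominated (bound := fun _ => C) (fun u => ?_) (fun u => ae_of_all _ fun u' => ?_)
    (integrable_const _) (ae_of_all _ fun u' => ?_)
  · exact (continuous_finsetSum _ fun l' _ => (copyW_cont l').mul
      ((hc l l').comp (continuous_const.prodMk continuous_id))).aestronglyMeasurable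
  · refine (Finset.abs_sum_le_sum_abs _ _).trans
      ((Finset.sum_le_sum (g := fun l' => copyW S J b F (u', l') * C) fun l' _ => ?_).trans_eq
      (by rw [← Finset.sum_mul, copyW_sum hn, one_mul]))
    rw [abs_mul, abs_of_nonneg (copyW_nonneg _)]
    exact mul_le_mul_of_nonneg_left (hC _ _) (copyW_nonneg _)
  · exact continuous_finsetSum _ fun l' _ => continuous_const.mul ((hc l l').comp (continuous_id.prodMk continuous_const))

lemma lex2_add {X Y : Copy S n → Copy S n → ℝ} (hX : Nice2 X) (hY : Nice2 Y) :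
    lex2 S J b F (fun a a' => X a a' + Y a a') = lex2 S J b F X + lex2 S J b F Y := by
  simp only [lex2, lex_add hn (Nice2.right hX _) (Nice2.right hY _)]
  exact lex_add hn (Nice2.lex_left hn hX) (Nice2.lex_left hn hY)

omit hn in
lemma lex2_smul (c : ℝ) (X : Copy S n → Copy S n → ℝ) :
    lex2 S J b F (fun a a' => c * X a a') = c * lex2 S J b F X := by
  simp only [lex2, lex_smul]

lemma lex2_fsum {ι : Type*} (s : Finset ι) {f : ι → Copy S n → Copy S n → ℝ} (h : ∀ i ∈ s, Nice2 (f i)) :
    lex2 S J b F (fun a a' => ∑ i ∈ s, f i a a') = ∑ i ∈ s, lex2 S J b F (f i) := by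
  simp only [lex2]
  rw [← lex_fsum hn s fun i hi => Nice2.lex_left hn (h i hi)]
  exact congrArg _ (funext fun a => lex_fsum hn s fun i hi => (h i hi).right a)

lemma lex2_abs_le {X : Copy S n → Copy S n → ℝ} (hX : Nice2 X) {B : ℝ} (h : ∀ a a', |X a a'| ≤ B) :
    |lex2 S J b F X| ≤ B :=
  lex_abs_le hn (Nice2.lex_left hn hX) fun a => lex_abs_le hn (Nice2.right hX a) (h a)

lemma lex2_swap {X : Copy S n → Copy S n → ℝ} (hX : Nice2 X) :
    lex2 S J b F (fun a a' => X a' a) = lex2 S J b F X := by
  obtain ⟨hc, C, hC⟩ := hX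
  simp only [lex2, lex_def, ← integral_const_mul]
  have hint : ∀ l l', Integrable (fun p : (Fin n → ℝ) × (Fin n → ℝ) =>
      copyW S J b F (p.1, l) * (copyW S J b F (p.2, l') * X (p.2, l') (p.1, l))) ((gauss (Fin n)).prod (gauss (Fin n))) := fun l l' => by
    refine (integrable_const C).mono' ?_ (ae_of_all _ fun p => ?_)
    · exact (((copyW_cont l).comp continuous_fst).mul (((copyW_cont l').comp continuous_snd).mul
        ((hc l' l).comp (continuous_snd.prodMk continuous_fst)))).aestronglyMeasurable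
    · rw [Real.norm_eq_abs, abs_mul, abs_mul, abs_of_nonneg (copyW_nonneg _), abs_of_nonneg (copyW_nonneg _)]
      exact (mul_le_of_le_one_left (by positivity [copyW_nonneg (S := S) (J := J) (b := b) (F := F) (p.2, l')]) (copyW_le_one hn _)).trans
        ((mul_le_of_le_one_left (abs_nonneg _) (copyW_le_one hn _)).trans (hC _ _))
  have hI : Integrable (fun p : (Fin n → ℝ) × (Fin n → ℝ) => ∑ l, ∑ l',
      copyW S J b F (p.1, l) * (copyW S J b F (p.2, l') * X (p.2, l') (p.1, l))) ((gauss (Fin n)).prod (gauss (Fin n))) :=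
    integrable_finsetSum _ fun l _ => integrable_finsetSum _ fun l' _ => hint l l'
  have e : ∀ (Y : Copy S n → Copy S n → ℝ), (∀ u l, Continuous fun u' => ∑ l', copyW S J b F (u', l') * Y (u, l) (u', l')) →
      (∀ a a', |Y a a'| ≤ C) →
      ∀ u, ∑ l, ∫ u', copyW S J b F (u, l) * ∑ l', copyW S J b F (u', l') * Y (u, l) (u', l') ∂gauss (Fin n) =
        ∫ u', ∑ l, ∑ l', copyW S J b F (u, l) * (copyW S J b F (u', l') * Y (u, l) (u', l')) ∂gauss (Fin n) := by
    intro Y hY hYC u
    rw [← integral_finsetSum _ fun l _ => ?_]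
    · simp only [Finset.mul_sum]
    refine ((integrable_const C).mono' (hY u l).aestronglyMeasurable (ae_of_all _ fun u' => ?_)).const_mul _
    rw [Real.norm_eq_abs]
    refine (Finset.abs_sum_le_sum_abs _ _).trans
      ((Finset.sum_le_sum (g := fun l' => copyW S J b F (u', l') * C) fun l' _ => ?_).trans_eq
      (by rw [← Finset.sum_mul, copyW_sum hn, one_mul]))
    rw [abs_mul, abs_of_nonneg (copyW_nonneg _)]
    exact mul_le_mul_of_nonneg_left (hYC _ _) (copyW_nonneg _)
  rw [integral_congr_ae (ae_of_all _ (e (fun a a' => X a' a) (fun u l => continuous_finsetSum _ fun l' _ =>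
      (copyW_cont l').mul ((hc l' l).comp (continuous_id.prodMk continuous_const))) fun a a' => hC a' a)),
    integral_integral_swap hI, integral_congr_ae (ae_of_all _ (e X (fun u l => continuous_finsetSum _ fun l' _ =>
      (copyW_cont l').mul ((hc l l').comp (continuous_const.prodMk continuous_id))) hC))]
  refine integral_congr_ae (ae_of_all _ fun u => integral_congr_ae (ae_of_all _ fun u' => ?_))
  show ∑ l, ∑ l', _ = ∑ l, ∑ l', _
  rw [Finset.sum_comm]
  exact Finset.sum_congr rfl fun l' _ => Finset.sum_congr rfl fun l _ => by ring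

/-- increments of a copy are martingale differences -/
lemma lex_cinc_zero (k : Fin (S.D + S.R)) (i : Fin n) (f : Cfg n → ℝ) :
    lex S J b F (fun a => cinc S J b F a k i * f (cpos S F a k)) = 0 := by
  rw [lex_def]
  refine integral_eq_zero_of_ae (ae_of_all _ fun u => ?_)
  show ∑ l : Leg S n, _ = (0:ℝ)
  rw [Fintype.sum_prod_type]
  by_cases h : (k : ℕ) < S.D
  · simp only [copyW, cinc, cpos, dif_pos h, if_pos h.le]
    refine (Finset.sum_congr rfl fun l₁ _ => ?_).trans
      (pex_inc_zero J b hn i h F (fun w => f (st F w k)) (before_st F f k))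
    rw [← Finset.sum_mul, ← Finset.mul_sum, pw_sum _ _ hn]; ring
  · refine Finset.sum_eq_zero fun l₁ _ => ?_
    have hpos : ∀ l₂ : Path n S.R, cpos S F (u, (l₁, l₂)) k = st (st F l₁ S.D) l₂ ((k:ℕ) - S.D) := fun l₂ => by
      rcases eq_or_lt_of_le (not_lt.1 h) with h' | h'
      · simp [cpos, ← h', st]
      · simp [cpos, Nat.not_le.2 h']
    have h0 := pex_inc_zero J (fun j => b j + obsField S.t (st F l₁ S.D) u j) hn i
      (by have := k.2; omega : (k:ℕ) - S.D < S.R) (st F l₁ S.D) (fun w => f (st (st F l₁ S.D) w ((k:ℕ) - S.D)))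
      (before_st _ f _)
    simp only [copyW, cinc, dif_neg h, hpos, mul_assoc, ← Finset.mul_sum]
    refine mul_eq_zero_of_right _ (Eq.trans ?_ h0)
    exact Finset.sum_congr rfl fun l₂ _ => by ring

end

end Vale.Agent.P150.PA.TV
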