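import Vale.Agent.P150.PA.TreeValueLex

/-! The value of one period of the branching experiment. -/

open MeasureTheory

namespace Vale.Agent.P150.PA.TV

open Ising

variable {n : ℕ} (S : Sched) (J : Fin n → Fin n → ℝ) (φ : Test n) (b : Fin n → ℝ)

/-- variances over one copy are at most `V`, for every starting configuration -/
structure CopyVar (V : ℝ) : Prop where
  spin : ∀ F, ∀ w : Fin n → ℝ, (∀ j, |w j| ≤ 1) → ∀ k ≤ S.D + S.R,
    lex S J b F (fun a => (∑ j, w j * spin (cpos S F a k j)) ^ 2) -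
      lex S J b F (fun a => ∑ j, w j * spin (cpos S F a k j)) ^ 2 ≤ V
  cval : ∀ F, ∀ w : Fin n → ℝ, (∀ j, |w j| ≤ 1) →
    lex S J b F (fun a => (∑ j, w j * cval S J φ F a j) ^ 2) -
      lex S J b F (fun a => ∑ j, w j * cval S J φ F a j) ^ 2 ≤ V
  spin_spin : ∀ F, ∀ k ≤ S.D + S.R, ∀ l ≤ S.D + S.R,
    lex S J b F (fun a => (∑ j, Vale.Agent.P150.spin (cpos S F a k j) * Vale.Agent.P150.spin (cpos S F a l j)) ^ 2) -
      lex S J b F (fun a => ∑ j, Vale.Agent.P150.spin (cpos S F a k j) * Vale.Agent.P150.spin (cpos S F a l j)) ^ 2 ≤ V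
  spin_cval : ∀ F, ∀ k ≤ S.D + S.R,
    lex S J b F (fun a => (∑ j, Vale.Agent.P150.spin (cpos S F a k j) * PA.cval S J φ F a j) ^ 2) -
      lex S J b F (fun a => ∑ j, Vale.Agent.P150.spin (cpos S F a k j) * PA.cval S J φ F a j) ^ 2 ≤ V

variable (F : Cfg n)

/-- the spin vector of a copy after `k` attempts -/
def cspin (k : ℕ) (a : Copy S n) (i : Fin n) : ℝ := spin (cpos S F a k i)

/-- one site pair sum of a score term -/
noncomputable def pairTerm (c y : Fin n → ℝ) (a a' : Copy S n) : ℝ :=
  ∑ i, ∑ j ∈ Finset.univ.erase i, c i *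
    ((cval S J φ F a i - cval S J φ F a' i) * (cspin S F (S.D + S.R) a j - cspin S F (S.D + S.R) a' j) +
     (cval S J φ F a j - cval S J φ F a' j) * (cspin S F (S.D + S.R) a i - cspin S F (S.D + S.R) a' i)) * y j

/-- the first term of `Λ` in one period -/
noncomputable def fieldTerm (a a' : Copy S n) : ℝ :=
  ∑ i, (cval S J φ F a i - cval S J φ F a' i) *
    (fld J 0 i (cpos S F a (S.D + S.R)) - fld J 0 i (cpos S F a' (S.D + S.R)))

/-- the divergence term of one period -/
noncomputable def divTerm (a a' : Copy S n) : ℝ :=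
  ∑ i, ∑ k ∈ Finset.univ.erase i,
    (cdval S J φ F a i * cspin S F (S.D + S.r) a k - cdval S J φ F a' i * cspin S F (S.D + S.r) a' k) *
      (cspin S F (S.D + S.R) a k - cspin S F (S.D + S.R) a' k)

/-- the part of `Λ` inside one period, at `σ² = β²/n` -/
noncomputable def periodX (β : ℝ) (a a' : Copy S n) : ℝ :=
  -fieldTerm S J φ F a a' + β ^ 2 / n * divTerm S J φ F a a' + β ^ 2 / n * ∑ k : Fin (S.D + S.R),
    (pairTerm S J φ F (cinc S J b F a k) (cspin S F k a) a a' +
     pairTerm S J φ F (cinc S J b F a' k) (cspin S F k a') a' a)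

variable {S J φ b F}

lemma abs_spin' (c : Bool) : |spin c| = 1 := by cases c <;> simp [spin]

lemma nice_cspin (k : ℕ) (i : Fin n) : Nice fun a : Copy S n => cspin S F k a i := by
  refine ⟨fun l => ?_, 1, fun a => (abs_spin' _).le⟩
  simp only [cspin, cpos]; exact continuous_const

lemma nice_fld (k : ℕ) (i : Fin n) : Nice fun a : Copy S n => fld J 0 i (cpos S F a k) := by
  have h : Nice fun a : Copy S n => (∑ j, J i j * cspin S F k a j) + (0 : Fin n → ℝ) i :=
    (Nice.sum _ fun j _ => (Nice.const _).mul (nice_cspin k j)).add (Nice.const _)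
  exact h

lemma nice_cval {M : ℝ} (hφ : φ.Bdd M) (i : Fin n) : Nice fun a : Copy S n => cval S J φ F a i := by
  refine ⟨fun l => ?_, M, fun a => hφ.fn_le _ _ _ _⟩
  have h := (hφ.cont i (st F l.1 S.D i)).1.comp
    (show Continuous fun u : Fin n → ℝ => (fld J 0 i (cpos S F ((0 : Fin n → ℝ), l) (S.D + S.r)), u i) by fun_prop)
  exact h

lemma nice_cdval {M : ℝ} (hφ : φ.Bdd M) (i : Fin n) : Nice fun a : Copy S n => cdval S J φ F a i := by
  refine ⟨fun l => ?_, M, fun a => hφ.dfn_le _ _ _ _⟩
  have h := (hφ.cont i (st F l.1 S.D i)).2.comp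
    (show Continuous fun u : Fin n → ℝ => (fld J 0 i (cpos S F ((0 : Fin n → ℝ), l) (S.D + S.r)), u i) by fun_prop)
  exact h

lemma abs_inc_le (b : Fin n → ℝ) (y : Cfg n) (m : Move n) (i : Fin n) :
    |inc J b y m i| ≤ if m.1 = i then 2 else 0 := by
  unfold inc
  split
  · refine (abs_sub _ _).trans ?_
    rw [abs_spin']
    have := (tanh_abs_lt (fld J b i y)).le
    unfold mag; linarith
  · simp

lemma sum_abs_inc_le (b : Fin n → ℝ) (y : Cfg n) (m : Move n) : ∑ i, |inc J b y m i| ≤ 2 := by
  refine (Finset.sum_le_sum fun i _ => abs_inc_le b y m i).trans_eq ?_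
  simp

lemma sum_abs_cinc_le (a : Copy S n) (k : Fin (S.D + S.R)) : ∑ i, |cinc S J b F a k i| ≤ 2 := by
  by_cases h : (k : ℕ) < S.D
  · simpa only [cinc, dif_pos h] using sum_abs_inc_le _ _ _
  · simpa only [cinc, dif_neg h] using sum_abs_inc_le _ _ _

lemma nice_cinc (k : Fin (S.D + S.R)) (i : Fin n) : Nice fun a : Copy S n => cinc S J b F a k i := by
  refine ⟨fun l => ?_, 2, fun a => (Finset.single_le_sum (f := fun i => |cinc S J b F a k i|) (fun _ _ => abs_nonneg _)
    (Finset.mem_univ i)).trans (sum_abs_cinc_le a k)⟩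
  by_cases h : (k : ℕ) < S.D
  · simp only [cinc, dif_pos h]; exact continuous_const
  · obtain ⟨l₁, l₂⟩ := l
    have ht : Continuous Real.tanh := by
      simp only [show Real.tanh = fun x => Real.sinh x / Real.cosh x from funext Real.tanh_eq_sinh_div_cosh]
      exact Real.continuous_sinh.div Real.continuous_cosh fun x => (Real.cosh_pos x).ne'
    simp only [cinc, dif_neg h, inc]
    split
    · unfold mag fld obsField; fun_prop
    · exact continuous_const

/-- a linear form with small weights against a bounded vector -/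
lemma abs_wsum_le {c p : Fin n → ℝ} {A : ℝ} (hc : ∑ i, |c i| ≤ 2) (hA : 0 ≤ A) (hp : ∀ i, |p i| ≤ A) :
    |∑ i, c i * p i| ≤ 2 * A := by
  refine (Finset.abs_sum_le_sum_abs _ _).trans ?_
  refine (Finset.sum_le_sum fun i _ => ?_).trans ((Finset.sum_mul _ _ A).symm.le.trans (mul_le_mul_of_nonneg_right hc hA))
  rw [abs_mul]; exact mul_le_mul_of_nonneg_left (hp i) (abs_nonneg _)

/-- variance of a linear form with weights at most `C` -/
lemma var_scaled {q : Copy S n → Fin n → ℝ} {V C : ℝ} (hC : 0 < C)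
    (h : ∀ w : Fin n → ℝ, (∀ j, |w j| ≤ 1) → lex S J b F (fun a => (∑ j, w j * q a j) ^ 2) -
      lex S J b F (fun a => ∑ j, w j * q a j) ^ 2 ≤ V) {w : Fin n → ℝ} (hw : ∀ j, |w j| ≤ C) :
    lex S J b F (fun a => (∑ j, w j * q a j) ^ 2) - lex S J b F (fun a => ∑ j, w j * q a j) ^ 2 ≤ C ^ 2 * V := by
  have h1 := h (fun j => w j / C) fun j => by
    rw [abs_div, abs_of_pos hC, div_le_one hC]; exact hw j
  have e : ∀ a, ∑ j, w j / C * q a j = C⁻¹ * ∑ j, w j * q a j := fun a => by
    rw [Finset.mul_sum]; exact Finset.sum_congr rfl fun j _ => by ring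
  simp only [e, mul_pow, lex_smul] at h1
  have := mul_le_mul_of_nonneg_left h1 (sq_nonneg C)
  field_simp at this
  linarith

section
variable (hn : 0 < n)
include hn

lemma lex_lin {c : Fin n → ℝ} {p : Copy S n → Fin n → ℝ} (hp : ∀ i, Nice fun a => p a i) :
    lex S J b F (fun a => ∑ i, c i * p a i) = ∑ i, c i * lex S J b F (fun a => p a i) := by
  rw [lex_fsum hn _ fun i _ => (Nice.const (c i)).mul (hp i)]
  simp only [lex_smul]

/-- the two-copy covariance of two linear forms with weights fixed outside the copies -/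
lemma outer_part {p q : Copy S n → Fin n → ℝ} {A s : ℝ} (hA : 0 ≤ A) (hs : 0 ≤ s) (hp : ∀ i, Nice fun a => p a i)
    (hq : ∀ i, Nice fun a => q a i) (hpA : ∀ a i, |p a i| ≤ A)
    (hlin : ∀ w : Fin n → ℝ, (∀ j, |w j| ≤ 1) → lex S J b F (fun a => (∑ j, w j * q a j) ^ 2) -
      lex S J b F (fun a => ∑ j, w j * q a j) ^ 2 ≤ s ^ 2)
    {c y : Fin n → ℝ} (hc : ∑ i, |c i| ≤ 2) (hy : ∀ j, |y j| ≤ 1) :
    |lex2 S J b F (fun a a' => (∑ i, c i * (p a i - p a' i)) * ∑ j, y j * (q a j - q a' j))| ≤ 4 * (A * s) := by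
  set U := fun a => ∑ i, c i * p a i
  set W := fun a => ∑ j, y j * q a j
  have hU : Nice U := Nice.sum _ fun i _ => (Nice.const _).mul (hp i)
  have hW : Nice W := Nice.sum _ fun i _ => (Nice.const _).mul (hq i)
  have e : (fun a a' => (∑ i, c i * (p a i - p a' i)) * ∑ j, y j * (q a j - q a' j)) =
      fun a a' => U a * W a - (U a * W a' + (W a * U a' - U a' * W a')) := by
    funext a a'; simp only [mul_sub, Finset.sum_sub_distrib, U, W]; ring
  set u := lex S J b F U
  set w := lex S J b F W
  set uw := lex S J b F (fun a => U a * W a)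
  have hin : ∀ a, lex S J b F (fun a' => U a * W a - (U a * W a' + (W a * U a' - U a' * W a'))) =
      U a * W a - (U a * w + (W a * u - uw)) := fun a => by
    rw [lex_sub hn (Nice.const _) (((Nice.const _).mul hW).add (((Nice.const _).mul hU).sub (hU.mul hW))),
      lex_add hn ((Nice.const _).mul hW) (((Nice.const _).mul hU).sub (hU.mul hW)),
      lex_sub hn ((Nice.const _).mul hU) (hU.mul hW), lex_const hn, lex_smul, lex_smul]
  have hout : lex S J b F (fun a => U a * W a - (U a * w + (W a * u - uw))) = 2 * (uw - u * w) := by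
    rw [lex_sub hn (hU.mul hW) ((hU.mul (Nice.const w)).add ((hW.mul (Nice.const u)).sub (Nice.const uw))),
      lex_add hn (hU.mul (Nice.const w)) ((hW.mul (Nice.const u)).sub (Nice.const uw)),
      lex_sub hn (hW.mul (Nice.const u)) (Nice.const uw), lex_const hn, lex_mul_const, lex_mul_const]
    ring
  rw [e, lex2]; simp only [hin, hout]
  have := lex_cov_le (J := J) (b := b) (F := F) hn hU hW (by positivity : (0:ℝ) ≤ 2 * A)
    (fun a => abs_wsum_le hc hA (hpA a)) hs (hlin y hy)
  rw [abs_mul, abs_two]; linarith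

/-- one product of a score term, with weights carried by the first copy -/
lemma score_part {p q : Copy S n → Fin n → ℝ} {A C s : ℝ} (hA : 0 ≤ A) (hC : 0 ≤ C) (hs : 0 ≤ s)
    (hp : ∀ i, Nice fun a => p a i) (hq : ∀ i, Nice fun a => q a i) (hpA : ∀ a i, |p a i| ≤ A)
    (k : Fin (S.D + S.R))
    (hlin : ∀ w : Fin n → ℝ, (∀ j, |w j| ≤ 1) → lex S J b F (fun a => (∑ j, w j * q a j) ^ 2) -
      lex S J b F (fun a => ∑ j, w j * q a j) ^ 2 ≤ s ^ 2)
    (hQ : lex S J b F (fun a => (∑ j, cspin S F k a j * q a j) ^ 2) -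
      lex S J b F (fun a => ∑ j, cspin S F k a j * q a j) ^ 2 ≤ s ^ 2)
    (hL : lex S J b F (fun a => (∑ j, cspin S F k a j * lex S J b F (fun a => q a j)) ^ 2) -
      lex S J b F (fun a => ∑ j, cspin S F k a j * lex S J b F (fun a => q a j)) ^ 2 ≤ (C * s) ^ 2) :
    |lex2 S J b F (fun a a' => (∑ i, cinc S J b F a k i * (p a i - p a' i)) * ∑ j, cspin S F k a j * (q a j - q a' j))
      - (∑ i, lex S J b F (fun a => p a i * cinc S J b F a k i)) *
        ∑ j, (lex S J b F (fun a => cspin S F k a j * q a j) -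
          lex S J b F (fun a => cspin S F k a j) * lex S J b F (fun a => q a j))| ≤ A * s * (6 + 4 * C) := by
  set mp := fun i => lex S J b F (fun a => p a i) with hmp
  set mq := fun j => lex S J b F (fun a => q a j) with hmq
  set U := fun a => ∑ i, cinc S J b F a k i * p a i
  set mU := fun a => ∑ i, cinc S J b F a k i * mp i
  set W := fun a => ∑ j, cspin S F k a j * q a j
  set mW := fun a => ∑ j, cspin S F k a j * mq j
  set R := fun a => lex S J b F (fun a' => (∑ i, cinc S J b F a k i * p a' i) * ∑ j, cspin S F k a j * q a' j) - mU a * mW a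
  have hU : Nice U := Nice.sum _ fun i _ => (nice_cinc k i).mul (hp i)
  have hmU : Nice mU := Nice.sum _ fun i _ => (nice_cinc k i).mul (Nice.const _)
  have hW : Nice W := Nice.sum _ fun i _ => (nice_cspin k i).mul (hq i)
  have hmW : Nice mW := Nice.sum _ fun i _ => (nice_cspin k i).mul (Nice.const _)
  have hmpA : ∀ i, |mp i| ≤ A := fun i => lex_abs_le hn (hp i) fun a => hpA a i
  have hR : ∀ a, |R a| ≤ 2 * A * s := fun a => by
    have h := lex_cov_le (J := J) (b := b) (F := F) hn
      (Nice.sum Finset.univ fun i _ => (Nice.const (cinc S J b F a k i)).mul (hp i))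
      (Nice.sum Finset.univ fun j _ => (Nice.const (cspin S F k a j)).mul (hq j)) (by positivity : (0:ℝ) ≤ 2 * A)
      (fun a' => abs_wsum_le (sum_abs_cinc_le a k) hA (hpA a')) hs (hlin _ fun j => (abs_spin' _).le)
    rw [lex_lin hn hp, lex_lin hn hq] at h
    exact h
  have hin : ∀ a, lex S J b F (fun a' =>
      (∑ i, cinc S J b F a k i * (p a i - p a' i)) * ∑ j, cspin S F k a j * (q a j - q a' j)) =
      (U a - mU a) * (W a - mW a) + R a := fun a => by
    set U' := fun a' => ∑ i, cinc S J b F a k i * p a' i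
    set W' := fun a' => ∑ j, cspin S F k a j * q a' j
    have hU' : Nice U' := Nice.sum _ fun i _ => (Nice.const _).mul (hp i)
    have hW' : Nice W' := Nice.sum _ fun i _ => (Nice.const _).mul (hq i)
    have e : (fun a' => (∑ i, cinc S J b F a k i * (p a i - p a' i)) * ∑ j, cspin S F k a j * (q a j - q a' j)) =
        fun a' => U a * W a - (U a * W' a' + (W a * U' a' - U' a' * W' a')) := by
      funext a'; simp only [mul_sub, Finset.sum_sub_distrib, U, W, U', W']; ring
    rw [e, lex_sub hn (Nice.const _) (((Nice.const _).mul hW').add (((Nice.const _).mul hU').sub (hU'.mul hW'))),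
      lex_add hn ((Nice.const _).mul hW') (((Nice.const _).mul hU').sub (hU'.mul hW')),
      lex_sub hn ((Nice.const _).mul hU') (hU'.mul hW'), lex_const hn, lex_smul, lex_smul]
    simp only [R, U', W', mU, mW, hmp, hmq, lex_lin hn hp, lex_lin hn hq]
    ring
  have hn2 : Nice2 fun a a' => (∑ i, cinc S J b F a k i * (p a i - p a' i)) * ∑ j, cspin S F k a j * (q a j - q a' j) := by
    have hcp : ∀ i, ∀ l : Leg S n, Continuous fun u => cinc S J b F (u, l) k i := fun i => (nice_cinc k i).1
    obtain ⟨-, B, hB⟩ : Nice W := hW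
    choose Cp hCp using fun i => (hp i).2
    choose Cq hCq using fun i => (hq i).2
    refine ⟨fun l l' => (continuous_finsetSum _ fun i _ => ((hcp i l).comp continuous_fst).mul
        ((((hp i).1 l).comp continuous_fst).sub (((hp i).1 l').comp continuous_snd))).mul
      (continuous_finsetSum _ fun j _ => (((nice_cspin k j).1 l).comp continuous_fst).mul
        ((((hq j).1 l).comp continuous_fst).sub (((hq j).1 l').comp continuous_snd))),
      (2 * (2 * A)) * ∑ j, (Cq j + Cq j), fun a a' => ?_⟩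
    rw [abs_mul]
    refine mul_le_mul (abs_wsum_le (sum_abs_cinc_le a k) (by positivity) fun i =>
      (abs_sub _ _).trans (by linarith [hpA a i, hpA a' i])) ((Finset.abs_sum_le_sum_abs _ _).trans
        (Finset.sum_le_sum fun j _ => ?_)) (abs_nonneg _) (by positivity)
    rw [abs_mul, show |cspin S F k a j| = 1 from abs_spin' _, one_mul]
    exact (abs_sub _ _).trans (add_le_add (hCq j a) (hCq j a'))
  have hRn : Nice R := by
    have h := Nice2.lex_left (J := J) (b := b) (F := F) hn hn2
    have h' := h.sub ((hU.sub hmU).mul (hW.sub hmW))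
    simp only [hin, add_sub_cancel_left] at h'
    exact h'
  have hD : Nice fun a => U a - mU a := hU.sub hmU
  have hDb : ∀ a, |U a - mU a| ≤ 4 * A := fun a => (abs_sub _ _).trans
    (by linarith [abs_wsum_le (sum_abs_cinc_le (J := J) (b := b) (F := F) a k) hA (hpA a),
      abs_wsum_le (sum_abs_cinc_le (J := J) (b := b) (F := F) a k) hA hmpA])
  have hz : ∀ i, lex S J b F (fun a => cinc S J b F a k i) = 0 := fun i => by
    simpa using lex_cinc_zero (S := S) (J := J) (b := b) (F := F) hn k i (fun _ => (1:ℝ))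
  have eD : lex S J b F (fun a => U a - mU a) = ∑ i, lex S J b F (fun a => p a i * cinc S J b F a k i) := by
    rw [lex_sub hn hU hmU]
    simp only [U, mU]
    rw [lex_fsum hn _ fun i _ => (nice_cinc k i).mul (hp i), lex_fsum hn _ fun i _ => (nice_cinc k i).mul (Nice.const _)]
    simp only [lex_mul_const, hz, zero_mul, Finset.sum_const_zero, sub_zero, mul_comm]
  have eW : lex S J b F W - lex S J b F mW = ∑ j, (lex S J b F (fun a => cspin S F k a j * q a j) -
      lex S J b F (fun a => cspin S F k a j) * lex S J b F (fun a => q a j)) := by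
    simp only [W, mW]
    rw [lex_fsum hn _ fun j _ => (nice_cspin k j).mul (hq j), lex_fsum hn _ fun j _ => (nice_cspin k j).mul (Nice.const _),
      Finset.sum_sub_distrib]
    simp only [lex_mul_const, hmq]
  rw [lex2]
  simp only [hin]
  rw [lex_add hn (hD.mul (hW.sub hmW)) hRn, ← eD, ← eW]
  have c1 := lex_cov_le (J := J) (b := b) (F := F) hn hD hW (by positivity : (0:ℝ) ≤ 4 * A) hDb hs hQ
  have c2 := lex_cov_le (J := J) (b := b) (F := F) hn hD hmW (by positivity : (0:ℝ) ≤ 4 * A) hDb (mul_nonneg hC hs) hL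
  have c3 := lex_abs_le (J := J) (b := b) (F := F) hn hRn hR
  have e3 : (fun a => (U a - mU a) * (W a - mW a)) = fun a => (U a - mU a) * W a - (U a - mU a) * mW a := by
    funext a; ring
  rw [e3, lex_sub hn (hD.mul hW) (hD.mul hmW)]
  simp only [abs_le] at c1 c2 c3 ⊢
  constructor <;> linarith [c1.1, c1.2, c2.1, c2.2, c3.1, c3.2]

lemma nice2_fieldTerm {M : ℝ} (hφ : φ.Bdd M) : Nice2 (fieldTerm S J φ F) := by
  choose Ch hCh using fun i => (nice_fld (S := S) (J := J) (F := F) (S.D + S.R) i).2
  refine ⟨fun l l' => continuous_finsetSum _ fun i _ => ((((nice_cval hφ i).1 l).comp continuous_fst).sub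
      (((nice_cval hφ i).1 l').comp continuous_snd)).mul ((((nice_fld _ i).1 l).comp continuous_fst).sub
      (((nice_fld _ i).1 l').comp continuous_snd)), ∑ i, (M + M) * (Ch i + Ch i), fun a a' =>
    (Finset.abs_sum_le_sum_abs _ _).trans (Finset.sum_le_sum fun i _ => ?_)⟩
  have hM : 0 ≤ M := (abs_nonneg _).trans (hφ.fn_le i 0 0 true)
  rw [abs_mul]
  exact mul_le_mul ((abs_sub _ _).trans (add_le_add (hφ.fn_le _ _ _ _) (hφ.fn_le _ _ _ _)))
    ((abs_sub _ _).trans (add_le_add (hCh i a) (hCh i a'))) (abs_nonneg _) (by positivity)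

lemma fieldTerm_value {M : ℝ} (hφ : φ.Bdd M) :
    lex2 S J b F (fieldTerm S J φ F) = 2 * ∑ i, (lex S J b F (fun a => cval S J φ F a i * fld J 0 i (cpos S F a (S.D + S.R)))
      - lex S J b F (fun a => cval S J φ F a i) * lex S J b F (fun a => fld J 0 i (cpos S F a (S.D + S.R)))) := by
  set v := fun (i : Fin n) a => cval S J φ F a i
  set h := fun (i : Fin n) (a : Copy S n) => fld J 0 i (cpos S F a (S.D + S.R))
  have hv : ∀ i, Nice (v i) := fun i => nice_cval hφ i
  have hh : ∀ i, Nice (h i) := fun i => nice_fld _ i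
  have hin : ∀ a, lex S J b F (fieldTerm S J φ F a) = ∑ i, (v i a * h i a - (v i a * lex S J b F (h i) +
      (h i a * lex S J b F (v i) - lex S J b F (fun a => v i a * h i a)))) := fun a => by
    show lex S J b F (fun a' => ∑ i, (v i a - v i a') * (h i a - h i a')) = _
    rw [lex_fsum hn _ fun i _ => ((Nice.const _).sub (hv i)).mul ((Nice.const _).sub (hh i))]
    refine Finset.sum_congr rfl fun i _ => ?_
    rw [show (fun a' => (v i a - v i a') * (h i a - h i a')) =
        fun a' => v i a * h i a - (v i a * h i a' + (h i a * v i a' - v i a' * h i a')) from funext fun a' => by ring,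
      lex_sub hn (Nice.const _) (((Nice.const _).mul (hh i)).add (((Nice.const _).mul (hv i)).sub ((hv i).mul (hh i)))),
      lex_add hn ((Nice.const _).mul (hh i)) (((Nice.const _).mul (hv i)).sub ((hv i).mul (hh i))),
      lex_sub hn ((Nice.const _).mul (hv i)) ((hv i).mul (hh i)), lex_const hn, lex_smul, lex_smul]
  simp only [lex2, hin]
  rw [lex_fsum hn _ fun i _ => ((hv i).mul (hh i)).sub (((hv i).mul (Nice.const _)).add
    (((hh i).mul (Nice.const _)).sub (Nice.const _))), Finset.mul_sum]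
  refine Finset.sum_congr rfl fun i _ => ?_
  rw [lex_sub hn ((hv i).mul (hh i)) (((hv i).mul (Nice.const _)).add (((hh i).mul (Nice.const _)).sub (Nice.const _))),
    lex_add hn ((hv i).mul (Nice.const _)) (((hh i).mul (Nice.const _)).sub (Nice.const _)),
    lex_sub hn ((hh i).mul (Nice.const _)) (Nice.const _), lex_const hn, lex_mul_const, lex_mul_const]
  ring

variable {M V : ℝ} (hφ : φ.Bdd M) (hM : 1 ≤ M) (hV0 : 0 ≤ V) (hV : CopyVar S J φ b V)
include hφ hM hV0 hV

omit hn hV0 hV in
lemma nice2_divTerm : Nice2 (divTerm S J φ F) := by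
  refine ⟨fun l l' => continuous_finsetSum _ fun i _ => continuous_finsetSum _ fun k _ =>
    (((((nice_cdval hφ i).1 l).comp continuous_fst).mul (((nice_cspin _ k).1 l).comp continuous_fst)).sub
      ((((nice_cdval hφ i).1 l').comp continuous_snd).mul (((nice_cspin _ k).1 l').comp continuous_snd))).mul
      ((((nice_cspin _ k).1 l).comp continuous_fst).sub (((nice_cspin _ k).1 l').comp continuous_snd)),
    ∑ _i : Fin n, ∑ _k : Fin n, (M + M) * 2, fun a a' => (Finset.abs_sum_le_sum_abs _ _).trans (Finset.sum_le_sum fun i _ => ?_)⟩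
  refine (Finset.abs_sum_le_sum_abs _ _).trans (le_trans (Finset.sum_le_sum fun k _ => ?_)
    (Finset.sum_le_sum_of_subset_of_nonneg (Finset.erase_subset _ _) fun _ _ _ => by positivity))
  rw [abs_mul]
  refine mul_le_mul ((abs_sub _ _).trans (add_le_add ?_ ?_)) ((abs_sub _ _).trans (by simp [cspin, abs_spin']; norm_num))
    (abs_nonneg _) (by positivity) <;>
  · rw [abs_mul, show |cspin S F (S.D + S.r) _ k| = 1 from abs_spin' _, mul_one]; exact hφ.dfn_le _ _ _ _

lemma divTerm_value (hr : S.r ≤ S.R) :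
    |lex2 S J b F (divTerm S J φ F) - 2 * ((∑ i, lex S J b F (fun a => cdval S J φ F a i)) *
      ∑ i, (lex S J b F (fun a => cspin S F (S.D + S.r) a i * cspin S F (S.D + S.R) a i) -
        lex S J b F (fun a => cspin S F (S.D + S.r) a i) * lex S J b F (fun a => cspin S F (S.D + S.R) a i)))| ≤
      n * M * (4 * Real.sqrt V + 4) := by
  set d := fun a => ∑ i, cdval S J φ F a i
  set x := fun (j : Fin n) (a : Copy S n) => cspin S F (S.D + S.r) a j
  set z := fun (j : Fin n) (a : Copy S n) => cspin S F (S.D + S.R) a j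
  set Q := fun a => ∑ j, x j a * z j a
  set L := fun a => ∑ j, lex S J b F (z j) * x j a
  have hd : Nice d := Nice.sum _ fun i _ => nice_cdval hφ i
  have hx : ∀ j, Nice (x j) := fun j => nice_cspin _ j
  have hz : ∀ j, Nice (z j) := fun j => nice_cspin _ j
  have hQ : Nice Q := Nice.sum _ fun j _ => (hx j).mul (hz j)
  have hL : Nice L := Nice.sum _ fun j _ => (Nice.const _).mul (hx j)
  have hdb : ∀ a, |d a| ≤ n * M := fun a =>
    (Finset.abs_sum_le_sum_abs _ _).trans ((Finset.sum_le_card_nsmul _ _ M fun i _ => hφ.dfn_le _ _ _ _).trans_eq (by simp))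
  set X := fun a a' => ∑ j, (d a * x j a - d a' * x j a') * (z j a - z j a') with hX
  -- removing the diagonal
  have hdiag : ∀ a a', |divTerm S J φ F a a' - X a a'| ≤ n * M * 4 := fun a a' => by
    have e : X a a' = ∑ i, ∑ k, (cdval S J φ F a i * x k a - cdval S J φ F a' i * x k a') * (z k a - z k a') := by
      rw [Finset.sum_comm]
      exact Finset.sum_congr rfl fun k _ => by simp only [d, Finset.sum_mul, ← Finset.sum_sub_distrib]
    rw [e, divTerm, ← Finset.sum_sub_distrib]
    refine (Finset.abs_sum_le_sum_abs _ _).trans ((Finset.sum_le_card_nsmul _ _ (M * 4) fun i _ => ?_).trans_eq (by simp; ring))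
    rw [Finset.sum_erase_eq_sub (Finset.mem_univ i), sub_sub_cancel_left, abs_neg, abs_mul]
    have h1 : |cdval S J φ F a i * x i a - cdval S J φ F a' i * x i a'| ≤ M + M := by
      refine (abs_sub _ _).trans (add_le_add ?_ ?_) <;>
      · rw [abs_mul, show |x i _| = 1 from abs_spin' _, mul_one]; exact hφ.dfn_le _ _ _ _
    have h2 : |z i a - z i a'| ≤ 2 := (abs_sub _ _).trans (by simp [z, cspin, abs_spin']; norm_num)
    exact (mul_le_mul h1 h2 (abs_nonneg _) (by linarith)).trans_eq (by ring)
  have hX2 : Nice2 X := by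
    refine ⟨fun l l' => continuous_finsetSum _ fun j _ => ((((hd.mul (hx j)).1 l).comp continuous_fst).sub
      (((hd.mul (hx j)).1 l').comp continuous_snd)).mul ((((hz j).1 l).comp continuous_fst).sub (((hz j).1 l').comp continuous_snd)),
      (n:ℝ) * (n * M + n * M) * 2, fun a a' => (Finset.abs_sum_le_sum_abs _ _).trans
      ((Finset.sum_le_card_nsmul _ _ ((n * M + n * M) * 2) fun j _ => ?_).trans_eq (by simp; ring))⟩
    rw [abs_mul]
    refine mul_le_mul ((abs_sub _ _).trans (add_le_add ?_ ?_)) ((abs_sub _ _).trans (by simp [z, cspin, abs_spin']; norm_num))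
      (abs_nonneg _) (by positivity) <;>
    · rw [abs_mul, show |x j _| = 1 from abs_spin' _, mul_one]; exact hdb _
  have hin : ∀ a, lex S J b F (X a) = d a * Q a - d a * L a - (∑ j, lex S J b F (fun a => d a * x j a) * z j a) +
      lex S J b F (fun a => d a * Q a) := fun a => by
    have e : X a = fun a' => (d a * Q a - ∑ j, d a * x j a * z j a') -
        ((∑ j, z j a * (d a' * x j a')) - d a' * Q a') := by
      funext a'
      simp only [hX, Q, Finset.mul_sum, ← Finset.sum_sub_distrib]
      exact Finset.sum_congr rfl fun j _ => by ring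
    have n1 : Nice fun a' => ∑ j, d a * x j a * z j a' := Nice.sum _ fun j _ => (Nice.const _).mul (hz j)
    have n2 : Nice fun a' => ∑ j, z j a * (d a' * x j a') := Nice.sum _ fun j _ => (Nice.const _).mul (hd.mul (hx j))
    rw [e, lex_sub hn ((Nice.const _).sub n1) (n2.sub (hd.mul hQ)), lex_sub hn (Nice.const _) n1,
      lex_sub hn n2 (hd.mul hQ), lex_const hn, lex_lin hn hz, lex_lin hn fun j => hd.mul (hx j)]
    have e2 : ∑ j, d a * x j a * lex S J b F (fun a => z j a) = d a * L a := by
      simp only [L, Finset.mul_sum]; exact Finset.sum_congr rfl fun j _ => by ring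
    have e3 : ∑ j, z j a * lex S J b F (fun a => d a * x j a) = ∑ j, lex S J b F (fun a => d a * x j a) * z j a :=
      Finset.sum_congr rfl fun j _ => mul_comm _ _
    rw [e2, e3]; ring
  have hval : lex2 S J b F X = 2 * (lex S J b F (fun a => d a * Q a) - lex S J b F (fun a => d a * L a)) := by
    simp only [lex2, hin]
    have n3 : Nice fun a => ∑ j, lex S J b F (fun a => d a * x j a) * z j a := Nice.sum _ fun j _ => (Nice.const _).mul (hz j)
    rw [lex_add hn (((hd.mul hQ).sub (hd.mul hL)).sub n3) (Nice.const _), lex_sub hn ((hd.mul hQ).sub (hd.mul hL)) n3,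
      lex_sub hn (hd.mul hQ) (hd.mul hL), lex_const hn, lex_lin hn hz]
    have e4 : lex S J b F (fun a => d a * L a) = ∑ j, lex S J b F (fun a => d a * x j a) * lex S J b F (fun a => z j a) := by
      simp only [L, Finset.mul_sum]
      rw [lex_fsum hn _ fun j _ => hd.mul ((Nice.const _).mul (hx j))]
      refine Finset.sum_congr rfl fun j _ => ?_
      rw [← lex_mul_const]
      exact congrArg _ (funext fun a => by ring)
    rw [e4]; ring
  set s := Real.sqrt V
  have hs2 : s ^ 2 = V := Real.sq_sqrt hV0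
  have c1 := lex_cov_le (J := J) (b := b) (F := F) hn hd hQ (by positivity : (0:ℝ) ≤ n * M) hdb (Real.sqrt_nonneg V)
    (hs2.symm ▸ hV.spin_spin F _ (by omega) _ le_rfl)
  have c2 := lex_cov_le (J := J) (b := b) (F := F) hn hd hL (by positivity : (0:ℝ) ≤ n * M) hdb (Real.sqrt_nonneg V)
    (hs2.symm ▸ hV.spin F (fun j => lex S J b F (z j)) (fun j => lex_abs_le hn (hz j) fun a => (abs_spin' _).le) _ (by omega))
  have e5 : lex S J b F Q - lex S J b F L = ∑ i, (lex S J b F (fun a => x i a * z i a) -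
      lex S J b F (x i) * lex S J b F (z i)) := by
    simp only [Q, L]
    rw [lex_fsum hn _ fun j _ => (hx j).mul (hz j), lex_lin hn hx, Finset.sum_sub_distrib]
    congr 1
    exact Finset.sum_congr rfl fun j _ => mul_comm _ _
  have e6 : lex S J b F d = ∑ i, lex S J b F (fun a => cdval S J φ F a i) := lex_fsum hn _ fun i _ => nice_cdval hφ i
  have h2 := nice2_divTerm (S := S) (J := J) (F := F) hφ hM
  have hdif : |lex2 S J b F (divTerm S J φ F) - lex2 S J b F X| ≤ n * M * 4 := by
    simp only [lex2]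
    rw [← lex_sub hn (Nice2.lex_left hn h2) (Nice2.lex_left hn hX2)]
    refine lex_abs_le hn ((Nice2.lex_left hn h2).sub (Nice2.lex_left hn hX2)) fun a => ?_
    rw [← lex_sub hn (h2.right a) (hX2.right a)]
    exact lex_abs_le hn ((h2.right a).sub (hX2.right a)) (hdiag a)
  rw [← e6, show ∑ i, (lex S J b F (fun a => cspin S F (S.D + S.r) a i * cspin S F (S.D + S.R) a i) -
        lex S J b F (fun a => cspin S F (S.D + S.r) a i) * lex S J b F (fun a => cspin S F (S.D + S.R) a i)) =
      lex S J b F Q - lex S J b F L from e5.symm]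
  rw [hval] at hdif
  simp only [abs_le] at c1 c2 hdif ⊢
  constructor <;> linarith [c1.1, c1.2, c2.1, c2.2, hdif.1, hdif.2]

omit hn hV0 hV in
lemma pairTerm_full (c y : Fin n → ℝ) (hc : ∑ i, |c i| ≤ 2) (hy : ∀ j, |y j| ≤ 1) (a a' : Copy S n) :
    |pairTerm S J φ F c y a a' -
      ((∑ i, c i * (cval S J φ F a i - cval S J φ F a' i)) *
          (∑ j, y j * (cspin S F (S.D + S.R) a j - cspin S F (S.D + S.R) a' j)) +
       (∑ i, c i * (cspin S F (S.D + S.R) a i - cspin S F (S.D + S.R) a' i)) *
          ∑ j, y j * (cval S J φ F a j - cval S J φ F a' j))| ≤ 16 * M := by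
  set T := fun i j => c i *
    ((cval S J φ F a i - cval S J φ F a' i) * (cspin S F (S.D + S.R) a j - cspin S F (S.D + S.R) a' j) +
     (cval S J φ F a j - cval S J φ F a' j) * (cspin S F (S.D + S.R) a i - cspin S F (S.D + S.R) a' i)) * y j
  have e : (∑ i, c i * (cval S J φ F a i - cval S J φ F a' i)) *
          (∑ j, y j * (cspin S F (S.D + S.R) a j - cspin S F (S.D + S.R) a' j)) +
       (∑ i, c i * (cspin S F (S.D + S.R) a i - cspin S F (S.D + S.R) a' i)) *
          (∑ j, y j * (cval S J φ F a j - cval S J φ F a' j)) = ∑ i, ∑ j, T i j := by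
    rw [Finset.sum_mul_sum, Finset.sum_mul_sum, ← Finset.sum_add_distrib]
    exact Finset.sum_congr rfl fun i _ => by
      rw [← Finset.sum_add_distrib]; exact Finset.sum_congr rfl fun j _ => by simp only [T]; ring
  rw [e, pairTerm, ← Finset.sum_sub_distrib]
  refine (Finset.abs_sum_le_sum_abs _ _).trans
    ((Finset.sum_le_sum (g := fun i => |c i| * (8 * M)) fun i _ => ?_).trans
      (by rw [← Finset.sum_mul]; nlinarith))
  rw [Finset.sum_erase_eq_sub (Finset.mem_univ i)]
  simp only [T, sub_sub_cancel_left, abs_neg]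
  rw [abs_mul, abs_mul, mul_assoc]
  refine mul_le_mul_of_nonneg_left ?_ (abs_nonneg _)
  refine (mul_le_of_le_one_right (abs_nonneg _) (hy i)).trans ?_
  have a1 : |cval S J φ F a i - cval S J φ F a' i| ≤ M + M :=
    (abs_sub _ _).trans (add_le_add (hφ.fn_le _ _ _ _) (hφ.fn_le _ _ _ _))
  have a2 : |cspin S F (S.D + S.R) a i - cspin S F (S.D + S.R) a' i| ≤ 2 :=
    (abs_sub _ _).trans (by simp [cspin, abs_spin']; norm_num)
  refine (abs_add_le _ _).trans ?_
  rw [abs_mul]
  linarith [mul_le_mul a1 a2 (abs_nonneg _) (by linarith)]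

omit hn hV0 hV in
lemma abs_pairTerm_le (c y : Fin n → ℝ) (hc : ∑ i, |c i| ≤ 2) (hy : ∀ j, |y j| ≤ 1) (a a' : Copy S n) :
    |pairTerm S J φ F c y a a'| ≤ n * (16 * M) := by
  refine (Finset.abs_sum_le_sum_abs _ _).trans
    ((Finset.sum_le_sum (g := fun i => |c i| * (n * (8 * M))) fun i _ => ?_).trans ?_)
  · refine (Finset.abs_sum_le_sum_abs _ _).trans ((Finset.sum_le_card_nsmul _ _ (|c i| * (8 * M)) fun j _ => ?_).trans ?_)
    · rw [abs_mul, abs_mul, mul_assoc]
      refine mul_le_mul_of_nonneg_left ((mul_le_of_le_one_right (abs_nonneg _) (hy j)).trans ?_) (abs_nonneg _)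
      have a1 : ∀ i, |cval S J φ F a i - cval S J φ F a' i| ≤ M + M := fun i =>
        (abs_sub _ _).trans (add_le_add (hφ.fn_le _ _ _ _) (hφ.fn_le _ _ _ _))
      have a2 : ∀ i, |cspin S F (S.D + S.R) a i - cspin S F (S.D + S.R) a' i| ≤ 2 := fun i =>
        (abs_sub _ _).trans (by simp [cspin, abs_spin']; norm_num)
      refine (abs_add_le _ _).trans ?_
      rw [abs_mul, abs_mul]
      linarith [mul_le_mul (a1 i) (a2 j) (abs_nonneg _) (by linarith), mul_le_mul (a1 j) (a2 i) (abs_nonneg _) (by linarith)]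
    · rw [nsmul_eq_mul]
      have : (((Finset.univ.erase i).card : ℕ) : ℝ) ≤ n := by
        exact_mod_cast (Finset.card_erase_le.trans_eq (by simp))
      exact (mul_le_mul_of_nonneg_right this (by positivity)).trans_eq (by ring)
  · rw [← Finset.sum_mul]
    exact (mul_le_mul_of_nonneg_right hc (by positivity)).trans_eq (by ring)

omit hV0 hV in
lemma nice2_pairTerm {c y : Copy S n → Copy S n → Fin n → ℝ}
    (hcc : ∀ i l l', Continuous fun p : (Fin n → ℝ) × (Fin n → ℝ) => c (p.1, l) (p.2, l') i)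
    (hyc : ∀ i l l', Continuous fun p : (Fin n → ℝ) × (Fin n → ℝ) => y (p.1, l) (p.2, l') i)
    (hc : ∀ a a', ∑ i, |c a a' i| ≤ 2) (hy : ∀ a a' j, |y a a' j| ≤ 1) :
    Nice2 fun a a' => pairTerm S J φ F (c a a') (y a a') a a' := by
  refine ⟨fun l l' => ?_, n * (16 * M), fun a a' => abs_pairTerm_le hφ hM _ _ (hc a a') (hy a a') a a'⟩
  unfold pairTerm
  refine continuous_finsetSum _ fun i _ => continuous_finsetSum _ fun j _ => ((hcc i l l').mul ?_).mul (hyc j l l')
  exact (((((nice_cval hφ i).1 l).comp continuous_fst).sub (((nice_cval hφ i).1 l').comp continuous_snd)).mul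
      ((((nice_cspin _ j).1 l).comp continuous_fst).sub (((nice_cspin _ j).1 l').comp continuous_snd))).add
    (((((nice_cval hφ j).1 l).comp continuous_fst).sub (((nice_cval hφ j).1 l').comp continuous_snd)).mul
      ((((nice_cspin _ i).1 l).comp continuous_fst).sub (((nice_cspin _ i).1 l').comp continuous_snd)))

/-- a score term whose increment lies outside the period -/
lemma pairTerm_outer (c y : Fin n → ℝ) (hc : ∑ i, |c i| ≤ 2) (hy : ∀ j, |y j| ≤ 1) :
    |lex2 S J b F (pairTerm S J φ F c y)| ≤ M * (8 * Real.sqrt V + 16) := by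
  set s := Real.sqrt V
  have hs : 0 ≤ s := Real.sqrt_nonneg _
  have hs2 : s ^ 2 = V := Real.sq_sqrt hV0
  have hv : ∀ i, Nice fun a => cval S J φ F a i := fun i => nice_cval hφ i
  have hz : ∀ i, Nice fun a => cspin S F (S.D + S.R) a i := fun i => nice_cspin _ i
  have h1 := outer_part (J := J) (b := b) (F := F) hn (p := cval S J φ F) (q := cspin S F (S.D + S.R)) (A := M) (by linarith) hs hv hz
    (fun a i => hφ.fn_le _ _ _ _) (fun w hw => hs2.symm ▸ hV.spin F w hw _ le_rfl) hc hy
  have h2 := outer_part (J := J) (b := b) (F := F) hn (p := cspin S F (S.D + S.R)) (q := cval S J φ F) (A := 1) zero_le_one hs hz hv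
    (fun a i => (abs_spin' _).le) (fun w hw => hs2.symm ▸ hV.cval F w hw) hc hy
  set P₁ := fun a a' => (∑ i, c i * (cval S J φ F a i - cval S J φ F a' i)) *
          ∑ j, y j * (cspin S F (S.D + S.R) a j - cspin S F (S.D + S.R) a' j)
  set P₂ := fun a a' => (∑ i, c i * (cspin S F (S.D + S.R) a i - cspin S F (S.D + S.R) a' i)) *
          ∑ j, y j * (cval S J φ F a j - cval S J φ F a' j)
  have n2 : ∀ (p q : Copy S n → Fin n → ℝ), (∀ i, Nice fun a => p a i) → (∀ i, Nice fun a => q a i) →
      Nice2 fun a a' => (∑ i, c i * (p a i - p a' i)) * ∑ j, y j * (q a j - q a' j) := by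
    intro p q hp hq
    obtain ⟨-, B, hB⟩ := Nice.sum Finset.univ fun i _ => (Nice.const (c i)).mul (hp i)
    obtain ⟨-, B', hB'⟩ := Nice.sum Finset.univ fun i _ => (Nice.const (y i)).mul (hq i)
    refine ⟨fun l l' => (continuous_finsetSum _ fun i _ => continuous_const.mul
      ((((hp i).1 l).comp continuous_fst).sub (((hp i).1 l').comp continuous_snd))).mul
      (continuous_finsetSum _ fun i _ => continuous_const.mul
      ((((hq i).1 l).comp continuous_fst).sub (((hq i).1 l').comp continuous_snd))), (B + B) * (B' + B'), fun a a' => ?_⟩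
    rw [abs_mul]
    refine mul_le_mul ?_ ?_ (abs_nonneg _) (by linarith [(abs_nonneg _).trans (hB a)])
    · simp only [mul_sub, Finset.sum_sub_distrib]
      exact (abs_sub _ _).trans (add_le_add (hB a) (hB a'))
    · simp only [mul_sub, Finset.sum_sub_distrib]
      exact (abs_sub _ _).trans (add_le_add (hB' a) (hB' a'))
  have hP₁ := n2 _ _ hv hz
  have hP₂ := n2 _ _ hz hv
  have hT : Nice2 (pairTerm S J φ F c y) := nice2_pairTerm hn hφ hM (c := fun _ _ => c) (y := fun _ _ => y)
    (fun _ _ _ => continuous_const) (fun _ _ _ => continuous_const) (fun _ _ => hc) (fun _ _ => hy)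
  have hd : |lex2 S J b F (pairTerm S J φ F c y) - (lex2 S J b F P₁ + lex2 S J b F P₂)| ≤ 16 * M := by
    simp only [lex2]
    rw [← lex_add hn (Nice2.lex_left hn hP₁) (Nice2.lex_left hn hP₂),
      ← lex_sub hn (Nice2.lex_left hn hT) ((Nice2.lex_left hn hP₁).add (Nice2.lex_left hn hP₂))]
    refine lex_abs_le hn ((Nice2.lex_left hn hT).sub ((Nice2.lex_left hn hP₁).add (Nice2.lex_left hn hP₂))) fun a => ?_
    rw [← lex_add hn (hP₁.right a) (hP₂.right a), ← lex_sub hn (hT.right a) ((hP₁.right a).add (hP₂.right a))]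
    exact lex_abs_le hn ((hT.right a).sub ((hP₁.right a).add (hP₂.right a))) (pairTerm_full hφ hM c y hc hy a)
  have hMs : s ≤ M * s := le_mul_of_one_le_left hs hM
  simp only [abs_le] at h1 h2 hd ⊢
  constructor <;> linarith [h1.1, h1.2, h2.1, h2.2, hd.1, hd.2]

/-- a score term of the period itself -/
lemma pairTerm_inner (k : Fin (S.D + S.R)) :
    |lex2 S J b F (fun a a' => pairTerm S J φ F (cinc S J b F a k) (cspin S F k a) a a') -
      ((∑ i, lex S J b F (fun a => cval S J φ F a i * cinc S J b F a k i)) *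
        (∑ i, (lex S J b F (fun a => cspin S F k a i * cspin S F (S.D + S.R) a i) -
          lex S J b F (fun a => cspin S F k a i) * lex S J b F (fun a => cspin S F (S.D + S.R) a i))) +
      (∑ i, lex S J b F (fun a => cspin S F (S.D + S.R) a i * cinc S J b F a k i)) *
        ∑ i, (lex S J b F (fun a => cval S J φ F a i * cspin S F k a i) -
          lex S J b F (fun a => cval S J φ F a i) * lex S J b F (fun a => cspin S F k a i)))| ≤
      M * (20 * Real.sqrt V + 16) := by
  set s := Real.sqrt V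
  have hs : 0 ≤ s := Real.sqrt_nonneg _
  have hs2 : s ^ 2 = V := Real.sq_sqrt hV0
  have hk : (k : ℕ) ≤ S.D + S.R := k.2.le
  have hv : ∀ i, Nice fun a => cval S J φ F a i := fun i => nice_cval hφ i
  have hz : ∀ i, Nice fun a => cspin S F (S.D + S.R) a i := fun i => nice_cspin _ i
  have hswap : ∀ (w : Fin n → ℝ) (a : Copy S n), ∑ j, cspin S F k a j * w j = ∑ j, w j * cspin S F k a j := fun w a =>
    Finset.sum_congr rfl fun j _ => mul_comm _ _
  have h1 := score_part (J := J) (b := b) (F := F) hn (p := cval S J φ F) (q := cspin S F (S.D + S.R)) (A := M) (C := 1)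
    (by linarith) zero_le_one hs hv hz (fun a i => hφ.fn_le _ _ _ _) k (fun w hw => hs2.symm ▸ hV.spin F w hw _ le_rfl)
    (hs2.symm ▸ hV.spin_spin F _ hk _ le_rfl) (by
      rw [one_mul, hs2]; simp only [hswap]
      exact hV.spin F _ (fun j => lex_abs_le hn (hz j) fun a => (abs_spin' _).le) _ hk)
  have h2 := score_part (J := J) (b := b) (F := F) hn (p := cspin S F (S.D + S.R)) (q := cval S J φ F) (A := 1) (C := M)
    zero_le_one (by linarith) hs hz hv (fun a i => (abs_spin' _).le) k (fun w hw => hs2.symm ▸ hV.cval F w hw)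
    (hs2.symm ▸ hV.spin_cval F _ hk) (by
      rw [mul_pow, hs2]; simp only [hswap]
      exact var_scaled (q := cspin S F k) (by linarith) (fun w hw => hV.spin F w hw _ hk)
        fun j => lex_abs_le hn (hv j) fun a => hφ.fn_le _ _ _ _)
  set P₁ := fun a a' => (∑ i, cinc S J b F a k i * (cval S J φ F a i - cval S J φ F a' i)) *
      ∑ j, cspin S F k a j * (cspin S F (S.D + S.R) a j - cspin S F (S.D + S.R) a' j)
  set P₂ := fun a a' => (∑ i, cinc S J b F a k i * (cspin S F (S.D + S.R) a i - cspin S F (S.D + S.R) a' i)) *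
      ∑ j, cspin S F k a j * (cval S J φ F a j - cval S J φ F a' j)
  set T := fun a a' => pairTerm S J φ F (cinc S J b F a k) (cspin S F k a) a a'
  have n2 : ∀ (p q : Copy S n → Fin n → ℝ) (A : ℝ), 0 ≤ A → (∀ i, Nice fun a => p a i) → (∀ i, Nice fun a => q a i) →
      (∀ a i, |p a i| ≤ A) → (∀ a i, |q a i| ≤ M) →
      Nice2 fun a a' => (∑ i, cinc S J b F a k i * (p a i - p a' i)) * ∑ j, cspin S F k a j * (q a j - q a' j) := by
    intro p q A hA hp hq hpA hqB
    refine ⟨fun l l' => (continuous_finsetSum _ fun i _ => (((nice_cinc k i).1 l).comp continuous_fst).mul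
      ((((hp i).1 l).comp continuous_fst).sub (((hp i).1 l').comp continuous_snd))).mul
      (continuous_finsetSum _ fun i _ => (((nice_cspin k i).1 l).comp continuous_fst).mul
      ((((hq i).1 l).comp continuous_fst).sub (((hq i).1 l').comp continuous_snd))), (2 * (A + A)) * (n * (M + M)), fun a a' => ?_⟩
    rw [abs_mul]
    refine mul_le_mul (abs_wsum_le (sum_abs_cinc_le a k) (by linarith) fun i => (abs_sub _ _).trans
      (add_le_add (hpA a i) (hpA a' i))) ((Finset.abs_sum_le_sum_abs _ _).trans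
      ((Finset.sum_le_card_nsmul _ _ (M + M) fun j _ => ?_).trans_eq (by simp; ring))) (abs_nonneg _) (by positivity)
    rw [abs_mul, show |cspin S F k a j| = 1 from abs_spin' _, one_mul]
    exact (abs_sub _ _).trans (add_le_add (hqB a j) (hqB a' j))
  have hP₁ : Nice2 P₁ := n2 _ _ M (by linarith) hv hz (fun a i => hφ.fn_le _ _ _ _) (fun a i => (abs_spin' _).le.trans hM)
  have hP₂ : Nice2 P₂ := n2 _ _ 1 zero_le_one hz hv (fun a i => (abs_spin' _).le) (fun a i => hφ.fn_le _ _ _ _)
  have hT : Nice2 T := nice2_pairTerm hn hφ hM (fun i l l' => ((nice_cinc k i).1 l).comp continuous_fst)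
    (fun i l l' => ((nice_cspin k i).1 l).comp continuous_fst) (fun a _ => sum_abs_cinc_le a k) (fun a _ j => (abs_spin' _).le)
  have hd : |lex2 S J b F T - (lex2 S J b F P₁ + lex2 S J b F P₂)| ≤ 16 * M := by
    simp only [lex2]
    rw [← lex_add hn (Nice2.lex_left hn hP₁) (Nice2.lex_left hn hP₂),
      ← lex_sub hn (Nice2.lex_left hn hT) ((Nice2.lex_left hn hP₁).add (Nice2.lex_left hn hP₂))]
    refine lex_abs_le hn ((Nice2.lex_left hn hT).sub ((Nice2.lex_left hn hP₁).add (Nice2.lex_left hn hP₂))) fun a => ?_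
    rw [← lex_add hn (hP₁.right a) (hP₂.right a), ← lex_sub hn (hT.right a) ((hP₁.right a).add (hP₂.right a))]
    exact lex_abs_le hn ((hT.right a).sub ((hP₁.right a).add (hP₂.right a)))
      (pairTerm_full hφ hM _ _ (sum_abs_cinc_le a k) (fun j => (abs_spin' _).le) a)
  have e2 : ∑ i, (lex S J b F (fun a => cspin S F k a i * cval S J φ F a i) -
        lex S J b F (fun a => cspin S F k a i) * lex S J b F (fun a => cval S J φ F a i)) =
      ∑ i, (lex S J b F (fun a => cval S J φ F a i * cspin S F k a i) -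
        lex S J b F (fun a => cval S J φ F a i) * lex S J b F (fun a => cspin S F k a i)) :=
    Finset.sum_congr rfl fun i _ => by simp only [mul_comm]
  rw [e2] at h2
  have hMs : s ≤ M * s := le_mul_of_one_le_left hs hM
  simp only [abs_le] at h1 h2 hd ⊢
  constructor <;> linarith [h1.1, h1.2, h2.1, h2.2, hd.1, hd.2]

omit hV0 hV in
lemma nice2_scoreTerm (k : Fin (S.D + S.R)) :
    Nice2 fun a a' => pairTerm S J φ F (cinc S J b F a k) (cspin S F k a) a a' :=
  nice2_pairTerm hn hφ hM (c := fun a _ => cinc S J b F a k) (y := fun a _ => cspin S F k a)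
    (fun i l _ => ((nice_cinc k i).1 l).comp continuous_fst)
    (fun i l _ => ((nice_cspin k i).1 l).comp continuous_fst) (fun a _ => sum_abs_cinc_le a k) (fun _ _ _ => (abs_spin' _).le)

omit hV0 hV in
lemma nice2_periodX (β : ℝ) : Nice2 (periodX S J φ b F β) := by
  have h1 := nice2_fieldTerm (S := S) (J := J) (F := F) hn hφ
  have h2 := nice2_divTerm (S := S) (J := J) (F := F) hφ hM
  have hk := fun k => nice2_scoreTerm (S := S) (J := J) (b := b) (F := F) hn hφ hM k
  have h3 : Nice2 fun a a' => ∑ k : Fin (S.D + S.R),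
      (pairTerm S J φ F (cinc S J b F a k) (cspin S F k a) a a' + pairTerm S J φ F (cinc S J b F a' k) (cspin S F k a') a' a) :=
    Nice2.sum _ fun k _ => (hk k).add (hk k).swap
  exact ((h1.smul (-1)).add (h2.smul (β ^ 2 / n))).add (h3.smul (β ^ 2 / n)) |>.congr fun a a' => by
    unfold periodX; ring

omit hV0 hV in
lemma periodX_mean (β : ℝ) : lex2 S J b F (periodX S J φ b F β) = -lex2 S J b F (fieldTerm S J φ F) +
      β ^ 2 / n * lex2 S J b F (divTerm S J φ F) + β ^ 2 / n * ∑ k : Fin (S.D + S.R),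
        2 * lex2 S J b F (fun a a' => pairTerm S J φ F (cinc S J b F a k) (cspin S F k a) a a') := by
  have h1 := nice2_fieldTerm (S := S) (J := J) (F := F) hn hφ
  have h2 := nice2_divTerm (S := S) (J := J) (F := F) hφ hM
  have hk := fun k => nice2_scoreTerm (S := S) (J := J) (b := b) (F := F) hn hφ hM k
  set T := fun (k : Fin (S.D + S.R)) a a' => pairTerm S J φ F (cinc S J b F a k) (cspin S F k a) a a'
  have h3 : Nice2 fun a a' => ∑ k, (T k a a' + T k a' a) := Nice2.sum _ fun k _ => (hk k).add (hk k).swap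
  have e : periodX S J φ b F β = fun a a' => ((-1 : ℝ) * fieldTerm S J φ F a a' + β ^ 2 / n * divTerm S J φ F a a') +
      β ^ 2 / n * ∑ k, (T k a a' + T k a' a) := by
    funext a a'; simp only [periodX, T]; ring
  rw [e, lex2_add hn ((h1.smul (-1)).add (h2.smul _)) (h3.smul _), lex2_add hn (h1.smul (-1)) (h2.smul _),
    lex2_smul, lex2_smul, lex2_smul, lex2_fsum hn _ fun k _ => (hk k).add (hk k).swap, neg_one_mul]
  congr 2
  refine Finset.sum_congr rfl fun k _ => ?_
  rw [lex2_add hn (hk k) (hk k).swap, lex2_swap hn (hk k)]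
  ring

/-- one period of `Λ` has the mean `periodValue` up to `O(√V)` -/
theorem period_value (hr : S.r ≤ S.R) (β : ℝ) :
    |lex2 S J b F (periodX S J φ b F β) - periodValue S J φ b β F| ≤
      β ^ 2 / n * (n * M * (4 * Real.sqrt V + 4) + (S.D + S.R : ℕ) * (2 * (M * (20 * Real.sqrt V + 16)))) := by
  have hF := nice2_fieldTerm (S := S) (J := J) (F := F) hn hφ
  have hD := nice2_divTerm (S := S) (J := J) (F := F) hφ hM
  set T := fun (k : Fin (S.D + S.R)) a a' => pairTerm S J φ F (cinc S J b F a k) (cspin S F k a) a a'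
  have e1 := periodX_mean (S := S) (J := J) (b := b) (F := F) hn hφ hM β
  have hdv := divTerm_value (F := F) hn hφ hM hV0 hV hr
  have hk := fun k => pairTerm_inner (F := F) hn hφ hM hV0 hV k
  rw [e1, fieldTerm_value hn hφ]
  simp only [periodValue]
  set Fd := ∑ i, (lex S J b F (fun a => cval S J φ F a i * fld J 0 i (cpos S F a (S.D + S.R)))
      - lex S J b F (fun a => cval S J φ F a i) * lex S J b F (fun a => fld J 0 i (cpos S F a (S.D + S.R))))
  set Dd := (∑ i, lex S J b F (fun a => cdval S J φ F a i)) *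
      ∑ i, (lex S J b F (fun a => cspin S F (S.D + S.r) a i * cspin S F (S.D + S.R) a i) -
        lex S J b F (fun a => cspin S F (S.D + S.r) a i) * lex S J b F (fun a => cspin S F (S.D + S.R) a i))
  set Kd := fun k : Fin (S.D + S.R) => (∑ i, lex S J b F (fun a => cval S J φ F a i * cinc S J b F a k i)) *
        (∑ i, (lex S J b F (fun a => cspin S F k a i * cspin S F (S.D + S.R) a i) -
          lex S J b F (fun a => cspin S F k a i) * lex S J b F (fun a => cspin S F (S.D + S.R) a i))) +
      (∑ i, lex S J b F (fun a => cspin S F (S.D + S.R) a i * cinc S J b F a k i)) *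
        ∑ i, (lex S J b F (fun a => cval S J φ F a i * cspin S F k a i) -
          lex S J b F (fun a => cval S J φ F a i) * lex S J b F (fun a => cspin S F k a i))
  have hsum : |∑ k, 2 * lex2 S J b F (T k) - 2 * ∑ k, Kd k| ≤
      (S.D + S.R : ℕ) * (2 * (M * (20 * Real.sqrt V + 16))) := by
    rw [Finset.mul_sum, ← Finset.sum_sub_distrib]
    refine (Finset.abs_sum_le_sum_abs _ _).trans
      ((Finset.sum_le_card_nsmul _ _ (2 * (M * (20 * Real.sqrt V + 16))) fun k _ => ?_).trans_eq (by simp))
    rw [← mul_sub, abs_mul, abs_two]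
    exact mul_le_mul_of_nonneg_left (hk k) two_pos.le
  have hb : (0:ℝ) ≤ β ^ 2 / n := by positivity
  have a1 := mul_le_mul_of_nonneg_left (abs_le.1 hdv).1 hb
  have a2 := mul_le_mul_of_nonneg_left (abs_le.1 hdv).2 hb
  have a3 := mul_le_mul_of_nonneg_left (abs_le.1 hsum).1 hb
  have a4 := mul_le_mul_of_nonneg_left (abs_le.1 hsum).2 hb
  simp only [Fd, Dd, Kd, cspin] at a1 a2 a3 a4 ⊢
  rw [abs_le]
  constructor <;> linarith

end

end Vale.Agent.P150.PA.TV
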